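import Vale.Agent.P263.KJ.CL3
import Vale.Agent.P263.TJ.SphCc
import Mathlib.Topology.Compactification.OnePoint.Sphere

/-!
# P263, block KJ: the cohomology of the projective space in a range

* `DCov.gys` : for a double cover and a cocycle `y` of the base which becomes a coboundary upstairs,
  `y = g ∪ w + d f`.
* `DCov.exists_pw` : if the cover has no cohomology in degrees `1, …, n + 1` then every cocycle of
  degree `n + 1` of the base is `d f` or `w^(n+1) + d f`.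
* `exists_pw_PV` : this for `SV V → PV V`, `n + 1 < dim V - 1`.
-/

open Finset Topology OnePoint
open scoped InnerProductSpace RealInnerProductSpace

namespace Vale.Agent.P263.KJ

open Vale.Agent.P263.S Vale.Agent.P263.E Vale.Agent.P263.H83 Vale.Agent.P263.TJ
open Vale.Agent.P263.G2

namespace DCov

variable {E B : SS} {D : DCov E B} {w : Cc B} {s : Cc E}

/-- **The Gysin sequence, one step** -/
theorem gys (h : D.Cl w s) {n : ℕ} {y : Cc B} (hy : Cc.IsDeg (n + 1) y)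
    {e : Cc E} (he : Cc.pull D.pr y = Cc.d e) :
    ∃ g f : Cc B, Cc.IsDeg n g ∧ Cc.d g = 0 ∧ Cc.IsDeg n f ∧ y = Cc.cup 1 g w + Cc.d f := by
  -- make `e` homogeneous
  obtain ⟨e, he, hen⟩ : ∃ e : Cc E, Cc.pull D.pr y = Cc.d e ∧ Cc.IsDeg n e := by
    refine ⟨Cc.comp n e, ?_, Cc.isDeg_comp n e⟩
    rw [← Cc.comp_d, ← he, Cc.comp_eq (hy.pull D.pr)]
  have hff : ∀ u : Cc E, Cc.IsDeg n u → Cc.pull D.fl (Cc.pull D.fl u) = u := by
    intro u _
    funext p x
    change u p (D.fl.app (D.fl.app x)) = u p x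
    have h1 : D.pr.app (D.fl.app (D.fl.app x)) = D.pr.app x := by rw [D.pr_fl, D.pr_fl]
    rcases D.eq_or h1 with h2 | h2
    · rw [h2]
    · exfalso
      have h3 := congrArg (E.map (vx p 0)) h2
      rw [← D.fl.nat, ← D.fl.nat] at h3
      exact D.fl_ne _ h3
  have hfp : Cc.pull D.fl (Cc.pull D.pr y) = Cc.pull D.pr y := by
    funext p x
    exact congrArg (y p) (D.pr_fl x)
  obtain ⟨g, hg⟩ : ∃ g : Cc B, Cc.pull D.pr g = e + Cc.pull D.fl e := by
    apply D.exists_desc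
    rw [pull_add, hff e hen, add_comm]
  have hgn : Cc.IsDeg n g := D.isDeg_of_pull (by rw [hg]; exact hen.add (hen.pull _))
  have dg : Cc.d g = 0 := by
    apply D.d_of_pull
    rw [hg, d_add, ← pull_d, ← he, hfp]
    exact cc_add_self _
  obtain ⟨G, hG⟩ : ∃ G, G = Cc.pull D.pr g := ⟨_, rfl⟩
  have hGf : Cc.pull D.fl G = G := by
    rw [hG]
    funext p x
    exact congrArg (g p) (D.pr_fl x)
  obtain ⟨f, hf⟩ : ∃ f : Cc B, Cc.pull D.pr f = e + Cc.cup 1 G s := by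
    apply D.exists_desc
    rw [pull_add, pull_cup, hGf, h.fl_s, cup_add_right, TJ.cup_one]
    have h1 : Cc.pull D.fl e = e + G := by
      rw [hG, hg, ← add_assoc, cc_add_self, zero_add]
    rw [h1]
    have h2 := cc_add_self G
    calc e + G + (Cc.cup 1 G s + G) = e + Cc.cup 1 G s + (G + G) := by abel
      _ = _ := by rw [h2, add_zero]
  have hfn : Cc.IsDeg n f := by
    apply D.isDeg_of_pull
    rw [hf]
    refine hen.add (Cc.IsDeg.cup (m := n) (n := 0) ?_ h.deg_s rfl)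
    rw [hG]
    exact hgn.pull _
  refine ⟨g, f, hgn, dg, hfn, D.pull_inj ?_⟩
  have dG : Cc.d G = 0 := by rw [hG, ← pull_d, dg, pull_zero]
  rw [pull_add, pull_cup, pull_d, hf, d_add, d_cup_one, dG, cup_zero_left, zero_add, ← hG,
    h.pull_w, he]
  have h2 := cc_add_self (Cc.cup 1 G (Cc.d s))
  calc Cc.d e = Cc.d e + (Cc.cup 1 G (Cc.d s) + Cc.cup 1 G (Cc.d s)) := by rw [h2, add_zero]
    _ = _ := by abel

/-- the cohomology of the base is generated by the powers of `w` in a range -/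
theorem exists_pw (h : D.Cl w s) (h0 : ∀ z : Cc B, Cc.IsDeg 0 z → Cc.d z = 0 →
    z = 0 ∨ z = Cc.one B) (n : ℕ)
    (hv : ∀ k, k < n → ∀ z : Cc E, Cc.IsDeg (k + 1) z → Cc.d z = 0 → ∃ e, z = Cc.d e)
    {y : Cc B} (hy : Cc.IsDeg n y) (dy : Cc.d y = 0) :
    ∃ f, y = Cc.d f ∨ y = Cc.pw w n + Cc.d f := by
  induction n generalizing y with
  | zero =>
    rcases h0 y hy dy with h1 | h1
    · exact ⟨0, Or.inl (by rw [h1, d_zero])⟩
    · exact ⟨0, Or.inr (by rw [h1, d_zero, add_zero]; rfl)⟩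
  | succ n ih =>
    obtain ⟨e, he⟩ := hv n (Nat.lt_succ_self n) (Cc.pull D.pr y) (hy.pull _)
      (by rw [← pull_d, dy, pull_zero])
    obtain ⟨g, f, hgn, dg, -, hyf⟩ := gys h hy he
    obtain ⟨f', hf'⟩ := ih (fun k hk => hv k (by omega)) hgn dg
    have h1 : Cc.d (Cc.cup 1 f' w) = Cc.cup 1 (Cc.d f') w := by
      rw [d_cup_one, h.d_w, cup_zero_right, add_zero]
    refine ⟨Cc.cup 1 f' w + f, ?_⟩
    rcases hf' with hf' | hf'
    · left
      rw [hyf, d_add, h1, ← hf']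
    · right
      rw [hyf, d_add, h1, hf', cup_add_left, add_assoc]
      rfl

/-- the same with homogeneous cochains -/
theorem exists_pw_deg (h : D.Cl w s) (h0 : ∀ z : Cc B, Cc.IsDeg 0 z → Cc.d z = 0 →
    z = 0 ∨ z = Cc.one B) (n : ℕ)
    (hv : ∀ k, k < n + 1 → ∀ z : Cc E, Cc.IsDeg (k + 1) z → Cc.d z = 0 → ∃ e, z = Cc.d e)
    {y : Cc B} (hy : Cc.IsDeg (n + 1) y) (dy : Cc.d y = 0) :
    ∃ f, Cc.IsDeg n f ∧ (y = Cc.d f ∨ y = Cc.pw w (n + 1) + Cc.d f) := by
  obtain ⟨f, hf⟩ := exists_pw h h0 (n + 1) hv hy dy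
  refine ⟨Cc.comp n f, Cc.isDeg_comp n f, ?_⟩
  have hp : Cc.IsDeg (n + 1) (Cc.pw w (n + 1)) := Cc.isDeg_pw_one h.deg_w _
  rcases hf with hf | hf
  · left
    rw [← Cc.comp_d, ← hf, Cc.comp_eq hy]
  · right
    have h1 : Cc.d f = y + Cc.pw w (n + 1) := by
      rw [hf]
      have h2 := cc_add_self (Cc.pw w (n + 1))
      calc Cc.d f = Cc.d f + (Cc.pw w (n + 1) + Cc.pw w (n + 1)) := by rw [h2, add_zero]
        _ = _ := by abel
    have h3 : Cc.IsDeg (n + 1) (Cc.d f) := by rw [h1]; exact hy.add hp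
    rw [← Cc.comp_d, Cc.comp_eq h3, ← hf]

end DCov

/-! ### the sphere and the projective space -/

variable {V : Type} [NormedAddCommGroup V] [InnerProductSpace ℝ V] [FiniteDimensional ℝ V]

theorem nonempty_homeo_SV {d : ℕ} (h : Module.finrank ℝ V = d + 1) :
    Nonempty (T0.Sph d ≃ₜ SV V) := by
  have hnt : Nontrivial V := Module.nontrivial_of_finrank_pos (R := ℝ) (by omega)
  obtain ⟨x, hx⟩ := exists_ne (0 : V)
  have hx' : ‖x‖ ≠ 0 := norm_ne_zero_iff.2 hx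
  have hv : ‖(‖x‖⁻¹ • x)‖ = 1 := by
    rw [norm_smul, norm_inv, norm_norm, inv_mul_cancel₀ hx']
  obtain ⟨v, hvdef⟩ : ∃ v, v = ‖x‖⁻¹ • x := ⟨_, rfl⟩
  rw [← hvdef] at hv
  have hv₀ : v ≠ 0 := by
    intro h0
    rw [h0, norm_zero] at hv
    exact zero_ne_one hv
  have : Fact (Module.finrank ℝ V = d + 1) := ⟨h⟩
  have h2 : Module.finrank ℝ (Fin d → ℝ) = Module.finrank ℝ (ℝ ∙ v)ᗮ := by
    rw [Submodule.finrank_orthogonal_span_singleton (n := d) hv₀, Module.finrank_fin_fun]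
  obtain ⟨e⟩ := FiniteDimensional.nonempty_continuousLinearEquiv_of_finrank_eq h2
  exact ⟨e.toHomeomorph.onePointCongr.trans (onePointHyperplaneHomeoUnitSphere hv)⟩

section Homeo

variable {A B : Type} [TopologicalSpace A] [TopologicalSpace B]

/-- transport of a coboundary along a homeomorphism -/
theorem exists_d_of_homeo (e : A ≃ₜ B) {z : Cc (sing B)}
    (h : ∃ w, Cc.pull (singMap (e : C(A, B))) z = Cc.d w) : ∃ w, z = Cc.d w := by
  obtain ⟨w, hw⟩ := h
  refine ⟨Cc.pull (singMap (e.symm : C(B, A))) w, ?_⟩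
  rw [← pull_d, ← hw]
  funext p σ
  have h1 : ((e : C(A, B)).comp ((e.symm : C(B, A)).comp (toC σ))) = toC σ :=
    ContinuousMap.ext fun t => e.apply_symm_apply _
  exact (congrArg (z p) h1).symm

end Homeo

/-- the sphere has no cohomology in the degrees `1, …, dim V - 2` -/
theorem van_SV {d : ℕ} (h : Module.finrank ℝ V = d + 1) {k : ℕ} (hk : k + 1 < d)
    {z : Cc (sing (SV V))} (hz : Cc.IsDeg (k + 1) z) (dz : Cc.d z = 0) : ∃ e, z = Cc.d e := by
  obtain ⟨e⟩ := nonempty_homeo_SV h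
  refine exists_d_of_homeo e ?_
  exact CupC.Gr.Van.exists _ (SphCc.van (d := d) (n := k + 1) (Nat.succ_pos k) (by omega))
    (hz.pull _) (by
      have h1 : Cc.d (Cc.pull (singMap (e : C(T0.Sph d, SV V))) z) = 0 := by
        rw [← pull_d, dz, pull_zero]
      exact h1)

/-- cocycles of degree `0` of the sphere -/
theorem const_SV {d : ℕ} (h : Module.finrank ℝ V = d + 1) (hd : 0 < d)
    {z : Cc (sing (SV V))} (hz : Cc.IsDeg 0 z) (dz : Cc.d z = 0) :
    z = 0 ∨ z = Cc.one (sing (SV V)) := by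
  obtain ⟨e⟩ := nonempty_homeo_SV h
  obtain ⟨u, hu⟩ : ∃ u, u = Cc.pull (singMap (e : C(T0.Sph d, SV V))) z := ⟨_, rfl⟩
  have du : Cc.d u = 0 := by rw [hu, ← pull_d, dz, pull_zero]
  have hc := SphCc.zero_const hd du
  obtain ⟨a, ha⟩ : ∃ a, a = u 0 (SphCc.ct d 0) := ⟨_, rfl⟩
  have h1 : ∀ σ : (sing (SV V)).obj 0, z 0 σ = a := by
    intro σ
    have h2 := hc (ofC ((e.symm : C(SV V, T0.Sph d)).comp (toC σ)))
    rw [← ha, hu, pull_apply] at h2
    rw [← h2]
    have h3 : ((e : C(T0.Sph d, SV V)).comp ((e.symm : C(SV V, T0.Sph d)).comp (toC σ))) =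
        toC σ := ContinuousMap.ext fun t => e.apply_symm_apply _
    exact (congrArg (z 0) h3).symm
  have ha' : a = 0 ∨ a = 1 := (by decide : ∀ b : ZMod 2, b = 0 ∨ b = 1) a
  rcases ha' with ha' | ha'
  · left
    refine Cc.IsDeg.ext hz (Cc.isDeg_zero 0) ?_
    funext σ
    rw [h1, ha']
    rfl
  · right
    refine Cc.IsDeg.ext hz (fun p hp _ => if_neg hp) ?_
    funext σ
    rw [h1, ha']
    rfl

/-- cocycles of degree `0` of the projective space -/
theorem const_PV {d : ℕ} (h : Module.finrank ℝ V = d + 1) (hd : 0 < d)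
    {z : Cc (sing (PV V))} (hz : Cc.IsDeg 0 z) (dz : Cc.d z = 0) :
    z = 0 ∨ z = Cc.one (sing (PV V)) := by
  rcases const_SV h hd (hz.pull (dcP V).pr) (by rw [← pull_d, dz, pull_zero]) with h1 | h1
  · exact Or.inl ((dcP V).pull_inj (by rw [h1, pull_zero]))
  · exact Or.inr ((dcP V).pull_inj (by rw [h1, pull_one]))

/-- **`H^(n+1)(PV V) = {0, w^(n+1)}` for `n + 1 < dim V - 1`** -/
theorem exists_pw_PV {d n : ℕ} (h : Module.finrank ℝ V = d + 1) (hn : n + 1 < d)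
    {y : Cc (sing (PV V))} (hy : Cc.IsDeg (n + 1) y) (dy : Cc.d y = 0) :
    ∃ f, Cc.IsDeg n f ∧ (y = Cc.d f ∨ y = Cc.pw (wP V) (n + 1) + Cc.d f) :=
  DCov.exists_pw_deg (cl_wP V) (fun _ => const_PV h (by omega)) n
    (fun _ hk _ hz dz => van_SV h (by omega) hz dz) hy dy

end Vale.Agent.P263.KJ
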