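import Vale.Agent.P263.KJ.Glue
import Vale.Agent.P263.KJ.Ten
import Vale.Agent.P263.KJ.Rad
import Mathlib.Topology.Algebra.Module.FiniteDimension
import Mathlib.Analysis.Normed.Group.BallSphere

/-!
# P263, block KJ: the projective space `PV V` and the literal Kahn-Priddy map `lam`

`V` a finite-dimensional real inner product space.

* `SV V` the unit sphere, `PV V` the space of rank one orthogonal projections `ten u u`, `‖u‖ = 1`;
* `EN V` the pairs `(u, N)`, `‖u‖ = 1`, `N : V →L[ℝ] V`, `N u = 0`;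
* `lam V : PV V ⊗ V ⟶ V`: the Pontryagin-Thom collapse of the double cover
  `SV V → PV V`, embedded in `PV V × V` by `u ↦ (ten u u, u)`, tube radius `1/4`:
  `lam (ten u u, z) = (1/4 - |z - u|)⁻¹ (z - u)` if `|z - u| < 1/4`, and `∞` if `z` is not in
  the union of the two balls of radius `1/4` around `u` and `-u`.
-/

open CategoryTheory MonoidalCategory Filter Topology OnePoint InnerProductSpace RealInnerProductSpace

namespace Vale.Agent.P263.KJ

open Vale.Agent.P251.G Vale.Agent.P251.G.LC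

/-- a map with local sections through every point is open -/
theorem isOpenMap_of_section {E B : Type*} [TopologicalSpace E] [TopologicalSpace B] {f : E → B}
    (h : ∀ e, ∃ s : B → E, ContinuousAt s (f e) ∧ s (f e) = e ∧ ∀ᶠ b in 𝓝 (f e), f (s b) = b) :
    IsOpenMap f := by
  refine IsOpenMap.of_nhds_le fun e U hU => ?_
  obtain ⟨s, hs, hse, hfs⟩ := h e
  have h1 : f ⁻¹' U ∈ 𝓝 (s (f e)) := by rw [hse]; exact hU
  filter_upwards [hs h1, hfs] with b hb hb'
  have h2 : f (s b) ∈ U := hb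
  rwa [hb'] at h2

/-- projection off a compact factor -/
def sndC (K X : LC) [CompactSpace K] : K ⊗ X ⟶ X :=
  ofProper (X := LC.of (K × X)) (Y := X) Prod.snd continuous_snd
    (isProperMap_iff_tendsto_cocompact.mp isProperMap_snd_of_compactSpace).2

@[simp] theorem app_sndC_coe (K X : LC) [CompactSpace K] (k : K) (x : X) :
    app (sndC K X) (((k, x) : K × X) : OnePoint (K × X)) = (x : OnePoint X) := rfl

theorem app_sndC_smash (K X : LC) [CompactSpace K] (k : K) (x : OnePoint X) :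
    app (sndC K X) (smash (k : OnePoint K) x) = x := by
  induction x using OnePoint.rec with
  | infty => rw [smash_infty_right]; exact app_infty _
  | coe x => rfl

variable (V : Type) [NormedAddCommGroup V] [InnerProductSpace ℝ V] [FiniteDimensional ℝ V]

/-- the unit sphere -/
abbrev SV : Type := Metric.sphere (0 : V) 1

omit [FiniteDimensional ℝ V] in
theorem norm_SV {V : Type} [NormedAddCommGroup V] [InnerProductSpace ℝ V] (u : SV V) :
    ‖(u : V)‖ = 1 := by simp

/-- the projective space: rank one orthogonal projections -/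
abbrev PV : Type := {p : V →L[ℝ] V // ∃ u : V, ‖u‖ = 1 ∧ p = ten u u}

/-- the double cover -/
noncomputable def piP (u : SV V) : PV V := ⟨ten (u : V) u, u, norm_SV u, rfl⟩

omit [FiniteDimensional ℝ V] in
theorem continuous_piP : Continuous (piP V) := by
  unfold piP
  refine Continuous.subtype_mk ?_ _
  exact Continuous.ten continuous_subtype_val continuous_subtype_val

omit [FiniteDimensional ℝ V] in
theorem surjective_piP : Function.Surjective (piP V) := by
  rintro ⟨p, u, hu, rfl⟩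
  exact ⟨⟨u, by simpa using hu⟩, rfl⟩

instance : CompactSpace (PV V) := Function.Surjective.compactSpace (continuous_piP V)
  (surjective_piP V)

/-- the double cover as a morphism -/
noncomputable def piPm : LC.of (SV V) ⟶ LC.of (PV V) :=
  ofCompact (X := LC.of (SV V)) (Y := LC.of (PV V)) (piP V) (continuous_piP V)

/-- the space of pairs `(u, N)`, `N u = 0` -/
abbrev EN : Type := {e : SV V × (V →L[ℝ] V) // e.2 (e.1 : V) = 0}

omit [FiniteDimensional ℝ V] in
theorem isClosed_EN : IsClosed {e : SV V × (V →L[ℝ] V) | e.2 (e.1 : V) = 0} :=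
  isClosed_eq (by fun_prop) (by fun_prop)

instance : LocallyCompactSpace (EN V) :=
  (isClosed_EN V).isClosedEmbedding_subtypeVal.locallyCompactSpace

variable {V}

omit [FiniteDimensional ℝ V] in
theorem ten_eq {u u' : V} (hu : ‖u‖ = 1) (hu' : ‖u'‖ = 1) (h : ten u u = ten u' u') :
    u' = u ∨ u' = -u := by
  have h1 := congrArg (fun f : V →L[ℝ] V => f u) h
  simp only [ten_self hu] at h1
  rw [ten_apply] at h1
  have h2 : ‖⟪u', u⟫_ℝ‖ = 1 := by
    have := congrArg norm h1
    rwa [hu, norm_smul, hu', mul_one, eq_comm] at this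
  rw [Real.norm_eq_abs] at h2
  rcases eq_or_eq_neg_of_abs_eq h2 with h3 | h3
  · rw [h3, one_smul] at h1
    exact Or.inl h1.symm
  · rw [h3, neg_one_smul] at h1
    right; rw [h1, neg_neg]

omit [FiniteDimensional ℝ V] in
theorem piP_eq {u u' : SV V} (h : piP V u = piP V u') : (u' : V) = u ∨ (u' : V) = -u :=
  ten_eq (norm_SV u) (norm_SV u') (congrArg Subtype.val h)

omit [FiniteDimensional ℝ V] in
theorem piP_neg (u : SV V) : piP V (-u) = piP V u := by
  apply Subtype.ext
  change ten (((-u : SV V)) : V) ((-u : SV V) : V) = ten (u : V) u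
  rw [coe_neg_sphere]
  exact ten_neg_neg _ _

open scoped Classical in
/-- normalisation (with a junk value) -/
noncomputable def nz (u₀ : SV V) (v : V) : SV V :=
  if h : v = 0 then u₀ else ⟨‖v‖⁻¹ • v, by
    rw [mem_sphere_zero_iff_norm, norm_smul, norm_inv, norm_norm,
      inv_mul_cancel₀ (norm_ne_zero_iff.mpr h)]⟩

omit [FiniteDimensional ℝ V] in
theorem nz_val (u₀ : SV V) {v : V} (h : v ≠ 0) : (nz u₀ v : V) = ‖v‖⁻¹ • v := by
  unfold nz; rw [dif_neg h]

omit [FiniteDimensional ℝ V] in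
theorem nz_smul (u₀ : SV V) {k : ℝ} (hk : 0 < k) (u : SV V) : nz u₀ (k • (u : V)) = u := by
  apply Subtype.ext
  have h1 : (u : V) ≠ 0 := by
    intro h0
    have := norm_SV u
    rw [h0, norm_zero] at this
    exact zero_ne_one this
  rw [nz_val u₀ (smul_ne_zero hk.ne' h1), norm_smul, norm_SV, mul_one, smul_smul,
    Real.norm_of_nonneg hk.le, inv_mul_cancel₀ hk.ne', one_smul]

omit [FiniteDimensional ℝ V] in
theorem nz_self (u₀ : SV V) (u : SV V) : nz u₀ (u : V) = u := by
  have := nz_smul u₀ one_pos u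
  rwa [one_smul] at this

omit [FiniteDimensional ℝ V] in
theorem continuousAt_nz (u₀ : SV V) {v : V} (h : v ≠ 0) : ContinuousAt (nz u₀) v := by
  rw [Topology.IsInducing.subtypeVal.continuousAt_iff]
  have h1 : ContinuousAt (fun v : V => ‖v‖⁻¹ • v) v :=
    ContinuousAt.smul (ContinuousAt.inv₀ (by fun_prop) (norm_ne_zero_iff.mpr h)) continuousAt_id
  refine h1.congr ?_
  filter_upwards [isOpen_ne.mem_nhds h] with w hw
  exact (nz_val u₀ hw).symm

omit [FiniteDimensional ℝ V] in
/-- a rank one projection at `u` is the projection on the normalised image of `u₀` -/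
theorem piP_nz (u₀ : SV V) (p : PV V) (h : p.1 (u₀ : V) ≠ 0) :
    piP V (nz u₀ (p.1 (u₀ : V))) = p := by
  obtain ⟨p, u, hu, rfl⟩ := p
  apply Subtype.ext
  change ten (nz u₀ (ten u u (u₀ : V)) : V) (nz u₀ (ten u u (u₀ : V))) = ten u u
  rw [nz_val u₀ h]
  change ten u u (u₀ : V) ≠ 0 at h
  rw [ten_apply] at h ⊢
  set a := ⟪u, (u₀ : V)⟫_ℝ with ha
  have ha0 : a ≠ 0 := left_ne_zero_of_smul h
  have h2 : ‖a • u‖ = |a| := by rw [norm_smul, hu, mul_one, Real.norm_eq_abs]
  rw [h2, smul_smul]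
  rcases lt_or_gt_of_ne ha0 with h3 | h3
  · rw [abs_of_neg h3, inv_neg, neg_mul, inv_mul_cancel₀ ha0, neg_one_smul, ten_neg_neg]
  · rw [abs_of_pos h3, inv_mul_cancel₀ ha0, one_smul]

/-- the tube of the double cover -/
noncomputable def qL (a : SV V × V) : PV V × V := (piP V a.1, (a.1 : V) + (1 / 4 : ℝ) • sq a.2)

omit [FiniteDimensional ℝ V] in
theorem continuous_qL : Continuous (qL (V := V)) := by
  unfold qL
  refine Continuous.prodMk ((continuous_piP V).comp continuous_fst) ?_
  have h : Continuous fun a : SV V × V => sq a.2 := continuous_sq.comp continuous_snd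
  fun_prop

omit [FiniteDimensional ℝ V] in
theorem sign_unique {u u' : SV V} {x x' : V} (hx : ‖x‖ < 1 / 4) (hx' : ‖x'‖ < 1 / 4)
    (h : (u : V) + x = u' + x') (hu : (u' : V) = u ∨ (u' : V) = -u) : u' = u ∧ x' = x := by
  rcases hu with hu | hu
  · refine ⟨Subtype.ext hu, ?_⟩
    rw [hu] at h
    exact (add_left_cancel h).symm
  · exfalso
    rw [hu] at h
    have h1 : (2 : ℝ) • (u : V) = x' - x := by
      rw [two_smul]
      have : (u : V) + u = (u + x) + u - x := by abel
      rw [this, h]; abel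
    have h2 := congrArg norm h1
    rw [norm_smul, norm_SV] at h2
    have h3 := norm_sub_le x' x
    norm_num at h2
    linarith

omit [FiniteDimensional ℝ V] in
theorem norm_quarter_sq (x : V) : ‖(1 / 4 : ℝ) • sq x‖ < 1 / 4 := by
  rw [norm_smul]
  have := norm_sq_lt x
  norm_num
  linarith

omit [FiniteDimensional ℝ V] in
theorem qL_injective : Function.Injective (qL (V := V)) := by
  rintro ⟨u, x⟩ ⟨u', x'⟩ h
  have h1 : piP V u = piP V u' := congrArg Prod.fst h
  have h2 : (u : V) + (1 / 4 : ℝ) • sq x = u' + (1 / 4 : ℝ) • sq x' := congrArg Prod.snd h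
  obtain ⟨h3, h4⟩ := sign_unique (norm_quarter_sq x) (norm_quarter_sq x') h2 (piP_eq h1)
  have h5 : sq x' = sq x := by
    have := congrArg (fun y : V => (4 : ℝ) • y) h4
    simpa [smul_smul] using this
  have h6 := congrArg usq h5
  rw [usq_sq, usq_sq] at h6
  rw [h3, h6]

omit [FiniteDimensional ℝ V] in
theorem isOpenMap_qL : IsOpenMap (qL (V := V)) := by
  refine isOpenMap_of_section ?_
  rintro ⟨u₀, x₀⟩
  let s : PV V × V → SV V × V := fun b =>
    (nz u₀ (b.1.1 (u₀ : V)), usq ((4 : ℝ) • (b.2 - (nz u₀ (b.1.1 (u₀ : V)) : V))))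
  have hp0 : (piP V u₀).1 (u₀ : V) = u₀ := ten_self (norm_SV u₀) _
  have hu0 : (u₀ : V) ≠ 0 := by
    intro h0
    have := norm_SV u₀
    rw [h0, norm_zero] at this
    exact zero_ne_one this
  have hev : Continuous fun b : PV V × V => b.1.1 (u₀ : V) := by fun_prop
  have hn : ContinuousAt (fun b : PV V × V => nz u₀ (b.1.1 (u₀ : V))) (qL (u₀, x₀)) := by
    refine ContinuousAt.comp (g := nz u₀) ?_ hev.continuousAt
    apply continuousAt_nz
    change (piP V u₀).1 (u₀ : V) ≠ 0
    rwa [hp0]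
  have hnv : nz u₀ ((qL (u₀, x₀)).1.1 (u₀ : V)) = u₀ := by
    change nz u₀ ((piP V u₀).1 (u₀ : V)) = u₀
    rw [hp0, nz_self]
  have hd : ContinuousAt (fun b : PV V × V => (4 : ℝ) • (b.2 - (nz u₀ (b.1.1 (u₀ : V)) : V)))
      (qL (u₀, x₀)) :=
    (continuousAt_snd.sub (continuous_subtype_val.continuousAt.comp hn)).const_smul _
  have hdv : (4 : ℝ) • ((qL (u₀, x₀)).2 - (nz u₀ ((qL (u₀, x₀)).1.1 (u₀ : V)) : V)) = sq x₀ := by
    rw [hnv]
    change (4 : ℝ) • ((u₀ : V) + (1 / 4 : ℝ) • sq x₀ - u₀) = sq x₀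
    rw [add_sub_cancel_left, smul_smul]
    norm_num
  refine ⟨s, ?_, ?_, ?_⟩
  · refine hn.prodMk (ContinuousAt.comp (g := usq) ?_ hd)
    rw [hdv]
    exact continuousAt_usq (norm_sq_lt x₀)
  · change (_, usq ((4 : ℝ) • ((qL (u₀, x₀)).2 - (nz u₀ ((qL (u₀, x₀)).1.1 (u₀ : V)) : V)))) = _
    rw [hdv, usq_sq]
    exact congrArg (·, x₀) hnv
  · have h1 : ∀ᶠ b in 𝓝 (qL (u₀, x₀)), b.1.1 (u₀ : V) ≠ 0 := by
      refine hev.continuousAt.eventually_ne ?_
      change (piP V u₀).1 (u₀ : V) ≠ 0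
      rwa [hp0]
    have h2 : ∀ᶠ b in 𝓝 (qL (u₀, x₀)),
        ‖(4 : ℝ) • (b.2 - (nz u₀ (b.1.1 (u₀ : V)) : V))‖ < 1 := by
      refine hd.norm.eventually_lt continuousAt_const ?_
      rw [hdv]
      exact norm_sq_lt x₀
    filter_upwards [h1, h2] with b hb1 hb2
    apply Prod.ext
    · exact piP_nz u₀ b.1 hb1
    · change (nz u₀ (b.1.1 (u₀ : V)) : V) + (1 / 4 : ℝ) • sq (usq _) = b.2
      rw [sq_usq hb2, smul_smul]
      norm_num

variable (V)

/-- THE LITERAL KAHN-PRIDDY MAP -/
noncomputable def lam : LC.of (PV V) ⊗ LC.of V ⟶ LC.of V :=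
  desc (E := LC.of (SV V × V)) (B := LC.of (PV V × V)) (C := LC.of V) qL continuous_qL
    isOpenMap_qL (sndC (LC.of (SV V)) (LC.of V)) (fun e e' h => by rw [qL_injective h])

variable {V}

theorem app_lam_qL (u : SV V) (x : V) :
    app (lam V) ((qL (u, x) : PV V × V) : OnePoint (PV V × V)) = (x : OnePoint V) :=
  app_desc_coe (E := LC.of (SV V × V)) (B := LC.of (PV V × V)) (C := LC.of V) qL continuous_qL
    isOpenMap_qL (sndC (LC.of (SV V)) (LC.of V)) (fun e e' h => by rw [qL_injective h]) (u, x)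

theorem app_lam_of_notMem {b : PV V × V} (h : b ∉ Set.range (qL (V := V))) :
    app (lam V) (b : OnePoint (PV V × V)) = ∞ :=
  app_desc_of_notMem (E := LC.of (SV V × V)) (B := LC.of (PV V × V)) (C := LC.of V) qL
    continuous_qL isOpenMap_qL (sndC (LC.of (SV V)) (LC.of V))
    (fun e e' h => by rw [qL_injective h]) h

theorem app_lam_of_lt (u : SV V) {z : V} (h : ‖z - u‖ < 1 / 4) :
    app (lam V) (((piP V u, z) : PV V × V) : OnePoint (PV V × V)) =
      (((1 / 4 - ‖z - u‖)⁻¹ • (z - u) : V) : OnePoint V) := by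
  have h1 : ‖(4 : ℝ) • (z - (u : V))‖ < 1 := by
    rw [norm_smul]; norm_num; linarith
  have h2 : (piP V u, z) = qL (u, usq ((4 : ℝ) • (z - (u : V)))) := by
    unfold qL
    dsimp only
    rw [sq_usq h1, smul_smul]
    norm_num
  rw [h2, app_lam_qL]
  congr 1
  rw [usq, norm_smul, smul_smul]
  congr 1
  have h3 : 0 < 1 / 4 - ‖z - (u : V)‖ := by linarith
  norm_num
  have h4 : 0 < 1 - 4 * ‖z - (u : V)‖ := by linarith
  field_simp

theorem app_lam_of_le (p : PV V) {z : V} (h : ∀ u : SV V, piP V u = p → 1 / 4 ≤ ‖z - u‖) :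
    app (lam V) (((p, z) : PV V × V) : OnePoint (PV V × V)) = ∞ := by
  apply app_lam_of_notMem
  rintro ⟨⟨u, x⟩, hux⟩
  have h1 : piP V u = p := congrArg Prod.fst hux
  have h2 : (u : V) + (1 / 4 : ℝ) • sq x = z := congrArg Prod.snd hux
  have h3 := h u h1
  rw [← h2, add_sub_cancel_left] at h3
  exact absurd h3 (not_le.mpr (norm_quarter_sq x))

end Vale.Agent.P263.KJ
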