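import Vale.Agent.P263.KJ.DCov
import Vale.Agent.P263.KJ.Lam
import Vale.Agent.P263.G2.BoxSS
import Mathlib.Topology.Homotopy.Lifting
import Mathlib.Topology.Algebra.Module.LocallyConvex
import Mathlib.Analysis.Convex.Contractible

/-!
# P263, block KJ (CL3): the double cover `SV V → PV V` on singular simplices

* `dcP V : DCov (sing (SV V)) (sing (PV V))` : simplices lift, uniquely up to the sign.
* `exists_wP`, `wP V`, `sP V`, `cl_wP` : the cocycle `w`.
-/

open Finset Topology
open scoped InnerProductSpace RealInnerProductSpace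

namespace Vale.Agent.P263.KJ

open Vale.Agent.P263.S Vale.Agent.P263.E Vale.Agent.P263.H83 Vale.Agent.P263.TJ
open Vale.Agent.P263.G2

variable (V : Type) [NormedAddCommGroup V] [InnerProductSpace ℝ V] [FiniteDimensional ℝ V]

omit [FiniteDimensional ℝ V] in
theorem isOpenMap_piP : IsOpenMap (piP V) := by
  refine isOpenMap_of_section fun u => ⟨fun p => nz u (p.1 (u : V)), ?_, ?_, ?_⟩
  · have h1 : Continuous fun p : PV V => p.1 (u : V) := by fun_prop
    refine ContinuousAt.comp (g := nz u) ?_ h1.continuousAt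
    apply continuousAt_nz
    change (ten (u : V) u : V →L[ℝ] V) (u : V) ≠ 0
    rw [ten_self (norm_SV u)]
    intro h0
    have := norm_SV u
    rw [h0, norm_zero] at this
    exact zero_ne_one this
  · change nz u ((ten (u : V) u : V →L[ℝ] V) (u : V)) = u
    rw [ten_self (norm_SV u), nz_self]
  · have h1 : Continuous fun p : PV V => p.1 (u : V) := by fun_prop
    have h2 : ∀ᶠ p : PV V in 𝓝 (piP V u), p.1 (u : V) ≠ 0 := by
      refine h1.continuousAt.eventually_ne ?_
      change (ten (u : V) u : V →L[ℝ] V) (u : V) ≠ 0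
      rw [ten_self (norm_SV u)]
      intro h0
      have := norm_SV u
      rw [h0, norm_zero] at this
      exact zero_ne_one this
    filter_upwards [h2] with p hp
    exact piP_nz u p hp

omit [FiniteDimensional ℝ V] in
theorem isLocalHomeomorph_piP : IsLocalHomeomorph (piP V) := by
  rw [isLocalHomeomorph_iff_isOpenEmbedding_restrict]
  intro u
  let U : Set (SV V) := {u' | 0 < ⟪(u : V), (u' : V)⟫_ℝ}
  have hU : IsOpen U := isOpen_lt continuous_const (by fun_prop)
  have huU : u ∈ U := by
    change 0 < ⟪(u : V), (u : V)⟫_ℝ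
    rw [real_inner_self_eq_norm_sq, norm_SV]
    norm_num
  refine ⟨U, hU.mem_nhds huU, ?_⟩
  refine IsOpenEmbedding.of_continuous_injective_isOpenMap
    ((continuous_piP V).comp continuous_subtype_val) ?_
    ((isOpenMap_piP V).comp hU.isOpenMap_subtype_val)
  rintro ⟨a, ha⟩ ⟨b, hb⟩ hab
  rcases piP_eq (V := V) (u := a) (u' := b) hab with h | h
  · exact Subtype.ext (Subtype.ext h.symm)
  · exfalso
    change 0 < ⟪(u : V), (a : V)⟫_ℝ at ha
    change 0 < ⟪(u : V), (b : V)⟫_ℝ at hb
    rw [h, inner_neg_right] at hb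
    linarith

theorem isCoveringMap_piP : IsCoveringMap (piP V) :=
  isLocalHomeomorph_iff_isCoveringMap.1 (isLocalHomeomorph_piP V)

instance (p : ℕ) : ContractibleSpace (Dl p) :=
  (convex_stdSimplex ℝ (Fin (p + 1))).contractibleSpace ⟨_, (Classical.arbitrary (Dl p)).2⟩

instance (p : ℕ) : LocallyPathConnectedSpace (Dl p) :=
  (convex_stdSimplex ℝ (Fin (p + 1))).locallyPathConnectedSpace

variable {V}

theorem exists_lift {p : ℕ} (σ : C(Dl p, PV V)) :
    ∃ τ : C(Dl p, SV V), ∀ t, piP V (τ t) = σ t := by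
  obtain ⟨u, hu⟩ := surjective_piP V (σ (Classical.arbitrary _))
  obtain ⟨τ, ⟨-, h⟩, -⟩ := (isCoveringMap_piP V).existsUnique_continuousMap_lifts σ
    (Classical.arbitrary _) u hu
  exact ⟨τ, fun t => congrFun h t⟩

omit [FiniteDimensional ℝ V] in
theorem neg_ne (u : SV V) : -u ≠ u := by
  intro h
  have h1 : (((-u : SV V)) : V) = u := congrArg _ h
  rw [coe_neg_sphere] at h1
  have h2 : (2 : ℝ) • (u : V) = 0 := by
    rw [two_smul]
    nth_rewrite 1 [← h1]
    exact neg_add_cancel _
  have h3 : (u : V) = 0 := (smul_eq_zero.1 h2).resolve_left two_ne_zero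
  have := norm_SV u
  rw [h3, norm_zero] at this
  exact zero_ne_one this

omit [FiniteDimensional ℝ V] in
theorem lift_unique {p : ℕ} {τ τ' : C(Dl p, SV V)} (h : ∀ t, piP V (τ' t) = piP V (τ t)) :
    τ' = τ ∨ ∀ t, τ' t = -τ t := by
  have h1 : ∀ t, τ' t = τ t ∨ τ' t = -τ t := fun t => by
    rcases piP_eq (h t).symm with h2 | h2
    · exact Or.inl (Subtype.ext h2)
    · exact Or.inr (Subtype.ext (by rw [coe_neg_sphere]; exact h2))
  have hA : IsClosed {t | τ' t = τ t} := isClosed_eq τ'.continuous τ.continuous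
  have hB : IsClosed {t | τ' t = -τ t} :=
    isClosed_eq τ'.continuous (by fun_prop)
  have hAB : {t | τ' t = τ t}ᶜ = {t | τ' t = -τ t} := by
    ext t
    constructor
    · intro ht
      exact (h1 t).resolve_left ht
    · intro ht ht'
      have e1 : τ' t = -τ t := ht
      have e2 : τ' t = τ t := ht'
      exact neg_ne (τ t) (e1.symm.trans e2)
  have hC : IsClopen {t | τ' t = τ t} :=
    ⟨hA, by rw [← isClosed_compl_iff, hAB]; exact hB⟩
  rcases isClopen_iff.1 hC with h2 | h2
  · right
    intro t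
    have : t ∈ {t | τ' t = τ t}ᶜ := by rw [h2]; exact Set.mem_compl (Set.notMem_empty t)
    rw [hAB] at this
    exact this
  · left
    apply ContinuousMap.ext
    intro t
    have : t ∈ {t | τ' t = τ t} := by rw [h2]; exact Set.mem_univ t
    exact this

variable (V)

/-- the projection as a continuous map -/
noncomputable def piC : C(SV V, PV V) := ⟨piP V, continuous_piP V⟩

/-- the antipodal map -/
noncomputable def negC : C(SV V, SV V) := ⟨fun u => -u, by fun_prop⟩

/-- **the double cover of the projective space on singular simplices** -/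
noncomputable def dcP : DCov (sing (SV V)) (sing (PV V)) where
  pr := singMap (piC V)
  fl := singMap (negC V)
  surj {p} b := by
    obtain ⟨τ, h⟩ := exists_lift (toC b)
    exact ⟨ofC τ, ContinuousMap.ext h⟩
  pr_fl {p} e := ContinuousMap.ext fun t => piP_neg _
  eq_or {p e e'} h := by
    have h1 : ∀ t, piP V (toC e' t) = piP V (toC e t) := fun t =>
      DFunLike.congr_fun (show (piC V).comp (toC e') = (piC V).comp (toC e) from h) t
    rcases lift_unique h1 with h2 | h2
    · exact Or.inl h2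
    · exact Or.inr (ContinuousMap.ext h2)
  fl_ne e h := by
    have h1 : (negC V).comp (toC e) = toC e := h
    exact neg_ne _ (DFunLike.congr_fun h1 (Classical.arbitrary _))

theorem exists_wP : ∃ w : Cc (sing (PV V)) × Cc (sing (SV V)), (dcP V).Cl w.1 w.2 := by
  obtain ⟨w, s, h⟩ := (dcP V).exists_cl
  exact ⟨(w, s), h⟩

/-- **the cocycle of the double cover** `SV V → PV V` -/
noncomputable def wP : Cc (sing (PV V)) := (exists_wP V).choose.1

/-- its sign cochain -/
noncomputable def sP : Cc (sing (SV V)) := (exists_wP V).choose.2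

theorem cl_wP : (dcP V).Cl (wP V) (sP V) := (exists_wP V).choose_spec

theorem isDeg_wP : Cc.IsDeg 1 (wP V) := (cl_wP V).deg_w

theorem d_wP : Cc.d (wP V) = 0 := (cl_wP V).d_w

variable {V} {E B : SS} {D : DCov E B} {w : Cc B} {s : Cc E}

/-- **(CL3)** : a map `ell : B → sing (PV V)` covered by a map `dir : E → sing (SV V)` with
`dir (flip e) = - dir e` -/
theorem ell_wP (h : D.Cl w s) (ell : SS.Map B (sing (PV V))) (dir : SS.Map E (sing (SV V)))
    (h1 : ∀ {p : ℕ} (e : E.obj p) (t : Dl p),
      toC (ell.app (D.pr.app e)) t = piP V (toC (dir.app e) t))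
    (h2 : ∀ {p : ℕ} (e : E.obj p) (t : Dl p),
      toC (dir.app (D.fl.app e)) t = -toC (dir.app e) t) :
    ∃ χ : Cc B, Cc.IsDeg 0 χ ∧ Cc.pull ell (wP V) = w + Cc.d χ ∧
      Cc.pull D.pr χ = Cc.pull dir (sP V) + s := by
  refine h.nat (cl_wP V) ell dir ?_ ?_
  · refine SS.Map.ext fun {p} e => ContinuousMap.ext fun t => (h1 e t).symm
  · refine SS.Map.ext fun {p} e => ContinuousMap.ext fun t => (h2 e t).symm

/-- the powers -/
theorem ell_wP_pw (h : D.Cl w s) (ell : SS.Map B (sing (PV V))) (dir : SS.Map E (sing (SV V)))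
    (h1 : ∀ {p : ℕ} (e : E.obj p) (t : Dl p),
      toC (ell.app (D.pr.app e)) t = piP V (toC (dir.app e) t))
    (h2 : ∀ {p : ℕ} (e : E.obj p) (t : Dl p),
      toC (dir.app (D.fl.app e)) t = -toC (dir.app e) t) (n : ℕ) :
    ∃ β : Cc B, Cc.IsDeg n β ∧
      Cc.pull ell (Cc.pw (wP V) (n + 1)) = Cc.pw w (n + 1) + Cc.d β := by
  obtain ⟨χ, -, hχ, -⟩ := ell_wP h ell dir h1 h2
  rw [Cc.pull_pw]
  exact Cc.pw_coh_deg ((isDeg_wP V).pull ell) h.deg_w h.d_w hχ n

end Vale.Agent.P263.KJ
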