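import Vale.Agent.P263.TJ.SmallSq
import Vale.Agent.P263.G2.Coll
import Vale.Agent.P263.TJ.BoxSq

/-!
# P263, block KJ: families of abstract partial sheets

`TLab` : label systems whose labels form a `TSet`.  `PFam X T A Y` : over every family `x` of `X` a
finite set of labels, and for every label a natural homotopy of continuous maps from simplices of
`A` to simplices of `OnePoint Y`, such that at time zero at every point at most one of the sheets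
over `x` is finite.  `PFam.MX : X × Sing A → Sing (OnePoint Y)` : the join of the sheets at time
zero.  `PFam.hX` : the homotopy in the free sum model, `aX0`, `aX1` its ends.  `PFam.strict` : over
small simplices `MX` and `aX0` agree.
-/

open Finset OnePoint Topology

namespace Vale.Agent.P263.KJ

open Vale.Agent.P263.S Vale.Agent.P263.E Vale.Agent.P263.G2 Vale.Agent.P263.TJ

/-- Label systems whose labels can be pulled back along all continuous maps. -/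
structure TLab where
  /-- the labels -/
  L : TSet
  /-- the ordered set of the labels of vertices -/
  O : Type
  [lin : LinearOrder O]
  /-- the order code of a label over a vertex -/
  ord : L.ss.obj 0 → O
  /-- admissible sets of labels -/
  Good : ∀ {p : ℕ}, Set (L.ss.obj p) → Prop
  good_map : ∀ {p q : ℕ} (f : Op p q) {F : Set (L.ss.obj q)}, Good F → Good (L.ss.map f '' F)
  good_sub : ∀ {p : ℕ} {F F' : Set (L.ss.obj p)}, Good F → F' ⊆ F → Good F'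
  good_inj : ∀ {p : ℕ} {F : Set (L.ss.obj p)}, Good F → ∀ i : Fin (p + 1),
    Set.InjOn (fun a => ord (L.ss.map (TJ.vx p i) a)) F

attribute [instance] TLab.lin

/-- the label system -/
noncomputable def TLab.lab (T : TLab) : LabS where
  L := T.L.ss
  O := T.O
  ord := T.ord
  Good := T.Good
  good_map := T.good_map
  good_sub := T.good_sub
  good_inj := T.good_inj

/-- a label as a simplex of the simplicial set of labels -/
def TLab.toL {T : TLab} {p : ℕ} (s : T.L.obj p) : T.lab.L.obj p := s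

/-- the constant at time zero -/
noncomputable def zI (p : ℕ) : C(G2.Dl p, unitInterval) := ContinuousMap.const _ 0

/-- the constant at time one -/
noncomputable def oI (p : ℕ) : C(G2.Dl p, unitInterval) := ContinuousMap.const _ 1

theorem chiI_c0' (p : ℕ) : chiI (c0 p) = zI p := by
  apply ContinuousMap.ext
  intro t
  rw [chiI_c0]
  rfl

theorem chiI_c1' (p : ℕ) : chiI (c1 p) = oI p := by
  apply ContinuousMap.ext
  intro t
  rw [chiI_c1]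
  rfl

/-- simplices which miss a set -/
noncomputable def missZ {Y : Type} [TopologicalSpace Y] (Z : Set Y) : Sb (G2.sing Y) where
  mem {p} σ := ∀ t, (toC (p := p) σ) t ∉ Z
  map_mem := by
    intro p q f σ h t
    exact h _

/-- Families of partial sheets. -/
structure PFam (X : TSet) (T : TLab) (A Y : Type) [TopologicalSpace A] [TopologicalSpace Y] where
  /-- the labels over a family -/
  idx : ∀ {p : ℕ}, X.obj p → Finset (T.L.obj p)
  mem_pull : ∀ {p q : ℕ} (f : C(G2.Dl p, G2.Dl q)) (x : X.obj q) (s : T.L.obj p),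
    s ∈ idx (X.pull f x) ↔ ∃ s' ∈ idx x, T.L.pull f s' = s
  good : ∀ {p : ℕ} (x : X.ss.obj p), T.Good (p := p) (idx (p := p) x : Set (T.L.obj p))
  /-- the homotopy of the sheets -/
  val : ∀ {p : ℕ}, T.L.obj p → C(G2.Dl p, A) → C(G2.Dl p, unitInterval) → C(G2.Dl p, OnePoint Y)
  val_pull : ∀ {p q : ℕ} (f : C(G2.Dl p, G2.Dl q)) (s : T.L.obj q) (τ : C(G2.Dl q, A))
    (χ : C(G2.Dl q, unitInterval)),
    val (T.L.pull f s) (τ.comp f) (χ.comp f) = (val s τ χ).comp f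
  disj : ∀ {p : ℕ} (x : X.obj p), ∀ s ∈ idx x, ∀ s' ∈ idx x, s ≠ s' →
    ∀ (τ : C(G2.Dl p, A)) (t : G2.Dl p), val s τ (zI p) t = ∞ ∨ val s' τ (zI p) t = ∞

namespace PFam

variable {X : TSet} {T : TLab} {A Y : Type} [TopologicalSpace A] [TopologicalSpace Y]
  (𝓕 : PFam X T A Y)

/-- the source -/
def U (X : TSet) (A : Type) [TopologicalSpace A] : TSet := X.prod (TSet.sing A)

/-- the possible values -/
def vals {p : ℕ} (x : X.obj p) (τ : C(G2.Dl p, A)) (t : G2.Dl p) : Set (OnePoint Y) :=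
  (fun s : T.L.obj p => 𝓕.val s τ (zI p) t) '' (𝓕.idx x : Set _)

theorem sub_vals {p : ℕ} (x : X.obj p) (τ : C(G2.Dl p, A)) (t : G2.Dl p) :
    G2.Sub (𝓕.vals x τ t) := by
  rintro _ ⟨s, hs, rfl⟩ _ ⟨s', hs', rfl⟩ h1 h2
  by_contra hne
  have hss : s ≠ s' := fun h => hne (by rw [h])
  rcases 𝓕.disj x s hs s' hs' hss τ t with h | h
  · exact h1 h
  · exact h2 h

/-- the join of all sheets -/
noncomputable def mval {p : ℕ} (x : X.obj p) (τ : C(G2.Dl p, A)) : C(G2.Dl p, OnePoint Y) where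
  toFun t := join (𝓕.vals x τ t)
  continuous_toFun :=
    continuous_join (Z := G2.Dl p) (𝓕.idx x) (fun s t => 𝓕.val s τ (zI p) t)
      (fun s _ => (𝓕.val s τ (zI p)).continuous) (fun t => 𝓕.sub_vals x τ t)

theorem mval_apply {p : ℕ} (x : X.obj p) (τ : C(G2.Dl p, A)) (t : G2.Dl p) :
    𝓕.mval x τ t = join (𝓕.vals x τ t) := rfl

/-- the value in a sheet -/
theorem mval_of_mem {p : ℕ} {x : X.obj p} {τ : C(G2.Dl p, A)} {t : G2.Dl p} {s : T.L.obj p}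
    (hs : s ∈ 𝓕.idx x) (h : 𝓕.val s τ (zI p) t ≠ ∞) : 𝓕.mval x τ t = 𝓕.val s τ (zI p) t :=
  join_of_mem (𝓕.sub_vals x τ t) ⟨s, hs, rfl⟩ h

/-- the value is one of the values or `∞` -/
theorem mval_cases {p : ℕ} (x : X.obj p) (τ : C(G2.Dl p, A)) (t : G2.Dl p) :
    𝓕.mval x τ t = ∞ ∨ ∃ s ∈ 𝓕.idx x, 𝓕.mval x τ t = 𝓕.val s τ (zI p) t := by
  by_cases h : ∀ y ∈ 𝓕.vals x τ t, y = ∞
  · exact Or.inl (join_of_forall h)
  · push Not at h
    obtain ⟨_, ⟨s, hs, rfl⟩, h⟩ := h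
    exact Or.inr ⟨s, hs, join_of_mem (𝓕.sub_vals x τ t) ⟨s, hs, rfl⟩ h⟩

theorem zI_comp {p q : ℕ} (f : C(G2.Dl p, G2.Dl q)) : (zI q).comp f = zI p := rfl

theorem mval_pull {p q : ℕ} (f : C(G2.Dl p, G2.Dl q)) (x : X.obj q) (τ : C(G2.Dl q, A)) :
    𝓕.mval (X.pull f x) (τ.comp f) = (𝓕.mval x τ).comp f := by
  apply ContinuousMap.ext
  intro t
  rw [ContinuousMap.comp_apply, mval_apply, mval_apply]
  congr 1
  ext z
  constructor
  · rintro ⟨s, hs, rfl⟩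
    obtain ⟨s', hs', rfl⟩ := (𝓕.mem_pull f x s).1 hs
    refine ⟨s', hs', ?_⟩
    have h := 𝓕.val_pull f s' τ (zI q)
    rw [zI_comp] at h
    exact (congrArg (fun g : C(G2.Dl p, OnePoint Y) => g t) h).symm
  · rintro ⟨s', hs', rfl⟩
    refine ⟨T.L.pull f s', (𝓕.mem_pull f x _).2 ⟨s', hs', rfl⟩, ?_⟩
    have h := 𝓕.val_pull f s' τ (zI q)
    rw [zI_comp] at h
    exact congrArg (fun g : C(G2.Dl p, OnePoint Y) => g t) h

/-- **The map `X × Sing A → Sing (OnePoint Y)`.** -/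
noncomputable def MX : SS.Map (U X A).ss (G2.sing (OnePoint Y)) :=
  ⟨fun {_} u => ofC (𝓕.mval u.1 u.2), fun f u => 𝓕.mval_pull (dmap f) u.1 u.2⟩

theorem MX_app {p : ℕ} (u : (U X A).ss.obj p) : 𝓕.MX.app u = 𝓕.mval u.1 u.2 := rfl

/-! ### the homotopy -/

open Classical in
/-- the finite set of sheets which are not in the base -/
noncomputable def fsh {p : ℕ} (x : X.obj p) (τ : C(G2.Dl p, A)) (χ : C(G2.Dl p, unitInterval)) :
    Finset (Sheet T.lab (G2.sing (OnePoint Y)) p) :=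
  ((𝓕.idx x).image fun s => ((TLab.toL s, ofC (𝓕.val s τ χ)) :
    Sheet T.lab (G2.sing (OnePoint Y)) p)).filter fun s => ¬ (ptS ∞).mem s.2

theorem mem_fsh {p : ℕ} {x : X.obj p} {τ : C(G2.Dl p, A)} {χ : C(G2.Dl p, unitInterval)}
    {a : Sheet T.lab (G2.sing (OnePoint Y)) p} :
    a ∈ 𝓕.fsh x τ χ ↔ ∃ s ∈ 𝓕.idx x, (TLab.toL s, ofC (𝓕.val s τ χ)) = a ∧ ¬ (ptS ∞).mem a.2 := by
  classical
  rw [fsh, mem_filter, mem_image]
  constructor
  · rintro ⟨⟨s, hs, h⟩, h'⟩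
    exact ⟨s, hs, h, h'⟩
  · rintro ⟨s, hs, h, h'⟩
    exact ⟨⟨s, hs, h⟩, h'⟩

theorem fsh_ok {p : ℕ} (x : X.obj p) (τ : C(G2.Dl p, A)) (χ : C(G2.Dl p, unitInterval)) :
    GOk T.lab (ptS (∞ : OnePoint Y)) (𝓕.fsh x τ χ) := by
  refine ⟨?_, ?_, fun a ha => ?_⟩
  · refine T.good_sub (𝓕.good x) ?_
    rintro _ ⟨a, ha, rfl⟩
    obtain ⟨s, hs, rfl, -⟩ := 𝓕.mem_fsh.1 (mem_coe.1 ha)
    exact hs
  · intro a ha b hb hab
    obtain ⟨s, hs, rfl, -⟩ := 𝓕.mem_fsh.1 (mem_coe.1 ha)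
    obtain ⟨s', hs', rfl, -⟩ := 𝓕.mem_fsh.1 (mem_coe.1 hb)
    have hab' : s = s' := hab
    rw [hab']
  · obtain ⟨s, -, rfl, h⟩ := 𝓕.mem_fsh.1 ha
    exact h

theorem fsh_pull {p q : ℕ} (f : Op p q) (x : X.obj q) (τ : C(G2.Dl q, A))
    (χ : C(G2.Dl q, unitInterval)) :
    𝓕.fsh (X.pull (dmap f) x) (τ.comp (dmap f)) (χ.comp (dmap f)) =
      gmap T.lab (ptS (∞ : OnePoint Y)) f (𝓕.fsh x τ χ) := by
  ext a
  rw [mem_fsh, mem_gmap]
  constructor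
  · rintro ⟨s, hs, rfl, h⟩
    obtain ⟨s', hs', rfl⟩ := (𝓕.mem_pull _ _ _).1 hs
    have hv := 𝓕.val_pull (dmap f) s' τ χ
    refine ⟨⟨(TLab.toL s', ofC (𝓕.val s' τ χ)), 𝓕.mem_fsh.2 ⟨s', hs', rfl, fun hc => h ?_⟩, ?_⟩, h⟩
    · have h1 := (ptS (∞ : OnePoint Y)).map_mem f hc
      intro t
      have h2 : (𝓕.val (T.L.pull (dmap f) s') (τ.comp (dmap f)) (χ.comp (dmap f))) t =
        (𝓕.val s' τ χ).comp (dmap f) t := by rw [hv]
      exact h2.trans (h1 t)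
    · exact Prod.ext rfl hv.symm
  · rintro ⟨⟨b, hb, rfl⟩, h⟩
    obtain ⟨s', hs', rfl, -⟩ := 𝓕.mem_fsh.1 hb
    exact ⟨T.L.pull (dmap f) s', (𝓕.mem_pull _ _ _).2 ⟨s', hs', rfl⟩,
      Prod.ext rfl (𝓕.val_pull (dmap f) s' τ χ), h⟩

/-- **The homotopy.** -/
noncomputable def hX : SS.Map (cylS (U X A).ss) (Gam T.lab (ptS (∞ : OnePoint Y))) where
  app {_} u := ⟨𝓕.fsh u.1.1 u.1.2 (chiI u.2), 𝓕.fsh_ok _ _ _⟩
  nat {p q} f u := Subtype.ext (by
    have h := 𝓕.fsh_pull f u.1.1 u.1.2 (chiI u.2)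
    rw [← chiI_comp (u.2 : Op q 1) f] at h
    exact h)

/-- the beginning of the homotopy -/
noncomputable def aX0 : SS.Map (U X A).ss (Gam T.lab (ptS (∞ : OnePoint Y))) :=
  𝓕.hX.comp (end0 _)

/-- the end of the homotopy -/
noncomputable def aX1 : SS.Map (U X A).ss (Gam T.lab (ptS (∞ : OnePoint Y))) :=
  𝓕.hX.comp (end1 _)

theorem mem_aX0 {p : ℕ} {u : (U X A).ss.obj p} {a : Sheet T.lab (G2.sing (OnePoint Y)) p} :
    a ∈ (𝓕.aX0.app u).1 ↔ ∃ s ∈ 𝓕.idx u.1, (TLab.toL s, ofC (𝓕.val s u.2 (zI p))) = a ∧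
      ¬ (ptS ∞).mem a.2 := by
  have h : a ∈ (𝓕.aX0.app u).1 ↔ ∃ s ∈ 𝓕.idx u.1, (TLab.toL s, ofC (𝓕.val s u.2 (chiI (c0 p)))) = a ∧
      ¬ (ptS ∞).mem a.2 := 𝓕.mem_fsh
  rw [h, chiI_c0']

theorem mem_aX1 {p : ℕ} {u : (U X A).ss.obj p} {a : Sheet T.lab (G2.sing (OnePoint Y)) p} :
    a ∈ (𝓕.aX1.app u).1 ↔ ∃ s ∈ 𝓕.idx u.1, (TLab.toL s, ofC (𝓕.val s u.2 (oI p))) = a ∧
      ¬ (ptS ∞).mem a.2 := by
  have h : a ∈ (𝓕.aX1.app u).1 ↔ ∃ s ∈ 𝓕.idx u.1, (TLab.toL s, ofC (𝓕.val s u.2 (chiI (c1 p)))) = a ∧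
      ¬ (ptS ∞).mem a.2 := 𝓕.mem_fsh
  rw [h, chiI_c1']

/-! ### small simplices -/

/-- the condition to be small -/
def SmP (Z : Set (OnePoint Y)) {p : ℕ} (x : X.obj p) (τ : C(G2.Dl p, A)) : Prop :=
  (∃ s ∈ 𝓕.idx x, ∀ t, 𝓕.val s τ (zI p) t ≠ ∞) ∨
    ∀ s ∈ 𝓕.idx x, ∀ t, 𝓕.val s τ (zI p) t ∉ Z

/-- the small simplices -/
def Sm (Z : Set (OnePoint Y)) (p : ℕ) : Set ((U X A).obj p) := {u | 𝓕.SmP Z u.1 u.2}

theorem val_pull0 {p q : ℕ} (f : C(G2.Dl p, G2.Dl q)) (s : T.L.obj q) (τ : C(G2.Dl q, A))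
    (t : G2.Dl p) : 𝓕.val (T.L.pull f s) (τ.comp f) (zI p) t = 𝓕.val s τ (zI q) (f t) := by
  have h := 𝓕.val_pull f s τ (zI q)
  rw [zI_comp] at h
  exact congrArg (fun g : C(G2.Dl p, OnePoint Y) => g t) h

theorem smP_pull {Z : Set (OnePoint Y)} {p q : ℕ} (f : C(G2.Dl p, G2.Dl q)) {x : X.obj q}
    {τ : C(G2.Dl q, A)} (h : 𝓕.SmP Z x τ) : 𝓕.SmP Z (X.pull f x) (τ.comp f) := by
  rcases h with ⟨s, hs, h⟩ | h
  · refine Or.inl ⟨T.L.pull f s, (𝓕.mem_pull f x _).2 ⟨s, hs, rfl⟩, fun t => ?_⟩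
    rw [val_pull0]
    exact h (f t)
  · refine Or.inr fun s hs t => ?_
    obtain ⟨s', hs', rfl⟩ := (𝓕.mem_pull f x s).1 hs
    rw [val_pull0]
    exact h s' hs' (f t)

theorem smP_nhd {Z : Set (OnePoint Y)} (hZ : IsClosed Z) (hZi : (∞ : OnePoint Y) ∉ Z) {n : ℕ}
    (x : X.obj n) (τ : C(G2.Dl n, A)) (t : G2.Dl n) : ∃ V : Set (G2.Dl n), IsOpen V ∧ t ∈ V ∧
      ∀ (k : ℕ) (f : C(G2.Dl k, G2.Dl n)), (∀ t, f t ∈ V) → 𝓕.SmP Z (X.pull f x) (τ.comp f) := by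
  have hc : ∀ s : T.L.obj n, Continuous fun t => 𝓕.val s τ (zI n) t := fun s =>
    (𝓕.val s τ (zI n)).continuous
  by_cases h : ∃ s ∈ 𝓕.idx x, 𝓕.val s τ (zI n) t ≠ ∞
  · obtain ⟨s, hs, h⟩ := h
    refine ⟨{t | 𝓕.val s τ (zI n) t ≠ ∞}, ?_, h, ?_⟩
    · exact OnePoint.isClosed_infty.isOpen_compl.preimage (hc s)
    · intro k f hf
      refine Or.inl ⟨T.L.pull f s, (𝓕.mem_pull f x _).2 ⟨s, hs, rfl⟩, fun t => ?_⟩
      rw [val_pull0]
      exact hf t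
  · push Not at h
    refine ⟨⋂ s ∈ 𝓕.idx x, {t | 𝓕.val s τ (zI n) t ∉ Z}, ?_, ?_, ?_⟩
    · exact isOpen_biInter_finset fun s _ => hZ.isOpen_compl.preimage (hc s)
    · rw [Set.mem_iInter₂]
      intro s hs
      show 𝓕.val s τ (zI n) t ∉ Z
      rw [h s hs]
      exact hZi
    · intro k f hf
      refine Or.inr fun s hs t => ?_
      obtain ⟨s', hs', rfl⟩ := (𝓕.mem_pull f x s).1 hs
      rw [val_pull0]
      exact Set.mem_iInter₂.1 (hf t) s' hs'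

theorem loc {Z : Set (OnePoint Y)} (hZ : IsClosed Z) (hZi : (∞ : OnePoint Y) ∉ Z) :
    (U X A).Loc (𝓕.Sm Z) where
  pull := fun f _ h => 𝓕.smP_pull f h
  nhd := fun x t => 𝓕.smP_nhd hZ hZi x.1 x.2 t

/-- the sheets at time zero over a small simplex -/
theorem fsh_small {Z : Set (OnePoint Y)} (hZi : (∞ : OnePoint Y) ∉ Z) {p : ℕ} {x : X.obj p}
    {τ : C(G2.Dl p, A)} (h : 𝓕.SmP Z x τ) :
    (∃ c, 𝓕.fsh x τ (zI p) = {(c, ofC (𝓕.mval x τ))}) ∨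
      ((∀ a ∈ 𝓕.fsh x τ (zI p), (missZ Z).mem a.2) ∧
        (missZ Z).mem (ofC (𝓕.mval x τ))) := by
  rcases h with ⟨s, hs, h⟩ | h
  · -- one sheet contains the simplex
    have h1 : 𝓕.mval x τ = 𝓕.val s τ (zI p) :=
      ContinuousMap.ext fun t => 𝓕.mval_of_mem hs (h t)
    refine Or.inl ⟨TLab.toL s, ?_⟩
    ext a
    rw [mem_singleton, 𝓕.mem_fsh]
    constructor
    · rintro ⟨s', hs', rfl, h3⟩
      by_cases hss : s' = s
      · subst hss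
        exact Prod.ext rfl h1.symm
      · refine absurd (fun t => ?_) h3
        rcases 𝓕.disj x s' hs' s hs hss τ t with h4 | h4
        · exact h4
        · exact absurd h4 (h t)
    · rintro rfl
      refine ⟨s, hs, Prod.ext rfl h1.symm, fun hc => ?_⟩
      obtain ⟨t⟩ : Nonempty (G2.Dl p) := ⟨T0.Small.vx p 0⟩
      have h5 : 𝓕.mval x τ t = ∞ := hc t
      rw [h1] at h5
      exact h t h5
  · -- everything misses `Z`
    refine Or.inr ⟨fun a ha t => ?_, fun t => ?_⟩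
    · obtain ⟨s', hs', rfl, -⟩ := 𝓕.mem_fsh.1 ha
      exact h s' hs' t
    · show 𝓕.mval x τ t ∉ Z
      rcases 𝓕.mval_cases x τ t with h1 | ⟨s, hs, h1⟩
      · rw [h1]; exact hZi
      · rw [h1]; exact h s hs t

theorem strict {Z : Set (OnePoint Y)} (hZ : IsClosed Z) (hZi : (∞ : OnePoint Y) ∉ Z) :
    Strict (missZ Z) 𝓕.aX0 𝓕.MX (𝓕.Sm Z) where
  loc := 𝓕.loc hZ hZi
  cases := by
    intro p u h
    have h1 : (𝓕.aX0.app u).1 = 𝓕.fsh u.1 u.2 (zI p) := by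
      show 𝓕.fsh u.1 u.2 (chiI (c0 p)) = _
      rw [chiI_c0']
    rw [h1]
    exact 𝓕.fsh_small hZi h

/-! ### the base -/

/-- the sheets are pointed -/
def Pointed (a : A) : Prop := ∀ {p : ℕ} (s : T.L.obj p) (τ : C(G2.Dl p, A))
  (χ : C(G2.Dl p, unitInterval)) (t : G2.Dl p), τ t = a → 𝓕.val s τ χ t = ∞

theorem mval_base {a : A} (h : 𝓕.Pointed a) {p : ℕ} (x : X.obj p) (τ : C(G2.Dl p, A))
    (t : G2.Dl p) (ht : τ t = a) : 𝓕.mval x τ t = ∞ := by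
  rcases 𝓕.mval_cases x τ t with h1 | ⟨s, hs, h1⟩
  · exact h1
  · rw [h1, h s τ _ t ht]

theorem fsh_base {a : A} (h : 𝓕.Pointed a) {p : ℕ} (x : X.obj p) (τ : C(G2.Dl p, A))
    (χ : C(G2.Dl p, unitInterval)) (ht : ∀ t, τ t = a) : 𝓕.fsh x τ χ = ∅ := by
  refine eq_empty_iff_forall_notMem.2 fun b hb => ?_
  obtain ⟨s, hs, rfl, h1⟩ := 𝓕.mem_fsh.1 hb
  exact h1 fun t => h s τ χ t (ht t)

/-- the simplices of `X × Sing A` which are constant at `a` in the second variable -/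
noncomputable def PB (X : TSet) {A : Type} [TopologicalSpace A] (a : A) : Sb (U X A).ss where
  mem {p} u := ∀ t, (toC (p := p) u.2) t = a
  map_mem := by
    intro p q f u h t
    exact h _

theorem pb_sm {a : A} (h : 𝓕.Pointed a) {Z : Set (OnePoint Y)} (hZi : (∞ : OnePoint Y) ∉ Z)
    {p : ℕ} (u : (U X A).ss.obj p) (hu : (PB X a).mem u) : u ∈ 𝓕.Sm Z p := by
  refine Or.inr fun s _ t => ?_
  rw [h s u.2 _ t (hu t)]
  exact hZi

theorem pb_M {a : A} (h : 𝓕.Pointed a) {p : ℕ} (u : (U X A).ss.obj p) (hu : (PB X a).mem u) :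
    (ptS (∞ : OnePoint Y)).mem (𝓕.MX.app u) := fun t => 𝓕.mval_base h u.1 u.2 t (hu t)

theorem pb_hX {a : A} (h : 𝓕.Pointed a) {p : ℕ} (u : (cylS (U X A).ss).obj p)
    (hu : (PB X a).mem u.1) : (Gam.base T.lab (ptS (∞ : OnePoint Y))).mem (𝓕.hX.app u) :=
  𝓕.fsh_base h _ _ _ hu

theorem pb_a0 {a : A} (h : 𝓕.Pointed a) {p : ℕ} (u : (U X A).ss.obj p) (hu : (PB X a).mem u) :
    (Gam.base T.lab (ptS (∞ : OnePoint Y))).mem (𝓕.aX0.app u) :=
  𝓕.fsh_base h u.1 u.2 _ hu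

theorem pb_a1 {a : A} (h : 𝓕.Pointed a) {p : ℕ} (u : (U X A).ss.obj p) (hu : (PB X a).mem u) :
    (Gam.base T.lab (ptS (∞ : OnePoint Y))).mem (𝓕.aX1.app u) :=
  𝓕.fsh_base h u.1 u.2 _ hu

end PFam

end Vale.Agent.P263.KJ
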