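import Vale.Agent.P263.KJ.MuVal
import Vale.Agent.P263.KJ.CL3
import Vale.Agent.P263.KJ.Fam

/-!
# P263, block KJ: the literal data `(b, c)` on `T = (R^K x PV V)^+` for the power `w^c`

* `zT K P` : the set `0 x P` in `(R^K x P)^+`; it is closed and does not contain `∞`.
* `sqP i hq hx : SqD (ptS ∞) (i + 1)` : the data of `jtD`, relative to the simplices which are
  constant at infinity.
* `sqPV V i c` : the data for `x = pw (wP V) c`.
* `sqPV_deg_b`, `sqPV_deg_c` : the degrees `K + c`, `K + (c + c)`, with `K = i + 1`.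
* `sqPV_muT`, `sqPV_muT_sq` : on the cube `b` is `w^c` times the fundamental cochain and `b ∪_K b` is
  `w^(c + c)` times the fundamental cochain.
* `Cc.cup_pw` : `w^m w^n = w^(m + n)`.
-/

open Finset OnePoint Topology

namespace Vale.Agent.P263.KJ

open Vale.Agent.P263.S Vale.Agent.P263.E Vale.Agent.P263.H83 Vale.Agent.P263.TJ
open Vale.Agent.P263.G2 CupC

/-! ### cup powers -/

section pw

variable {X : SS}

/-- `u^m u^n = u^(m + n)` -/
theorem cup_pw (u : Cc X) (m n : ℕ) :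
    Cc.cup 1 (Cc.pw u m) (Cc.pw u n) = Cc.pw u (m + n) := by
  induction n with
  | zero => exact TJ.cup_one _
  | succ n ih =>
    show Cc.cup 1 (Cc.pw u m) (Cc.cup 1 (Cc.pw u n) u) = Cc.cup 1 (Cc.pw u (m + n)) u
    rw [← TJ.cup_assoc, ih]

end pw

/-! ### the set `0 x P` -/

section zT

variable (K : ℕ) (P : Type) [TopologicalSpace P]

/-- the set `0 x P` in `(R^K x P)^+` -/
def zT : Set (OnePoint ((Fin K → ℝ) × P)) := (misT K P)ᶜ

omit [TopologicalSpace P] in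
theorem mem_zT {z : OnePoint ((Fin K → ℝ) × P)} :
    z ∈ zT K P ↔ ∃ p : P, z = (((0 : Fin K → ℝ), p) : (Fin K → ℝ) × P) := by
  simp [zT, misT]

theorem isClosed_zT [CompactSpace P] [T2Space P] : IsClosed (zT K P) :=
  (isOpen_misT K P).isClosed_compl

omit [TopologicalSpace P] in
theorem infty_notMem_zT : (∞ : OnePoint ((Fin K → ℝ) × P)) ∉ zT K P := by
  rw [mem_zT]
  rintro ⟨p, hp⟩
  exact OnePoint.infty_ne_coe _ hp

variable {K P}

theorem missZ_zT {p : ℕ} {σ : (G2.sing (OnePoint ((Fin K → ℝ) × P))).obj p} :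
    (missZ (zT K P)).mem σ ↔ (inU (misT K P)).mem σ := by
  show (∀ t, toC (p := p) σ t ∉ (misT K P)ᶜ) ↔ ∀ t, toC (p := p) σ t ∈ misT K P
  simp

theorem ptS_misT {p : ℕ} (σ : (G2.sing (OnePoint ((Fin K → ℝ) × P))).obj p)
    (h : (ptS (∞ : OnePoint ((Fin K → ℝ) × P))).mem σ) : (inU (misT K P)).mem σ := by
  intro t q
  have h1 : toC (p := p) σ t = ∞ := h t
  rw [h1]
  exact OnePoint.infty_ne_coe _

theorem bsT_eq : bsT K P = ptS (∞ : OnePoint ((Fin K → ℝ) × P)) := rfl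

end zT

/-! ### the data relative to infinity -/

section sqP

variable {P : Type} [TopologicalSpace P] [CompactSpace P] [T2Space P] (i : ℕ) {q : ℕ}
  {x : Cc (sing P)} (hq : Cc.IsDeg q x) (hx : Cc.d x = 0)

/-- **the literal data, relative to the simplices which are constant at infinity** -/
noncomputable def sqP : SqD (ptS (∞ : OnePoint ((Fin (i + 1) → ℝ) × P))) (i + 1) :=
  (jtD i hq hx).mono ptS_misT

theorem sqP_b : (sqP i hq hx).b = (jtD i hq hx).b := rfl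

theorem sqP_c : (sqP i hq hx).c = (jtD i hq hx).c := rfl

theorem sqP_deg_b : Cc.IsDeg (i + 1 + q) (sqP i hq hx).b := by
  rw [add_comm (i + 1) q]
  exact jtD_deg_b hq hx

theorem sqP_deg_c : Cc.IsDeg (i + 1 + (q + q)) (sqP i hq hx).c := by
  rw [add_comm (i + 1) (q + q)]
  exact jtD_deg_c hq hx

theorem sqP_vn_b : Vn (missZ (zT (i + 1) P)) (sqP i hq hx).b :=
  (jtD i hq hx).vn_b.mono fun _ h => missZ_zT.1 h

theorem sqP_vn_c : Vn (missZ (zT (i + 1) P)) (sqP i hq hx).c :=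
  (jtD i hq hx).vn_c.mono fun _ h => missZ_zT.1 h

theorem sqP_vnU_b : Vn (inU (misT (i + 1) P)) (sqP i hq hx).b := (jtD i hq hx).vn_b

theorem sqP_vnU_c : Vn (inU (misT (i + 1) P)) (sqP i hq hx).c := (jtD i hq hx).vn_c

theorem sqP_coe : Cc.pull (singMap (coeT (i + 1) P)) (sqP i hq hx).b = bEP (i + 1) x :=
  jtD_coe hq hx

/-- **`b` on the cube** -/
theorem sqP_muT : ∃ a : Cc ((sing P).prod (SN (i + 1))), Vn (bdX (sing P) (i + 1)) a ∧
    Cc.IsDeg (i + q) a ∧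
    Cc.pull (muT (i + 1) P) (sqP i hq hx).b = TJ.sn (i + 1) x + Cc.d a := by
  obtain ⟨a, h1, h2, h3⟩ := muT_b (Nat.succ_pos i) hq hx (jtD_deg_b hq hx) (jtD i hq hx).d_b
    (jtD i hq hx).vn_b (jtD_coe hq hx)
  refine ⟨a, h1, ?_, h3⟩
  have e : q + (i + 1) - 1 = i + q := by omega
  rwa [e] at h2

/-- **`b ∪_K b` on the cube** -/
theorem sqP_muT_sq : ∃ a : Cc ((sing P).prod (SN (i + 1))), Vn (bdX (sing P) (i + 1)) a ∧
    Cc.IsDeg (i + (q + q)) a ∧
    Cc.pull (muT (i + 1) P) (Cc.cup (i + 1 + 1) (sqP i hq hx).b (sqP i hq hx).b) =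
      TJ.sn (i + 1) (Cc.cup 1 x x) + Cc.d a := by
  obtain ⟨a, h1, h2, h3⟩ := sqP_muT i hq hx
  have hS : Cc.d (TJ.sn (i + 1) x) = 0 := by rw [TJ.d_sn, hx, sn_zero']
  have h4 := d_qQ (i + 1) a hS
  have h5 : Cc.cup (i + 1 + 1) (TJ.sn (i + 1) x) (TJ.sn (i + 1) x) =
      TJ.sn (i + 1) (Cc.cup 1 x x) := by
    have := cup_sn (i + 1) 1 x x
    rwa [add_comm 1 (i + 1)] at this
  have hSd : Cc.IsDeg (q + (i + 1)) (TJ.sn (i + 1) x) := isDeg_sn (i + 1) hq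
  refine ⟨qQ (i + 1) (TJ.sn (i + 1) x) a, h1.qQ _ _, ?_, ?_⟩
  · refine ((Cc.IsDeg.add (Cc.IsDeg.add ?_ ?_) ?_)).add ?_
    · exact h2.cup h2 (by omega)
    · exact h2.cup h2.d (by omega)
    · exact hSd.cup h2 (by omega)
    · exact h2.cup hSd (by omega)
  · rw [pull_cup, h3, h4, h5, add_left_comm, cc_add_self, add_zero]

end sqP

/-! ### the data for the powers of `w` -/

section PV

variable (V : Type) [NormedAddCommGroup V] [InnerProductSpace ℝ V] [FiniteDimensional ℝ V]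
  (i c : ℕ)

/-- **the literal data for `w^c`** -/
noncomputable def sqPV : SqD (ptS (∞ : OnePoint ((Fin (i + 1) → ℝ) × PV V))) (i + 1) :=
  sqP i (Cc.isDeg_pw_one (isDeg_wP V) c) (Cc.d_pw (d_wP V) c)

theorem sqPV_def : sqPV V i c =
    (jtD i (Cc.isDeg_pw_one (isDeg_wP V) c) (Cc.d_pw (d_wP V) c)).mono ptS_misT := rfl

theorem sqPV_deg_b : Cc.IsDeg (i + 1 + c) (sqPV V i c).b := sqP_deg_b i _ _

theorem sqPV_deg_c : Cc.IsDeg (i + 1 + (c + c)) (sqPV V i c).c := sqP_deg_c i _ _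

theorem sqPV_vn_b : Vn (missZ (zT (i + 1) (PV V))) (sqPV V i c).b := sqP_vn_b i _ _

theorem sqPV_vn_c : Vn (missZ (zT (i + 1) (PV V))) (sqPV V i c).c := sqP_vn_c i _ _

theorem sqPV_vnU_b : Vn (inU (misT (i + 1) (PV V))) (sqPV V i c).b := sqP_vnU_b i _ _

theorem sqPV_vnU_c : Vn (inU (misT (i + 1) (PV V))) (sqPV V i c).c := sqP_vnU_c i _ _

theorem sqPV_vnT_b : Vn (bsT (i + 1) (PV V)) (sqPV V i c).b := (sqPV V i c).vn_b

theorem sqPV_vnT_c : Vn (bsT (i + 1) (PV V)) (sqPV V i c).c := (sqPV V i c).vn_c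

theorem sqPV_coe : Cc.pull (singMap (coeT (i + 1) (PV V))) (sqPV V i c).b =
    bEP (i + 1) (Cc.pw (wP V) c) := sqP_coe i _ _

theorem sqPV_muT : ∃ a : Cc ((sing (PV V)).prod (SN (i + 1))),
    Vn (bdX (sing (PV V)) (i + 1)) a ∧ Cc.IsDeg (i + c) a ∧
    Cc.pull (muT (i + 1) (PV V)) (sqPV V i c).b = TJ.sn (i + 1) (Cc.pw (wP V) c) + Cc.d a :=
  sqP_muT i _ _

/-- **`Sq^c [b]` on the cube is `w^(c + c)`** -/
theorem sqPV_muT_sq : ∃ a : Cc ((sing (PV V)).prod (SN (i + 1))),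
    Vn (bdX (sing (PV V)) (i + 1)) a ∧ Cc.IsDeg (i + (c + c)) a ∧
    Cc.pull (muT (i + 1) (PV V)) (Cc.cup (i + 1 + 1) (sqPV V i c).b (sqPV V i c).b) =
      TJ.sn (i + 1) (Cc.pw (wP V) (c + c)) + Cc.d a := by
  have h := sqP_muT_sq i (Cc.isDeg_pw_one (isDeg_wP V) c) (Cc.d_pw (d_wP V) c)
  rwa [cup_pw] at h

end PV

/-! ### the literal dimensions -/

section dims

/-- `K = n + (n * n + n)` for `n = r + 1` is `iK r + 1` -/
def iK (r : ℕ) : ℕ := (r + 1) + ((r + 1) * (r + 1) + r)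

theorem iK_eq (r : ℕ) : (r + 1) + ((r + 1) * (r + 1) + (r + 1)) = iK r + 1 := rfl

/-- **the literal data** on `(R^K x PV (R^n))^+`, `n = r + 1`, `K = n + (n * n + n)` -/
noncomputable def sqN (r c : ℕ) :
    SqD (ptS (∞ : OnePoint ((Fin ((r + 1) + ((r + 1) * (r + 1) + (r + 1))) → ℝ) ×
      PV (EuclideanSpace ℝ (Fin (r + 1)))))) (iK r + 1) :=
  sqPV (EuclideanSpace ℝ (Fin (r + 1))) (iK r) c

theorem sqN_eq (r c : ℕ) : sqN r c = sqPV (EuclideanSpace ℝ (Fin (r + 1))) (iK r) c := rfl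

theorem sqN_deg_b (r c : ℕ) :
    Cc.IsDeg ((r + 1) + ((r + 1) * (r + 1) + (r + 1)) + c) (sqN r c).b := sqPV_deg_b _ _ _

theorem sqN_deg_c (r c : ℕ) :
    Cc.IsDeg ((r + 1) + ((r + 1) * (r + 1) + (r + 1)) + (c + c)) (sqN r c).c := sqPV_deg_c _ _ _

end dims

end Vale.Agent.P263.KJ
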