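import Vale.Agent.P263.K.HSI
import Vale.Agent.P263.KJ.SqPV
import Vale.Agent.P263.KJ.HPV

/-!
# P263, block KJ: the classes of degree `K + 2c` of the target go to zero

Let `T = (ℝᴷ × PV V)⁺`, `b` a relative cocycle of `(T, ∞)` with `muT^* b = w^c s_K + d a` and
`γ : (U, U₀) → (T, ∞)` a map with `γ^* b = d e`, `e` relative. If `0 < 2c < dim V - 1`, every
relative cocycle `y` of degree `K + 2c` has `γ^* y = d a` with `a` relative, since
`y ∼ 0` or `y ∼ b ∪_K b`.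

* `sn_sq` : the cube form of the square, for any cocycle on the cube of the form `x s_K + d a`.
* `relT_null` : a relative cocycle of `T` whose restriction to the cube is a relative coboundary.
* `ind_cases` : `y ∼ 0` or `y ∼ b ∪_K b`.
* `ind_null` : the result.
-/

open Finset OnePoint Topology

namespace Vale.Agent.P263.KJ

open Vale.Agent.P263.S Vale.Agent.P263.E Vale.Agent.P263.H83 Vale.Agent.P263.TJ
open Vale.Agent.P263.G2 CupC

section gen

variable {K : ℕ} {P : Type} [TopologicalSpace P]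

/-- the square on the cube -/
theorem sn_sq {X : SS} (K : ℕ) {x : Cc X} (hx : Cc.d x = 0) {w a : Cc (X.prod (SN K))}
    (ha : Vn (bdX X K) a) (hw : w = TJ.sn K x + Cc.d a) :
    Vn (bdX X K) (qQ K (TJ.sn K x) a) ∧
    Cc.cup (K + 1) w w = TJ.sn K (Cc.cup 1 x x) + Cc.d (qQ K (TJ.sn K x) a) := by
  refine ⟨ha.qQ _ _, ?_⟩
  have hS : Cc.d (TJ.sn K x) = 0 := by rw [TJ.d_sn, hx, sn_zero']
  have h4 := d_qQ K a hS
  have h5 : Cc.cup (K + 1) (TJ.sn K x) (TJ.sn K x) = TJ.sn K (Cc.cup 1 x x) := by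
    have := cup_sn K 1 x x
    rwa [add_comm 1 K] at this
  rw [hw, h4, h5, add_left_comm, cc_add_self, add_zero]

/-- `b ∪_K b` is a cocycle -/
theorem d_cup_self {X : SS} (j : ℕ) {b : Cc X} (hb : Cc.d b = 0) :
    Cc.d (Cc.cup (j + 1) b b) = 0 := by
  rw [TJ.d_cup, hb]
  simp only [cup_zero_left, cup_zero_right, add_zero, zero_add]
  exact cc_add_self _

variable [CompactSpace P] [T2Space P]

/-- a relative cocycle of the target is a relative coboundary if it is one on the cube -/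
theorem relT_null {w : Cc (sing (OnePoint ((Fin K → ℝ) × P)))} (hv : Vn (bsT K P) w)
    (hd : Cc.d w = 0) {a : Cc ((sing P).prod (SN K))} (ha : Vn (bdX (sing P) K) a)
    (h : Cc.pull (muT K P) w = Cc.d a) : ∃ β, Vn (bsT K P) β ∧ w = Cc.d β := by
  obtain ⟨β, h1, h2⟩ := (Vale.Agent.P263.K.relIso_muT K P).inj w hv hd ⟨a, ha, h.symm⟩
  exact ⟨β, h1, h2.symm⟩

/-- **the relative classes of `T` of degree `K + q`, if `H^q(P)` has at most one nonzero class**,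
which is the square of `x` -/
theorem ind_cases {m : ℕ} {x : Cc (sing P)} (hx : Cc.d x = 0)
    (hP : ∀ z : Cc (sing P), Cc.IsDeg m z → Cc.d z = 0 →
      ∃ f : Cc (sing P), z = Cc.d f ∨ z = Cc.cup 1 x x + Cc.d f)
    {b : Cc (sing (OnePoint ((Fin K → ℝ) × P)))} (hvb : Vn (bsT K P) b) (hdb : Cc.d b = 0)
    (hb : ∃ a, Vn (bdX (sing P) K) a ∧ Cc.pull (muT K P) b = TJ.sn K x + Cc.d a)
    {y : Cc (sing (OnePoint ((Fin K → ℝ) × P)))} (hvy : Vn (bsT K P) y) (hdy : Cc.d y = 0)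
    (hy : Cc.IsDeg (K + m) y) :
    ∃ β, Vn (bsT K P) β ∧ (y = Cc.d β ∨ y = Cc.cup (K + 1) b b + Cc.d β) := by
  have hvm : Vn (bdX (sing P) K) (Cc.pull (muT K P) y) := fun p _ h =>
    hvy p _ fun t => muT_infty K P h t
  have hdm : Cc.d (Cc.pull (muT K P) y) = 0 := by rw [← pull_d, hdy, pull_zero]
  have hdg : Cc.IsDeg (m + K) (Cc.pull (muT K P) y) := by
    rw [add_comm m K]
    exact hy.pull _
  obtain ⟨e, he, he'⟩ := DstN_retract K hvm hdm
  have hc : Cc.d (DstN K (Cc.pull (muT K P) y)) = 0 := by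
    rw [← DstN_d hvm, hdm, DstN_zero]
  obtain ⟨f, hf | hf⟩ := hP _ (isDeg_DstN hdg) hc
  · rw [hf, ← d_sn, ← d_add] at he'
    obtain ⟨β, h1, h2⟩ := relT_null hvy hdy ((Vn_sn K f).add he) he'
    exact ⟨β, h1, Or.inl h2⟩
  · obtain ⟨a, ha, ha'⟩ := hb
    obtain ⟨hq, hq'⟩ := sn_sq K hx ha ha'
    obtain ⟨Q, hQ⟩ : ∃ Q, Q = qQ K (TJ.sn K x) a := ⟨_, rfl⟩
    rw [← hQ] at hq hq'
    have hsum : Cc.pull (muT K P) (y + Cc.cup (K + 1) b b) =
        Cc.d (TJ.sn K f + e + Q) := by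
      rw [pull_add, pull_cup, hq', he', hf, d_add, d_add, d_sn, TJ.sn_add]
      funext p z
      simp only [Pi.add_apply]
      have h1 := CharTwo.add_self_eq_zero (TJ.sn K (Cc.cup 1 x x) p z)
      linear_combination h1
    have hdc : Cc.d (y + Cc.cup (K + 1) b b) = 0 := by
      rw [d_add, hdy, d_cup_self K hdb, add_zero]
    obtain ⟨β, h1, h2⟩ := relT_null (hvy.add (hvb.cup_left (K + 1) b)) hdc
      (((Vn_sn K f).add he).add hq) hsum
    refine ⟨β, h1, Or.inr ?_⟩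
    rw [← h2, add_left_comm, cc_add_self, add_zero]

end gen

section PV

variable {V : Type} [NormedAddCommGroup V] [InnerProductSpace ℝ V] [FiniteDimensional ℝ V]
  {K d c : ℕ}

/-- every relative class of degree `K + 2c` of the target is `0` or `b ∪_K b` -/
theorem ind_cases_PV (h : Module.finrank ℝ V = d + 1) (hc0 : 0 < c) (hc : c + c < d)
    {b : Cc (sing (OnePoint ((Fin K → ℝ) × PV V)))} (hvb : Vn (bsT K (PV V)) b)
    (hdb : Cc.d b = 0)
    (hb : ∃ a, Vn (bdX (sing (PV V)) K) a ∧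
      Cc.pull (muT K (PV V)) b = TJ.sn K (Cc.pw (wP V) c) + Cc.d a)
    {y : Cc (sing (OnePoint ((Fin K → ℝ) × PV V)))} (hvy : Vn (bsT K (PV V)) y)
    (hdy : Cc.d y = 0) (hy : Cc.IsDeg (K + (c + c)) y) :
    ∃ β, Vn (bsT K (PV V)) β ∧ (y = Cc.d β ∨ y = Cc.cup (K + 1) b b + Cc.d β) := by
  refine ind_cases (Cc.d_pw (d_wP V) c) (fun z hz dz => ?_) hvb hdb hb hvy hdy hy
  obtain ⟨n, hn⟩ : ∃ n, c + c = n + 1 := ⟨c + c - 1, by omega⟩
  rw [hn] at hz
  obtain ⟨f, -, hf⟩ := exists_pw_PV h (by omega) hz dz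
  refine ⟨f, ?_⟩
  rw [cup_pw, hn]
  exact hf

/-- **`ind_null`.** -/
theorem ind_null {U : SS} {U0 : Sb U} (h : Module.finrank ℝ V = d + 1) (hc0 : 0 < c)
    (hc : c + c < d) (gam : SS.Map U (sing (OnePoint ((Fin K → ℝ) × PV V))))
    (hgam : ∀ {p : ℕ} (x : U.obj p), U0.mem x → (bsT K (PV V)).mem (gam.app x))
    {b : Cc (sing (OnePoint ((Fin K → ℝ) × PV V)))} (hvb : Vn (bsT K (PV V)) b)
    (hdb : Cc.d b = 0)
    (hb : ∃ a, Vn (bdX (sing (PV V)) K) a ∧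
      Cc.pull (muT K (PV V)) b = TJ.sn K (Cc.pw (wP V) c) + Cc.d a)
    {e : Cc U} (he : Vn U0 e) (hde : Cc.d e = Cc.pull gam b)
    {y : Cc (sing (OnePoint ((Fin K → ℝ) × PV V)))} (hvy : Vn (bsT K (PV V)) y)
    (hdy : Cc.d y = 0) (hy : Cc.IsDeg (K + (c + c)) y) :
    ∃ a, Vn U0 a ∧ Cc.d a = Cc.pull gam y := by
  obtain ⟨β, h1, h2⟩ := ind_cases_PV h hc0 hc hvb hdb hb hvy hdy hy
  have hβ : Vn U0 (Cc.pull gam β) := fun p x hx => h1 p _ (hgam x hx)
  rcases h2 with h2 | h2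
  · exact ⟨Cc.pull gam β, hβ, by rw [h2, pull_d]⟩
  · refine ⟨qQ K 0 e + Cc.pull gam β, (he.qQ K 0).add hβ, ?_⟩
    rw [d_add, d_qQ K e d_zero, h2, pull_add, pull_cup, pull_d, ← hde, cup_zero_left, add_zero,
      zero_add]

/-- the form with `γ^* b` a relative coboundary because the relative group is zero -/
theorem ind_null' {U : SS} {U0 : Sb U} (h : Module.finrank ℝ V = d + 1) (hc0 : 0 < c)
    (hc : c + c < d) (gam : SS.Map U (sing (OnePoint ((Fin K → ℝ) × PV V))))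
    (hgam : ∀ {p : ℕ} (x : U.obj p), U0.mem x → (bsT K (PV V)).mem (gam.app x))
    (hU : ∀ z : Cc U, Cc.IsDeg (K + c) z → Vn U0 z → Cc.d z = 0 → ∃ e, Vn U0 e ∧ Cc.d e = z)
    {b : Cc (sing (OnePoint ((Fin K → ℝ) × PV V)))} (hb0 : Cc.IsDeg (K + c) b)
    (hvb : Vn (bsT K (PV V)) b) (hdb : Cc.d b = 0)
    (hb : ∃ a, Vn (bdX (sing (PV V)) K) a ∧
      Cc.pull (muT K (PV V)) b = TJ.sn K (Cc.pw (wP V) c) + Cc.d a)
    {y : Cc (sing (OnePoint ((Fin K → ℝ) × PV V)))} (hvy : Vn (bsT K (PV V)) y)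
    (hdy : Cc.d y = 0) (hy : Cc.IsDeg (K + (c + c)) y) :
    ∃ a, Vn U0 a ∧ Cc.d a = Cc.pull gam y := by
  obtain ⟨e, he, he'⟩ := hU (Cc.pull gam b) (hb0.pull gam) (fun p x hx => hvb p _ (hgam x hx))
    (by rw [← pull_d, hdb, pull_zero])
  exact ind_null h hc0 hc gam hgam hvb hdb hb he he' hvy hdy hy

end PV

/-! ### the literal data -/

section lit

variable (V : Type) [NormedAddCommGroup V] [InnerProductSpace ℝ V] [FiniteDimensional ℝ V]
  {i d c : ℕ}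

/-- `ind_null` for the data `sqPV V i c` -/
theorem ind_null_sqPV {U : SS} {U0 : Sb U} (h : Module.finrank ℝ V = d + 1) (hc0 : 0 < c)
    (hc : c + c < d) (gam : SS.Map U (sing (OnePoint ((Fin (i + 1) → ℝ) × PV V))))
    (hgam : ∀ {p : ℕ} (x : U.obj p), U0.mem x → (bsT (i + 1) (PV V)).mem (gam.app x))
    {e : Cc U} (he : Vn U0 e) (hde : Cc.d e = Cc.pull gam (sqPV V i c).b)
    {y : Cc (sing (OnePoint ((Fin (i + 1) → ℝ) × PV V)))} (hvy : Vn (bsT (i + 1) (PV V)) y)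
    (hdy : Cc.d y = 0) (hy : Cc.IsDeg (i + 1 + (c + c)) y) :
    ∃ a, Vn U0 a ∧ Cc.d a = Cc.pull gam y := by
  obtain ⟨a, ha, -, ha'⟩ := sqPV_muT V i c
  exact ind_null h hc0 hc gam hgam (sqPV_vnT_b V i c) (sqPV V i c).d_b ⟨a, ha, ha'⟩ he hde
    hvy hdy hy

end lit

end Vale.Agent.P263.KJ
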