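import Vale.Agent.P263.TJ.SqMu
import Vale.Agent.P263.TJ.ThetaX
import Vale.Agent.P263.TJ.BoxSq

/-!
# P263, block KJ: the generalised functional square of the cube in the literal target

`jtD hq hx` : the data on `T = (R^K x P)^+` for a cocycle `x` of `sing P`, `K = i + 1`.
`theta_muT` : the generalised functional square of `muT : sing P x SN K -> sing T` is null, and the
integral of `muT^* b` is in the class of `x`; `theta_ell`, `DstN_ell` : the same for `muT o (ell x 1)`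
with `ell : L -> sing P`.
-/

open Finset OnePoint Topology

namespace Vale.Agent.P263.TJ

open Vale.Agent.P263.S Vale.Agent.P263.E Vale.Agent.P263.H83 Vale.Agent.P263.G2 CupC

section general

variable {T X : SS} {T₀ T₁ : Sb T} {i : ℕ}

/-- data for a smaller base -/
def SqD.mono {j : ℕ} (D : SqD T₀ j) (h : ∀ {p : ℕ} (x : T.obj p), T₁.mem x → T₀.mem x) :
    SqD T₁ j where
  b := D.b
  c := D.c
  vn_b := D.vn_b.mono h
  vn_c := D.vn_c.mono h
  d_b := D.d_b
  d_c := D.d_c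

theorem theta_mono (D : SqD T₀ (i + 1)) (h : ∀ {p : ℕ} (x : T.obj p), T₁.mem x → T₀.mem x)
    {m : SS.Map (X.prod (SN (i + 1))) T}
    {hm : ∀ {p : ℕ} (x : (X.prod (SN (i + 1))).obj p), (bdX X (i + 1)).mem x → T₀.mem (m.app x)}
    {hm' : ∀ {p : ℕ} (x : (X.prod (SN (i + 1))).obj p), (bdX X (i + 1)).mem x →
      T₁.mem (m.app x)} :
    (Cc.cupC X).Coh (theta D m hm) (theta (D.mono h) m hm') :=
  theta_eq D (hm := hm)
    { b := Cc.mkRel T₀ D.b D.vn_b
      s := ((D.mono h).toThD m hm').s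
      e := ((D.mono h).toThD m hm').e
      c := Cc.mkRel T₀ D.c D.vn_c
      d_b := Cc.rel_ext D.d_b
      s_mem := ((D.mono h).toThD m hm').s_mem
      g_b := ((D.mono h).toThD m hm').g_b
      d_c := Cc.rel_ext D.d_c } rfl rfl

/-- homotopy invariance for prisms -/
theorem theta_htp (D : SqD T₀ (i + 1)) (H : SS.Htp (X.prod (SN (i + 1))) T)
    (hH : ∀ {p : ℕ} (χ : Op p 1) (x : (X.prod (SN (i + 1))).obj p), (bdX X (i + 1)).mem x →
      T₀.mem (H.h p χ x)) {m0 m1 : SS.Map (X.prod (SN (i + 1))) T}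
    {hm0 : ∀ {p : ℕ} (x : (X.prod (SN (i + 1))).obj p), (bdX X (i + 1)).mem x →
      T₀.mem (m0.app x)}
    {hm1 : ∀ {p : ℕ} (x : (X.prod (SN (i + 1))).obj p), (bdX X (i + 1)).mem x →
      T₀.mem (m1.app x)} (h0 : m0 = H.e0) (h1 : m1 = H.e1) :
    (Cc.cupC X).Coh (theta D m0 hm0) (theta D m1 hm1) := by
  subst h0 h1
  let M : SS.Map ((cylS X).prod (SN (i + 1))) T :=
    ⟨fun {p} z => H.h p z.1.2 (z.1.1, z.2), fun f z => H.nat f z.1.2 (z.1.1, z.2)⟩
  exact theta_htpy D M (fun z hz => hH z.1.2 (z.1.1, z.2) hz) rfl rfl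

/-- the value from explicit data -/
theorem theta_of_data (D : SqD T₀ (i + 1)) {m : SS.Map (X.prod (SN (i + 1))) T}
    {hm : ∀ {p : ℕ} (x : (X.prod (SN (i + 1))).obj p), (bdX X (i + 1)).mem x → T₀.mem (m.app x)}
    {x κ : Cc X} {e w : Cc (X.prod (SN (i + 1)))} (he : Vn (bdX X (i + 1)) e)
    (hw : Vn (bdX X (i + 1)) w) (hb : Cc.pull m D.b = sn (i + 1) x + Cc.d e)
    (hc : Cc.pull m D.c = qQ i (sn (i + 1) x) e + (sn (i + 1) κ + Cc.d w)) :
    (Cc.cupC X).Coh (theta D m hm) κ := by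
  obtain ⟨E, hE⟩ : ∃ E : ThD (Cc.relHom m (bdX X (i + 1)) T₀ hm) i (narX X (i + 1)), E =
    { b := Cc.mkRel T₀ D.b D.vn_b
      s := Cc.mkRel _ (sn (i + 1) x) (Vn_sn _ _)
      e := Cc.mkRel _ e he
      c := Cc.mkRel T₀ D.c D.vn_c
      d_b := Cc.rel_ext D.d_b
      s_mem := ⟨x, rfl⟩
      g_b := Cc.rel_ext hb
      d_c := Cc.rel_ext D.d_c } := ⟨_, rfl⟩
  have h1 := theta_eq D (hm := hm) E (by rw [hE]; rfl) (by rw [hE]; rfl)
  refine h1.trans ?_
  have h2 : Cc.val E.val = sn (i + 1) κ + Cc.d w := by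
    have h3 : Cc.val E.val = (Cc.cup i e e + Cc.cup (i + 1) e (Cc.d e)) + Cc.pull m D.c +
        Cc.cup (i + 1) e (sn (i + 1) x) + Cc.cup (i + 1) (sn (i + 1) x) e := by
      rw [hE]
      rfl
    rw [h3, hc, qQ]
    funext p y
    simp only [Pi.add_apply]
    grind
  rw [h2, DstN_add, DstN_sn, DstN_d hw]
  refine ⟨DstN (i + 1) w, ?_⟩
  show κ + Cc.d (DstN (i + 1) w) + κ = Cc.d (DstN (i + 1) w)
  rw [add_comm κ, add_assoc, cc_add_self, add_zero]

end general

section JT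

variable {P : Type} [TopologicalSpace P] [CompactSpace P] [T2Space P] {i q : ℕ}
  {x : Cc (sing P)} (hq : Cc.IsDeg q x) (hx : Cc.d x = 0)

variable (i) in
/-- **the literal data** -/
noncomputable def jtD : SqD (inU (misT (i + 1) P)) (i + 1) where
  b := (exists_SqT (K := i + 1) (Nat.succ_pos i) hq hx).choose
  c := (exists_SqT (K := i + 1) (Nat.succ_pos i) hq hx).choose_spec.choose
  vn_b := (exists_SqT (K := i + 1) (Nat.succ_pos i) hq hx).choose_spec.choose_spec.2.2.2.2.1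
  vn_c := (exists_SqT (K := i + 1) (Nat.succ_pos i) hq hx).choose_spec.choose_spec.2.2.2.2.2.1
  d_b := (exists_SqT (K := i + 1) (Nat.succ_pos i) hq hx).choose_spec.choose_spec.2.2.1
  d_c := (exists_SqT (K := i + 1) (Nat.succ_pos i) hq hx).choose_spec.choose_spec.2.2.2.1

theorem jtD_deg_b : Cc.IsDeg (q + (i + 1)) (jtD i hq hx).b :=
  (exists_SqT (K := i + 1) (Nat.succ_pos i) hq hx).choose_spec.choose_spec.1

theorem jtD_deg_c : Cc.IsDeg (q + q + (i + 1)) (jtD i hq hx).c :=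
  (exists_SqT (K := i + 1) (Nat.succ_pos i) hq hx).choose_spec.choose_spec.2.1

theorem jtD_coe : Cc.pull (singMap (coeT (i + 1) P)) (jtD i hq hx).b = bEP (i + 1) x :=
  (exists_SqT (K := i + 1) (Nat.succ_pos i) hq hx).choose_spec.choose_spec.2.2.2.2.2.2.1

theorem jtD_gam : ∃ γ : Cc ((sing P).prod (SN (i + 1))), Vn (bdX (sing P) (i + 1)) γ ∧
    Cc.pull ((singMap (coeT (i + 1) P)).comp (linP (i + 1) P)) (jtD i hq hx).c =
      qQ i (sn (i + 1) x) (Cc.pull (linP (i + 1) P) (a1P (i + 1) x)) + Cc.d γ :=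
  (exists_SqT (K := i + 1) (Nat.succ_pos i) hq hx).choose_spec.choose_spec.2.2.2.2.2.2.2

/-- the boundary of the cube goes to simplices which miss `0 x P` -/
theorem lin_miss {p : ℕ} (z : ((sing P).prod (SN (i + 1))).obj p)
    (h : (bdX (sing P) (i + 1)).mem z) :
    (inU (misT (i + 1) P)).mem (((singMap (coeT (i + 1) P)).comp (linP (i + 1) P)).app z) := by
  rw [← muHt_e1]
  exact muHt_base (i + 1) P (c1 p) h

theorem theta_lin : (Cc.cupC (sing P)).Coh
    (theta (jtD i hq hx) ((singMap (coeT (i + 1) P)).comp (linP (i + 1) P)) lin_miss) 0 := by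
  obtain ⟨γ, h1, h2⟩ := jtD_gam (i := i) hq hx
  refine theta_of_data (jtD i hq hx) (x := x) (κ := 0) (Vn_linP (Vn_a1P (Nat.succ_pos i) x)) h1 ?_
    (by rw [sn_zero', zero_add]; exact h2)
  have h4 : Cc.pull ((singMap (coeT (i + 1) P)).comp (linP (i + 1) P)) (jtD i hq hx).b =
      Cc.pull (linP (i + 1) P) (bEP (i + 1) x) := by
    rw [← jtD_coe hq hx]
    rfl
  rw [h4, bEP_eq _ hx, pull_add, pull_d, linP_b0P]

/-- **the generalised functional square of the cube in the target is null** -/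
theorem theta_muT : (Cc.cupC (sing P)).Coh
    (theta (jtD i hq hx) (muT (i + 1) P) fun _ h => muT_base (i + 1) P h) 0 :=
  (theta_htp (jtD i hq hx) (muHt (i + 1) P) (fun χ _ h => muHt_base (i + 1) P χ h)
    (muHt_e0 (i + 1) P).symm (muHt_e1 (i + 1) P).symm).trans (theta_lin hq hx)

/-- **the integral over the cube** -/
theorem DstN_muT : (Cc.cupC (sing P)).Coh (DstN (i + 1) (Cc.pull (muT (i + 1) P) (jtD i hq hx).b))
    x := by
  obtain ⟨a, h1, -, h2⟩ := muT_b (Nat.succ_pos i) hq hx (jtD_deg_b hq hx) (jtD i hq hx).d_b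
    (jtD i hq hx).vn_b (jtD_coe hq hx)
  rw [h2, DstN_add, DstN_sn, DstN_d h1]
  refine ⟨DstN (i + 1) a, ?_⟩
  show x + Cc.d (DstN (i + 1) a) + x = Cc.d (DstN (i + 1) a)
  rw [add_comm x, add_assoc, cc_add_self, add_zero]

variable {L : SS} (ell : SS.Map L (sing P))

/-- the sheet `(s, z) ↦ z ∧ ell s` -/
noncomputable def muL (i : ℕ) : SS.Map (L.prod (SN (i + 1))) (sing (OnePoint ((Fin (i + 1) → ℝ) × P))) :=
  (muT (i + 1) P).comp (timesN ell (i + 1))

theorem muL_base {p : ℕ} (z : (L.prod (SN (i + 1))).obj p) (h : (bdX L (i + 1)).mem z) :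
    (inU (misT (i + 1) P)).mem ((muL ell i).app z) :=
  muT_base (i + 1) P (timesN_ends ell (i + 1) h)

theorem muL_infty {p : ℕ} (z : (L.prod (SN (i + 1))).obj p) (h : (bdX L (i + 1)).mem z) :
    (ptS (∞ : OnePoint ((Fin (i + 1) → ℝ) × P))).mem ((muL ell i).app z) :=
  muT_infty (i + 1) P (timesN_ends ell (i + 1) h)

theorem theta_ell : (Cc.cupC L).Coh (theta (jtD i hq hx) (muL ell i) (muL_base ell)) 0 := by
  have h1 := theta_pull (jtD i hq hx) (m := muT (i + 1) P)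
    (hm := fun _ h => muT_base (i + 1) P h) ell (m' := muL ell i) (hm' := muL_base ell) rfl
  have h2 := (theta_muT (i := i) hq hx).map (Cc.pullHom ell)
  rw [map_zero] at h2
  exact h1.trans h2

theorem DstN_ell : (Cc.cupC L).Coh (DstN (i + 1) (Cc.pull (muL ell i) (jtD i hq hx).b))
    (Cc.pull ell x) := by
  have h1 : Cc.pull (muL ell i) (jtD i hq hx).b =
      Cc.pull (timesN ell (i + 1)) (Cc.pull (muT (i + 1) P) (jtD i hq hx).b) := rfl
  have h2 : DstN (i + 1) (Cc.pull (timesN ell (i + 1))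
      (Cc.pull (muT (i + 1) P) (jtD i hq hx).b)) =
      Cc.pull ell (DstN (i + 1) (Cc.pull (muT (i + 1) P) (jtD i hq hx).b)) :=
    DstN_pull (i + 1) ell _
  rw [h1, h2]
  exact (DstN_muT (i := i) hq hx).map (Cc.pullHom ell)

end JT

end Vale.Agent.P263.TJ
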