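import Vale.Agent.P263.KJ.J
import Vale.Agent.P263.G2.Coll

/-!
# P263, block KJ: the sheets of `J` of a sum of maps with disjoint supports

`φ i : V⁺ → V⁺` (`i ∈ ι`) pointed maps with disjoint supports, `join φ` their union.  For a finite
set `K` of indices `dK φ K` is the part of the polar map of the union which comes from the pairs
`(i, j)` with `{i, j} = K` (so `K` has one or two elements).  `jT` : the tube construction of `J`.

* `jT_join` : `jT (dd (union)) z` is the join of the `jT (dK φ K) z`;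
* `DK` : the same as a morphism of `LC` (continuity in families), `app_J_DK`.
-/

open CategoryTheory MonoidalCategory Filter Topology OnePoint
open Vale.Agent.P251.G Vale.Agent.P251.G.LC
open Vale.Agent.P263.G2 (join join_of_mem join_of_forall join_image continuous_join)

namespace Vale.Agent.P263.KJ

set_option linter.unusedSectionVars false

/-! ### The join of morphisms of `LC` -/

section joinLC

variable {A B : LC} {ι : Type*}

/-- the union of finitely many morphisms with disjoint supports -/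
noncomputable def joinLC (s : Finset ι) (f : ι → (A ⟶ B))
    (h : ∀ a : A, G2.Sub ((fun i => app (f i) (a : OnePoint A)) '' (s : Set ι))) : A ⟶ B :=
  ⟨⟨fun x => join ((fun i => app (f i) x) '' (s : Set ι)), by
    refine continuous_join (Y := B) (Z := OnePoint A) s (fun i x => app (f i) x)
      (fun i _ => continuous_app (f i)) fun x => ?_
    induction x using OnePoint.rec with
    | infty =>
      rintro _ ⟨i, -, rfl⟩ _ - h1 -
      exact absurd (app_infty _) h1
    | coe a => exact h a⟩, by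
    refine join_of_forall ?_
    rintro _ ⟨i, -, rfl⟩
    exact app_infty _⟩

theorem app_joinLC (s : Finset ι) (f : ι → (A ⟶ B))
    (h : ∀ a : A, G2.Sub ((fun i => app (f i) (a : OnePoint A)) '' (s : Set ι))) (x : OnePoint A) :
    app (joinLC s f h) x = join ((fun i => app (f i) x) '' (s : Set ι)) := rfl

end joinLC

variable {V : Type} [NormedAddCommGroup V] [InnerProductSpace ℝ V] [FiniteDimensional ℝ V]

/-! ### Half sum and half difference -/

section hs

/-- half sum and half difference -/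
noncomputable def hs (a b : OnePoint V) : OnePoint (V × V) :=
  OnePoint.map (addSub V).symm (smash a b)

@[simp] theorem hs_infty_left (b : OnePoint V) : hs (∞ : OnePoint V) b = ∞ := by simp [hs]

@[simp] theorem hs_infty_right (a : OnePoint V) : hs a (∞ : OnePoint V) = ∞ := by simp [hs]

theorem hs_coe (a b : V) : hs (a : OnePoint V) (b : OnePoint V) =
    (((2 : ℝ)⁻¹ • (a + b), (2 : ℝ)⁻¹ • (a - b)) : V × V) := rfl

theorem hs_ne_infty {a b : OnePoint V} (h : hs a b ≠ ∞) : a ≠ ∞ ∧ b ≠ ∞ := by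
  constructor
  · rintro rfl; exact h (hs_infty_left b)
  · rintro rfl; exact h (hs_infty_right a)

theorem hs_self (a : OnePoint V) : hs a a = smash a ((0 : V) : OnePoint V) := map_addSub_self a

theorem hs_swap (a b : OnePoint V) :
    hs b a = OnePoint.map (fun p : V × V => (p.1, -p.2)) (hs a b) := map_addSub_swap a b

end hs

/-! ### The tube construction, pointwise -/

section jT

/-- the tube -/
noncomputable def qV (p : ℝ × EN V) : V →L[ℝ] V :=
  Kr p.1 • ten (p.2.1.1 : V) (p.2.1.1 : V) + (Kr p.1 / 4) • sq p.2.1.2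

theorem qP_apply (Y : LC) (y : Y) (p : ℝ × EN V) : qP Y (y, p) = (y, qV p) := rfl

theorem qV_eq {p p' : ℝ × EN V} (h : qV p = qV p') : p' = p ∨ p' = (p.1, negEN p.2) := by
  rcases qP_eq (Y := LC.of Unit) (p := ((), p)) (p' := ((), p'))
    (by rw [qP_apply, qP_apply, h]) with h1 | h1
  · exact Or.inl (congrArg Prod.snd h1)
  · exact Or.inr (congrArg Prod.snd h1)

variable {Z : LC}

open scoped Classical in
/-- the tube construction for functions -/
noncomputable def jT (δ : V → ℝ → SV V → OnePoint (Z × V)) (z : OnePoint (V × (V →L[ℝ] V))) :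
    OnePoint (Z × ((V →L[ℝ] V) × PV V)) :=
  z.elim ∞ fun z => if h : ∃ p : ℝ × EN V, qV p = z.2 then
    finP Z h.choose.2 (δ z.1 h.choose.1 h.choose.2.1.1) else ∞

/-- equivariance -/
def EquiF (δ : V → ℝ → SV V → OnePoint (Z × V)) : Prop :=
  ∀ s r u, δ s r (-u) = OnePoint.map (fun p : Z × V => (p.1, -p.2)) (δ s r u)

@[simp] theorem jT_infty (δ : V → ℝ → SV V → OnePoint (Z × V)) :
    jT δ (∞ : OnePoint (V × (V →L[ℝ] V))) = ∞ := rfl

theorem jT_coe {δ : V → ℝ → SV V → OnePoint (Z × V)} (hδ : EquiF δ) (s : V) (p : ℝ × EN V) :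
    jT δ (((s, qV p) : V × (V →L[ℝ] V)) : OnePoint (V × (V →L[ℝ] V))) =
      finP Z p.2 (δ s p.1 p.2.1.1) := by
  have h : ∃ p' : ℝ × EN V, qV p' = qV p := ⟨p, rfl⟩
  have h1 : jT δ (((s, qV p) : V × (V →L[ℝ] V)) : OnePoint (V × (V →L[ℝ] V))) =
      finP Z h.choose.2 (δ s h.choose.1 h.choose.2.1.1) := dif_pos h
  rw [h1]
  have h0 := qV_eq h.choose_spec
  generalize h.choose = q at h0
  rcases h0 with rfl | rfl
  · rfl
  · change finP Z q.2 (δ s q.1 q.2.1.1) = finP Z (negEN q.2) (δ s q.1 (-q.2.1.1))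
    rw [hδ, finP_neg]

theorem jT_of_notMem (δ : V → ℝ → SV V → OnePoint (Z × V)) (s : V) {B : V →L[ℝ] V}
    (h : ∀ p : ℝ × EN V, qV p ≠ B) :
    jT δ (((s, B) : V × (V →L[ℝ] V)) : OnePoint (V × (V →L[ℝ] V))) = ∞ := by
  refine dif_neg ?_
  rintro ⟨p, hp⟩
  exact h p hp

@[simp] theorem finP_infty (e : EN V) : finP Z e ∞ = ∞ := rfl

theorem finP_eq_infty {e : EN V} {d : OnePoint (Z × V)} : finP Z e d = ∞ ↔ d = ∞ := by
  induction d using OnePoint.rec with
  | infty => simp
  | coe d =>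
    constructor
    · intro h
      exact absurd h (OnePoint.coe_ne_infty _)
    · intro h
      exact absurd h (OnePoint.coe_ne_infty _)

/-- the tube construction is the literal `J` -/
theorem app_J_eq {X : LC} (D : LC.of ((X × V) × (ℝ × SV V)) ⟶ LC.of (Z × V))
    (hD : Equi (Y := LC.of (X × V)) D) (x : X) (s : V) (B : V →L[ℝ] V) :
    app (J (Y := LC.of (X × V)) D hD) ((((x, s), B) : (X × V) × (V →L[ℝ] V)) : OnePoint ((X × V) × (V →L[ℝ] V))) =
      jT (fun s r u => app D ((((x, s), (r, u)) : (X × V) × (ℝ × SV V)) :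
        OnePoint ((X × V) × (ℝ × SV V)))) (((s, B) : V × (V →L[ℝ] V)) :
          OnePoint (V × (V →L[ℝ] V))) := by
  by_cases h : ∃ p : ℝ × EN V, qV p = B
  · obtain ⟨p, rfl⟩ := h
    rw [jT_coe (fun s r u => hD (x, s) r u)]
    exact app_J (Y := LC.of (X × V)) hD (x, s) p.1 p.2
  · rw [jT_of_notMem _ s fun p hp => h ⟨p, hp⟩]
    refine app_J_of_notMem (Y := LC.of (X × V)) hD ?_
    rintro ⟨⟨y, p⟩, hp⟩
    exact h ⟨p, congrArg Prod.snd hp⟩

/-- the tube construction commutes with joins -/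
theorem jT_join {κ : Type*} (s : Set κ) (δ : κ → V → ℝ → SV V → OnePoint (Z × V))
    (h : ∀ v r u, G2.Sub ((fun k => δ k v r u) '' s)) (z : OnePoint (V × (V →L[ℝ] V))) :
    jT (fun v r u => join ((fun k => δ k v r u) '' s)) z = join ((fun k => jT (δ k) z) '' s) := by
  induction z using OnePoint.rec with
  | infty =>
    symm
    rw [jT_infty]
    refine join_of_forall ?_
    rintro _ ⟨k, -, rfl⟩
    rfl
  | coe z =>
    obtain ⟨v, B⟩ := z
    by_cases hB : ∃ p : ℝ × EN V, qV p = B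
    · have e : ∀ δ : V → ℝ → SV V → OnePoint (Z × V),
          jT δ (((v, B) : V × (V →L[ℝ] V)) : OnePoint (V × (V →L[ℝ] V))) =
            finP Z hB.choose.2 (δ v hB.choose.1 hB.choose.2.1.1) := fun δ => dif_pos hB
      rw [e]
      have e2 : (fun k => jT (δ k) (((v, B) : V × (V →L[ℝ] V)) :
          OnePoint (V × (V →L[ℝ] V)))) '' s =
          finP Z hB.choose.2 '' ((fun k => δ k v hB.choose.1 hB.choose.2.1.1) '' s) := by
        rw [Set.image_image]
        exact Set.image_congr fun k _ => e (δ k)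
      rw [e2, join_image (h _ _ _) (finP Z hB.choose.2) (finP_infty _)]
    · have e : ∀ δ : V → ℝ → SV V → OnePoint (Z × V),
          jT δ (((v, B) : V × (V →L[ℝ] V)) : OnePoint (V × (V →L[ℝ] V))) = ∞ :=
        fun δ => dif_neg hB
      rw [e]
      symm
      refine join_of_forall ?_
      rintro _ ⟨k, -, rfl⟩
      exact e (δ k)

theorem jT_ne_infty {δ : V → ℝ → SV V → OnePoint (Z × V)} {z : OnePoint (V × (V →L[ℝ] V))}
    (h : jT δ z ≠ ∞) : ∃ (s : V) (p : ℝ × EN V), z = ((s, qV p) : V × (V →L[ℝ] V)) ∧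
      δ s p.1 p.2.1.1 ≠ ∞ := by
  induction z using OnePoint.rec with
  | infty => exact absurd rfl h
  | coe z =>
    obtain ⟨v, B⟩ := z
    by_cases hB : ∃ p : ℝ × EN V, qV p = B
    · have e : jT δ (((v, B) : V × (V →L[ℝ] V)) : OnePoint (V × (V →L[ℝ] V))) =
            finP Z hB.choose.2 (δ v hB.choose.1 hB.choose.2.1.1) := dif_pos hB
      rw [e] at h
      refine ⟨v, hB.choose, ?_, fun h1 => h (by rw [h1]; rfl)⟩
      rw [hB.choose_spec]
    · exact absurd (dif_neg hB) h

end jT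

/-! ### The polar map of a union -/

section dK

variable {ι : Type*}

/-- the polar map of `φ : V⁺ → V⁺` -/
noncomputable def dd (φ : OnePoint V → OnePoint V) (s : V) (r : ℝ) (u : SV V) :
    OnePoint (V × V) :=
  if r ≤ 0 then hs (φ ((s - r • (u : V) : V) : OnePoint V)) (φ ((s + r • (u : V) : V) : OnePoint V))
  else smash (φ (s : OnePoint V)) ((r • (u : V) : V) : OnePoint V)

theorem dd_eq {X : LC} (F : LC.of (X × V) ⟶ LC.of V) (x : X) {φ : OnePoint V → OnePoint V}
    (hφ : ∀ v : V, φ (v : OnePoint V) = app F (((x, v) : X × V) : OnePoint (X × V)))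
    (s : V) (r : ℝ) (u : SV V) :
    app (DD F) ((((x, s), (r, u)) : (X × V) × (ℝ × SV V)) : OnePoint ((X × V) × (ℝ × SV V))) =
      dd φ s r u := by
  unfold dd
  split_ifs with hr
  · rw [app_DD_of_nonpos F x s hr, ← hφ, ← hφ]
    rfl
  · rw [app_DD_of_nonneg F (x, s) (not_le.1 hr).le, ← hφ]

/-- the sheet of the pairs `(i, j)` with `{i, j} = K` -/
noncomputable def dK [DecidableEq ι] (φ : ι → OnePoint V → OnePoint V) (K : Finset ι) (s : V)
    (r : ℝ) (u : SV V) : OnePoint (V × V) :=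
  if r ≤ 0 then
    join ((fun p : ι × ι => hs (φ p.1 ((s - r • (u : V) : V) : OnePoint V))
      (φ p.2 ((s + r • (u : V) : V) : OnePoint V))) '' {p | {p.1, p.2} = K})
  else join ((fun i : ι => smash (φ i (s : OnePoint V)) ((r • (u : V) : V) : OnePoint V)) ''
    {i | {i} = K})

/-- disjoint supports -/
def Disj (S : Set ι) (φ : ι → OnePoint V → OnePoint V) : Prop :=
  ∀ i ∈ S, ∀ j ∈ S, i ≠ j → ∀ v, φ i v = ∞ ∨ φ j v = ∞

theorem Disj.eq {S : Set ι} {φ : ι → OnePoint V → OnePoint V} (h : Disj S φ) {i j : ι}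
    (hi : i ∈ S) (hj : j ∈ S) {v : OnePoint V} (h1 : φ i v ≠ ∞) (h2 : φ j v ≠ ∞) : i = j := by
  by_contra hne
  rcases h i hi j hj hne v with h3 | h3
  · exact h1 h3
  · exact h2 h3

theorem Disj.mono {S S' : Set ι} {φ : ι → OnePoint V → OnePoint V} (h : Disj S φ) (h' : S' ⊆ S) :
    Disj S' φ := fun i hi j hj => h i (h' hi) j (h' hj)

theorem Disj.sub {S : Set ι} {φ : ι → OnePoint V → OnePoint V} (h : Disj S φ) (v : OnePoint V) :
    G2.Sub ((fun i => φ i v) '' S) := by
  rintro _ ⟨i, hi, rfl⟩ _ ⟨j, hj, rfl⟩ h1 h2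
  have h3 : i = j := h.eq hi hj h1 h2
  subst h3
  rfl

variable [DecidableEq ι]

theorem mem_pair_left {i j : ι} {K : Finset ι} (h : ({i, j} : Finset ι) = K) : i ∈ K := by
  rw [← h]; simp

theorem mem_pair_right {i j : ι} {K : Finset ι} (h : ({i, j} : Finset ι) = K) : j ∈ K := by
  rw [← h]; simp

theorem sub_pairs {φ : ι → OnePoint V → OnePoint V} {K : Finset ι} (h : Disj (K : Set ι) φ)
    (a b : OnePoint V) :
    G2.Sub ((fun p : ι × ι => hs (φ p.1 a) (φ p.2 b)) '' {p | {p.1, p.2} = K}) := by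
  rintro _ ⟨p, hp, rfl⟩ _ ⟨q, hq, rfl⟩ h1 h2
  obtain ⟨h3, h4⟩ := hs_ne_infty h1
  obtain ⟨h5, h6⟩ := hs_ne_infty h2
  have e1 : p.1 = q.1 := h.eq (mem_pair_left hp) (mem_pair_left hq) h3 h5
  have e2 : p.2 = q.2 := h.eq (mem_pair_right hp) (mem_pair_right hq) h4 h6
  have e3 : p = q := Prod.ext e1 e2
  rw [e3]

theorem sub_sing {φ : ι → OnePoint V → OnePoint V} {K : Finset ι} (a b : OnePoint V) :
    G2.Sub ((fun i : ι => smash (φ i a) b) '' {i | {i} = K}) := by
  rintro _ ⟨i, hi, rfl⟩ _ ⟨j, hj, rfl⟩ _ _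
  have h : ({i} : Finset ι) = {j} := (hi : ({i} : Finset ι) = K).trans (hj : ({j} : Finset ι) = K).symm
  rw [Finset.singleton_inj] at h
  subst h
  rfl

theorem dK_of_nonpos (φ : ι → OnePoint V → OnePoint V) (K : Finset ι) (s : V) {r : ℝ}
    (hr : r ≤ 0) (u : SV V) : dK φ K s r u =
    join ((fun p : ι × ι => hs (φ p.1 ((s - r • (u : V) : V) : OnePoint V))
      (φ p.2 ((s + r • (u : V) : V) : OnePoint V))) '' {p | {p.1, p.2} = K}) := if_pos hr

theorem dK_of_pos (φ : ι → OnePoint V → OnePoint V) (K : Finset ι) (s : V) {r : ℝ}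
    (hr : 0 < r) (u : SV V) : dK φ K s r u =
    join ((fun i : ι => smash (φ i (s : OnePoint V)) ((r • (u : V) : V) : OnePoint V)) ''
      {i | {i} = K}) := if_neg (not_le.2 hr)

/-- the value of a sheet on a pair, inside -/
theorem dK_of_pair {φ : ι → OnePoint V → OnePoint V} {K : Finset ι} (h : Disj (K : Set ι) φ)
    (s : V) {r : ℝ} (hr : r ≤ 0) (u : SV V) {i j : ι} (hK : {i, j} = K)
    (h1 : φ i ((s - r • (u : V) : V) : OnePoint V) ≠ ∞)
    (h2 : φ j ((s + r • (u : V) : V) : OnePoint V) ≠ ∞) :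
    dK φ K s r u = hs (φ i ((s - r • (u : V) : V) : OnePoint V))
      (φ j ((s + r • (u : V) : V) : OnePoint V)) := by
  rw [dK_of_nonpos φ K s hr]
  refine join_of_mem (sub_pairs h _ _) ⟨(i, j), hK, rfl⟩ ?_
  obtain ⟨a, ha⟩ := OnePoint.ne_infty_iff_exists.1 h1
  obtain ⟨b, hb⟩ := OnePoint.ne_infty_iff_exists.1 h2
  rw [← ha, ← hb]
  exact OnePoint.coe_ne_infty _

/-- finiteness of a sheet, inside -/
theorem dK_ne_infty_of_nonpos {φ : ι → OnePoint V → OnePoint V} {K : Finset ι} {s : V} {r : ℝ}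
    (hr : r ≤ 0) {u : SV V} (h : dK φ K s r u ≠ ∞) :
    ∃ i j : ι, {i, j} = K ∧ φ i ((s - r • (u : V) : V) : OnePoint V) ≠ ∞ ∧
      φ j ((s + r • (u : V) : V) : OnePoint V) ≠ ∞ := by
  rw [dK_of_nonpos φ K s hr] at h
  by_contra hc
  push Not at hc
  refine h (join_of_forall ?_)
  rintro _ ⟨p, hp, rfl⟩
  by_cases h1 : φ p.1 ((s - r • (u : V) : V) : OnePoint V) = ∞
  · simp only [h1, hs_infty_left]
  · simp only [hc p.1 p.2 hp h1, hs_infty_right]

/-- finiteness of a sheet, outside -/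
theorem dK_ne_infty_of_pos {φ : ι → OnePoint V → OnePoint V} {K : Finset ι} {s : V} {r : ℝ}
    (hr : 0 < r) {u : SV V} (h : dK φ K s r u ≠ ∞) :
    ∃ i : ι, {i} = K ∧ φ i (s : OnePoint V) ≠ ∞ := by
  rw [dK_of_pos φ K s hr] at h
  by_contra hc
  push Not at hc
  refine h (join_of_forall ?_)
  rintro _ ⟨i, hi, rfl⟩
  simp only [hc i hi, smash_infty_left]

/-- only sets with one or two elements have a sheet -/
theorem card_of_dK_ne_infty {φ : ι → OnePoint V → OnePoint V} {K : Finset ι} {s : V} {r : ℝ}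
    {u : SV V} (h : dK φ K s r u ≠ ∞) : K.Nonempty ∧ K.card ≤ 2 := by
  rcases le_or_gt r 0 with hr | hr
  · obtain ⟨i, j, rfl, -, -⟩ := dK_ne_infty_of_nonpos hr h
    exact ⟨by simp, Finset.card_le_two⟩
  · obtain ⟨i, rfl, -⟩ := dK_ne_infty_of_pos hr h
    exact ⟨by simp, by simp⟩

/-- the sheets are equivariant -/
theorem equiF_dK {φ : ι → OnePoint V → OnePoint V} {K : Finset ι} (h : Disj (K : Set ι) φ) :
    EquiF (Z := LC.of V) (dK φ K) := by
  intro s r u
  rcases le_or_gt r 0 with hr | hr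
  · rw [dK_of_nonpos φ K s hr, dK_of_nonpos φ K s hr]
    refine Eq.trans ?_ (join_image (sub_pairs h _ _)
      (OnePoint.map fun p : V × V => (p.1, -p.2)) rfl)
    congr 1
    rw [Set.image_image]
    ext y
    constructor
    · rintro ⟨p, hp, rfl⟩
      refine ⟨(p.2, p.1), ?_, ?_⟩
      · rw [Set.mem_ofPred_eq] at hp ⊢
        rw [← hp, Finset.pair_comm]
      · simp only [coe_neg_sphere, smul_neg, sub_neg_eq_add, ← sub_eq_add_neg]
        exact (hs_swap _ _).symm
    · rintro ⟨p, hp, rfl⟩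
      refine ⟨(p.2, p.1), ?_, ?_⟩
      · rw [Set.mem_ofPred_eq] at hp ⊢
        rw [← hp, Finset.pair_comm]
      · simp only [coe_neg_sphere, smul_neg, sub_neg_eq_add, ← sub_eq_add_neg]
        exact hs_swap _ _
  · rw [dK_of_pos φ K s hr, dK_of_pos φ K s hr]
    refine Eq.trans ?_ (join_image (sub_sing _ _)
      (OnePoint.map fun p : V × V => (p.1, -p.2)) rfl)
    congr 1
    rw [Set.image_image]
    refine Set.image_congr fun i _ => ?_
    generalize φ i _ = w
    induction w using OnePoint.rec with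
    | infty => simp
    | coe w =>
      simp only [smash_coe_coe, OnePoint.map_some, coe_neg_sphere, smul_neg]

/-- two different sheets are never finite at the same point -/
theorem dK_disj {S : Set ι} {φ : ι → OnePoint V → OnePoint V} (h : Disj S φ) {K K' : Finset ι}
    (hK : (K : Set ι) ⊆ S) (hK' : (K' : Set ι) ⊆ S) {s : V} {r : ℝ} {u : SV V}
    (h1 : dK φ K s r u ≠ ∞) (h2 : dK φ K' s r u ≠ ∞) : K = K' := by
  rcases le_or_gt r 0 with hr | hr
  · obtain ⟨i, j, rfl, hi, hj⟩ := dK_ne_infty_of_nonpos hr h1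
    obtain ⟨i', j', rfl, hi', hj'⟩ := dK_ne_infty_of_nonpos hr h2
    have e1 : i = i' := h.eq (hK (by simp)) (hK' (by simp)) hi hi'
    have e2 : j = j' := h.eq (hK (by simp)) (hK' (by simp)) hj hj'
    rw [e1, e2]
  · obtain ⟨i, rfl, hi⟩ := dK_ne_infty_of_pos hr h1
    obtain ⟨i', rfl, hi'⟩ := dK_ne_infty_of_pos hr h2
    rw [h.eq (hK (by simp)) (hK' (by simp)) hi hi']

theorem sub_dK {S : Set ι} {φ : ι → OnePoint V → OnePoint V} (h : Disj S φ)
    {𝓚 : Set (Finset ι)} (h𝓚 : ∀ K ∈ 𝓚, (K : Set ι) ⊆ S) (s : V) (r : ℝ) (u : SV V) :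
    G2.Sub ((fun K => dK φ K s r u) '' 𝓚) := by
  rintro _ ⟨K, hK, rfl⟩ _ ⟨K', hK', rfl⟩ h1 h2
  have e : K = K' := dK_disj h (h𝓚 K hK) (h𝓚 K' hK') h1 h2
  rw [e]

/-- **The polar map of the union is the union of the sheets.** -/
theorem dd_join {S : Set ι} {φ : ι → OnePoint V → OnePoint V} (h : Disj S φ)
    {𝓚 : Set (Finset ι)} (h𝓚 : ∀ K : Finset ι, K ∈ 𝓚 ↔ (K : Set ι) ⊆ S ∧ K.Nonempty ∧ K.card ≤ 2)
    (s : V) (r : ℝ) (u : SV V) :
    dd (fun v => join ((fun i => φ i v) '' S)) s r u = join ((fun K => dK φ K s r u) '' 𝓚) := by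
  have hsub := sub_dK h (𝓚 := 𝓚) (fun K hK => ((h𝓚 K).1 hK).1) s r u
  unfold dd
  beta_reduce
  split_ifs with hr
  · by_cases h1 : ∃ i ∈ S, φ i ((s - r • (u : V) : V) : OnePoint V) ≠ ∞
    · by_cases h2 : ∃ j ∈ S, φ j ((s + r • (u : V) : V) : OnePoint V) ≠ ∞
      · obtain ⟨i, hi, h1⟩ := h1
        obtain ⟨j, hj, h2⟩ := h2
        rw [join_of_mem (h.sub _) ⟨i, hi, rfl⟩ h1, join_of_mem (h.sub _) ⟨j, hj, rfl⟩ h2]
        have hK : (({i, j} : Finset ι) : Set ι) ⊆ S := by
          intro k hk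
          rw [Finset.coe_insert, Finset.coe_singleton] at hk
          rcases hk with rfl | hk
          · exact hi
          · rw [Set.mem_singleton_iff.1 hk]; exact hj
        have e1 := dK_of_pair (h.mono hK) s hr u rfl h1 h2
        rw [← e1]
        refine (join_of_mem hsub ⟨{i, j}, (h𝓚 _).2 ⟨hK, by simp, Finset.card_le_two⟩, rfl⟩ ?_).symm
        beta_reduce
        rw [e1]
        obtain ⟨a, ha⟩ := OnePoint.ne_infty_iff_exists.1 h1
        obtain ⟨b, hb⟩ := OnePoint.ne_infty_iff_exists.1 h2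
        rw [← ha, ← hb]
        exact OnePoint.coe_ne_infty _
      · push Not at h2
        rw [join_of_forall (A := (fun j => φ j ((s + r • (u : V) : V) : OnePoint V)) '' S)
          (by rintro _ ⟨j, hj, rfl⟩; exact h2 j hj), hs_infty_right]
        symm
        refine join_of_forall ?_
        rintro _ ⟨K, hK, rfl⟩
        by_contra hc
        obtain ⟨i, j, rfl, hi, hj⟩ := dK_ne_infty_of_nonpos hr hc
        exact hj (h2 j (((h𝓚 _).1 hK).1 (by simp)))
    · push Not at h1
      rw [join_of_forall (A := (fun j => φ j ((s - r • (u : V) : V) : OnePoint V)) '' S)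
        (by rintro _ ⟨j, hj, rfl⟩; exact h1 j hj), hs_infty_left]
      symm
      refine join_of_forall ?_
      rintro _ ⟨K, hK, rfl⟩
      by_contra hc
      obtain ⟨i, j, rfl, hi, hj⟩ := dK_ne_infty_of_nonpos hr hc
      exact hi (h1 i (((h𝓚 _).1 hK).1 (by simp)))
  · have hr' : 0 < r := not_le.1 hr
    by_cases h1 : ∃ i ∈ S, φ i (s : OnePoint V) ≠ ∞
    · obtain ⟨i, hi, h1⟩ := h1
      rw [join_of_mem (h.sub _) ⟨i, hi, rfl⟩ h1]
      have hK : (({i} : Finset ι) : Set ι) ⊆ S := by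
        rw [Finset.coe_singleton, Set.singleton_subset_iff]; exact hi
      have hne : smash (φ i (s : OnePoint V)) ((r • (u : V) : V) : OnePoint V) ≠ ∞ := by
        obtain ⟨a, ha⟩ := OnePoint.ne_infty_iff_exists.1 h1
        rw [← ha]
        exact OnePoint.coe_ne_infty _
      have e1 : dK φ {i} s r u = smash (φ i (s : OnePoint V)) ((r • (u : V) : V) : OnePoint V) := by
        rw [dK_of_pos φ {i} s hr']
        exact join_of_mem (sub_sing _ _) ⟨i, rfl, rfl⟩ hne
      rw [← e1]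
      refine (join_of_mem hsub ⟨{i}, (h𝓚 _).2 ⟨hK, by simp, by simp⟩, rfl⟩ ?_).symm
      beta_reduce
      rw [e1]
      exact hne
    · push Not at h1
      rw [join_of_forall (A := (fun j => φ j (s : OnePoint V)) '' S)
        (by rintro _ ⟨j, hj, rfl⟩; exact h1 j hj), smash_infty_left]
      symm
      refine join_of_forall ?_
      rintro _ ⟨K, hK, rfl⟩
      by_contra hc
      obtain ⟨i, rfl, hi⟩ := dK_ne_infty_of_pos hr' hc
      exact hi (h1 i (((h𝓚 _).1 hK).1 (by simp)))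

/-- **`J` of the union is the union of the sheets.** -/
theorem jT_dd_join {S : Set ι} {φ : ι → OnePoint V → OnePoint V} (h : Disj S φ)
    {𝓚 : Set (Finset ι)} (h𝓚 : ∀ K : Finset ι, K ∈ 𝓚 ↔ (K : Set ι) ⊆ S ∧ K.Nonempty ∧ K.card ≤ 2)
    (z : OnePoint (V × (V →L[ℝ] V))) :
    jT (Z := LC.of V) (dd (fun v => join ((fun i => φ i v) '' S))) z =
      join ((fun K => jT (Z := LC.of V) (dK φ K) z) '' 𝓚) := by
  have e : dd (fun v => join ((fun i => φ i v) '' S)) =
      fun v r u => join ((fun K => dK φ K v r u) '' 𝓚) := by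
    funext v r u
    exact dd_join h h𝓚 v r u
  rw [e]
  exact jT_join (Z := LC.of V) 𝓚 (fun K => dK φ K)
    (fun v r u => sub_dK h (fun K hK => ((h𝓚 K).1 hK).1) v r u) z

/-- two different sheets of `J` are never finite at the same point -/
theorem jT_dK_disj {S : Set ι} {φ : ι → OnePoint V → OnePoint V} (h : Disj S φ) {K K' : Finset ι}
    (hK : (K : Set ι) ⊆ S) (hK' : (K' : Set ι) ⊆ S) (hne : K ≠ K')
    (z : OnePoint (V × (V →L[ℝ] V))) :
    jT (Z := LC.of V) (dK φ K) z = ∞ ∨ jT (Z := LC.of V) (dK φ K') z = ∞ := by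
  by_contra hc
  push Not at hc
  obtain ⟨s, p, rfl, h1⟩ := jT_ne_infty hc.1
  have h2 : jT (Z := LC.of V) (dK φ K') (((s, qV p) : V × (V →L[ℝ] V)) :
      OnePoint (V × (V →L[ℝ] V))) ≠ ∞ := hc.2
  rw [jT_coe (Z := LC.of V) (equiF_dK (h.mono hK'))] at h2
  have h3 : dK φ K' s p.1 p.2.1.1 ≠ ∞ := fun h4 => h2 (by rw [h4]; rfl)
  exact hne (dK_disj h hK hK' h1 h3)

end dK

/-! ### The sheets as morphisms -/

section DK

variable {X : LC} {ι : Type*} [DecidableEq ι]

/-- the map over a point of the parameter space -/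
def sl (F : LC.of (X × V) ⟶ LC.of V) (x : X) : OnePoint V → OnePoint V :=
  fun v => app F (smash (x : OnePoint X) v)

theorem sl_coe (F : LC.of (X × V) ⟶ LC.of V) (x : X) (v : V) :
    sl F x (v : OnePoint V) = app F (((x, v) : X × V) : OnePoint (X × V)) := rfl

@[simp] theorem sl_infty (F : LC.of (X × V) ⟶ LC.of V) (x : X) : sl F x ∞ = ∞ := by
  unfold sl
  rw [smash_infty_right, app_infty]

/-- `((x, s), g) ↦ hs (F (x, s + g)) (G (x, s - g))` -/
noncomputable def twoX2 (F G : LC.of (X × V) ⟶ LC.of V) : LC.of ((X × V) × V) ⟶ LC.of (V × V) :=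
  ofClosed (X := LC.of ((X × V) × V)) (Y := LC.of ((X × V) × (X × V)))
    (fun p : (X × V) × V => ((p.1.1, p.1.2 + p.2), (p.1.1, p.1.2 - p.2)))
    (Function.LeftInverse.isClosedEmbedding
      (f := fun q : (X × V) × (X × V) =>
        ((q.1.1, (2 : ℝ)⁻¹ • (q.1.2 + q.2.2)), (2 : ℝ)⁻¹ • (q.1.2 - q.2.2)))
      (by
        rintro ⟨⟨x, s⟩, g⟩
        simp only [add_add_sub_cancel, add_sub_sub_cancel, ← two_smul ℝ, smul_smul]
        norm_num)
      (by fun_prop) (by fun_prop)) ≫ tensorHom' F G ≫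
    (ofHomeo (X := LC.of (V × V)) (Y := LC.of (V × V)) (addSub V).symm).hom

theorem app_twoX2 (F G : LC.of (X × V) ⟶ LC.of V) (x : X) (s g : V) :
    app (twoX2 F G) ((((x, s), g) : (X × V) × V) : OnePoint ((X × V) × V)) =
      hs (app F (((x, s + g) : X × V) : OnePoint (X × V)))
          (app G (((x, s - g) : X × V) : OnePoint (X × V))) := rfl

/-- `((x, s), (r, u)) ↦ hs (F (x, s - r u)) (G (x, s + r u))` -/
noncomputable def inn (F G : LC.of (X × V) ⟶ LC.of V) :
    LC.of ((X × V) × (ℝ × SV V)) ⟶ LC.of (V × V) :=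
  tensorHom' (𝟙 (LC.of (X × V))) (muc V (-1) (by norm_num)) ≫ twoX2 F G

theorem app_inn (F G : LC.of (X × V) ⟶ LC.of V) (x : X) (s : V) (r : ℝ) (u : SV V) :
    app (inn F G) ((((x, s), (r, u)) : (X × V) × (ℝ × SV V)) :
      OnePoint ((X × V) × (ℝ × SV V))) =
      hs (sl F x ((s - r • (u : V) : V) : OnePoint V))
        (sl G x ((s + r • (u : V) : V) : OnePoint V)) := by
  change app (twoX2 F G) ((((x, s), (((-1 : ℝ) * r) • (u : V))) : (X × V) × V) :
        OnePoint ((X × V) × V)) = _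
  rw [app_twoX2, neg_one_mul, neg_smul, ← sub_eq_add_neg, sub_neg_eq_add]
  rfl

/-- `(y, (r, u)) ↦ smash (F y) (r u)` -/
noncomputable def outr (F : LC.of (X × V) ⟶ LC.of V) :
    LC.of ((X × V) × (ℝ × SV V)) ⟶ LC.of (V × V) :=
  tensorHom' F (muc V 1 one_ne_zero)

theorem app_outr (F : LC.of (X × V) ⟶ LC.of V) (x : X) (s : V) (r : ℝ) (u : SV V) :
    app (outr F) ((((x, s), (r, u)) : (X × V) × (ℝ × SV V)) : OnePoint ((X × V) × (ℝ × SV V))) =
      smash (sl F x (s : OnePoint V)) ((r • (u : V) : V) : OnePoint V) := by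
  change smash _ ((((1 : ℝ) * r) • (u : V) : V) : OnePoint V) = _
  rw [one_mul]
  rfl

variable (F : ι → (LC.of (X × V) ⟶ LC.of V)) (K : Finset ι)
  (h : ∀ x : X, Disj (K : Set ι) fun i => sl (F i) x)

theorem coe_pairs : (((K ×ˢ K).filter fun p => ({p.1, p.2} : Finset ι) = K : Finset (ι × ι)) :
    Set (ι × ι)) = {p | {p.1, p.2} = K} := by
  ext p
  rw [Finset.mem_coe, Finset.mem_filter, Finset.mem_product, Set.mem_ofPred_eq]
  exact ⟨fun hp => hp.2, fun hp => ⟨⟨mem_pair_left hp, mem_pair_right hp⟩, hp⟩⟩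

theorem coe_sing : ((K.filter fun i => ({i} : Finset ι) = K : Finset ι) : Set ι) =
    {i | {i} = K} := by
  ext i
  rw [Finset.mem_coe, Finset.mem_filter, Set.mem_ofPred_eq]
  exact ⟨fun hp => hp.2, fun hp => ⟨by rw [← hp]; simp, hp⟩⟩

/-- the inner half of a sheet -/
noncomputable def DKin : LC.of ((X × V) × (ℝ × SV V)) ⟶ LC.of (V × V) :=
  joinLC ((K ×ˢ K).filter fun p => ({p.1, p.2} : Finset ι) = K) (fun p => inn (F p.1) (F p.2))
    (by
      rintro ⟨⟨x, s⟩, r, u⟩
      rw [coe_pairs]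
      have e : (fun p : ι × ι => app (inn (F p.1) (F p.2))
          ((((x, s), (r, u)) : (X × V) × (ℝ × SV V)) : OnePoint ((X × V) × (ℝ × SV V)))) =
          fun p : ι × ι => hs (sl (F p.1) x ((s - r • (u : V) : V) : OnePoint V))
            (sl (F p.2) x ((s + r • (u : V) : V) : OnePoint V)) :=
        funext fun p => app_inn _ _ x s r u
      exact (congrArg (fun f : ι × ι → OnePoint (V × V) =>
        G2.Sub (f '' {p | {p.1, p.2} = K})) e).mpr (sub_pairs (h x) _ _))

theorem app_DKin (x : X) (s : V) (r : ℝ) (u : SV V) :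
    app (DKin F K h) ((((x, s), (r, u)) : (X × V) × (ℝ × SV V)) :
      OnePoint ((X × V) × (ℝ × SV V))) =
      join ((fun p : ι × ι => hs (sl (F p.1) x ((s - r • (u : V) : V) : OnePoint V))
        (sl (F p.2) x ((s + r • (u : V) : V) : OnePoint V))) '' {p | {p.1, p.2} = K}) := by
  unfold DKin
  rw [app_joinLC, coe_pairs]
  congr 1
  exact Set.image_congr fun p _ => app_inn _ _ x s r u

/-- the outer half of a sheet -/
noncomputable def DKout : LC.of ((X × V) × (ℝ × SV V)) ⟶ LC.of (V × V) :=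
  joinLC (K.filter fun i => ({i} : Finset ι) = K) (fun i => outr (F i))
    (by
      rintro ⟨⟨x, s⟩, r, u⟩
      rw [coe_sing]
      have e : (fun i : ι => app (outr (F i))
          ((((x, s), (r, u)) : (X × V) × (ℝ × SV V)) : OnePoint ((X × V) × (ℝ × SV V)))) =
          fun i : ι => smash (sl (F i) x (s : OnePoint V)) ((r • (u : V) : V) : OnePoint V) :=
        funext fun p => app_outr _ x s r u
      exact (congrArg (fun f : ι → OnePoint (V × V) =>
        G2.Sub (f '' {i | {i} = K})) e).mpr (sub_sing (φ := fun i => sl (F i) x) _ _))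

theorem app_DKout (x : X) (s : V) (r : ℝ) (u : SV V) :
    app (DKout F K) ((((x, s), (r, u)) : (X × V) × (ℝ × SV V)) :
      OnePoint ((X × V) × (ℝ × SV V))) =
      join ((fun i : ι => smash (sl (F i) x (s : OnePoint V)) ((r • (u : V) : V) : OnePoint V)) ''
        {i | {i} = K}) := by
  unfold DKout
  rw [app_joinLC, coe_sing]
  congr 1
  exact Set.image_congr fun p _ => app_outr _ x s r u

/-- the sheet of `K` of the polar map -/
noncomputable def DK : LC.of ((X × V) × (ℝ × SV V)) ⟶ LC.of (V × V) :=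
  glue (X := LC.of ((X × V) × (ℝ × SV V))) (Y := LC.of (V × V)) (DKin F K h) (DKout F K)
    (fun p : (X × V) × (ℝ × SV V) => p.2.1) (by fun_prop)
    (by
      rintro ⟨⟨x, s⟩, r, u⟩ hr
      change r = 0 at hr
      subst hr
      rw [app_DKin, app_DKout]
      simp only [zero_smul, add_zero, sub_zero]
      by_cases h1 : ∃ i, ({i} : Finset ι) = K
      · obtain ⟨i, rfl⟩ := h1
        have e1 : {p : ι × ι | ({p.1, p.2} : Finset ι) = {i}} = {(i, i)} := by
          ext ⟨a, b⟩
          rw [Set.mem_ofPred_eq, Set.mem_singleton_iff]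
          constructor
          · intro h2
            have ha : a ∈ ({i} : Finset ι) := by rw [← h2]; simp
            have hb : b ∈ ({i} : Finset ι) := by rw [← h2]; simp
            rw [Finset.mem_singleton.1 ha, Finset.mem_singleton.1 hb]
          · rintro h2
            obtain ⟨rfl, rfl⟩ := Prod.mk.inj h2
            simp
        have e2 : {j : ι | ({j} : Finset ι) = {i}} = {i} := by
          ext j
          rw [Set.mem_ofPred_eq, Finset.singleton_inj, Set.mem_singleton_iff]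
        rw [e1, e2, Set.image_singleton, Set.image_singleton, hs_self]
      · push Not at h1
        rw [join_of_forall, join_of_forall]
        · rintro _ ⟨i, hi, rfl⟩
          exact absurd hi (h1 i)
        · rintro _ ⟨⟨i, j⟩, hij, rfl⟩
          by_contra hc
          obtain ⟨h2, h3⟩ := hs_ne_infty hc
          have h4 : i = j := (h x).eq (mem_pair_left hij) (mem_pair_right hij) h2 h3
          subst h4
          refine h1 i ?_
          rw [Set.mem_ofPred_eq] at hij
          rw [← hij]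
          simp)

theorem app_DK (x : X) (s : V) (r : ℝ) (u : SV V) :
    app (DK F K h) ((((x, s), (r, u)) : (X × V) × (ℝ × SV V)) :
      OnePoint ((X × V) × (ℝ × SV V))) = dK (fun i => sl (F i) x) K s r u := by
  rcases le_or_gt r 0 with hr | hr
  · rw [dK_of_nonpos _ K s hr, ← app_DKin F K h x s r u]
    exact app_glue_of_le (X := LC.of ((X × V) × (ℝ × SV V))) (x := ((x, s), (r, u))) hr
  · rw [dK_of_pos _ K s hr, ← app_DKout F K x s r u]
    exact app_glue_of_ge (X := LC.of ((X × V) × (ℝ × SV V))) (x := ((x, s), (r, u))) hr.le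

theorem equi_DK : Equi (Y := LC.of (X × V)) (Z := LC.of V) (DK F K h) := by
  rintro ⟨x, s⟩ r u
  rw [app_DK, app_DK]
  exact equiF_dK (h x) s r u

/-- the sheet of `K` of the literal `J` -/
noncomputable def JK : LC.of ((X × V) × (V →L[ℝ] V)) ⟶ LC.of (V × ((V →L[ℝ] V) × PV V)) :=
  J (Y := LC.of (X × V)) (Z := LC.of V) (DK F K h) (equi_DK F K h)

theorem app_JK (x : X) (s : V) (B : V →L[ℝ] V) :
    app (JK F K h) ((((x, s), B) : (X × V) × (V →L[ℝ] V)) :
      OnePoint ((X × V) × (V →L[ℝ] V))) =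
      jT (Z := LC.of V) (dK (fun i => sl (F i) x) K) (((s, B) : V × (V →L[ℝ] V)) :
        OnePoint (V × (V →L[ℝ] V))) := by
  unfold JK
  rw [app_J_eq (X := X) (Z := LC.of V) (DK F K h) (equi_DK F K h) x s B]
  congr 1
  funext s r u
  exact app_DK F K h x s r u

/-- the literal `J` of a morphism, pointwise -/
theorem app_J_DD (G : LC.of (X × V) ⟶ LC.of V) (x : X) (s : V) (B : V →L[ℝ] V) :
    app (J (Y := LC.of (X × V)) (Z := LC.of V) (DD G) (equi_DD G))
      ((((x, s), B) : (X × V) × (V →L[ℝ] V)) : OnePoint ((X × V) × (V →L[ℝ] V))) =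
      jT (Z := LC.of V) (dd (sl G x)) (((s, B) : V × (V →L[ℝ] V)) :
        OnePoint (V × (V →L[ℝ] V))) := by
  rw [app_J_eq (X := X) (Z := LC.of V) (DD G) (equi_DD G) x s B]
  congr 1
  funext s r u
  exact dd_eq G x (fun v => (sl_coe G x v)) s r u

end DK

end Vale.Agent.P263.KJ
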