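import Vale.Agent.P263.KJ.KJ3
import Vale.Agent.P263.KJ.Sheets
import Vale.Agent.P263.TJ.Cube
import Mathlib.LinearAlgebra.FreeModule.Finite.Matrix

/-!
# P263, block KJ: Kahn-Priddy for the literal spheres

* `susp F k : Sph (m + k) → Sph (n + k)`, `F ∧ id`; `susp_join2`, `susp_mu`, `susp_homotopicRel`.
* `V = EuclideanSpace ℝ (Fin n)`, `kk n = n * n + n`, `eW n : ((V →L V) × V) ≃L (Fin (kk n) → ℝ)`.
* `gamS F : Sph ((d + n) + kk n) → ((Fin (n + kk n) → ℝ) × PV V)⁺` : the literal `J`, times `id_V`;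
* `lamS n : ((Fin (n + kk n) → ℝ) × PV V)⁺ → Sph (n + kk n)` : the literal Kahn-Priddy map;
* `kp : lamS ∘ gamS F ≃ susp F` rel `∞`, for `d > 0`.
-/

open CategoryTheory MonoidalCategory Filter Topology OnePoint
open Vale.Agent.P251.G
open Vale.Agent.P251.G.LC hiding Sph RR
open Vale.Agent.P263.T0 Vale.Agent.P263.TJ Vale.Agent.P263.G2

namespace Vale.Agent.P263.KJ

/-! ### Smash product with a sphere -/

section susp

variable {m n l : ℕ}

/-- a pointed map as a morphism of `LC` -/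
def ptd {X Y : LC} (F : C(OnePoint X, OnePoint Y)) (hF : F ∞ = ∞) : X ⟶ Y := ⟨F, hF⟩

theorem app_ptd {X Y : LC} (F : C(OnePoint X, OnePoint Y)) (hF : F ∞ = ∞) (x : OnePoint X) :
    app (ptd F hF) x = F x := rfl

/-- `ℝᵐ × ℝᵏ = ℝᵐ⁺ᵏ` -/
noncomputable def appI (m k : ℕ) : LC.of ((Fin m → ℝ) × (Fin k → ℝ)) ≅ RR (m + k) :=
  ofHomeo (X := LC.of ((Fin m → ℝ) × (Fin k → ℝ))) (Y := RR (m + k))
    (Fin.appendHomeomorph (X := ℝ) m k)

theorem app_appI (m k : ℕ) (x : Sph m) (y : Sph k) :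
    app (appI m k).hom (smash x y) = join2 x y := by
  induction x using OnePoint.rec with
  | infty => rfl
  | coe x =>
    induction y using OnePoint.rec with
    | infty => rfl
    | coe y => rfl

/-- `f ∧ id` -/
noncomputable def suspLC (f : RR m ⟶ RR n) (k : ℕ) : RR (m + k) ⟶ RR (n + k) :=
  (appI m k).inv ≫ tensorHom' f (𝟙 (RR k)) ≫ (appI n k).hom

theorem app_tens {X Y Z W : LC} (f : X ⟶ Y) (g : Z ⟶ W) (x : OnePoint X) (z : OnePoint Z) :
    app (tensorHom' f g) (smash x z) = smash (app f x) (app g z) :=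
  app_tensorHom_smash f g x z

theorem app_suspLC (f : RR m ⟶ RR n) (k : ℕ) (x : Sph m) (y : Sph k) :
    app (suspLC f k) (join2 x y) = join2 (app f x) y := by
  rw [suspLC, ← app_appI, ← app_comp, Iso.hom_inv_id_assoc, app_comp, app_tens, app_appI]
  rfl

/-- `F ∧ id` -/
noncomputable def susp (F : C(Sph m, Sph n)) (hF : F ∞ = ∞) (k : ℕ) : C(Sph (m + k), Sph (n + k)) :=
  Hom.toMap (suspLC (ptd (X := RR m) (Y := RR n) F hF) k)

theorem susp_join2 (F : C(Sph m, Sph n)) (hF : F ∞ = ∞) {k : ℕ} (x : Sph m) (y : Sph k) :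
    susp F hF k (join2 x y) = join2 (F x) y :=
  app_suspLC (ptd (X := RR m) (Y := RR n) F hF) k x y

@[simp] theorem susp_infty (F : C(Sph m, Sph n)) (hF : F ∞ = ∞) (k : ℕ) : susp F hF k ∞ = ∞ :=
  Hom.map_infty (suspLC (ptd (X := RR m) (Y := RR n) F hF) k)

theorem join2_surj (m k : ℕ) (z : Sph (m + k)) : ∃ (x : Sph m) (y : Sph k), join2 x y = z := by
  induction z using OnePoint.rec with
  | infty => exact ⟨∞, ∞, join2_infty_left _⟩
  | coe z =>
    refine ⟨((fun i => z (Fin.castAdd k i) : Fin m → ℝ) : Sph m),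
      ((fun i => z (Fin.natAdd m i) : Fin k → ℝ) : Sph k), ?_⟩
    rw [join2_coe, Fin.append_castAdd_natAdd]

/-- uniqueness of the map with the values of `susp F` -/
theorem susp_unique (F : C(Sph m, Sph n)) (hF : F ∞ = ∞) {k : ℕ} {G : C(Sph (m + k), Sph (n + k))}
    (h : ∀ (x : Sph m) (y : Sph k), G (join2 x y) = join2 (F x) y) : G = susp F hF k := by
  apply ContinuousMap.ext
  intro z
  obtain ⟨x, y, rfl⟩ := join2_surj m k z
  rw [h, susp_join2]

theorem susp_comp (F : C(Sph m, Sph n)) (hF : F ∞ = ∞) (G : C(Sph n, Sph l)) (hG : G ∞ = ∞)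
    (k : ℕ) : (susp G hG k).comp (susp F hF k) =
      susp (G.comp F) (by rw [ContinuousMap.comp_apply, hF, hG]) k := by
  apply susp_unique
  intro x y
  rw [ContinuousMap.comp_apply, susp_join2, susp_join2]
  rfl

theorem susp_id (k : ℕ) : susp (ContinuousMap.id (Sph m)) rfl k = ContinuousMap.id _ := by
  symm
  apply susp_unique
  intro x y
  rfl

/-- homotopic maps have homotopic suspensions -/
theorem susp_homotopicRel {F G : C(Sph m, Sph n)} (h : F.HomotopicRel G {∞}) (hF : F ∞ = ∞)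
    (hG : G ∞ = ∞) (k : ℕ) : (susp F hF k).HomotopicRel (susp G hG k) {∞} := by
  refine (homotopic_iff _ _).1 ?_
  have h1 : Homotopic (ptd (X := RR m) (Y := RR n) F hF) (ptd (X := RR m) (Y := RR n) G hG) :=
    (homotopic_iff _ _).2 h
  exact Homotopic.comp_left _ (Homotopic.comp_right
    (Homotopic.tensor h1 (Homotopic.refl (𝟙 (RR k)))) _)

/-- `F ∧ id` on the products with the cube -/
theorem susp_mu (F : C(Sph m, Sph n)) (hF : F ∞ = ∞) (k : ℕ) :
    (singMap (susp F hF k)).comp (mu m k) = (mu n k).comp (timesN (singMap F) k) := by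
  apply Vale.Agent.P263.E.SS.Map.ext
  intro p z
  apply ContinuousMap.ext
  intro t
  exact susp_join2 F hF (toC z.1 t) (cxC z.2 t)

end susp

/-! ### The coordinates -/

/-- Euclidean space -/
abbrev VV (n : ℕ) : Type := EuclideanSpace ℝ (Fin n)

/-- the dimension of `(V →L V) × V` -/
def kk (n : ℕ) : ℕ := n * n + n

/-- `V = ℝⁿ` -/
noncomputable def eV (n : ℕ) : VV n ≃L[ℝ] (Fin n → ℝ) := EuclideanSpace.equiv (Fin n) ℝ

theorem finrank_WV (n : ℕ) : Module.finrank ℝ ((VV n →L[ℝ] VV n) × VV n) = kk n := by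
  rw [Module.finrank_prod, ← LinearEquiv.finrank_eq
    (LinearMap.toContinuousLinearMap : (VV n →ₗ[ℝ] VV n) ≃ₗ[ℝ] (VV n →L[ℝ] VV n)),
    Module.finrank_linearMap, finrank_euclideanSpace, Fintype.card_fin]
  rfl

/-- `(V →L V) × V = ℝ^(n² + n)` -/
noncomputable def eW (n : ℕ) : ((VV n →L[ℝ] VV n) × VV n) ≃L[ℝ] (Fin (kk n) → ℝ) :=
  ContinuousLinearEquiv.ofFinrankEq (by rw [finrank_WV, Module.finrank_pi, Fintype.card_fin])

section coord

variable (d n : ℕ)

/-- source: `(((x, v), B), z) ↦ ((x, v), (B, z))` -/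
noncomputable def hSrc : ((((Fin d → ℝ) × VV n) × (VV n →L[ℝ] VV n)) × VV n) ≃ₜ
    (Fin ((d + n) + kk n) → ℝ) :=
  (Homeomorph.prodAssoc _ _ _).trans
    ((((Homeomorph.refl (Fin d → ℝ)).prodCongr (eV n).toHomeomorph).trans
      (Fin.appendHomeomorph (X := ℝ) d n)).prodCongr (eW n).toHomeomorph |>.trans
        (Fin.appendHomeomorph (X := ℝ) (d + n) (kk n)))

theorem hSrc_apply (x : Fin d → ℝ) (v : VV n) (B : VV n →L[ℝ] VV n) (z : VV n) :
    hSrc d n (((x, v), B), z) = Fin.append (Fin.append x (eV n v)) (eW n (B, z)) := rfl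

/-- permutation -/
def hPerm (A B C D : Type*) [TopologicalSpace A] [TopologicalSpace B] [TopologicalSpace C]
    [TopologicalSpace D] : ((A × (B × C)) × D) ≃ₜ ((A × (B × D)) × C) where
  toFun p := ((p.1.1, (p.1.2.1, p.2)), p.1.2.2)
  invFun q := ((q.1.1, (q.1.2.1, q.2)), q.1.2.2)
  left_inv _ := rfl
  right_inv _ := rfl
  continuous_toFun := by fun_prop
  continuous_invFun := by fun_prop

/-- the Euclidean coordinates of the target: `(m, (B, z)) ↦ append m (B, z)` -/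
noncomputable def hU : (VV n × ((VV n →L[ℝ] VV n) × VV n)) ≃ₜ (Fin (n + kk n) → ℝ) :=
  ((eV n).toHomeomorph.prodCongr (eW n).toHomeomorph).trans
    (Fin.appendHomeomorph (X := ℝ) n (kk n))

theorem hU_apply (m : VV n) (B : VV n →L[ℝ] VV n) (z : VV n) :
    hU n (m, (B, z)) = Fin.append (eV n m) (eW n (B, z)) := rfl

/-- middle: `((m, (B, p)), z) ↦ ((m, (B, z)), p)` -/
noncomputable def hT : ((VV n × ((VV n →L[ℝ] VV n) × PV (VV n))) × VV n) ≃ₜ
    (Fin (n + kk n) → ℝ) × PV (VV n) :=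
  (hPerm (VV n) (VV n →L[ℝ] VV n) (PV (VV n)) (VV n)).trans
    ((hU n).prodCongr (Homeomorph.refl (PV (VV n))))

theorem hT_apply (m : VV n) (B : VV n →L[ℝ] VV n) (p : PV (VV n)) (z : VV n) :
    hT n ((m, (B, p)), z) = (Fin.append (eV n m) (eW n (B, z)), p) := rfl

end coord

/-! ### The maps -/

section maps

variable {d n : ℕ}

/-- `F : S^(d+n) → Sⁿ` with the coordinates of `(ℝᵈ × V)⁺ → V⁺` -/
noncomputable def FL (F : C(Sph (d + n), Sph n)) (hF : F ∞ = ∞) :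
    LC.of ((Fin d → ℝ) × VV n) ⟶ LC.of (VV n) :=
  (ofHomeo (X := LC.of ((Fin d → ℝ) × VV n)) (Y := RR (d + n))
    (((Homeomorph.refl (Fin d → ℝ)).prodCongr (eV n).toHomeomorph).trans
      (Fin.appendHomeomorph (X := ℝ) d n))).hom ≫
  ptd (X := RR (d + n)) (Y := RR n) F hF ≫
  (ofHomeo (X := LC.of (VV n)) (Y := RR n) (eV n).toHomeomorph).inv

/-- `V⁺ → Sⁿ` -/
noncomputable def vS (n : ℕ) (v : OnePoint (VV n)) : Sph n := OnePoint.map (eV n) v

/-- `Sⁿ → V⁺` -/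
noncomputable def sV (n : ℕ) (v : Sph n) : OnePoint (VV n) := OnePoint.map (eV n).symm v

@[simp] theorem vS_infty (n : ℕ) : vS n ∞ = ∞ := rfl
@[simp] theorem sV_infty (n : ℕ) : sV n ∞ = ∞ := rfl

@[simp] theorem vS_coe (n : ℕ) (v : VV n) : vS n (v : OnePoint (VV n)) =
    ((eV n v : Fin n → ℝ) : Sph n) := rfl

@[simp] theorem sV_vS (n : ℕ) (v : OnePoint (VV n)) : sV n (vS n v) = v := by
  induction v using OnePoint.rec with
  | infty => rfl
  | coe v => exact congrArg _ ((eV n).symm_apply_apply v)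

@[simp] theorem vS_sV (n : ℕ) (v : Sph n) : vS n (sV n v) = v := by
  induction v using OnePoint.rec with
  | infty => rfl
  | coe v => exact congrArg _ ((eV n).apply_symm_apply v)

theorem app_FL (F : C(Sph (d + n), Sph n)) (hF : F ∞ = ∞) (x : Sph d) (v : OnePoint (VV n)) :
    app (FL F hF) (smash x v) = sV n (F (join2 x (vS n v))) := by
  induction x using OnePoint.rec with
  | infty =>
    rw [join2_infty_left, hF, smash_infty_left, app_infty]
    rfl
  | coe x =>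
    induction v using OnePoint.rec with
    | infty =>
      rw [vS_infty, join2_infty_right, hF, smash_infty_right, app_infty]
      rfl
    | coe v => rfl

/-- **the literal `J`** -/
noncomputable def gamLC (F : C(Sph (d + n), Sph n)) (hF : F ∞ = ∞) :
    RR ((d + n) + kk n) ⟶ LC.of ((Fin (n + kk n) → ℝ) × PV (VV n)) :=
  (ofHomeo (X := LC.of ((((Fin d → ℝ) × VV n) × (VV n →L[ℝ] VV n)) × VV n))
    (Y := RR ((d + n) + kk n)) (hSrc d n)).inv ≫
  tensorHom' (JJ (X := LC.of (Fin d → ℝ)) (FL F hF)) (𝟙 (LC.of (VV n))) ≫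
  (ofHomeo (X := LC.of ((VV n × ((VV n →L[ℝ] VV n) × PV (VV n))) × VV n))
    (Y := LC.of ((Fin (n + kk n) → ℝ) × PV (VV n))) (hT n)).hom

/-- **the literal Kahn-Priddy map** -/
noncomputable def lamLC (n : ℕ) : LC.of ((Fin (n + kk n) → ℝ) × PV (VV n)) ⟶ RR (n + kk n) :=
  (ofHomeo (X := LC.of ((VV n × ((VV n →L[ℝ] VV n) × PV (VV n))) × VV n))
    (Y := LC.of ((Fin (n + kk n) → ℝ) × PV (VV n))) (hT n)).inv ≫
  lamW (LC.of (VV n)) (VV n) ≫
  (ofHomeo (X := LC.of (VV n × ((VV n →L[ℝ] VV n) × VV n))) (Y := RR (n + kk n)) (hU n)).hom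

/-- the literal `J` -/
noncomputable def gamS (F : C(Sph (d + n), Sph n)) (hF : F ∞ = ∞) :
    C(Sph ((d + n) + kk n), OnePoint ((Fin (n + kk n) → ℝ) × PV (VV n))) :=
  Hom.toMap (gamLC F hF)

/-- the literal Kahn-Priddy map -/
noncomputable def lamS (n : ℕ) :
    C(OnePoint ((Fin (n + kk n) → ℝ) × PV (VV n)), Sph (n + kk n)) := Hom.toMap (lamLC n)

@[simp] theorem gamS_infty (F : C(Sph (d + n), Sph n)) (hF : F ∞ = ∞) : gamS F hF ∞ = ∞ :=
  Hom.map_infty (gamLC F hF)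

@[simp] theorem lamS_infty (n : ℕ) : lamS n ∞ = ∞ := Hom.map_infty (lamLC n)

theorem suspLC_eq (F : C(Sph (d + n), Sph n)) (hF : F ∞ = ∞) :
    (ofHomeo (X := LC.of ((((Fin d → ℝ) × VV n) × (VV n →L[ℝ] VV n)) × VV n))
      (Y := RR ((d + n) + kk n)) (hSrc d n)).inv ≫
    (ass (LC.of ((Fin d → ℝ) × VV n)) (VV n) ≫
      tensorHom' (FL F hF) (𝟙 (LC.of ((VV n →L[ℝ] VV n) × VV n)))) ≫
    (ofHomeo (X := LC.of (VV n × ((VV n →L[ℝ] VV n) × VV n))) (Y := RR (n + kk n)) (hU n)).hom =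
    suspLC (ptd (X := RR (d + n)) (Y := RR n) F hF) (kk n) := by
  rw [Iso.inv_comp_eq]
  apply hom_ext
  rintro ⟨⟨⟨x, v⟩, B⟩, z⟩
  rw [app_comp, app_comp, app_comp, app_ofHomeo_hom_coe, hSrc_apply]
  have h1 : app (ass (LC.of ((Fin d → ℝ) × VV n)) (VV n))
      (((((x, v), B), z) : (((Fin d → ℝ) × VV n) × (VV n →L[ℝ] VV n)) × VV n) :
        OnePoint ((((Fin d → ℝ) × VV n) × (VV n →L[ℝ] VV n)) × VV n)) =
      smash (((x, v) : (Fin d → ℝ) × VV n) : OnePoint ((Fin d → ℝ) × VV n))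
        (((B, z) : (VV n →L[ℝ] VV n) × VV n) : OnePoint ((VV n →L[ℝ] VV n) × VV n)) := rfl
  have h2 := app_suspLC (ptd (X := RR (d + n)) (Y := RR n) F hF) (kk n)
    ((Fin.append x (eV n v) : Fin (d + n) → ℝ) : Sph (d + n))
    ((eW n (B, z) : Fin (kk n) → ℝ) : Sph (kk n))
  rw [join2_coe] at h2
  rw [h1, app_tens]
  refine Eq.trans ?_ h2.symm
  have h3 := app_FL F hF (x : Sph d) (v : OnePoint (VV n))
  rw [vS_coe, join2_coe] at h3
  change app (ofHomeo (X := LC.of (VV n × ((VV n →L[ℝ] VV n) × VV n))) (Y := RR (n + kk n))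
    (hU n)).hom (smash (app (FL F hF) (smash (x : Sph d) (v : OnePoint (VV n)))) _) = _
  rw [h3, app_ptd]
  generalize F _ = w
  induction w using OnePoint.rec with
  | infty => rfl
  | coe w =>
    change (((Fin.append (eV n ((eV n).symm w)) (eW n (B, z))) : Fin (n + kk n) → ℝ) :
      Sph (n + kk n)) = _
    rw [ContinuousLinearEquiv.apply_symm_apply]
    rfl

theorem gamLC_lamLC (F : C(Sph (d + n), Sph n)) (hF : F ∞ = ∞) :
    gamLC F hF ≫ lamLC n =
    (ofHomeo (X := LC.of ((((Fin d → ℝ) × VV n) × (VV n →L[ℝ] VV n)) × VV n))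
      (Y := RR ((d + n) + kk n)) (hSrc d n)).inv ≫
    (tensorHom' (JJ (X := LC.of (Fin d → ℝ)) (FL F hF)) (𝟙 (LC.of (VV n))) ≫
      lamW (LC.of (VV n)) (VV n)) ≫
    (ofHomeo (X := LC.of (VV n × ((VV n →L[ℝ] VV n) × VV n))) (Y := RR (n + kk n)) (hU n)).hom := by
  unfold gamLC lamLC
  simp only [Category.assoc, Iso.hom_inv_id_assoc]

/-- **Kahn-Priddy for the literal spheres** -/
theorem kpLC (hd : 0 < d) (F : C(Sph (d + n), Sph n)) (hF : F ∞ = ∞) :
    Homotopic (gamLC F hF ≫ lamLC n)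
      (suspLC (ptd (X := RR (d + n)) (Y := RR n) F hF) (kk n)) := by
  rw [gamLC_lamLC, ← suspLC_eq]
  refine Homotopic.comp_left _ (Homotopic.comp_right ?_ _)
  refine kahnPriddy (E := Fin d → ℝ) (V := VV n) (FL F hF) (fun _ => 1) ?_
  intro h
  exact one_ne_zero (congrFun h ⟨0, hd⟩)

/-- **Kahn-Priddy for the literal spheres** -/
theorem kp (hd : 0 < d) (F : C(Sph (d + n), Sph n)) (hF : F ∞ = ∞) :
    ((lamS n).comp (gamS F hF)).HomotopicRel (susp F hF (kk n)) {∞} :=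
  (homotopic_iff _ _).1 (kpLC hd F hF)

end maps

end Vale.Agent.P263.KJ
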