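import Vale.Agent.P263.KJ.LabC
import Vale.Agent.P263.TJ.GamNat

/-!
# P263, block KJ: families of labels; sheets on which the cochain vanishes do not matter

`IdxF X T` : over every family `x` of `X` a finite set of labels.  `IdxF.map I A : X → Gam T.lab A` :
the labels over a family (those not in `A`), as sheets over themselves.
`IdxF.pull_KK_drop` : `pull (I.map A) (KK A z) = pull (I.map A') (KK A' z)` if `z` vanishes on
`A' ⊇ A`.  `idxFS`, `idxFR` : the labels over a configuration of boxes, without and with the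
additional element; `pull_KK_R_eq_S` : for a cochain which lives on the pairs of boxes they give
the same quadratic cochain.
-/

open Finset

namespace Vale.Agent.P263.KJ

open Vale.Agent.P263.S Vale.Agent.P263.E Vale.Agent.P263.G2 Vale.Agent.P263.TJ

/-- Families of labels. -/
structure IdxF (X : TSet) (T : TLab) where
  /-- the labels over a family -/
  idx : ∀ {p : ℕ}, X.obj p → Finset (T.L.obj p)
  mem_pull : ∀ {p q : ℕ} (f : C(G2.Dl p, G2.Dl q)) (x : X.obj q) (s : T.L.obj p),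
    s ∈ idx (X.pull f x) ↔ ∃ s' ∈ idx x, T.L.pull f s' = s
  good : ∀ {p : ℕ} (x : X.ss.obj p), T.Good (p := p) (idx (p := p) x : Set (T.L.obj p))

namespace IdxF

variable {X : TSet} {T : TLab} (I : IdxF X T) (A : Sb T.L.ss)

open Classical in
/-- the labels over a family, as sheets over themselves -/
noncomputable def fs0 {p : ℕ} (x : X.ss.obj p) : Finset (Sheet T.lab T.L.ss p) :=
  (I.idx (p := p) x).image fun s => (TLab.toL s, s)

theorem mem_fs0 {p : ℕ} {x : X.ss.obj p} {c : Sheet T.lab T.L.ss p} :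
    c ∈ I.fs0 x ↔ ∃ s ∈ I.idx (p := p) x, (TLab.toL s, s) = c := by
  classical
  rw [fs0, mem_image]
  exact Iff.rfl

open Classical in
/-- the same outside `A` -/
noncomputable def fs {p : ℕ} (x : X.ss.obj p) : Finset (Sheet T.lab T.L.ss p) :=
  (I.fs0 x).filter fun c => ¬ A.mem c.2

variable {A} in
theorem mem_fs {p : ℕ} {x : X.ss.obj p} {c : Sheet T.lab T.L.ss p} :
    c ∈ I.fs A x ↔ ∃ s ∈ I.idx (p := p) x, (TLab.toL s, s) = c ∧ ¬ A.mem c.2 := by
  classical
  rw [fs, mem_filter, mem_fs0]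
  constructor
  · rintro ⟨⟨s, hs, h⟩, h'⟩
    exact ⟨s, hs, h, h'⟩
  · rintro ⟨s, hs, h, h'⟩
    exact ⟨⟨s, hs, h⟩, h'⟩

theorem fs_ok {p : ℕ} (x : X.ss.obj p) : GOk T.lab A (I.fs A x) := by
  refine ⟨?_, ?_, ?_⟩
  · refine T.good_sub (I.good x) ?_
    rintro _ ⟨a, ha, rfl⟩
    obtain ⟨s, hs, rfl, -⟩ := I.mem_fs.1 (mem_coe.1 ha)
    exact hs
  · intro a ha b hb hab
    obtain ⟨s, -, rfl, -⟩ := I.mem_fs.1 (mem_coe.1 ha)
    obtain ⟨s', -, rfl, -⟩ := I.mem_fs.1 (mem_coe.1 hb)
    have h : s = s' := hab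
    rw [h]
  · intro a ha
    obtain ⟨s, -, rfl, h⟩ := I.mem_fs.1 ha
    exact h

/-- **The labels over a family.** -/
noncomputable def map : SS.Map X.ss (Gam T.lab A) where
  app x := ⟨I.fs A x, I.fs_ok A x⟩
  nat {p q} f x := by
    refine Subtype.ext ?_
    show I.fs A (X.ss.map f x) = gmap T.lab A f (I.fs A x)
    ext c
    rw [mem_fs, mem_gmap]
    constructor
    · rintro ⟨s, hs, rfl, h⟩
      obtain ⟨s', hs', rfl⟩ := (I.mem_pull (dmap f) x s).1 hs
      exact ⟨⟨(TLab.toL s', s'), I.mem_fs.2 ⟨s', hs', rfl, fun h' => h (A.map_mem f h')⟩, rfl⟩, h⟩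
    · rintro ⟨⟨b, hb, rfl⟩, h⟩
      obtain ⟨s', hs', rfl, -⟩ := I.mem_fs.1 hb
      exact ⟨T.L.pull (dmap f) s', (I.mem_pull (dmap f) x _).2 ⟨s', hs', rfl⟩, rfl, h⟩

theorem map_app {p : ℕ} (x : X.ss.obj p) : ((I.map A).app x).1 = I.fs A x := rfl

variable {A} {A' : Sb T.L.ss}

theorem gamMap_map (h : ∀ {p : ℕ} (x : T.L.ss.obj p), A.mem x → A'.mem x) :
    (gamMap T.lab (SS.Map.id T.L.ss) (A := A) (A' := A') h).comp (I.map A) = I.map A' := by
  apply SS.Map.ext
  intro p x
  refine Subtype.ext ?_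
  ext c
  refine (mem_gim (SS.Map.id T.L.ss)).trans (Iff.trans ?_ I.mem_fs.symm)
  constructor
  · rintro ⟨⟨b, hb, rfl⟩, h1⟩
    obtain ⟨s, hs, rfl, -⟩ := I.mem_fs.1 hb
    exact ⟨s, hs, rfl, h1⟩
  · rintro ⟨s, hs, rfl, h1⟩
    exact ⟨⟨(TLab.toL s, s), I.mem_fs.2 ⟨s, hs, rfl, fun h' => h1 (h s h')⟩, rfl⟩, h1⟩

/-- **Sheets on which the cochain vanishes do not matter.** -/
theorem pull_KK_drop (h : ∀ {p : ℕ} (x : T.L.ss.obj p), A.mem x → A'.mem x)
    {z : Cc T.L.ss} (hz : Vn A' z) (j m : ℕ) :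
    Cc.pull (I.map A) (KK T.lab A j m z) = Cc.pull (I.map A') (KK T.lab A' j m z) := by
  have h1 := pull_KK (l := T.lab) (SS.Map.id T.L.ss) (A := A) (A' := A') h hz j m
  rw [← I.gamMap_map h]
  exact congrArg (Cc.pull (I.map A)) h1.symm

theorem pull_hat_drop (h : ∀ {p : ℕ} (x : T.L.ss.obj p), A.mem x → A'.mem x)
    {z : Cc T.L.ss} (hz : Vn A' z) :
    Cc.pull (I.map A) (hat T.lab A z) = Cc.pull (I.map A') (hat T.lab A' z) := by
  have h1 := pull_hat (l := T.lab) (SS.Map.id T.L.ss) (A := A) (A' := A') h hz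
  rw [← I.gamMap_map h]
  exact congrArg (Cc.pull (I.map A)) h1.symm

/-- two families of labels which agree outside `A` -/
theorem map_congr {I J : IdxF X T} (h : ∀ {p : ℕ} (x : X.ss.obj p) (s : T.L.ss.obj p),
    ¬ A.mem s → (s ∈ I.idx (p := p) x ↔ s ∈ J.idx (p := p) x)) : I.map A = J.map A := by
  apply SS.Map.ext
  intro p x
  refine Subtype.ext ?_
  ext c
  refine I.mem_fs.trans (Iff.trans ?_ J.mem_fs.symm)
  constructor
  · rintro ⟨s, hs, rfl, h1⟩
    exact ⟨s, (h x s h1).1 hs, rfl, h1⟩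
  · rintro ⟨s, hs, rfl, h1⟩
    exact ⟨s, (h x s h1).2 hs, rfl, h1⟩

end IdxF

/-! ### the labels over a configuration of boxes -/

variable {r n : ℕ}

/-- the labels over a configuration -/
noncomputable def idxFS (r n : ℕ) : IdxF (FT r n) (lab2 r) where
  idx S := idxS r S.1
  mem_pull f S s := mem_idxS_pull f S.2.1 s
  good S := good_idxS S.1

/-- the labels over a configuration with the additional element -/
noncomputable def idxFR (r n : ℕ) : IdxF (FT r n) (lab2 r) where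
  idx S := idxR r S.1
  mem_pull f S s := mem_idxR_pull f S.2.1 s
  good S := good_idxR S.1

/-- the labels which are not pairs of boxes -/
noncomputable def npS (r : ℕ) : Sb (L2 r).ss where
  mem {p} F := ¬ IsP2 (r := r) (p := p) F
  map_mem f F h := fun h' => h ((isP2_pull (dmap f) F).1 h')

theorem vn_extP (a : Cc (FNr r 2 Unit)) : Vn (npS r) (extP r a) := fun _ _ h => extP_of_not a h

theorem idxFR_map_npS : (idxFR r n).map (npS r) = (idxFS r n).map (npS r) := by
  refine IdxF.map_congr ?_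
  intro p S s h
  have hP : IsP2 (r := r) (p := p) s := not_not.1 h
  refine (mem_idxR (r := r) (p := p) (F := s)).trans (Iff.trans ?_
    (mem_idxS (r := r) (p := p) (F := s)).symm)
  constructor
  · intro h1 a ha
    rcases mem_bsR.1 (h1 ha) with rfl | h2
    · exact absurd ha hP.1
    · exact h2
  · intro h1 a ha
    exact mem_bsR.2 (Or.inr (h1 ha))

/-- **The additional element does not matter.** -/
theorem pull_KK_R (a : Cc (FNr r 2 Unit)) (j m : ℕ) :
    Cc.pull ((idxFR r n).map (Sb.empty _)) (KK (lab2 r).lab (Sb.empty _) j m (extP r a)) =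
      Cc.pull ((idxFS r n).map (npS r)) (KK (lab2 r).lab (npS r) j m (extP r a)) := by
  rw [← idxFR_map_npS]
  exact (idxFR r n).pull_KK_drop (A := Sb.empty _) (fun _ h => h.elim) (vn_extP a) j m

theorem pull_KK_S (a : Cc (FNr r 2 Unit)) (j m : ℕ) :
    Cc.pull ((idxFS r n).map (Sb.empty _)) (KK (lab2 r).lab (Sb.empty _) j m (extP r a)) =
      Cc.pull ((idxFS r n).map (npS r)) (KK (lab2 r).lab (npS r) j m (extP r a)) :=
  (idxFS r n).pull_KK_drop (A := Sb.empty _) (fun _ h => h.elim) (vn_extP a) j m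

theorem pull_KK_R_eq_S (a : Cc (FNr r 2 Unit)) (j m : ℕ) :
    Cc.pull ((idxFR r n).map (Sb.empty _)) (KK (lab2 r).lab (Sb.empty _) j m (extP r a)) =
      Cc.pull ((idxFS r n).map (Sb.empty _)) (KK (lab2 r).lab (Sb.empty _) j m (extP r a)) :=
  (pull_KK_R a j m).trans (pull_KK_S a j m).symm

end Vale.Agent.P263.KJ
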