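import Vale.Agent.P263.KJ.Fam
import Vale.Agent.P263.TJ.BoxVal

/-!
# P263, block KJ: labels which are sets of one or two boxes

A label over `Δᵖ` is a set with one or two elements of pairwise disjoint families of boxes of
stage `r`; the value `none` is allowed as an additional box, disjoint from all others (the place of
a fixed loop in the other half).  `lab2 r : TLab` : the label system.  `idxS S`, `idxR S` : the
labels over a configuration `S`, without and with `none`; `mem_idxS_pull`, `good_idxS` (and the same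
for `idxR`) : the conditions of `PFam`.
-/

open Finset Topology

namespace Vale.Agent.P263.KJ

open Vale.Agent.P263.S Vale.Agent.P263.E Vale.Agent.P263.G2 Vale.Agent.P263.TJ

variable {p q k r : ℕ}

/-- families of boxes, or the additional element `none` -/
abbrev OB (p : ℕ) : Type := Option C(G2.Dl p, Bx)

/-- disjointness -/
def DisO : OB p → OB p → Prop
  | none, none => False
  | none, some _ => True
  | some _, none => True
  | some a, some b => ∀ t, Bx.Disj (a t) (b t)

/-- the pull-back -/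
def pO (f : C(G2.Dl p, G2.Dl q)) (a : OB q) : OB p := a.map fun c => c.comp f

@[simp] theorem pO_none (f : C(G2.Dl p, G2.Dl q)) : pO f (none : OB q) = none := rfl

@[simp] theorem pO_some (f : C(G2.Dl p, G2.Dl q)) (c : C(G2.Dl q, Bx)) :
    pO f (some c) = some (c.comp f) := rfl

theorem pO_id (a : OB p) : pO (ContinuousMap.id _) a = a := by
  cases a with
  | none => rfl
  | some c => rfl

theorem pO_comp (f : C(G2.Dl q, G2.Dl k)) (g : C(G2.Dl p, G2.Dl q)) (a : OB k) :
    pO (f.comp g) a = pO g (pO f a) := by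
  cases a with
  | none => rfl
  | some c => rfl

theorem DisO.symm {a b : OB p} (h : DisO a b) : DisO b a := by
  cases a with
  | none => cases b with
    | none => exact h
    | some b => trivial
  | some a => cases b with
    | none => trivial
    | some b => exact fun t => (h t).symm

theorem DisO.pull (f : C(G2.Dl p, G2.Dl q)) {a b : OB q} (h : DisO a b) :
    DisO (pO f a) (pO f b) := by
  cases a with
  | none => cases b with
    | none => exact h
    | some b => trivial
  | some a => cases b with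
    | none => trivial
    | some b => exact fun t => h (f t)

theorem DisO.ne {a b : OB p} (h : DisO a b) : a ≠ b := by
  obtain ⟨t⟩ : Nonempty (G2.Dl p) := ⟨T0.Small.vx p 0⟩
  cases a with
  | none => cases b with
    | none => exact absurd h id
    | some b => exact fun hc => by cases hc
  | some a => cases b with
    | none => exact fun hc => by cases hc
    | some b =>
      intro hc
      cases hc
      exact (h t).ne rfl

/-- the conditions on a label -/
structure Ok2 (r : ℕ) (F : Finset (OB p)) : Prop where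
  card : F.card = 1 ∨ F.card = 2
  dis : ∀ a ∈ F, ∀ b ∈ F, a ≠ b → DisO a b
  st : ∀ c : C(G2.Dl p, Bx), some c ∈ F → ∀ t, Bx.St r (c t)

open Classical in
/-- the pull-back of a set of boxes -/
noncomputable def pF (f : C(G2.Dl p, G2.Dl q)) (F : Finset (OB q)) : Finset (OB p) :=
  F.image (pO f)

theorem mem_pF {f : C(G2.Dl p, G2.Dl q)} {F : Finset (OB q)} {a : OB p} :
    a ∈ pF f F ↔ ∃ b ∈ F, pO f b = a := by
  classical
  exact mem_image

/-- pairwise disjoint -/
def PD (F : Finset (OB p)) : Prop := ∀ a ∈ F, ∀ b ∈ F, a ≠ b → DisO a b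

theorem PD.injOn {F : Finset (OB q)} (h : PD F) (f : C(G2.Dl p, G2.Dl q)) :
    Set.InjOn (pO f) (F : Set (OB q)) := by
  intro a ha b hb hab
  by_contra hne
  exact ((h a ha b hb hne).pull f).ne hab

theorem PD.card_pF {F : Finset (OB q)} (h : PD F) (f : C(G2.Dl p, G2.Dl q)) :
    (pF f F).card = F.card := by
  classical
  exact card_image_of_injOn (h.injOn f)

theorem PD.pF {F : Finset (OB q)} (h : PD F) (f : C(G2.Dl p, G2.Dl q)) : PD (KJ.pF f F) := by
  intro a ha b hb hab
  obtain ⟨a', ha', rfl⟩ := mem_pF.1 ha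
  obtain ⟨b', hb', rfl⟩ := mem_pF.1 hb
  exact (h a' ha' b' hb' (fun hc => hab (by rw [hc]))).pull f

theorem PD.mono {F F' : Finset (OB p)} (h : PD F) (h' : F' ⊆ F) : PD F' :=
  fun a ha b hb hab => h a (h' ha) b (h' hb) hab

theorem Ok2.pF {F : Finset (OB q)} (h : Ok2 r F) (f : C(G2.Dl p, G2.Dl q)) :
    Ok2 r (KJ.pF f F) where
  card := by
    rw [PD.card_pF h.dis f]
    exact h.card
  dis := PD.pF h.dis f
  st := by
    intro c hc t
    obtain ⟨b, hb, hb'⟩ := mem_pF.1 hc
    cases b with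
    | none => cases hb'
    | some b =>
      cases hb'
      exact h.st b hb (f t)

theorem pF_id (F : Finset (OB p)) : pF (ContinuousMap.id _) F = F := by
  ext a
  rw [mem_pF]
  constructor
  · rintro ⟨b, hb, rfl⟩
    rwa [pO_id]
  · intro ha
    exact ⟨a, ha, pO_id a⟩

theorem pF_comp (f : C(G2.Dl q, G2.Dl k)) (g : C(G2.Dl p, G2.Dl q)) (F : Finset (OB k)) :
    pF (f.comp g) F = pF g (pF f F) := by
  ext a
  rw [mem_pF, mem_pF]
  constructor
  · rintro ⟨b, hb, rfl⟩
    exact ⟨pO f b, mem_pF.2 ⟨b, hb, rfl⟩, (pO_comp f g b).symm⟩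
  · rintro ⟨b, hb, rfl⟩
    obtain ⟨c, hc, rfl⟩ := mem_pF.1 hb
    exact ⟨c, hc, pO_comp f g c⟩

/-- the labels -/
noncomputable def L2 (r : ℕ) : TSet where
  obj p := {F : Finset (OB p) // Ok2 r F}
  pull f F := ⟨pF f F.1, F.2.pF f⟩
  pull_id F := Subtype.ext (pF_id F.1)
  pull_comp f g F := Subtype.ext (pF_comp f g F.1)

/-- the codes of the labels of the vertices -/
def O2 (r : ℕ) : Type := {F : Finset (OB 0) // Ok2 r F}

/-- some linear order of the codes -/
noncomputable instance (r : ℕ) : LinearOrder (O2 r) := by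
  classical
  exact linearOrderOfSTO (WellOrderingRel : O2 r → O2 r → Prop)

/-- all boxes which occur in `S` are pairwise equal or disjoint -/
def Good2 {r p : ℕ} (S : Set ((L2 r).obj p)) : Prop :=
  ∀ F ∈ S, ∀ G ∈ S, ∀ a ∈ F.1, ∀ b ∈ G.1, a ≠ b → DisO a b

/-- **The label system**: sets of one or two boxes. -/
noncomputable def lab2 (r : ℕ) : TLab where
  L := L2 r
  O := O2 r
  ord F := F
  Good {p} S := Good2 (r := r) (p := p) S
  good_map := by
    rintro p q f S h _ ⟨F, hF, rfl⟩ _ ⟨G, hG, rfl⟩ a ha b hb hab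
    obtain ⟨a', ha', rfl⟩ := mem_pF.1 ha
    obtain ⟨b', hb', rfl⟩ := mem_pF.1 hb
    exact (h F hF G hG a' ha' b' hb' (fun hc => hab (by rw [hc]))).pull _
  good_sub h h' F hF G hG := h F (h' hF) G (h' hG)
  good_inj := by
    intro p S h i F hF G hG hFG
    have h1 : pF (dmap (TJ.vx p i)) F.1 = pF (dmap (TJ.vx p i)) G.1 := congrArg Subtype.val hFG
    have key : ∀ F ∈ S, ∀ G ∈ S, pF (dmap (TJ.vx p i)) F.1 = pF (dmap (TJ.vx p i)) G.1 →
        F.1 ⊆ G.1 := by
      intro F hF G hG h1 a ha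
      have h2 : pO (dmap (TJ.vx p i)) a ∈ pF (dmap (TJ.vx p i)) G.1 := by
        rw [← h1]
        exact mem_pF.2 ⟨a, ha, rfl⟩
      obtain ⟨b, hb, hab⟩ := mem_pF.1 h2
      by_cases hne : a = b
      · rw [hne]; exact hb
      · exact absurd hab.symm ((h F hF G hG a ha b hb hne).pull _).ne
    exact Subtype.ext (Finset.Subset.antisymm (key F hF G hG h1) (key G hG F hF h1.symm))

theorem lab2_L (r : ℕ) : (lab2 r).L = L2 r := rfl

/-! ### the labels over a configuration -/

/-- the subsets with one or two elements -/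
noncomputable def idx2 (r : ℕ) (B : Finset (OB p)) : Finset ((L2 r).obj p) := by
  classical
  exact B.powerset.subtype fun F => Ok2 r F

theorem mem_idx2 {B : Finset (OB p)} {F : (L2 r).obj p} : F ∈ idx2 r B ↔ F.1 ⊆ B := by
  classical
  exact Finset.mem_subtype.trans mem_powerset

theorem good_idx2 {B : Finset (OB p)} (hB : PD B) :
    Good2 (idx2 r B : Set ((L2 r).obj p)) := by
  intro F hF G hG a ha b hb hab
  exact hB a (mem_idx2.1 (mem_coe.1 hF) ha) b (mem_idx2.1 (mem_coe.1 hG) hb) hab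

theorem mem_idx2_pull {B : Finset (OB q)} (hB : PD B) (hst : ∀ c, some c ∈ B → ∀ t, Bx.St r (c t))
    (f : C(G2.Dl p, G2.Dl q)) (s : (L2 r).obj p) :
    s ∈ idx2 r (pF f B) ↔ ∃ s' ∈ idx2 r B, (L2 r).pull f s' = s := by
  classical
  constructor
  · intro h
    have hs := mem_idx2.1 h
    have h1 : pF f (B.filter fun a => pO f a ∈ s.1) = s.1 := by
      ext a
      rw [mem_pF]
      constructor
      · rintro ⟨b, hb, rfl⟩
        exact (mem_filter.1 hb).2
      · intro ha
        obtain ⟨b, hb, rfl⟩ := mem_pF.1 (hs ha)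
        exact ⟨b, mem_filter.2 ⟨hb, ha⟩, rfl⟩
    have h2 : PD (B.filter fun a => pO f a ∈ s.1) := hB.mono (filter_subset _ _)
    refine ⟨⟨B.filter fun a => pO f a ∈ s.1, ⟨?_, h2, fun c hc => hst c (mem_filter.1 hc).1⟩⟩,
      mem_idx2.2 (filter_subset _ _), Subtype.ext h1⟩
    rw [← h2.card_pF f, h1]
    exact s.2.card
  · rintro ⟨s', hs', rfl⟩
    refine mem_idx2.2 fun a ha => ?_
    obtain ⟨b, hb, rfl⟩ := mem_pF.1 ha
    exact mem_pF.2 ⟨b, mem_idx2.1 hs' hb, rfl⟩

/-- the boxes of a configuration -/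
noncomputable def bsS (S : Conf Unit (G2.Dl p)) : Finset (OB p) := by
  classical
  exact S.pts.image fun x => some x.1

theorem some_mem_bsS {S : Conf Unit (G2.Dl p)} {c : C(G2.Dl p, Bx)} :
    some c ∈ bsS S ↔ (c, ()) ∈ S.pts := by
  classical
  constructor
  · intro h
    obtain ⟨x, hx, h⟩ := mem_image.1 h
    cases h
    exact hx
  · intro h
    exact mem_image.2 ⟨_, h, rfl⟩

theorem none_notMem_bsS (S : Conf Unit (G2.Dl p)) : none ∉ bsS S := by
  classical
  intro h
  obtain ⟨x, -, h⟩ := mem_image.1 h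
  cases h

theorem pd_bsS (S : Conf Unit (G2.Dl p)) : PD (bsS S) := by
  intro a ha b hb hab
  cases a with
  | none => exact absurd ha (none_notMem_bsS S)
  | some a =>
    cases b with
    | none => exact absurd hb (none_notMem_bsS S)
    | some b =>
      intro t
      exact S.disj _ (some_mem_bsS.1 ha) _ (some_mem_bsS.1 hb)
        (fun h => hab (congrArg some (congrArg Prod.fst h))) t

theorem bsS_pull (f : C(G2.Dl p, G2.Dl q)) (S : Conf Unit (G2.Dl q)) :
    bsS (S.pull f) = pF f (bsS S) := by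
  ext a
  rw [mem_pF]
  cases a with
  | none =>
    constructor
    · intro h
      exact absurd h (none_notMem_bsS _)
    · rintro ⟨b, hb, h⟩
      cases b with
      | none => exact absurd hb (none_notMem_bsS S)
      | some b => cases h
  | some a =>
    rw [some_mem_bsS]
    constructor
    · intro h
      obtain ⟨y, hy, h⟩ := Conf.mem_pull.1 h
      exact ⟨some y, some_mem_bsS.2 hy, congrArg some h⟩
    · rintro ⟨b, hb, h⟩
      cases b with
      | none => cases h
      | some b =>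
        cases h
        exact Conf.mem_pull.2 ⟨b, some_mem_bsS.1 hb, rfl⟩

/-- the boxes of a configuration and the additional element -/
noncomputable def bsR (S : Conf Unit (G2.Dl p)) : Finset (OB p) := by
  classical
  exact insert none (bsS S)

theorem mem_bsR {S : Conf Unit (G2.Dl p)} {a : OB p} : a ∈ bsR S ↔ a = none ∨ a ∈ bsS S := by
  classical
  exact mem_insert

theorem some_mem_bsR {S : Conf Unit (G2.Dl p)} {c : C(G2.Dl p, Bx)} :
    some c ∈ bsR S ↔ (c, ()) ∈ S.pts := by
  rw [mem_bsR, some_mem_bsS]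
  constructor
  · rintro (h | h)
    · cases h
    · exact h
  · exact Or.inr

theorem pd_bsR (S : Conf Unit (G2.Dl p)) : PD (bsR S) := by
  intro a ha b hb hab
  rcases mem_bsR.1 ha with rfl | ha
  · rcases mem_bsR.1 hb with rfl | hb
    · exact absurd rfl hab
    · cases b with
      | none => exact absurd rfl hab
      | some b => trivial
  · rcases mem_bsR.1 hb with rfl | hb
    · cases a with
      | none => exact absurd rfl hab
      | some a => trivial
    · exact pd_bsS S a ha b hb hab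

theorem bsR_pull (f : C(G2.Dl p, G2.Dl q)) (S : Conf Unit (G2.Dl q)) :
    bsR (S.pull f) = pF f (bsR S) := by
  ext a
  rw [mem_bsR, bsS_pull, mem_pF, mem_pF]
  constructor
  · rintro (rfl | ⟨b, hb, rfl⟩)
    · exact ⟨none, mem_bsR.2 (Or.inl rfl), rfl⟩
    · exact ⟨b, mem_bsR.2 (Or.inr hb), rfl⟩
  · rintro ⟨b, hb, rfl⟩
    rcases mem_bsR.1 hb with rfl | hb
    · exact Or.inl rfl
    · exact Or.inr ⟨b, hb, rfl⟩

/-- the labels over a configuration -/
noncomputable def idxS (r : ℕ) (S : Conf Unit (G2.Dl p)) : Finset ((L2 r).obj p) :=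
  idx2 r (bsS S)

/-- the labels over a configuration with the additional element -/
noncomputable def idxR (r : ℕ) (S : Conf Unit (G2.Dl p)) : Finset ((L2 r).obj p) :=
  idx2 r (bsR S)

theorem mem_idxS {S : Conf Unit (G2.Dl p)} {F : (L2 r).obj p} : F ∈ idxS r S ↔ F.1 ⊆ bsS S :=
  mem_idx2

theorem mem_idxR {S : Conf Unit (G2.Dl p)} {F : (L2 r).obj p} : F ∈ idxR r S ↔ F.1 ⊆ bsR S :=
  mem_idx2

theorem good_idxS (S : Conf Unit (G2.Dl p)) :
    Good2 (idxS r S : Set ((L2 r).obj p)) := good_idx2 (pd_bsS S)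

theorem good_idxR (S : Conf Unit (G2.Dl p)) :
    Good2 (idxR r S : Set ((L2 r).obj p)) := good_idx2 (pd_bsR S)

theorem mem_idxS_pull (f : C(G2.Dl p, G2.Dl q)) {S : Conf Unit (G2.Dl q)} (hS : S.IsSt r)
    (s : (L2 r).obj p) :
    s ∈ idxS r (S.pull f) ↔ ∃ s' ∈ idxS r S, (L2 r).pull f s' = s := by
  rw [idxS, bsS_pull]
  exact mem_idx2_pull (pd_bsS S) (fun c hc => hS _ (some_mem_bsS.1 hc)) f s

theorem mem_idxR_pull (f : C(G2.Dl p, G2.Dl q)) {S : Conf Unit (G2.Dl q)} (hS : S.IsSt r)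
    (s : (L2 r).obj p) :
    s ∈ idxR r (S.pull f) ↔ ∃ s' ∈ idxR r S, (L2 r).pull f s' = s := by
  rw [idxR, bsR_pull]
  exact mem_idx2_pull (pd_bsR S) (fun c hc => hS _ (some_mem_bsR.1 hc)) f s

/-! ### the kinds of labels -/

/-- the label contains the additional element -/
def HasR {r p : ℕ} (F : (L2 r).obj p) : Prop := none ∈ F.1

theorem hasR_pull (f : C(G2.Dl p, G2.Dl q)) (F : (L2 r).obj q) :
    HasR ((L2 r).pull f F) ↔ HasR F := by
  constructor
  · intro h
    obtain ⟨b, hb, hb'⟩ := mem_pF.1 h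
    cases b with
    | none => exact hb
    | some b => cases hb'
  · intro h
    exact mem_pF.2 ⟨none, h, rfl⟩

/-- the configuration of the boxes of a label -/
noncomputable def cfg {r p : ℕ} (F : (L2 r).obj p) : Conf Unit (G2.Dl p) where
  pts := by
    classical
    exact (F.1.preimage some ((Option.some_injective _).injOn)).image fun c => (c, ())
  stage := by
    classical
    refine ⟨r, fun x hx t => ?_⟩
    obtain ⟨c, hc, rfl⟩ := mem_image.1 hx
    exact F.2.st c (mem_preimage.1 hc) t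
  disj := by
    classical
    intro x hx y hy hxy t
    obtain ⟨c, hc, rfl⟩ := mem_image.1 hx
    obtain ⟨c', hc', rfl⟩ := mem_image.1 hy
    have h := F.2.dis _ (mem_preimage.1 hc) _ (mem_preimage.1 hc')
      (fun h => hxy (by rw [Option.some_injective _ h]))
    exact h t

theorem mem_cfg {F : (L2 r).obj p} {c : C(G2.Dl p, Bx)} {u : Unit} :
    (c, u) ∈ (cfg F).pts ↔ some c ∈ F.1 := by
  classical
  constructor
  · intro h
    obtain ⟨c', hc', h⟩ := mem_image.1 h
    cases h
    exact mem_preimage.1 hc'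
  · intro h
    exact mem_image.2 ⟨c, mem_preimage.2 h, rfl⟩

theorem isSt_cfg (F : (L2 r).obj p) : (cfg F).IsSt r := fun x hx t => F.2.st x.1 (mem_cfg.1 hx) t

theorem cfg_pull (f : C(G2.Dl p, G2.Dl q)) (F : (L2 r).obj q) :
    cfg ((L2 r).pull f F) = (cfg F).pull f := by
  ext ⟨c, u⟩
  rw [mem_cfg, Conf.mem_pull]
  constructor
  · intro h
    obtain ⟨b, hb, hb'⟩ := mem_pF.1 h
    cases b with
    | none => cases hb'
    | some b =>
      cases hb'
      exact ⟨b, mem_cfg.2 hb, rfl⟩
  · rintro ⟨b, hb, rfl⟩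
    exact mem_pF.2 ⟨some b, mem_cfg.1 hb, rfl⟩

theorem bsS_cfg {F : (L2 r).obj p} (h : ¬ HasR F) : bsS (cfg F) = F.1 := by
  ext a
  cases a with
  | none => exact ⟨fun h' => absurd h' (none_notMem_bsS _), fun h' => absurd h' h⟩
  | some a => rw [some_mem_bsS, mem_cfg]

theorem bsR_cfg {F : (L2 r).obj p} (h : HasR F) : bsR (cfg F) = F.1 := by
  ext a
  cases a with
  | none => exact ⟨fun _ => h, fun _ => mem_bsR.2 (Or.inl rfl)⟩
  | some a => rw [some_mem_bsR, mem_cfg]

theorem card_bsS (S : Conf Unit (G2.Dl p)) : (bsS S).card = S.pts.card := by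
  classical
  refine card_image_of_injOn ?_
  intro x _ y _ hxy
  exact Prod.ext (Option.some_injective _ hxy) rfl

theorem card_bsR (S : Conf Unit (G2.Dl p)) : (bsR S).card = S.pts.card + 1 := by
  classical
  rw [← card_bsS]
  exact card_insert_of_notMem (none_notMem_bsS S)

/-- a configuration with one or two boxes as a label -/
noncomputable def ofS {r : ℕ} (S : Conf Unit (G2.Dl p)) (hS : S.IsSt r)
    (h : S.pts.card = 1 ∨ S.pts.card = 2) : (L2 r).obj p :=
  ⟨bsS S, by rwa [card_bsS], pd_bsS S, fun _ hc t => hS _ (some_mem_bsS.1 hc) t⟩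

/-- a configuration with at most one box, with the additional element, as a label -/
noncomputable def ofR {r : ℕ} (S : Conf Unit (G2.Dl p)) (hS : S.IsSt r)
    (h : S.pts.card = 0 ∨ S.pts.card = 1) : (L2 r).obj p :=
  ⟨bsR S, by rw [card_bsR]; omega, pd_bsR S, fun _ hc t => hS _ (some_mem_bsR.1 hc) t⟩

theorem not_hasR_ofS {S : Conf Unit (G2.Dl p)} (hS : S.IsSt r)
    (h : S.pts.card = 1 ∨ S.pts.card = 2) : ¬ HasR (ofS S hS h) := none_notMem_bsS S

theorem hasR_ofR {S : Conf Unit (G2.Dl p)} (hS : S.IsSt r)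
    (h : S.pts.card = 0 ∨ S.pts.card = 1) : HasR (ofR S hS h) := mem_bsR.2 (Or.inl rfl)

theorem cfg_ofS {S : Conf Unit (G2.Dl p)} (hS : S.IsSt r)
    (h : S.pts.card = 1 ∨ S.pts.card = 2) : cfg (ofS S hS h) = S := by
  ext ⟨c, u⟩
  rw [mem_cfg]
  exact some_mem_bsS

theorem cfg_ofR {S : Conf Unit (G2.Dl p)} (hS : S.IsSt r)
    (h : S.pts.card = 0 ∨ S.pts.card = 1) : cfg (ofR S hS h) = S := by
  ext ⟨c, u⟩
  rw [mem_cfg]
  exact some_mem_bsR

theorem card_cfg_of_not {F : (L2 r).obj p} (h : ¬ HasR F) :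
    (cfg F).pts.card = 1 ∨ (cfg F).pts.card = 2 := by
  rw [← card_bsS, bsS_cfg h]
  exact F.2.card

theorem card_cfg_of {F : (L2 r).obj p} (h : HasR F) :
    (cfg F).pts.card = 0 ∨ (cfg F).pts.card = 1 := by
  have h1 := card_bsR (cfg F)
  rw [bsR_cfg h] at h1
  have h2 := F.2.card
  omega

theorem ofS_cfg {F : (L2 r).obj p} (h : ¬ HasR F) :
    ofS (cfg F) (isSt_cfg F) (card_cfg_of_not h) = F := Subtype.ext (bsS_cfg h)

theorem ofR_cfg {F : (L2 r).obj p} (h : HasR F) :
    ofR (cfg F) (isSt_cfg F) (card_cfg_of h) = F := Subtype.ext (bsR_cfg h)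

theorem card_cfg_pull (f : C(G2.Dl p, G2.Dl q)) (F : (L2 r).obj q) :
    (cfg ((L2 r).pull f F)).pts.card = (cfg F).pts.card := by
  rw [cfg_pull, Conf.card_pull]

/-- one box -/
def IsOne {r p : ℕ} (F : (L2 r).obj p) : Prop := ¬ HasR F ∧ (cfg F).pts.card = 1

/-- two boxes -/
def IsP2 {r p : ℕ} (F : (L2 r).obj p) : Prop := ¬ HasR F ∧ (cfg F).pts.card = 2

/-- only the additional element -/
def IsR {r p : ℕ} (F : (L2 r).obj p) : Prop := HasR F ∧ (cfg F).pts.card = 0

/-- one box and the additional element -/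
def IsCR {r p : ℕ} (F : (L2 r).obj p) : Prop := HasR F ∧ (cfg F).pts.card = 1

theorem kinds {r p : ℕ} (F : (L2 r).obj p) : IsOne F ∨ IsP2 F ∨ IsR F ∨ IsCR F := by
  by_cases h : HasR F
  · rcases card_cfg_of h with h' | h'
    · exact Or.inr (Or.inr (Or.inl ⟨h, h'⟩))
    · exact Or.inr (Or.inr (Or.inr ⟨h, h'⟩))
  · rcases card_cfg_of_not h with h' | h'
    · exact Or.inl ⟨h, h'⟩
    · exact Or.inr (Or.inl ⟨h, h'⟩)

theorem isOne_pull (f : C(G2.Dl p, G2.Dl q)) (F : (L2 r).obj q) :
    IsOne ((L2 r).pull f F) ↔ IsOne F := by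
  rw [IsOne, IsOne, hasR_pull, card_cfg_pull]

theorem isP2_pull (f : C(G2.Dl p, G2.Dl q)) (F : (L2 r).obj q) :
    IsP2 ((L2 r).pull f F) ↔ IsP2 F := by
  rw [IsP2, IsP2, hasR_pull, card_cfg_pull]

theorem isR_pull (f : C(G2.Dl p, G2.Dl q)) (F : (L2 r).obj q) :
    IsR ((L2 r).pull f F) ↔ IsR F := by
  rw [IsR, IsR, hasR_pull, card_cfg_pull]

theorem isCR_pull (f : C(G2.Dl p, G2.Dl q)) (F : (L2 r).obj q) :
    IsCR ((L2 r).pull f F) ↔ IsCR F := by
  rw [IsCR, IsCR, hasR_pull, card_cfg_pull]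

theorem IsOne.eq_ofS {F : (L2 r).obj p} (h : IsOne F) :
    ofS (cfg F) (isSt_cfg F) (Or.inl h.2) = F := ofS_cfg h.1

theorem IsP2.eq_ofS {F : (L2 r).obj p} (h : IsP2 F) :
    ofS (cfg F) (isSt_cfg F) (Or.inr h.2) = F := ofS_cfg h.1

theorem IsR.eq_ofR {F : (L2 r).obj p} (h : IsR F) :
    ofR (cfg F) (isSt_cfg F) (Or.inl h.2) = F := ofR_cfg h.1

theorem IsCR.eq_ofR {F : (L2 r).obj p} (h : IsCR F) :
    ofR (cfg F) (isSt_cfg F) (Or.inr h.2) = F := ofR_cfg h.1

/-- the pairs of boxes as labels -/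
noncomputable def pairL (r : ℕ) : SS.Map (FNr r 2 Unit) (L2 r).ss :=
  ⟨fun S => ofS S.1 S.2.1 (Or.inr S.2.2), fun f S => Subtype.ext (bsS_pull (dmap f) S.1)⟩

/-- the single boxes as labels -/
noncomputable def oneL (r : ℕ) : SS.Map (FNr r 1 Unit) (L2 r).ss :=
  ⟨fun S => ofS S.1 S.2.1 (Or.inl S.2.2), fun f S => Subtype.ext (bsS_pull (dmap f) S.1)⟩

/-- the single boxes with the additional element as labels -/
noncomputable def oneRL (r : ℕ) : SS.Map (FNr r 1 Unit) (L2 r).ss :=
  ⟨fun S => ofR S.1 S.2.1 (Or.inr S.2.2), fun f S => Subtype.ext (bsR_pull (dmap f) S.1)⟩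

end Vale.Agent.P263.KJ
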