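import Vale.Agent.P263.TJ.SCup
import Vale.Agent.P263.KJ.Lab2

/-!
# P263, block KJ: the contractible pieces of the space of labels

`exists_rst` : if the simplicial set `X` has a homotopy from the identity to a map which is the
identity on the simplices in an open-closed piece `P`, and which sends every other simplex to a
degenerate vertex (the same vertex for all faces), then every homogeneous cocycle of positive degree
is cohomologous to its restriction to `P`.

`exists_rst_L2` : the case of the labels `L2 r` (sets of one or two boxes, with an additional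
element): every homogeneous cocycle of positive degree is cohomologous to its restriction to the
pairs of boxes.
-/

namespace Vale.Agent.P263.KJ

open Vale.Agent.P263.S Vale.Agent.P263.E Vale.Agent.P263.G2 Vale.Agent.P263.TJ

variable {X : SS}

/-- an open-closed piece of a simplicial set -/
structure Pc (X : SS) where
  /-- the simplices in the piece -/
  mem : ∀ {p : ℕ}, X.obj p → Prop
  map_iff : ∀ {p q : ℕ} (f : Op p q) (x : X.obj q), mem (X.map f x) ↔ mem x

open Classical in
/-- the restriction of a cochain to an open-closed piece, extended by zero -/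
noncomputable def Pc.rst (P : Pc X) (u : Cc X) : Cc X := fun p x => if P.mem x then u p x else 0

theorem Pc.rst_of_mem (P : Pc X) (u : Cc X) {p : ℕ} {x : X.obj p} (h : P.mem x) :
    P.rst u p x = u p x := if_pos h

theorem Pc.rst_of_notMem (P : Pc X) (u : Cc X) {p : ℕ} {x : X.obj p} (h : ¬ P.mem x) :
    P.rst u p x = 0 := if_neg h

theorem Pc.rst_add (P : Pc X) (u v : Cc X) : P.rst (u + v) = P.rst u + P.rst v := by
  funext p x
  by_cases h : P.mem x
  · exact (P.rst_of_mem _ h).trans (congrArg₂ (· + ·) (P.rst_of_mem u h) (P.rst_of_mem v h)).symm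
  · exact (P.rst_of_notMem _ h).trans ((congrArg₂ (· + ·) (P.rst_of_notMem u h)
      (P.rst_of_notMem v h)).trans (add_zero 0)).symm

theorem Pc.d_rst (P : Pc X) (u : Cc X) : Cc.d (P.rst u) = P.rst (Cc.d u) := by
  funext p x
  cases p with
  | zero =>
    rw [TJ.d_zero_apply]
    by_cases h : P.mem x
    · rw [P.rst_of_mem _ h, TJ.d_zero_apply]
    · rw [P.rst_of_notMem _ h]
  | succ p =>
    by_cases h : P.mem x
    · rw [P.rst_of_mem _ h, TJ.d_succ_apply, TJ.d_succ_apply]
      exact Finset.sum_congr rfl fun i _ => P.rst_of_mem _ ((P.map_iff _ _).2 h)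
    · rw [P.rst_of_notMem _ h, TJ.d_succ_apply]
      exact Finset.sum_eq_zero fun i _ => P.rst_of_notMem _ fun h' => h ((P.map_iff _ _).1 h')

theorem Pc.isDeg_rst (P : Pc X) {n : ℕ} {u : Cc X} (hu : Cc.IsDeg n u) : Cc.IsDeg n (P.rst u) := by
  intro p hp x
  by_cases h : P.mem x
  · rw [P.rst_of_mem _ h, hu p hp]
  · exact P.rst_of_notMem _ h

/-- the restriction depends only on the values on the piece -/
theorem Pc.rst_congr (P : Pc X) {u v : Cc X}
    (h : ∀ (p : ℕ) (x : X.obj p), P.mem x → u p x = v p x) : P.rst u = P.rst v := by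
  funext p x
  by_cases hx : P.mem x
  · rw [P.rst_of_mem _ hx, P.rst_of_mem _ hx, h p x hx]
  · rw [P.rst_of_notMem _ hx, P.rst_of_notMem _ hx]

/-- the complement -/
def Pc.compl (P : Pc X) : Pc X := ⟨fun x => ¬ P.mem x, fun f x => not_congr (P.map_iff f x)⟩

theorem Pc.rst_add_rst_compl (P : Pc X) (u : Cc X) : P.rst u + P.compl.rst u = u := by
  funext p x
  by_cases h : P.mem x
  · exact (congrArg₂ (· + ·) (P.rst_of_mem u h) (P.compl.rst_of_notMem u (not_not.2 h))).trans
      (add_zero _)
  · exact (congrArg₂ (· + ·) (P.rst_of_notMem u h) (P.compl.rst_of_mem u h)).trans (zero_add _)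

/-- the map to the point -/
def pcO (p : ℕ) : Op p 0 := ⟨fun _ => 0, fun _ _ _ => le_rfl⟩

theorem pcO_comp {p q : ℕ} (f : Op p q) : (pcO q).comp f = pcO p := rfl

variable (P : Pc X) (K : SS.Map (cylS X) X)

/-- **Contraction of the complement of a piece.** -/
theorem exists_rst (v : ∀ {p : ℕ}, X.obj p → X.obj 0)
    (hv : ∀ {p q : ℕ} (f : Op p q) (x : X.obj q), ¬ P.mem x → v (X.map f x) = v x)
    (h0 : ∀ {p : ℕ} (x : X.obj p), K.app (p := p) (x, c0 p) = x)
    (h1 : ∀ {p : ℕ} (x : X.obj p), P.mem x → K.app (p := p) (x, c1 p) = x)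
    (h2 : ∀ {p : ℕ} (x : X.obj p), ¬ P.mem x → K.app (p := p) (x, c1 p) = X.map (pcO p) (v x))
    {k : ℕ} {u : Cc X} (hu : Cc.IsDeg (k + 1) u) (hd : Cc.d u = 0) :
    ∃ e : Cc X, Cc.IsDeg k e ∧ u = P.rst u + Cc.d e := by
  have hz : ∀ y : X.obj 0, ((k : ZMod 2) + 1) * u (k + 1) (X.map (pcO (k + 1)) y) = 0 := by
    intro y
    have h := congrFun (congrFun hd (k + 2)) (X.map (pcO (k + 2)) y)
    rw [TJ.d_succ_apply] at h
    have h3 : ∀ i ∈ Finset.range (k + 1 + 2), u (k + 1) (X.map (dl (k + 1) i)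
        (X.map (pcO (k + 2)) y)) = u (k + 1) (X.map (pcO (k + 1)) y) := by
      intro i _
      rw [← X.map_comp, pcO_comp]
    rw [Finset.sum_congr rfl h3, Finset.sum_const, Finset.card_range, nsmul_eq_mul] at h
    push_cast at h
    have h4 : (2 : ZMod 2) = 0 := rfl
    have h5 : (0 : Cc X) (k + 2) (X.map (pcO (k + 2)) y) = 0 := rfl
    rw [h5] at h
    linear_combination h - u (k + 1) (X.map (pcO (k + 1)) y) * h4
  have hz' : ∀ y : X.obj 0, u (k + 1) (X.map (pcO (k + 1)) y) =
      (k : ZMod 2) * u (k + 1) (X.map (pcO (k + 1)) y) := by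
    intro y
    have h4 : (2 : ZMod 2) = 0 := rfl
    linear_combination hz y - (k : ZMod 2) * u (k + 1) (X.map (pcO (k + 1)) y) * h4
  -- the constant part
  let g : Cc X := fun p x => if p = k then (k : ZMod 2) * u (k + 1) (X.map (pcO (k + 1)) (v x)) else 0
  have hg : Cc.IsDeg k g := fun p hp x => if_neg hp
  have hdg : ∀ {p : ℕ} (x : X.obj p), ¬ P.mem x → Cc.d g p x =
      if p = k + 1 then u (k + 1) (X.map (pcO (k + 1)) (v x)) else 0 := by
    intro p x hx
    cases p with
    | zero => rw [TJ.d_zero_apply, if_neg (by omega)]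
    | succ p =>
      rw [TJ.d_succ_apply]
      by_cases hp : p = k
      · subst hp
        rw [if_pos rfl]
        have h3 : ∀ i ∈ Finset.range (p + 2), g p (X.map (dl p i) x) =
            (p : ZMod 2) * u (p + 1) (X.map (pcO (p + 1)) (v x)) := by
          intro i _
          show (if p = p then _ else _) = _
          rw [if_pos rfl, hv _ _ hx]
        rw [Finset.sum_congr rfl h3, Finset.sum_const, Finset.card_range, nsmul_eq_mul]
        push_cast
        have h5 := hz' (v x)
        have h6 := hz (v x)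
        generalize u (p + 1) (X.map (pcO (p + 1)) (v x)) = c at *
        linear_combination (p : ZMod 2) * h6 - h5
      · rw [if_neg (by omega)]
        exact Finset.sum_eq_zero fun i _ => if_neg hp
  refine ⟨Cc.sOp (Cc.pull K u) + P.compl.rst g, (Cc.IsDeg.sOp (hu.pull K)).add
    (P.compl.isDeg_rst hg), ?_⟩
  have hs := Cc.sOp_d (Cc.pull K u)
  rw [← pull_d, hd] at hs
  have hs0 : Cc.sOp (Cc.pull K (0 : Cc X)) = 0 := (Cc.cyl X).s.map_zero
  rw [hs0, add_zero] at hs
  rw [TJ.d_add, hs, P.compl.d_rst]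
  funext p x
  have e0 : Cc.pull (end0 X) (Cc.pull K u) p x = u p x := congrArg (u p) (h0 x)
  have e1 : Cc.pull (end1 X) (Cc.pull K u) p x = u p (K.app (p := p) (x, c1 p)) := rfl
  show u p x = P.rst u p x + (Cc.pull (end0 X) (Cc.pull K u) p x +
    Cc.pull (end1 X) (Cc.pull K u) p x + P.compl.rst (Cc.d g) p x)
  rw [e0, e1]
  by_cases h : P.mem x
  · rw [h1 x h, P.rst_of_mem _ h, P.compl.rst_of_notMem _ (not_not.2 h)]
    have h4 : (2 : ZMod 2) = 0 := rfl
    linear_combination -(u p x) * h4
  · rw [h2 x h, P.rst_of_notMem _ h, P.compl.rst_of_mem _ h, hdg x h]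
    by_cases hp : p = k + 1
    · subst hp
      rw [if_pos rfl]
      have h4 : (2 : ZMod 2) = 0 := rfl
      linear_combination -(u (k + 1) (X.map (pcO (k + 1)) (v x))) * h4
    · rw [if_neg hp, hu p hp, hu p hp]
      rfl

/-! ### the labels `L2 r` -/

/-- the box `c`, moved to the full cube -/
noncomputable def mixB {p : ℕ} (χ : C(G2.Dl p, unitInterval)) (c : C(G2.Dl p, Bx)) :
    C(G2.Dl p, Bx) :=
  ⟨fun t i => Iv.mix (χ t) (c t i) Iv.full, continuous_pi fun i =>
    χ.continuous.ivMix ((continuous_apply i).comp c.continuous) continuous_const⟩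

theorem mixB_comp {p q : ℕ} (f : C(G2.Dl p, G2.Dl q)) (χ : C(G2.Dl q, unitInterval))
    (c : C(G2.Dl q, Bx)) : mixB (χ.comp f) (c.comp f) = (mixB χ c).comp f := rfl

theorem mixB_zI {p : ℕ} (c : C(G2.Dl p, Bx)) : mixB (zI p) c = c := by
  apply ContinuousMap.ext
  intro t
  funext i
  exact Iv.mix_zero _ _

/-- the full cube -/
noncomputable def fullB (p : ℕ) : C(G2.Dl p, Bx) := ContinuousMap.const _ fun _ => Iv.full

theorem mixB_oI {p : ℕ} (c : C(G2.Dl p, Bx)) : mixB (oI p) c = fullB p := by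
  apply ContinuousMap.ext
  intro t
  funext i
  exact Iv.mix_one _ _

theorem st_mixB {p r : ℕ} (χ : C(G2.Dl p, unitInterval)) {c : C(G2.Dl p, Bx)}
    (h : ∀ t, Bx.St r (c t)) (t : G2.Dl p) : Bx.St r (mixB χ c t) := by
  intro i hi
  show Iv.mix (χ t) (c t i) Iv.full = Iv.full
  rw [h t i hi, Iv.mix_self]

/-- the same on labels of boxes -/
noncomputable def mixO {p : ℕ} (χ : C(G2.Dl p, unitInterval)) (a : OB p) : OB p := a.map (mixB χ)

theorem mixO_pO {p q : ℕ} (f : C(G2.Dl p, G2.Dl q)) (χ : C(G2.Dl q, unitInterval)) (a : OB q) :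
    mixO (χ.comp f) (pO f a) = pO f (mixO χ a) := by
  cases a with
  | none => rfl
  | some c => rfl

theorem mixO_zI {p : ℕ} (a : OB p) : mixO (zI p) a = a := by
  cases a with
  | none => rfl
  | some c => exact congrArg some (mixB_zI c)

/-- `a` with the full cube as box -/
noncomputable def fullO (p : ℕ) {q : ℕ} (a : OB q) : OB p := a.map fun _ => fullB p

theorem mixO_oI {p : ℕ} (a : OB p) : mixO (oI p) a = fullO p a := by
  cases a with
  | none => rfl
  | some c => exact congrArg some (mixB_oI c)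

variable {r : ℕ}

/-- at most one of the elements of a label which is not a pair of boxes is a box -/
theorem eq_of_some {p : ℕ} {F : (L2 r).obj p} (hF : ¬ IsP2 F) {c c' : C(G2.Dl p, Bx)}
    (h : some c ∈ F.1) (h' : some c' ∈ F.1) : c = c' := by
  have h1 : (cfg F).pts.card ≤ 1 := by
    rcases kinds F with h | h | h | h
    · exact h.2.le
    · exact absurd h hF
    · rw [h.2]; omega
    · exact h.2.le
  have h2 := Finset.card_le_one.1 h1 (c, ()) (mem_cfg.2 h) (c', ()) (mem_cfg.2 h')
  exact congrArg Prod.fst h2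

open Classical in
/-- the image of a label which is not a pair of boxes -/
noncomputable def imF {p q : ℕ} (g : OB p → OB q) (F : Finset (OB p)) : Finset (OB q) := F.image g

theorem mem_imF {p q : ℕ} {g : OB p → OB q} {F : Finset (OB p)} {a : OB q} :
    a ∈ imF g F ↔ ∃ b ∈ F, g b = a := by
  classical
  exact Finset.mem_image

/-- maps `OB p → OB q` over the identity of the boxes -/
structure OMap (r p q : ℕ) where
  /-- the map on boxes -/
  g : C(G2.Dl p, Bx) → C(G2.Dl q, Bx)
  st : ∀ c, (∀ t, Bx.St r (c t)) → ∀ t, Bx.St r (g c t)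

theorem OMap.ok {p q : ℕ} (m : OMap r p q) {F : (L2 r).obj p} (hF : ¬ IsP2 F) :
    Ok2 r (imF (Option.map m.g) F.1) where
  card := by
    classical
    have h1 : (imF (Option.map m.g) F.1).card = F.1.card := by
      refine Finset.card_image_of_injOn ?_
      intro a ha b hb hab
      cases a with
      | none => cases b with
        | none => rfl
        | some b => cases hab
      | some a => cases b with
        | none => cases hab
        | some b => rw [eq_of_some hF ha hb]
    rw [h1]
    exact F.2.card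
  dis := by
    intro a ha b hb hab
    obtain ⟨a', ha', rfl⟩ := mem_imF.1 ha
    obtain ⟨b', hb', rfl⟩ := mem_imF.1 hb
    cases a' with
    | none => cases b' with
      | none => exact absurd rfl hab
      | some b' => trivial
    | some a' => cases b' with
      | none => trivial
      | some b' => exact absurd (by rw [eq_of_some hF ha' hb']) hab
  st := by
    intro c hc t
    obtain ⟨b, hb, hb'⟩ := mem_imF.1 hc
    cases b with
    | none => cases hb'
    | some b =>
      cases hb'
      exact m.st b (F.2.st b hb) t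

open Classical in
/-- the homotopy on labels -/
noncomputable def hL2 {p : ℕ} (F : (L2 r).obj p) (χ : C(G2.Dl p, unitInterval)) : (L2 r).obj p :=
  if h : IsP2 F then F
  else ⟨imF (Option.map (mixB χ)) F.1, (OMap.mk (r := r) (mixB χ) fun _ hc => st_mixB χ hc).ok h⟩

theorem hL2_of {p : ℕ} {F : (L2 r).obj p} (h : IsP2 F) (χ : C(G2.Dl p, unitInterval)) :
    hL2 F χ = F := dif_pos h

theorem hL2_of_not {p : ℕ} {F : (L2 r).obj p} (h : ¬ IsP2 F) (χ : C(G2.Dl p, unitInterval)) :
    (hL2 F χ).1 = imF (Option.map (mixB χ)) F.1 := congrArg Subtype.val (dif_neg h)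

theorem hL2_pull {p q : ℕ} (f : C(G2.Dl p, G2.Dl q)) (F : (L2 r).obj q)
    (χ : C(G2.Dl q, unitInterval)) :
    hL2 ((L2 r).pull f F) (χ.comp f) = (L2 r).pull f (hL2 F χ) := by
  by_cases h : IsP2 F
  · rw [hL2_of h, hL2_of ((isP2_pull f F).2 h)]
  · refine Subtype.ext ?_
    rw [hL2_of_not fun h' => h ((isP2_pull f F).1 h')]
    show _ = pF f (hL2 F χ).1
    rw [hL2_of_not h]
    ext a
    rw [mem_imF, mem_pF]
    constructor
    · rintro ⟨b, hb, rfl⟩
      obtain ⟨b', hb', rfl⟩ := mem_pF.1 hb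
      exact ⟨Option.map (mixB χ) b', mem_imF.2 ⟨b', hb', rfl⟩, (mixO_pO f χ b').symm⟩
    · rintro ⟨b, hb, rfl⟩
      obtain ⟨b', hb', rfl⟩ := mem_imF.1 hb
      exact ⟨pO f b', mem_pF.2 ⟨b', hb', rfl⟩, mixO_pO f χ b'⟩

theorem hL2_zI {p : ℕ} (F : (L2 r).obj p) : hL2 F (zI p) = F := by
  by_cases h : IsP2 F
  · exact hL2_of h _
  · refine Subtype.ext ?_
    rw [hL2_of_not h]
    ext a
    rw [mem_imF]
    constructor
    · rintro ⟨b, hb, rfl⟩
      have : Option.map (mixB (zI p)) b = b := mixO_zI b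
      rw [this]
      exact hb
    · intro ha
      exact ⟨a, ha, mixO_zI a⟩

/-- the homotopy of the simplicial set of labels -/
noncomputable def KL2 (r : ℕ) : SS.Map (cylS (L2 r).ss) (L2 r).ss where
  app {p} u := hL2 (r := r) (p := p) u.1 (chiI u.2)
  nat {p q} f u := by
    have h := hL2_pull (dmap f) u.1 (chiI u.2)
    rw [← chiI_comp (u.2 : Op q 1) f] at h
    exact h

/-- the pairs of boxes -/
noncomputable def P2c (r : ℕ) : Pc (L2 r).ss where
  mem {p} F := IsP2 (r := r) (p := p) F
  map_iff f F := isP2_pull (dmap f) F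

/-- the label `{none}` -/
noncomputable def labR (r p : ℕ) : (L2 r).obj p :=
  ⟨{none}, Or.inl (Finset.card_singleton _), fun a ha b hb hab => by
    rw [Finset.mem_singleton] at ha hb
    exact absurd (ha.trans hb.symm) hab, fun c hc => by
    rw [Finset.mem_singleton] at hc
    cases hc⟩

open Classical in
/-- the vertex to which a label which is not a pair of boxes is contracted -/
noncomputable def vL2 {p : ℕ} (F : (L2 r).obj p) : (L2 r).obj 0 :=
  if h : IsP2 F then labR r 0
  else ⟨imF (Option.map fun _ => fullB 0) F.1,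
    (OMap.mk (r := r) (q := 0) (fun _ => fullB 0) fun _ _ _ _ _ => rfl).ok h⟩

theorem vL2_of_not {p : ℕ} {F : (L2 r).obj p} (h : ¬ IsP2 F) :
    (vL2 F).1 = imF (Option.map fun _ => fullB 0) F.1 := congrArg Subtype.val (dif_neg h)

theorem vL2_pull {p q : ℕ} (f : C(G2.Dl p, G2.Dl q)) (F : (L2 r).obj q) (h : ¬ IsP2 F) :
    vL2 ((L2 r).pull f F) = vL2 F := by
  refine Subtype.ext ?_
  rw [vL2_of_not h, vL2_of_not fun h' => h ((isP2_pull f F).1 h')]
  ext a
  rw [mem_imF, mem_imF]
  constructor
  · rintro ⟨b, hb, rfl⟩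
    obtain ⟨b', hb', rfl⟩ := mem_pF.1 hb
    refine ⟨b', hb', ?_⟩
    cases b' with
    | none => rfl
    | some c => rfl
  · rintro ⟨b, hb, rfl⟩
    refine ⟨pO f b, mem_pF.2 ⟨b, hb, rfl⟩, ?_⟩
    cases b with
    | none => rfl
    | some c => rfl

theorem hL2_oI {p : ℕ} {F : (L2 r).obj p} (h : ¬ IsP2 F) :
    hL2 F (oI p) = (L2 r).pull (dmap (pcO p)) (vL2 F) := by
  refine Subtype.ext ?_
  rw [hL2_of_not h]
  show _ = pF (dmap (pcO p)) (vL2 F).1
  rw [vL2_of_not h]
  ext a
  rw [mem_imF, mem_pF]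
  constructor
  · rintro ⟨b, hb, rfl⟩
    refine ⟨Option.map (fun _ => fullB 0) b, mem_imF.2 ⟨b, hb, rfl⟩, ?_⟩
    cases b with
    | none => rfl
    | some c => exact congrArg some (mixB_oI c).symm
  · rintro ⟨b, hb, rfl⟩
    obtain ⟨b', hb', rfl⟩ := mem_imF.1 hb
    refine ⟨b', hb', ?_⟩
    cases b' with
    | none => rfl
    | some c => exact congrArg some (mixB_oI c)

/-- **Only the pairs of boxes matter**: every homogeneous cocycle of positive degree on the labels
is cohomologous to its restriction to the pairs of boxes. -/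
theorem exists_rst_L2 {k : ℕ} {u : Cc (L2 r).ss} (hu : Cc.IsDeg (k + 1) u) (hd : Cc.d u = 0) :
    ∃ e : Cc (L2 r).ss, Cc.IsDeg k e ∧ u = (P2c r).rst u + Cc.d e := by
  refine exists_rst (P2c r) (KL2 r) (fun {p} F => vL2 (r := r) (p := p) F)
    (fun f F h => vL2_pull (dmap f) F h) ?_ ?_ ?_ hu hd
  · intro p F
    show hL2 (r := r) (p := p) F (chiI (c0 p)) = F
    rw [chiI_c0']
    exact hL2_zI F
  · intro p F h
    exact hL2_of h _
  · intro p F h
    show hL2 (r := r) (p := p) F (chiI (c1 p)) = _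
    rw [chiI_c1']
    exact hL2_oI h

/-! ### extension by zero from the pairs -/

open Classical in
/-- extension by zero from the pairs of boxes -/
noncomputable def extP (r : ℕ) (a : Cc (FNr r 2 Unit)) : Cc (L2 r).ss := fun p F =>
  if h : IsP2 (r := r) (p := p) F then a p ⟨cfg F, isSt_cfg F, h.2⟩ else 0

theorem extP_of (a : Cc (FNr r 2 Unit)) {p : ℕ} {F : (L2 r).obj p} (h : IsP2 F) :
    extP r a p F = a p ⟨cfg F, isSt_cfg F, h.2⟩ := dif_pos h

theorem extP_of_not (a : Cc (FNr r 2 Unit)) {p : ℕ} {F : (L2 r).obj p} (h : ¬ IsP2 F) :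
    extP r a p F = 0 := dif_neg h

theorem isP2_pairL {p : ℕ} (S : (FNr r 2 Unit).obj p) :
    IsP2 (r := r) (p := p) ((pairL r).app S) :=
  ⟨not_hasR_ofS S.2.1 (Or.inr S.2.2), by
    show (cfg (ofS S.1 S.2.1 (Or.inr S.2.2))).pts.card = 2
    rw [cfg_ofS, S.2.2]⟩

@[simp] theorem pull_extP (a : Cc (FNr r 2 Unit)) : Cc.pull (pairL r) (extP r a) = a := by
  funext p S
  show extP r a p ((pairL r).app S) = a p S
  rw [extP_of a (isP2_pairL S)]
  exact congrArg (a p) (Subtype.ext (cfg_ofS S.2.1 (Or.inr S.2.2)))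

theorem extP_add (a b : Cc (FNr r 2 Unit)) : extP r (a + b) = extP r a + extP r b := by
  funext p F
  by_cases h : IsP2 (r := r) (p := p) F
  · exact (extP_of _ h).trans (congrArg₂ (· + ·) (extP_of a h) (extP_of b h)).symm
  · exact (extP_of_not _ h).trans ((congrArg₂ (· + ·) (extP_of_not a h)
      (extP_of_not b h)).trans (add_zero 0)).symm

theorem isDeg_extP {n : ℕ} {a : Cc (FNr r 2 Unit)} (ha : Cc.IsDeg n a) :
    Cc.IsDeg n (extP r a) := by
  intro p hp F
  by_cases h : IsP2 (r := r) (p := p) F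
  · exact (extP_of a h).trans (ha p hp _)
  · exact extP_of_not a h

theorem d_extP (a : Cc (FNr r 2 Unit)) : Cc.d (extP r a) = extP r (Cc.d a) := by
  funext p F
  cases p with
  | zero =>
    rw [TJ.d_zero_apply]
    by_cases h : IsP2 (r := r) (p := 0) F
    · exact ((extP_of _ h).trans (TJ.d_zero_apply _ _)).symm
    · exact (extP_of_not _ h).symm
  | succ p =>
    rw [TJ.d_succ_apply]
    by_cases h : IsP2 (r := r) (p := p + 1) F
    · refine Eq.trans ?_ ((extP_of _ h).trans (TJ.d_succ_apply a _)).symm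
      refine Finset.sum_congr rfl fun i _ => ?_
      refine (extP_of a ((isP2_pull (dmap (dl p i)) F).2 h)).trans ?_
      exact congrArg (a p) (Subtype.ext (cfg_pull (dmap (dl p i)) F))
    · refine Eq.trans ?_ (extP_of_not _ h).symm
      exact Finset.sum_eq_zero fun i _ =>
        extP_of_not a fun h' => h ((isP2_pull (dmap (dl p i)) F).1 h')

theorem rst_eq_extP (u : Cc (L2 r).ss) : (P2c r).rst u = extP r (Cc.pull (pairL r) u) := by
  funext p F
  by_cases h : IsP2 (r := r) (p := p) F
  · refine ((P2c r).rst_of_mem u h).trans (Eq.trans ?_ (extP_of _ h).symm)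
    exact congrArg (u p) (h.eq_ofS).symm
  · exact ((P2c r).rst_of_notMem u h).trans (extP_of_not _ h).symm

/-- **Decomposition**: every homogeneous cocycle of positive degree on the labels is cohomologous
to the extension by zero of its restriction to the pairs of boxes. -/
theorem exists_extP {k : ℕ} {u : Cc (L2 r).ss} (hu : Cc.IsDeg (k + 1) u) (hd : Cc.d u = 0) :
    ∃ e : Cc (L2 r).ss, Cc.IsDeg k e ∧ u = extP r (Cc.pull (pairL r) u) + Cc.d e := by
  obtain ⟨e, h1, h2⟩ := exists_rst_L2 hu hd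
  exact ⟨e, h1, by rw [← rst_eq_extP]; exact h2⟩

/-- a cocycle of positive degree on the labels whose restriction to the pairs of boxes is
`w + d a` is cohomologous to the extension by zero of `w` -/
theorem exists_extP_of {k : ℕ} {u : Cc (L2 r).ss} (hu : Cc.IsDeg (k + 1) u) (hd : Cc.d u = 0)
    {w a : Cc (FNr r 2 Unit)} (hw : Cc.IsDeg (k + 1) w)
    (ha : Cc.pull (pairL r) u = w + Cc.d a) :
    ∃ e : Cc (L2 r).ss, Cc.IsDeg k e ∧ u = extP r w + Cc.d e := by
  obtain ⟨e, h1, h2⟩ := exists_extP hu hd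
  have h3 : Cc.d (Cc.hom k a) = Cc.d a := by
    rw [d_hom]
    funext p F
    by_cases hp : p = k + 1
    · subst hp; rw [hom_self]
    · rw [hom_of_ne hp]
      have h4 : Cc.pull (pairL r) u p F = w p F + Cc.d a p F := congrFun (congrFun ha p) F
      rw [hw p hp, zero_add] at h4
      exact (Eq.trans h4.symm (hu p hp _)).symm
  refine ⟨extP r (Cc.hom k a) + e, (isDeg_extP fun p hp F => by
    rw [hom_of_ne hp]; rfl).add h1, ?_⟩
  rw [TJ.d_add, d_extP, h3, ← add_assoc, ← extP_add, ← ha]
  exact h2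

/-- **a cocycle of positive degree on the labels which is a coboundary on the pairs of boxes is a
coboundary** -/
theorem exists_of_pair {k : ℕ} {u : Cc (L2 r).ss} (hu : Cc.IsDeg (k + 1) u) (hd : Cc.d u = 0)
    {a : Cc (FNr r 2 Unit)} (ha : Cc.pull (pairL r) u = Cc.d a) :
    ∃ e : Cc (L2 r).ss, Cc.IsDeg k e ∧ u = Cc.d e := by
  obtain ⟨e, h1, h2⟩ := exists_extP_of hu hd (w := 0) (a := a) (fun _ _ _ => rfl)
    (by rw [zero_add]; exact ha)
  refine ⟨e, h1, ?_⟩
  rw [h2]
  have h0 : extP r (0 : Cc (FNr r 2 Unit)) = 0 := by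
    funext p F
    by_cases h : IsP2 (r := r) (p := p) F
    · exact extP_of _ h
    · exact extP_of_not _ h
  rw [h0, zero_add]

end Vale.Agent.P263.KJ
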