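import Vale.Agent.P263.KJ.FamTheta
import Vale.Agent.P263.KJ.LabC
import Vale.Agent.P263.KJ.KKdrop
import Vale.Agent.P263.KJ.MuVal

/-!
# P263, block KJ: the value on families of sheets labelled by one or two boxes

`exists_theta_deg` : the generalised functional square of homogeneous data is homogeneous.
`PFam.theta_pair` : for labels in `lab2 r` (one or two boxes, or the fixed loop) only the pairs of
boxes count: if the sheets at time one over the pairs have the class `y2` and generalised functional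
square zero then the generalised functional square of the family is the class of
`idG^* (KK 0 0 (extP r y2))`.
`twD` : the data pulled back along a self map `τ` of the target with `τ τ = 1`;
`PFam.box_value` : if the sheets at time one over the pairs are `τ (z ∧ ell s)` then the value of
the family is `(labels)^* (KK 0 0 (extP r (ell^* x)))`, for the labels over a configuration of boxes
with the additional element.
-/

open Finset OnePoint Topology

namespace Vale.Agent.P263.TJ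

open Vale.Agent.P263.S Vale.Agent.P263.E Vale.Agent.P263.H83 Vale.Agent.P263.G2 CupC

variable {T X : SS} {T₀ : Sb T} {i q : ℕ}

/-- the generalised functional square of homogeneous data -/
theorem exists_theta_deg (D : SqD T₀ (i + 1)) (hb : Cc.IsDeg (q + (i + 1)) D.b)
    (hc : Cc.IsDeg (q + q + (i + 1)) D.c) (m : SS.Map (X.prod (SN (i + 1))) T)
    (hm : ∀ {p : ℕ} (x : (X.prod (SN (i + 1))).obj p), (bdX X (i + 1)).mem x →
      T₀.mem (m.app x)) :
    ∃ κ : Cc X, Cc.IsDeg (q + q) κ ∧ Cc.d κ = 0 ∧ (Cc.cupC X).Coh (theta D m hm) κ := by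
  obtain ⟨e0, he0, heq⟩ := D.exists_e m hm
  obtain ⟨z, hz⟩ : ∃ z, z = DstN (i + 1) (Cc.pull m D.b) := ⟨_, rfl⟩
  rw [← hz] at heq
  have hzd : Cc.IsDeg q z := by rw [hz]; exact isDeg_DstN (hb.pull m)
  have hsn : Cc.IsDeg (q + i + 1) (sn (i + 1) z) := isDeg_sn (i + 1) hzd
  have heq' : Cc.pull m D.b = sn (i + 1) z + Cc.d (Cc.comp (q + i) e0) := by
    have h1 := congrArg (Cc.comp (q + i + 1)) heq
    have h2 : Cc.IsDeg (q + i + 1) (Cc.pull m D.b) := hb.pull m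
    rwa [Cc.comp_add, Cc.comp_eq h2, Cc.comp_eq hsn, Cc.comp_d] at h1
  have hed : Cc.IsDeg (q + i) (Cc.comp (q + i) e0) := Cc.isDeg_comp _ _
  have hev : Vn (bdX X (i + 1)) (Cc.comp (q + i) e0) := Cc.vn_comp he0 _
  obtain ⟨E, hE⟩ : ∃ E : ThD (Cc.relHom m (bdX X (i + 1)) T₀ hm) i (narX X (i + 1)), E =
    { b := Cc.mkRel T₀ D.b D.vn_b
      s := Cc.mkRel _ (sn (i + 1) z) (Vn_sn _ _)
      e := Cc.mkRel _ (Cc.comp (q + i) e0) hev
      c := Cc.mkRel T₀ D.c D.vn_c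
      d_b := Cc.rel_ext D.d_b
      s_mem := ⟨z, rfl⟩
      g_b := Cc.rel_ext heq'
      d_c := Cc.rel_ext D.d_c } := ⟨_, rfl⟩
  have h1 := theta_eq D (hm := hm) E (by rw [hE]; rfl) (by rw [hE]; rfl)
  have h2 : Cc.val E.val = Cc.pull m D.c + qQ i (sn (i + 1) z) (Cc.comp (q + i) e0) := by
    have h3 : Cc.val E.val = (Cc.cup i (Cc.comp (q + i) e0) (Cc.comp (q + i) e0) +
        Cc.cup (i + 1) (Cc.comp (q + i) e0) (Cc.d (Cc.comp (q + i) e0))) + Cc.pull m D.c +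
        Cc.cup (i + 1) (Cc.comp (q + i) e0) (sn (i + 1) z) +
        Cc.cup (i + 1) (sn (i + 1) z) (Cc.comp (q + i) e0) := by
      rw [hE]
      rfl
    rw [h3, qQ]
    funext p y
    simp only [Pi.add_apply]
    ring
  have h4 : Cc.IsDeg (q + q + (i + 1)) (Cc.val E.val) := by
    rw [h2]
    exact (hc.pull m).add (Cc.IsDeg.qQ hsn hed)
  refine ⟨DstN (i + 1) (Cc.val E.val), isDeg_DstN h4, ?_, h1⟩
  rw [← DstN_d (Cc.vn_val _)]
  have h5 := congrArg Cc.val (E.d_val le_rfl)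
  rw [Cc.val_d] at h5
  rw [h5, Cc.val_zero, DstN_zero]

theorem theta_congr (D : SqD T₀ (i + 1)) {m m' : SS.Map (X.prod (SN (i + 1))) T} (h : m = m')
    {hm : ∀ {p : ℕ} (x : (X.prod (SN (i + 1))).obj p), (bdX X (i + 1)).mem x →
      T₀.mem (m.app x)}
    {hm' : ∀ {p : ℕ} (x : (X.prod (SN (i + 1))).obj p), (bdX X (i + 1)).mem x →
      T₀.mem (m'.app x)} : theta D m hm = theta D m' hm' := by
  subst h
  rfl

/-- **a twist of the target**: the data pulled back along `τ`, the sheets pushed forward -/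
theorem theta_twist (D : SqD T₀ (i + 1)) (τ : SS.Map T T)
    (hτ : ∀ {p : ℕ} (x : T.obj p), T₀.mem x → T₀.mem (τ.app x)) (hττ : τ.comp τ = SS.Map.id T)
    {m m' : SS.Map (X.prod (SN (i + 1))) T}
    {hm : ∀ {p : ℕ} (x : (X.prod (SN (i + 1))).obj p), (bdX X (i + 1)).mem x →
      T₀.mem (m.app x)}
    {hm' : ∀ {p : ℕ} (x : (X.prod (SN (i + 1))).obj p), (bdX X (i + 1)).mem x →
      T₀.mem (m'.app x)} (h : m' = τ.comp m) :
    (Cc.cupC X).Coh (theta (D.pull τ hτ) m' hm') (theta D m hm) := by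
  have h1 : m = τ.comp m' := by
    rw [h]
    apply SS.Map.ext
    intro p x
    exact (congrArg (fun f : SS.Map T T => f.app (m.app x)) hττ).symm
  exact theta_map τ hτ D h1

theorem pull_twist {τ : SS.Map T T} (hττ : τ.comp τ = SS.Map.id T) {X : SS} {m m' : SS.Map X T}
    (h : m' = τ.comp m) (u : Cc T) : Cc.pull m' (Cc.pull τ u) = Cc.pull m u := by
  subst h
  funext p x
  exact congrArg (fun f : SS.Map T T => u p (f.app (m.app x))) hττ

end Vale.Agent.P263.TJ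

namespace Vale.Agent.P263.KJ

open Vale.Agent.P263.S Vale.Agent.P263.E Vale.Agent.P263.H83 Vale.Agent.P263.G2
  Vale.Agent.P263.TJ

variable {r : ℕ}

/-- classes of positive degree on the labels are detected by the pairs -/
theorem coh_of_pair {k : ℕ} {u v : Cc (L2 r).ss} (hu : Cc.IsDeg (k + 1) u)
    (hv : Cc.IsDeg (k + 1) v) (du : Cc.d u = 0) (dv : Cc.d v = 0)
    (h : (Cc.cupC _).Coh (Cc.pull (pairL r) u) (Cc.pull (pairL r) v)) :
    (Cc.cupC _).Coh u v := by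
  obtain ⟨a, ha⟩ := h
  have ha' : Cc.pull (pairL r) (u + v) = Cc.d (show Cc (FNr r 2 Unit) from a) := ha
  obtain ⟨e, -, he⟩ := exists_of_pair (hu.add hv) (by rw [d_add, du, dv, add_zero]) ha'
  exact ⟨e, he⟩

namespace PFam

variable {X : TSet} {A Y : Type} [TopologicalSpace A] [TopologicalSpace Y]
  (𝓕 : PFam X (lab2 r) A Y) {i k : ℕ} {cA : SS.Map (SN (i + 1)) (G2.sing A)} {a : A}
  (hcA : ∀ {p : ℕ} (τ : (SN (i + 1)).obj p), (SN.base (i + 1)).mem τ → (ptS a).mem (cA.app τ))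
  (hP : 𝓕.Pointed a) {Z : Set (OnePoint Y)} (hZ : IsClosed Z) (hZi : (∞ : OnePoint Y) ∉ Z)
  (D : SqD (ptS (∞ : OnePoint Y)) (i + 1)) (hb : Vn (missZ Z) D.b) (hc : Vn (missZ Z) D.c)

variable (cA) in
/-- the sheets at time one over all labels -/
noncomputable def u2 : SS.Map ((L2 r).ss.prod (SN (i + 1))) (G2.sing (OnePoint Y)) := 𝓕.uY1 cA

include hcA hP in
theorem u2_base {p : ℕ} (x : ((L2 r).ss.prod (SN (i + 1))).obj p)
    (h : (bdX (L2 r).ss (i + 1)).mem x) : (ptS (∞ : OnePoint Y)).mem ((𝓕.u2 cA).app x) :=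
  𝓕.uY1_base hcA hP x h

variable (cA) in
/-- the sheets at time one over the pairs of boxes -/
noncomputable def uP : SS.Map ((FNr r 2 Unit).prod (SN (i + 1))) (G2.sing (OnePoint Y)) :=
  (𝓕.u2 cA).comp (timesN (pairL r) (i + 1))

include hcA hP in
theorem uP_base {p : ℕ} (x : ((FNr r 2 Unit).prod (SN (i + 1))).obj p)
    (h : (bdX (FNr r 2 Unit) (i + 1)).mem x) : (ptS (∞ : OnePoint Y)).mem ((𝓕.uP cA).app x) :=
  𝓕.u2_base hcA hP _ (timesN_ends (pairL r) (i + 1) h)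

include hcA hP in
theorem coh_u2 (hbd : Cc.IsDeg (k + 1 + (i + 1)) D.b) {y2 : Cc (FNr r 2 Unit)}
    (hy : Cc.IsDeg (k + 1) y2)
    (hz : (Cc.cupC _).Coh (DstN (i + 1) (Cc.pull (𝓕.uP cA) D.b)) y2) :
    (Cc.cupC (L2 r).ss).Coh (extP r y2) (DstN (i + 1) (Cc.pull (𝓕.u2 cA) D.b)) := by
  have hvb : Vn (bdX (L2 r).ss (i + 1)) (Cc.pull (𝓕.u2 cA) D.b) :=
    (D.vn_b.pull _).mono fun x hx => 𝓕.u2_base hcA hP x hx
  have hd1 : Cc.d (DstN (i + 1) (Cc.pull (𝓕.u2 cA) D.b)) = 0 := by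
    rw [← DstN_d hvb, ← pull_d, D.d_b, pull_zero, DstN_zero]
  have h2 : Cc.pull (pairL r) (DstN (i + 1) (Cc.pull (𝓕.u2 cA) D.b)) =
      DstN (i + 1) (Cc.pull (𝓕.uP cA) D.b) :=
    (DstN_pull (i + 1) (pairL r) (Cc.pull (𝓕.u2 cA) D.b)).symm
  have hd2 : Cc.d y2 = 0 := by
    obtain ⟨w, hw⟩ := hz
    have hw' : DstN (i + 1) (Cc.pull (𝓕.uP cA) D.b) + y2 =
      Cc.d (show Cc (FNr r 2 Unit) from w) := hw
    have h3 := congrArg Cc.d hw'
    rw [d_d, d_add, ← h2, ← pull_d, hd1, pull_zero, zero_add] at h3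
    exact h3
  refine coh_of_pair (isDeg_extP hy) (isDeg_DstN (hbd.pull _)) (by
    rw [d_extP, hd2]
    funext p F
    by_cases hF : IsP2 F
    · rw [extP_of _ hF]; rfl
    · rw [extP_of_not _ hF]; rfl) hd1 ?_
  rw [pull_extP, h2]
  exact hz.symm

include hcA hP in
theorem theta_u2 (hbd : Cc.IsDeg (k + 1 + (i + 1)) D.b)
    (hcd : Cc.IsDeg (k + 1 + (k + 1) + (i + 1)) D.c)
    (hk : (Cc.cupC _).Coh (theta D (𝓕.uP cA) (𝓕.uP_base hcA hP)) 0) :
    (Cc.cupC (L2 r).ss).Coh 0 (theta D (𝓕.u2 cA) (𝓕.u2_base hcA hP)) := by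
  obtain ⟨κ, h4, h5, h6⟩ := exists_theta_deg D hbd hcd (𝓕.u2 cA) (𝓕.u2_base hcA hP)
  refine CupC.Coh.trans ?_ h6.symm
  have h7 := theta_pull D (m := 𝓕.u2 cA) (hm := 𝓕.u2_base hcA hP) (pairL r)
    (m' := 𝓕.uP cA) (hm' := 𝓕.uP_base hcA hP) rfl
  have h8 : (Cc.cupC _).Coh (Cc.pull (pairL r) κ) 0 :=
    ((h6.symm.map (Cc.pullHom (pairL r))).trans h7.symm).trans hk
  have h9 := coh_of_pair (k := k + 1 + k) (u := κ) (v := 0) h4 (Cc.isDeg_zero _) h5 d_zero
    (by rw [pull_zero]; exact h8)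
  exact h9.symm

include hZ hZi hb hc in
/-- **The value on families of sheets labelled by one or two boxes.** -/
theorem theta_pair (hbd : Cc.IsDeg (k + 1 + (i + 1)) D.b)
    (hcd : Cc.IsDeg (k + 1 + (k + 1) + (i + 1)) D.c) {y2 : Cc (FNr r 2 Unit)}
    (hy : Cc.IsDeg (k + 1) y2)
    (hz : (Cc.cupC _).Coh (DstN (i + 1) (Cc.pull (𝓕.uP cA) D.b)) y2)
    (hk : (Cc.cupC _).Coh (theta D (𝓕.uP cA) (𝓕.uP_base hcA hP)) 0) :
    (Cc.cupC X.ss).Coh (theta D (𝓕.MX.comp (jm X cA)) (𝓕.MX_base hcA hP))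
      (Cc.pull 𝓕.idG (KK (lab2 r).lab (Sb.empty (lab2 r).L.ss) 0 0 (extP r y2))) := by
  have h10 := 𝓕.theta_fam1 hcA hP hZ hZi D hb hc (𝓕.coh_u2 hcA hP D hbd hy hz)
    (𝓕.theta_u2 hcA hP D hbd hcd hk)
  have h12 : KK (lab2 r).lab (Sb.empty (lab2 r).L.ss) 0 0 (extP r y2) +
      hat (lab2 r).lab (Sb.empty (lab2 r).L.ss) (0 : Cc (lab2 r).L.ss) =
      KK (lab2 r).lab (Sb.empty (lab2 r).L.ss) 0 0 (extP r y2) := by
    rw [hat_zero, add_zero]
  exact CupC.Coh.trans h10 (CupC.Coh.of_eq (congrArg (Cc.pull 𝓕.idG) h12))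

end PFam

/-! ### the twisted literal data and the value on boxes -/

section value

variable {P : Type} [TopologicalSpace P] [CompactSpace P] [T2Space P]

/-- the zero section -/
def zP (K : ℕ) (P : Type) : Set (OnePoint ((Fin K → ℝ) × P)) :=
  {z | ∃ p : P, z = (((0 : Fin K → ℝ), p) : (Fin K → ℝ) × P)}

theorem zP_compl (K : ℕ) (P : Type) : (zP K P)ᶜ = misT K P := by
  ext z
  constructor
  · exact fun h p hp => h ⟨p, hp⟩
  · rintro h ⟨p, hp⟩
    exact h p hp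

theorem isClosed_zP (K : ℕ) : IsClosed (zP K P) := by
  rw [← isOpen_compl_iff, zP_compl]
  exact isOpen_misT K P

omit [TopologicalSpace P] [CompactSpace P] [T2Space P] in
theorem infty_notMem_zP (K : ℕ) : (∞ : OnePoint ((Fin K → ℝ) × P)) ∉ zP K P := by
  rintro ⟨p, hp⟩
  exact OnePoint.infty_ne_coe _ hp

omit [CompactSpace P] [T2Space P] in
theorem miss_iff {K p : ℕ} {σ : (sing (OnePoint ((Fin K → ℝ) × P))).obj p} :
    (missZ (zP K P)).mem σ ↔ (inU (misT K P)).mem σ := by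
  refine forall_congr' fun t => ?_
  rw [← zP_compl]
  exact Iff.rfl

omit [CompactSpace P] [T2Space P] in
theorem pt_miss {K p : ℕ} {σ : (sing (OnePoint ((Fin K → ℝ) × P))).obj p}
    (h : (ptS (∞ : OnePoint ((Fin K → ℝ) × P))).mem σ) : (inU (misT K P)).mem σ :=
  miss_iff.1 fun t => by rw [h t]; exact infty_notMem_zP K

variable {i q : ℕ} {x : Cc (sing P)} (hq : Cc.IsDeg q x) (hx : Cc.d x = 0)
  (τ : SS.Map (sing (OnePoint ((Fin (i + 1) → ℝ) × P))) (sing (OnePoint ((Fin (i + 1) → ℝ) × P))))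
  (hτ : ∀ {p : ℕ} (x : (sing (OnePoint ((Fin (i + 1) → ℝ) × P))).obj p),
    (ptS (∞ : OnePoint ((Fin (i + 1) → ℝ) × P))).mem x →
    (ptS (∞ : OnePoint ((Fin (i + 1) → ℝ) × P))).mem (τ.app x))
  (hτZ : ∀ {p : ℕ} (x : (sing (OnePoint ((Fin (i + 1) → ℝ) × P))).obj p),
    (inU (misT (i + 1) P)).mem x → (inU (misT (i + 1) P)).mem (τ.app x))
  (hττ : τ.comp τ = SS.Map.id _)

/-- **the literal data, pulled back along `τ`** -/
noncomputable def twD : SqD (ptS (∞ : OnePoint ((Fin (i + 1) → ℝ) × P))) (i + 1) :=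
  ((jtD i hq hx).mono fun _ h => pt_miss h).pull τ hτ

theorem twD_b : (twD hq hx τ hτ).b = Cc.pull τ (jtD i hq hx).b := rfl

theorem twD_c : (twD hq hx τ hτ).c = Cc.pull τ (jtD i hq hx).c := rfl

include hτZ in
theorem vn_twD_b : Vn (missZ (zP (i + 1) P)) (twD hq hx τ hτ).b :=
  ((jtD i hq hx).vn_b.pull τ).mono fun x h => hτZ x (miss_iff.1 h)

include hτZ in
theorem vn_twD_c : Vn (missZ (zP (i + 1) P)) (twD hq hx τ hτ).c :=
  ((jtD i hq hx).vn_c.pull τ).mono fun x h => hτZ x (miss_iff.1 h)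

theorem twD_deg_b : Cc.IsDeg (q + (i + 1)) (twD hq hx τ hτ).b := (jtD_deg_b hq hx).pull τ

theorem twD_deg_c : Cc.IsDeg (q + q + (i + 1)) (twD hq hx τ hτ).c := (jtD_deg_c hq hx).pull τ

variable {L : SS} (ell : SS.Map L (sing P)) {m : SS.Map (L.prod (SN (i + 1)))
  (sing (OnePoint ((Fin (i + 1) → ℝ) × P)))} (hm : m = τ.comp (muL ell i))

include hττ hm in
theorem DstN_tw : (Cc.cupC L).Coh (DstN (i + 1) (Cc.pull m (twD hq hx τ hτ).b))
    (Cc.pull ell x) := by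
  rw [twD_b, pull_twist hττ hm]
  exact DstN_ell hq hx ell

include hττ hm in
theorem theta_tw {hm' : ∀ {p : ℕ} (x : (L.prod (SN (i + 1))).obj p), (bdX L (i + 1)).mem x →
      (ptS (∞ : OnePoint ((Fin (i + 1) → ℝ) × P))).mem (m.app x)} :
    (Cc.cupC L).Coh (theta (twD hq hx τ hτ) m hm') 0 :=
  (theta_twist _ τ hτ hττ (hm := muL_infty ell) hm).trans
    ((theta_mono (jtD i hq hx) (fun _ h => pt_miss h) (hm := muL_base ell)).symm.trans
      (theta_ell hq hx ell))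

end value

namespace PFam

section boxes

variable {N : ℕ} {A Y : Type} [TopologicalSpace A] [TopologicalSpace Y]

/-- the labels over the configurations of boxes with the additional element -/
theorem idG_eq (𝓕 : PFam (FT r N) (lab2 r) A Y)
    (h : ∀ {p : ℕ} (x : (FT r N).obj p), 𝓕.idx x = idxR r x.1) :
    𝓕.idG = (idxFR r N).map (Sb.empty _) := by
  apply SS.Map.ext
  intro p x
  refine Subtype.ext ?_
  ext c
  refine 𝓕.mem_idF.trans (Iff.trans ?_ (idxFR r N).mem_fs.symm)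
  rw [h x]
  constructor
  · rintro ⟨s, hs, hc⟩
    exact ⟨s, hs, hc, id⟩
  · rintro ⟨s, hs, hc, -⟩
    exact ⟨s, hs, hc⟩

variable {P : Type} [TopologicalSpace P] [CompactSpace P] [T2Space P] {i k : ℕ}
  (𝓕 : PFam (FT r N) (lab2 r) A ((Fin (i + 1) → ℝ) × P))
  (hidx : ∀ {p : ℕ} (x : (FT r N).obj p), 𝓕.idx x = idxR r x.1)
  {cA : SS.Map (SN (i + 1)) (G2.sing A)} {a : A}
  (hcA : ∀ {p : ℕ} (τ : (SN (i + 1)).obj p), (SN.base (i + 1)).mem τ → (ptS a).mem (cA.app τ))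
  (hP : 𝓕.Pointed a) {x : Cc (sing P)} (hq : Cc.IsDeg (k + 1) x) (hx : Cc.d x = 0)
  (τ : SS.Map (sing (OnePoint ((Fin (i + 1) → ℝ) × P))) (sing (OnePoint ((Fin (i + 1) → ℝ) × P))))
  (hτ : ∀ {p : ℕ} (x : (sing (OnePoint ((Fin (i + 1) → ℝ) × P))).obj p),
    (ptS (∞ : OnePoint ((Fin (i + 1) → ℝ) × P))).mem x →
    (ptS (∞ : OnePoint ((Fin (i + 1) → ℝ) × P))).mem (τ.app x))
  (hτZ : ∀ {p : ℕ} (x : (sing (OnePoint ((Fin (i + 1) → ℝ) × P))).obj p),
    (inU (misT (i + 1) P)).mem x → (inU (misT (i + 1) P)).mem (τ.app x))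
  (hττ : τ.comp τ = SS.Map.id _) (ell : SS.Map (FNr r 2 Unit) (sing P))
  (hu : 𝓕.uP cA = τ.comp (muL ell i))

include hidx hcA hP hτZ hττ hu in
/-- **The value on the configurations of boxes.** -/
theorem box_value {O : SS} (g : SS.Map (FNr r N Unit) O)
    {jz : SS.Map (O.prod (SN (i + 1))) (sing (OnePoint ((Fin (i + 1) → ℝ) × P)))}
    {hj : ∀ {p : ℕ} (x : (O.prod (SN (i + 1))).obj p), (bdX O (i + 1)).mem x →
      (ptS (∞ : OnePoint ((Fin (i + 1) → ℝ) × P))).mem (jz.app x)}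
    (hM : 𝓕.MX.comp (jm (FT r N) cA) = jz.comp (timesN g (i + 1))) :
    (Cc.cupC (FNr r N Unit)).Coh (Cc.pull g (theta (twD hq hx τ hτ) jz hj))
      (Cc.pull ((idxFR r N).map (Sb.empty _))
        (KK (lab2 r).lab (Sb.empty _) 0 0 (extP r (Cc.pull ell x)))) := by
  have h1 : (Cc.cupC (FNr r N Unit)).Coh
      (theta (twD hq hx τ hτ) (𝓕.MX.comp (jm (FT r N) cA)) (𝓕.MX_base hcA hP))
      (Cc.pull g (theta (twD hq hx τ hτ) jz hj)) :=
    theta_pull (twD hq hx τ hτ) (m := jz) (hm := hj) g hM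
  have h2 := 𝓕.theta_pair hcA hP (isClosed_zP (P := P) (i + 1)) (infty_notMem_zP (i + 1))
    (twD hq hx τ hτ) (vn_twD_b hq hx τ hτ hτZ) (vn_twD_c hq hx τ hτ hτZ)
    (twD_deg_b hq hx τ hτ) (twD_deg_c hq hx τ hτ) (y2 := Cc.pull ell x) (hq.pull ell)
    (DstN_tw hq hx τ hτ hττ ell hu) (theta_tw hq hx τ hτ hττ ell hu)
  rw [𝓕.idG_eq hidx] at h2
  exact h1.symm.trans h2

end boxes

end PFam

end Vale.Agent.P263.KJ
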