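import Vale.Agent.P263.KJ.Fam
import Vale.Agent.P263.TJ.ThetaG
import Vale.Agent.P263.TJ.ThetaS
import Vale.Agent.P263.TJ.L1B

/-!
# P263, block KJ: the generalised functional square of a family of sheets

`PFam.idG : X → Gam T.lab` (no base): the labels over a family, as sheets over themselves.
`PFam.uY0`, `PFam.uY1 : T.L × SN n → Sing (OnePoint Y)`: the universal sheet map at time zero and at
time one. `PFam.theta_fam0` : the generalised functional square of `MX ∘ (1 × cA)` is the class of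
`idG^* (KK 0 0 z + hat kap)` if `z` is in the class of the integral of `uY0^* b` and `kap` in the
class `theta D uY0`. `PFam.theta_fam1` : the same with time one. `PFam.theta_fam_strict` : if
`uY1^* b = z.s` and `uY1^* c = 0` up to relative coboundaries, with the value of the correction.
-/

open Finset OnePoint Topology

namespace Vale.Agent.P263.KJ

open Vale.Agent.P263.S Vale.Agent.P263.E Vale.Agent.P263.H83 Vale.Agent.P263.G2
  Vale.Agent.P263.TJ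

namespace PFam

variable {X : TSet} {T : TLab} {A Y : Type} [TopologicalSpace A] [TopologicalSpace Y]
  (𝓕 : PFam X T A Y)

open Classical in
/-- the labels over a family as sheets over themselves -/
noncomputable def idF {p : ℕ} (x : X.ss.obj p) : Finset (Sheet T.lab T.L.ss p) :=
  (𝓕.idx (p := p) x).image fun s => (TLab.toL s, s)

theorem mem_idF {p : ℕ} {x : X.ss.obj p} {c : Sheet T.lab T.L.ss p} :
    c ∈ 𝓕.idF x ↔ ∃ s ∈ 𝓕.idx (p := p) x, (TLab.toL s, s) = c := by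
  classical
  rw [idF, mem_image]
  exact Iff.rfl

theorem idF_ok {p : ℕ} (x : X.ss.obj p) : GOk T.lab (Sb.empty T.L.ss) (𝓕.idF x) := by
  refine ⟨T.good_sub (𝓕.good x) ?_, ?_, fun c hc h => h⟩
  · rintro _ ⟨c, hc, rfl⟩
    obtain ⟨s, hs, rfl⟩ := 𝓕.mem_idF.1 (mem_coe.1 hc)
    exact hs
  · intro c hc c' hc' hcc
    obtain ⟨s, hs, rfl⟩ := 𝓕.mem_idF.1 (mem_coe.1 hc)
    obtain ⟨s', hs', rfl⟩ := 𝓕.mem_idF.1 (mem_coe.1 hc')
    have h : s = s' := hcc
    rw [h]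

/-- **The labels over a family.** -/
noncomputable def idG : SS.Map X.ss (Gam T.lab (Sb.empty T.L.ss)) where
  app x := ⟨𝓕.idF x, 𝓕.idF_ok x⟩
  nat {p q} f x := by
    refine Subtype.ext ?_
    show 𝓕.idF (X.ss.map f x) = gmap T.lab (Sb.empty T.L.ss) f (𝓕.idF x)
    ext c
    rw [mem_idF, mem_gmap]
    constructor
    · rintro ⟨s, hs, rfl⟩
      obtain ⟨s', hs', rfl⟩ := (𝓕.mem_pull (dmap f) x s).1 hs
      exact ⟨⟨(TLab.toL s', s'), 𝓕.mem_idF.2 ⟨s', hs', rfl⟩, rfl⟩, fun h => h⟩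
    · rintro ⟨⟨b, hb, rfl⟩, -⟩
      obtain ⟨s', hs', rfl⟩ := 𝓕.mem_idF.1 hb
      exact ⟨T.L.pull (dmap f) s', (𝓕.mem_pull (dmap f) x _).2 ⟨s', hs', rfl⟩, rfl⟩

section Maps

variable {n : ℕ} (cA : SS.Map (SN n) (G2.sing A))

/-- the homotopy of the universal sheet map -/
noncomputable def uH : SS.Map ((cylS T.L.ss).prod (SN n)) (G2.sing (OnePoint Y)) where
  app {p} u := ofC (𝓕.val u.1.1 (toC (cA.app u.2)) (chiI u.1.2))
  nat {p q} f u := by
    have h := 𝓕.val_pull (dmap f) (p1 (p1 u)) (toC (cA.app (p2 u))) (chiI (p2 (p1 u)))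
    have h1 : chiI ((show Op q 1 from p2 (p1 u)).comp f) = (chiI (p2 (p1 u))).comp (dmap f) :=
      chiI_comp _ _
    have h2 : toC (cA.app ((SN n).map f (p2 u))) = (toC (cA.app (p2 u))).comp (dmap f) :=
      congrArg toC (cA.nat f (p2 u))
    rw [← h1, ← h2] at h
    exact h

/-- the universal sheet map at time zero -/
noncomputable def uY0 : SS.Map (T.L.ss.prod (SN n)) (G2.sing (OnePoint Y)) :=
  (𝓕.uH cA).comp (SS.pair ((end0 T.L.ss).comp (SS.fst T.L.ss (SN n))) (SS.snd T.L.ss (SN n)))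

/-- the universal sheet map at time one -/
noncomputable def uY1 : SS.Map (T.L.ss.prod (SN n)) (G2.sing (OnePoint Y)) :=
  (𝓕.uH cA).comp (SS.pair ((end1 T.L.ss).comp (SS.fst T.L.ss (SN n))) (SS.snd T.L.ss (SN n)))

theorem uY0_app {p : ℕ} (s : T.L.ss.obj p) (τ : (SN n).obj p) :
    (𝓕.uY0 cA).app (pm s τ) = ofC (𝓕.val s (toC (cA.app τ)) (zI p)) := by
  show 𝓕.val s (toC (cA.app τ)) (chiI (c0 p)) = _
  rw [chiI_c0']
  rfl

theorem uY1_app {p : ℕ} (s : T.L.ss.obj p) (τ : (SN n).obj p) :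
    (𝓕.uY1 cA).app (pm s τ) = ofC (𝓕.val s (toC (cA.app τ)) (oI p)) := by
  show 𝓕.val s (toC (cA.app τ)) (chiI (c1 p)) = _
  rw [chiI_c1']
  rfl

variable {cA} {a : A}
  (hcA : ∀ {p : ℕ} (τ : (SN n).obj p), (SN.base n).mem τ → (ptS a).mem (cA.app τ))
  (hP : 𝓕.Pointed a)

include hcA hP in
theorem uH_base {p : ℕ} (u : ((cylS T.L.ss).prod (SN n)).obj p)
    (hu : (bdX (cylS T.L.ss) n).mem u) : (ptS (∞ : OnePoint Y)).mem ((𝓕.uH cA).app u) :=
  fun t => hP _ _ _ t (hcA _ hu t)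

include hcA hP in
theorem uY0_base {p : ℕ} (u : (T.L.ss.prod (SN n)).obj p) (hu : (bdX T.L.ss n).mem u) :
    (ptS (∞ : OnePoint Y)).mem ((𝓕.uY0 cA).app u) := 𝓕.uH_base hcA hP _ hu

include hcA hP in
theorem uY1_base {p : ℕ} (u : (T.L.ss.prod (SN n)).obj p) (hu : (bdX T.L.ss n).mem u) :
    (ptS (∞ : OnePoint Y)).mem ((𝓕.uY1 cA).app u) := 𝓕.uH_base hcA hP _ hu

variable (X) (cA) in
/-- the map `1 × cA` -/
noncomputable def jm : SS.Map (X.ss.prod (SN n)) (U X A).ss := idp X.ss cA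

include hcA in
theorem jm_base {p : ℕ} (u : (X.ss.prod (SN n)).obj p) (hu : (bdX X.ss n).mem u) :
    (PB X a).mem ((jm X cA).app u) := fun t => hcA _ hu t

include hcA hP in
/-- the configuration at time zero is the universal sheet map applied to the labels -/
theorem aX0_eq : 𝓕.aX0.comp (jm X cA) =
    (gamMap T.lab (A := prodB (Sb.empty T.L.ss) (SN.base n)) (A' := ptS (∞ : OnePoint Y))
      (𝓕.uY0 cA) (fun x hx => 𝓕.uY0_base hcA hP x (hx.elim False.elim id))).comp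
      ((asmW T.lab (Sb.empty T.L.ss) (SN.base n)).comp
        (SS.pair (𝓕.idG.comp (SS.fst X.ss (SN n))) (SS.snd X.ss (SN n)))) := by
  apply SS.Map.ext
  rintro p ⟨x, τ⟩
  refine Subtype.ext ?_
  ext c
  refine (mem_aX0 𝓕).trans (Iff.trans ?_ (mem_gim (𝓕.uY0 cA)).symm)
  constructor
  · rintro ⟨s, hs, rfl, h⟩
    refine ⟨⟨(TLab.toL s, pm s τ), (mem_gas (SN.base n)).2 ⟨⟨(TLab.toL s, s),
      𝓕.mem_idF.2 ⟨s, hs, rfl⟩, rfl⟩, ?_⟩, ?_⟩, h⟩
    · rintro (h1 | h1)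
      · exact h1
      · refine h fun t => ?_
        exact hP _ _ _ t (hcA τ h1 t)
    · exact Prod.ext rfl (𝓕.uY0_app cA s τ)
  · rintro ⟨⟨b, hb, rfl⟩, h⟩
    obtain ⟨⟨b', hb', rfl⟩, h1⟩ := (mem_gas (SN.base n)).1 hb
    obtain ⟨s, hs, rfl⟩ := 𝓕.mem_idF.1 hb'
    exact ⟨s, hs, Prod.ext rfl (𝓕.uY0_app cA s τ).symm, h⟩

end Maps

/-! ### the generalised functional square -/

section Thm

variable {i : ℕ} {cA : SS.Map (SN (i + 1)) (G2.sing A)} {a : A}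
  (hcA : ∀ {p : ℕ} (τ : (SN (i + 1)).obj p), (SN.base (i + 1)).mem τ → (ptS a).mem (cA.app τ))
  (hP : 𝓕.Pointed a) {Z : Set (OnePoint Y)} (hZ : IsClosed Z) (hZi : (∞ : OnePoint Y) ∉ Z)
  (D : SqD (ptS (∞ : OnePoint Y)) (i + 1)) (hb : Vn (missZ Z) D.b) (hc : Vn (missZ Z) D.c)

include hcA hP in
theorem MX_base {p : ℕ} (u : (X.ss.prod (SN (i + 1))).obj p) (hu : (bdX X.ss (i + 1)).mem u) :
    (ptS (∞ : OnePoint Y)).mem ((𝓕.MX.comp (jm X cA)).app u) :=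
  𝓕.pb_M hP _ (jm_base hcA u hu)

include hZ hZi hb hc in
/-- **The generalised functional square of a family of sheets**, sheets at time zero. -/
theorem theta_fam0 {z kap : Cc T.L.ss}
    (hz : (Cc.cupC T.L.ss).Coh z (DstN (i + 1) (Cc.pull (𝓕.uY0 cA) D.b)))
    (hk : (Cc.cupC T.L.ss).Coh kap (theta D (𝓕.uY0 cA) (𝓕.uY0_base hcA hP))) :
    (Cc.cupC X.ss).Coh (theta D (𝓕.MX.comp (jm X cA)) (𝓕.MX_base hcA hP))
      (Cc.pull 𝓕.idG (KK T.lab (Sb.empty T.L.ss) 0 0 z + hat T.lab (Sb.empty T.L.ss) kap)) := by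
  have ha : ∀ {p : ℕ} (x : (X.ss.prod (SN (i + 1))).obj p), (bdX X.ss (i + 1)).mem x →
      (Gam.base T.lab (ptS (∞ : OnePoint Y))).mem ((𝓕.aX0.comp (jm X cA)).app x) :=
    fun x hx => 𝓕.pb_a0 hP _ (jm_base hcA x hx)
  have h1 := Strict.theta_coh (𝓕.strict hZ hZi) D hb hc (PB X a)
    (fun u hu => 𝓕.pb_sm hP hZi u hu) (fun u hu => 𝓕.pb_M hP u hu)
    (fun u hu => 𝓕.pb_a0 hP u hu) (jm X cA) (fun u hu => jm_base hcA u hu) rfl rfl
    (hM := 𝓕.MX_base hcA hP) (ha := ha)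
  exact h1.trans (theta_gen_of_coh D (hY := 𝓕.uY0_base hcA hP) hz hk 𝓕.idG
    (𝓕.aX0_eq hcA hP))

include hcA hP in
/-- the integral does not depend on the time -/
theorem coh_time : (Cc.cupC T.L.ss).Coh (DstN (i + 1) (Cc.pull (𝓕.uY0 cA) D.b))
    (DstN (i + 1) (Cc.pull (𝓕.uY1 cA) D.b)) := by
  have hv : Vn (bdX (cylS T.L.ss) (i + 1)) (Cc.pull (𝓕.uH cA) D.b) :=
    (D.vn_b.pull _).mono fun x hx => 𝓕.uH_base hcA hP x hx
  have hd : Cc.d (DstN (i + 1) (Cc.pull (𝓕.uH cA) D.b)) = 0 := by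
    rw [← DstN_d hv, ← pull_d, D.d_b, pull_zero, DstN_zero]
  have h := Cc.coh_of_htpy (SS.Map.id (cylS T.L.ss)) hd
  have e0 : DstN (i + 1) (Cc.pull (𝓕.uY0 cA) D.b) =
      Cc.pull (end0 T.L.ss) (DstN (i + 1) (Cc.pull (𝓕.uH cA) D.b)) := by
    rw [← DstN_pull]
    rfl
  have e1 : DstN (i + 1) (Cc.pull (𝓕.uY1 cA) D.b) =
      Cc.pull (end1 T.L.ss) (DstN (i + 1) (Cc.pull (𝓕.uH cA) D.b)) := by
    rw [← DstN_pull]
    rfl
  rw [e0, e1]
  exact h

include hcA hP in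
/-- the generalised functional square does not depend on the time -/
theorem theta_time : (Cc.cupC T.L.ss).Coh (theta D (𝓕.uY0 cA) (𝓕.uY0_base hcA hP))
    (theta D (𝓕.uY1 cA) (𝓕.uY1_base hcA hP)) :=
  theta_htpy D (𝓕.uH cA) (𝓕.uH_base hcA hP) rfl rfl

include hZ hZi hb hc in
/-- **The generalised functional square of a family of sheets**, sheets at time one. -/
theorem theta_fam1 {z kap : Cc T.L.ss}
    (hz : (Cc.cupC T.L.ss).Coh z (DstN (i + 1) (Cc.pull (𝓕.uY1 cA) D.b)))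
    (hk : (Cc.cupC T.L.ss).Coh kap (theta D (𝓕.uY1 cA) (𝓕.uY1_base hcA hP))) :
    (Cc.cupC X.ss).Coh (theta D (𝓕.MX.comp (jm X cA)) (𝓕.MX_base hcA hP))
      (Cc.pull 𝓕.idG (KK T.lab (Sb.empty T.L.ss) 0 0 z + hat T.lab (Sb.empty T.L.ss) kap)) :=
  𝓕.theta_fam0 hcA hP hZ hZi D hb hc (hz.trans (𝓕.coh_time hcA hP D).symm)
    (hk.trans (𝓕.theta_time hcA hP D).symm)

end Thm

end PFam

end Vale.Agent.P263.KJ
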