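import Vale.Agent.P263.KJ.Lab2
import Vale.Agent.P263.TJ.JoinBox
import Vale.Agent.P263.G2.CollDeg

/-!
# P263, block KJ: the loops of the boxes and of the additional element

`lpR c R a` (`a : OB p`) : the family of loops over `Δᵖ` of the element `a` : a box is squeezed into
the part `(0, c)` of the coordinate `0`, the additional element `none` is the fixed loop `R` in the
part `(c, 1)`.  `lpR_pull` : naturality; `lpR_disj` : disjoint supports;
`gBR_join` : the family `boxes # R` is the join of the loops of its elements.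
-/

open Finset Topology
open scoped OnePoint

namespace Vale.Agent.P263.KJ

open Vale.Agent.P263.S Vale.Agent.P263.E Vale.Agent.P263.G2 Vale.Agent.P263.TJ
open Vale.Agent.P263.T0 (Sph Om)

variable {p q r : ℕ}

/-- the collapse onto a family of boxes -/
noncomputable def lpB (r : ℕ) (b : C(G2.Dl p, Bx)) : C(G2.Dl p, Om r) :=
  ⟨fun t => collBx r (b t), GB.continuous_om_iff.2
    ((continuous_collB r).comp ((b.continuous.comp continuous_fst).prodMk continuous_snd))⟩

theorem lpB_apply (r : ℕ) (b : C(G2.Dl p, Bx)) (t : G2.Dl p) (x : Sph r) :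
    (lpB r b t).1 x = collB r (b t) x := rfl

/-- the loops of the boxes and of the additional element -/
noncomputable def lpR (c : GB.Cut) (R : Om (r + 1)) : OB p → C(G2.Dl p, Om (r + 1))
  | none => ContinuousMap.const _ (GB.plus c R (Om.const (r + 1)))
  | some b => ⟨fun t => GB.plus c (Om.const (r + 1)) (lpB (r + 1) b t),
      GB.continuous_plus continuous_const (lpB (r + 1) b).continuous continuous_const⟩

theorem lpR_none (c : GB.Cut) (R : Om (r + 1)) (t : G2.Dl p) (x : Sph (r + 1)) :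
    (lpR c R (none : OB p) t).1 x = R.1 (GB.act (GB.rho c.1 1) x) := by
  show (GB.plus c R (Om.const (r + 1))).1 x = _
  rw [GB.plus_apply]
  exact GB.ws_infty_left _

theorem lpR_some (c : GB.Cut) (R : Om (r + 1)) (b : C(G2.Dl p, Bx)) (t : G2.Dl p)
    (x : Sph (r + 1)) :
    (lpR c R (some b : OB p) t).1 x = collB (r + 1) (b t) (GB.act (GB.rho 0 c.1) x) := by
  show (GB.plus c (Om.const (r + 1)) (lpB (r + 1) b t)).1 x = _
  rw [GB.plus_apply]
  exact GB.ws_infty_right _

theorem lpR_pull (c : GB.Cut) (R : Om (r + 1)) (f : C(G2.Dl p, G2.Dl q)) (a : OB q) :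
    lpR c R (pO f a) = (lpR c R a).comp f := by
  cases a with
  | none => rfl
  | some b => rfl

/-- disjoint supports -/
theorem lpR_disj (c : GB.Cut) (R : Om (r + 1)) {a b : OB p} (h : DisO a b)
    (ha : ∀ c, a = some c → ∀ t, Bx.St (r + 1) (c t))
    (hb : ∀ c, b = some c → ∀ t, Bx.St (r + 1) (c t)) (t : G2.Dl p) (x : Sph (r + 1)) :
    (lpR c R a t).1 x = ∞ ∨ (lpR c R b t).1 x = ∞ := by
  have key : ∀ b : C(G2.Dl p, Bx), (lpR c R (none : OB p) t).1 x = ∞ ∨
      (lpR c R (some b : OB p) t).1 x = ∞ := by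
    intro b
    rw [lpR_none, lpR_some]
    rcases (GB.dj_cut c).act x with h1 | h1
    · right; rw [h1]; exact collB_infty _ _
    · left; rw [h1]; exact R.2
  cases a with
  | none =>
    cases b with
    | none => exact absurd h id
    | some b => exact key b
  | some a =>
    cases b with
    | none => exact (key a).symm
    | some b =>
      rw [lpR_some, lpR_some]
      exact collB_disj (ha a rfl t) (hb b rfl t) (h t) _

/-- the elements over a configuration have disjoint supports -/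
theorem lpR_disj_bsR (c : GB.Cut) (R : Om (r + 1)) {S : Conf Unit (G2.Dl p)}
    (hS : S.IsSt (r + 1)) {a b : OB p} (ha : a ∈ bsR S) (hb : b ∈ bsR S) (hab : a ≠ b)
    (t : G2.Dl p) (x : Sph (r + 1)) :
    (lpR c R a t).1 x = ∞ ∨ (lpR c R b t).1 x = ∞ :=
  lpR_disj c R (pd_bsR S a ha b hb hab)
    (fun c' hc t => hS (c', ()) (some_mem_bsR.1 (hc ▸ ha)) t)
    (fun c' hc t => hS (c', ()) (some_mem_bsR.1 (hc ▸ hb)) t) t x

/-- the loops of the elements of a label have disjoint supports -/
theorem lpR_disj_L2 (c : GB.Cut) (R : Om (r + 1)) (F : (L2 (r + 1)).obj p) {a b : OB p}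
    (ha : a ∈ F.1) (hb : b ∈ F.1) (hab : a ≠ b) (t : G2.Dl p) (x : Sph (r + 1)) :
    (lpR c R a t).1 x = ∞ ∨ (lpR c R b t).1 x = ∞ :=
  lpR_disj c R (F.2.dis a ha b hb hab) (fun c' hc => F.2.st c' (hc ▸ ha))
    (fun c' hc => F.2.st c' (hc ▸ hb)) t x

theorem sub_lpR (c : GB.Cut) (R : Om (r + 1)) {S : Conf Unit (G2.Dl p)}
    (hS : S.IsSt (r + 1)) (t : G2.Dl p) (x : Sph (r + 1)) :
    G2.Sub ((fun a : OB p => (lpR c R a t).1 x) '' (bsR S : Set (OB p))) := by
  rintro _ ⟨a, ha, rfl⟩ _ ⟨b, hb, rfl⟩ h1 h2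
  by_cases hab : a = b
  · rw [hab]
  · rcases lpR_disj_bsR c R hS ha hb hab t x with h | h
    · exact absurd h h1
    · exact absurd h h2

/-- **`boxes # R` is the join of the loops of its elements.** -/
theorem plus_alphaOm_eq_join (c : GB.Cut) (R : Om (r + 1)) {S : Conf Unit (G2.Dl p)}
    (hS : S.IsSt (r + 1)) (t : G2.Dl p) (x : Sph (r + 1)) :
    (GB.plus c R (alphaOm (r + 1) S hS t)).1 x =
      join ((fun a : OB p => (lpR c R a t).1 x) '' (bsR S : Set (OB p))) := by
  have hsub := sub_lpR c R hS t x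
  rw [GB.plus_apply]
  by_cases hR : R.1 (GB.act (GB.rho c.1 1) x) = ∞
  · rw [hR, GB.ws_infty_right]
    by_cases hB : ∃ p ∈ S.pts, collB (r + 1) (p.1 t) (GB.act (GB.rho 0 c.1) x) ≠ ∞
    · obtain ⟨⟨b, u⟩, hb, h⟩ := hB
      have h1 : (alphaOm (r + 1) S hS t).1 (GB.act (GB.rho 0 c.1) x) =
          collB (r + 1) (b t) (GB.act (GB.rho 0 c.1) x) := alphaOm_of_mem hS hb h
      rw [h1, ← lpR_some c R b t x]
      refine (join_of_mem hsub ⟨some b, ?_, rfl⟩ ?_).symm
      · exact mem_coe.2 (some_mem_bsR.2 hb)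
      · exact fun h2 => h ((lpR_some c R b t x).symm.trans h2)
    · push Not at hB
      have h1 : (alphaOm (r + 1) S hS t).1 (GB.act (GB.rho 0 c.1) x) = ∞ :=
        alphaOm_of_forall hS hB
      rw [h1]
      symm
      refine join_of_forall ?_
      rintro _ ⟨a, ha, rfl⟩
      cases a with
      | none => exact (lpR_none c R t x).trans hR
      | some b => exact (lpR_some c R b t x).trans (hB (b, ()) (some_mem_bsR.1 (mem_coe.1 ha)))
  · have h0 : (alphaOm (r + 1) S hS t).1 (GB.act (GB.rho 0 c.1) x) = ∞ := by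
      rcases (GB.dj_cut c).act x with h1 | h1
      · rw [h1]; exact (alphaOm (r + 1) S hS t).2
      · rw [h1] at hR; exact absurd R.2 hR
    rw [h0, GB.ws_infty_left, ← lpR_none c R t x]
    refine (join_of_mem hsub ⟨none, mem_coe.2 (mem_bsR.2 (Or.inl rfl)), rfl⟩ ?_).symm
    exact fun h2 => hR ((lpR_none c R t x).symm.trans h2)

/-- the same for the simplicial map `boxes # R` -/
theorem gBR_eq_join (n : ℕ) (c : GB.Cut) (R : Om (r + 1)) (S : (FNr (r + 1) n Unit).obj p)
    (t : G2.Dl p) (x : Sph (r + 1)) :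
    (toC ((gBR r n c R).app S) t).1 x =
      join ((fun a : OB p => (lpR c R a t).1 x) '' (bsR S.1 : Set (OB p))) :=
  (congrArg (fun f : Om (r + 1) => f.1 x) (gBR_app r n c R S t)).trans
    (plus_alphaOm_eq_join c R S.2.1 t x)

end Vale.Agent.P263.KJ
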