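import Vale.Agent.P263.KJ.JFam
import Vale.Agent.P263.KJ.ShiftR
import Vale.Agent.P263.KJ.KKdrop
import Vale.Agent.P263.KJ.FamTheta

/-!
# P263, block KJ: the family of sheets of `J` on `boxes # R`

* `loopsR c R : Loops (r + 1)` : the loops of the boxes in the part `(0, c)`, and of `R` in `(c, 1)`;
* `jn_gBR` : the join of the sheets over a configuration is `J` of `boxes # R`;
* `MX_gBR` : the same for the maps of simplicial sets: `MX = JZ ∘ (gBR × 1)`;
* `idG_eq` : the map `idG` of the family is `(idxFR r n).map (Sb.empty _)`.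
-/

open Finset Topology
open scoped OnePoint

namespace Vale.Agent.P263.KJ

open Vale.Agent.P263.S Vale.Agent.P263.E Vale.Agent.P263.G2 Vale.Agent.P263.TJ
open Vale.Agent.P263.T0 (Sph Om)

variable {p q r n : ℕ}

/-- **The loops of the boxes and of the fixed loop.** -/
noncomputable def loopsR (c : GB.Cut) (R : Om (r + 1)) : Loops (r + 1) where
  lp := lpR c R
  lp_pull f a := lpR_pull c R f a
  disj h hst t v := lpR_disj c R h (fun c' hc => hst c' (Or.inl hc.symm))
    (fun c' hc => hst c' (Or.inr hc.symm)) t v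

theorem loopsR_lp (c : GB.Cut) (R : Om (r + 1)) (a : OB p) : (loopsR c R).lp a = lpR c R a := rfl

/-- `boxes # R` is the join of its loops, in Euclidean coordinates -/
theorem omV_gBR (c : GB.Cut) (R : Om (r + 1)) (x : (FT (r + 1) n).obj p) (t : G2.Dl p)
    (v : OnePoint (VE (r + 1))) :
    omV (toC ((gBR r n c R).app x) t) v =
      G2.join ((fun a => omV ((loopsR c R).lp a t) v) '' ((BIdx.bR (r + 1) n).B x : Set (OB p))) := by
  have h1 := gBR_eq_join n c R x t (OnePoint.map (eVH (r + 1)) v)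
  have h2 : omV (toC ((gBR r n c R).app x) t) v = OnePoint.map (eVH (r + 1)).symm
      (join ((fun a : OB p => (lpR c R a t).1 (OnePoint.map (eVH (r + 1)) v)) ''
        (bsR x.1 : Set (OB p)))) :=
    congrArg (OnePoint.map (eVH (r + 1)).symm) h1
  rw [h2, ← join_image (sub_lpR c R x.2.1 t _) (OnePoint.map (eVH (r + 1)).symm)
    (OnePoint.map_infty _), Set.image_image]
  rfl

/-- **The join of the sheets is `J` of `boxes # R`.** -/
theorem jn_gBR (c : GB.Cut) (R : Om (r + 1))
    {S : Shts (lab2 (r + 1)).L (VE (r + 1) × WE (r + 1))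
      (VE (r + 1) × (WE (r + 1) × PV (VE (r + 1))))} (hS : (loopsR c R).Start S)
    (x : (FT (r + 1) n).obj p) (t : G2.Dl p) (z : OnePoint (VE (r + 1) × WE (r + 1))) :
    (BIdx.bR (r + 1) n).idx.jn S x t z = jj (toC ((gBR r n c R).app x) t) z :=
  (BIdx.bR (r + 1) n).jn_eq (loopsR c R) hS (omV_gBR c R x t) z

/-- **`MX = JZ ∘ (gBR × 1)`.** -/
theorem MX_gBR (c : GB.Cut) (R : Om (r + 1))
    {S : Shts (lab2 (r + 1)).L (VE (r + 1) × WE (r + 1))
      (VE (r + 1) × (WE (r + 1) × PV (VE (r + 1))))} (hS : (loopsR c R).Start S) :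
    ((BIdx.bR (r + 1) n).idx.fam S ((BIdx.bR (r + 1) n).dj (loopsR c R) hS)).MX =
      (JZ (r + 1)).comp (SS.pair ((gBR r n c R).comp (SS.fst _ _)) (SS.snd _ _)) := by
  apply SS.Map.ext
  rintro p ⟨x, τ⟩
  apply ContinuousMap.ext
  intro t
  exact jn_gBR c R hS x t ((toC (p := p) τ) t)

/-- the labels over a family, as sheets over themselves -/
theorem idG_eq {S : Shts (lab2 (r + 1)).L (VE (r + 1) × WE (r + 1))
      (VE (r + 1) × (WE (r + 1) × PV (VE (r + 1))))} (h : (BIdx.bR (r + 1) n).idx.Dj S) :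
    ((BIdx.bR (r + 1) n).idx.fam S h).idG = (idxFR (r + 1) n).map (Sb.empty _) := by
  apply SS.Map.ext
  intro p x
  refine Subtype.ext ?_
  ext s
  refine (PFam.mem_idF _).trans (Iff.trans ?_ (IdxF.mem_fs _).symm)
  constructor
  · rintro ⟨s, hs, rfl⟩
    exact ⟨s, hs, rfl, fun h => h⟩
  · rintro ⟨s, hs, rfl, -⟩
    exact ⟨s, hs, rfl⟩

end Vale.Agent.P263.KJ
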