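import Vale.Agent.P263.KJ.JBox
import Vale.Agent.P263.KJ.JFamR

/-!
# P263, block KJ: `J` as a map of simplicial sets, and the family of its sheets over boxes

* `jsh r` : `J` itself as a system of sheets over the loops; `Shts.SM` : the simplicial map of a
  system of sheets at time zero;
* `Jn I S S' g` : the join of the sheets `S` over `X` is the sheet `S'` of the family `g`;
  `Jn.sm`, `Jn.map`, `Jn.MX` : `MX = S'.SM ∘ (g × 1)`;
* `jnS_gB`, `jnS_gBR` : the case of boxes, and of boxes with a fixed loop (`loopsR`); `loopsR_eq`,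
  `loopsR_some` : the loops of the boxes are the collapses onto the squeezed boxes;
* `eY e` : the coordinates of the target `(ℝᴷ × P)⁺` given by coordinates `e` of `V × W × V`;
  `TK`, `JM e : Sing (Ωⁿ Sⁿ) × Sing Sᴷ → Sing (ℝᴷ × P)⁺`, the literal `J ∧ id_V` in coordinates;
  `SMap e S` : a system of sheets in these coordinates, `jfam`, `jfam_MX`.
-/

open Filter Topology OnePoint
open Vale.Agent.P251.G Vale.Agent.P251.G.LC
open Vale.Agent.P263.S Vale.Agent.P263.E Vale.Agent.P263.TJ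
open Vale.Agent.P263.G2 (ofC toC dmap)

namespace Vale.Agent.P263.KJ

set_option linter.unusedSectionVars false

/-! ### the simplicial map of a system of sheets -/

namespace Shts

variable {L : TSet} {A Y : Type} [TopologicalSpace A] [TopologicalSpace Y]

/-- the simplicial map at time zero -/
noncomputable def SM (S : Shts L A Y) :
    SS.Map (L.ss.prod (G2.sing (OnePoint A))) (G2.sing (OnePoint Y)) :=
  ⟨fun {p} u => ofC (S.val (p := p) u.1 (toC (p := p) u.2) (zI p)), fun {p q} f u =>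
    S.val_pull (dmap f) (p := p) (q := q) u.1 (toC (p := q) u.2) (zI q)⟩

theorem SM_apply (S : Shts L A Y) {p : ℕ} (u : (L.ss.prod (G2.sing (OnePoint A))).obj p)
    (t : G2.Dl p) : toC (p := p) (S.SM.app u) t =
      S.v (p := p) u.1 (t, (toC (p := p) u.2 t, 0)) := rfl

end Shts

namespace Idx

variable {X L' : TSet} {T : TLab} {A Y : Type} [TopologicalSpace A] [TopologicalSpace Y]

/-- the value of a simplicial map on families -/
def apS (g : SS.Map X.ss L'.ss) {p : ℕ} (x : X.obj p) : L'.obj p := g.app (p := p) x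

/-- the join of the sheets `S` is the sheet `S'` of the family `g` -/
def Jn (I : Idx X T) (S : Shts T.L A Y) (S' : Shts L' A Y) (g : SS.Map X.ss L'.ss) : Prop :=
  ∀ {p : ℕ} (x : X.obj p) (t : G2.Dl p) (z : OnePoint A),
    I.jn S x t z = S'.v (apS g x) (t, (z, 0))

theorem Jn.MX {I : Idx X T} {S : Shts T.L A Y} {S' : Shts L' A Y} {g : SS.Map X.ss L'.ss}
    (hj : I.Jn S S' g) (h : I.Dj S) :
    (I.fam S h).MX = S'.SM.comp (pid g (G2.sing (OnePoint A))) := by
  apply SS.Map.ext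
  intro p u
  apply ContinuousMap.ext
  intro t
  exact hj (p := p) u.1 t _

theorem Jn.map {A' Y' : Type} [TopologicalSpace A'] [TopologicalSpace Y'] {I : Idx X T}
    {S : Shts T.L A Y} {S' : Shts L' A Y} {g : SS.Map X.ss L'.ss} (hj : I.Jn S S' g) (h : I.Dj S)
    (eA : A' ≃ₜ A) (eY : Y ≃ₜ Y') : I.Jn (S.map eA eY) (S'.map eA eY) g := by
  intro p x t z
  rw [jn_map h, hj]
  rfl

theorem Jn.sm [LocallyCompactSpace A] [T2Space A] [LocallyCompactSpace Y] [T2Space Y]
    {I : Idx X T} {S : Shts T.L A Y} {S' : Shts L' A Y} {g : SS.Map X.ss L'.ss}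
    (hj : I.Jn S S' g) (h : I.Dj S) (E : Type) [TopologicalSpace E] [LocallyCompactSpace E]
    [T2Space E] : I.Jn (S.sm E) (S'.sm E) g := by
  intro p x t z
  rw [jn_smash h, Shts.sm_v]
  have e : I.jn S x t = fun a => S'.v (apS g x) (t, (a, 0)) := funext fun a => hj x t a
  rw [e]

end Idx

/-! ### `J` -/

instance instLCVE (n : ℕ) : LocallyCompactSpace (VE n) := inferInstance

instance instT2VE (n : ℕ) : T2Space (VE n) := inferInstance

instance instLCWE (n : ℕ) : LocallyCompactSpace (WE n) := inferInstance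

instance instT2WE (n : ℕ) : T2Space (WE n) := inferInstance

/-- `J` of a family of loops -/
noncomputable def jshC {r p : ℕ} (A : C(G2.Dl p, T0.Om r)) :
    C(G2.Dl p × (OnePoint (VE r × WE r) × unitInterval),
      OnePoint (VE r × (WE r × PV (VE r)))) :=
  ⟨fun z => jj (A z.1) z.2.1, (continuous_jj A).comp
    (continuous_fst.prodMk (continuous_fst.comp continuous_snd))⟩

/-- `J` as a system of sheets over the loops -/
noncomputable def jsh (r : ℕ) :
    Shts (TSet.sing (T0.Om r)) (VE r × WE r) (VE r × (WE r × PV (VE r))) where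
  v A := jshC A
  v_pull _ _ _ _ := rfl
  v_infty _ _ _ := rfl

theorem jsh_v {r p : ℕ} (A : C(G2.Dl p, T0.Om r)) (t : G2.Dl p) (z : OnePoint (VE r × WE r))
    (χ : unitInterval) : (jsh r).v (p := p) A (t, (z, χ)) = jj (A t) z := rfl

theorem jsh_SM (r : ℕ) : (jsh r).SM = JZ r := rfl

/-- boxes -/
theorem jnS_gB {r : ℕ} {S : Shts (lab2 r).L (VE r × WE r) (VE r × (WE r × PV (VE r)))}
    (hS : (Loops.box r).Start S) (n : ℕ) : (BIdx.bS r n).idx.Jn S (jsh r) (gB r n) :=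
  fun {p} x t z => jn_box hS (p := p) x t z

theorem collOm_sqz {r : ℕ} (c : GB.Cut) (b : G2.Bx) :
    collOm (r + 1) (sqz c b) = GB.plus c (T0.Om.const (r + 1)) (G2.collBx (r + 1) b) := by
  refine GB.om_ext fun x => ?_
  rw [GB.plus_apply]
  exact (collB_sqz c b x).trans (GB.ws_infty_right _).symm

theorem loopsR_some {r p : ℕ} (c : GB.Cut) (R : T0.Om (r + 1)) (b : C(G2.Dl p, G2.Bx))
    (t : G2.Dl p) : (loopsR c R).lp (Option.some b) t = collOm (r + 1) (sqz c (b t)) :=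
  (collOm_sqz c (b t)).symm

theorem loopsR_none {r p : ℕ} (c : GB.Cut) (R : T0.Om (r + 1)) (t : G2.Dl p) :
    (loopsR c R).lp (none : OB p) t = GB.plus c R (T0.Om.const (r + 1)) := rfl

theorem loopsR_lp_eq {r p : ℕ} (c : GB.Cut) (R : T0.Om (r + 1)) (a : OB p) :
    (loopsR c R).lp a = (Loops.boxR c R).lp a := by
  cases a with
  | none => rfl
  | some b => exact ContinuousMap.ext fun t => loopsR_some c R b t

theorem start_iff {r : ℕ} {c : GB.Cut} {R : T0.Om (r + 1)}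
    {S : Shts (lab2 (r + 1)).L (VE (r + 1) × WE (r + 1))
      (VE (r + 1) × (WE (r + 1) × PV (VE (r + 1))))} :
    (loopsR c R).Start S ↔ (Loops.boxR c R).Start S := by
  have e : ∀ {p : ℕ} (K : (L2 (r + 1)).obj p) (t : G2.Dl p) (z : OnePoint (VE (r + 1) × WE (r + 1))),
      (loopsR c R).sheet K t z = (Loops.boxR c R).sheet K t z := by
    intro p K t z
    unfold Loops.sheet
    simp only [loopsR_lp_eq]
  constructor
  · intro h p K t z
    exact (h K t z).trans (e K t z)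
  · intro h p K t z
    exact (h K t z).trans (e K t z).symm

/-- boxes and a fixed loop -/
theorem jnS_gBR {r : ℕ} {c : GB.Cut} {R : T0.Om (r + 1)}
    {S : Shts (lab2 (r + 1)).L (VE (r + 1) × WE (r + 1))
      (VE (r + 1) × (WE (r + 1) × PV (VE (r + 1))))}
    (hS : (loopsR c R).Start S) (n : ℕ) :
    (BIdx.bR (r + 1) n).idx.Jn S (jsh (r + 1)) (gBR r n c R) :=
  fun {p} x t z => jn_gBR c R hS (p := p) x t z

/-! ### coordinates -/

section coord

variable {r K : ℕ}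

/-- the coordinates of the target -/
noncomputable def eY (e : (Fin K → ℝ) ≃ₜ (VE r × WE r) × VE r) :
    (VE r × (WE r × PV (VE r))) × VE r ≃ₜ (Fin K → ℝ) × PV (VE r) where
  toFun y := (e.symm ((y.1.1, y.1.2.1), y.2), y.1.2.2)
  invFun y := (((e y.1).1.1, ((e y.1).1.2, y.2)), (e y.1).2)
  left_inv y := by
    simp only [Homeomorph.apply_symm_apply]
  right_inv y := by
    simp only [Prod.mk.eta, Homeomorph.symm_apply_apply]
  continuous_toFun := by fun_prop
  continuous_invFun := by fun_prop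

theorem eY_apply (e : (Fin K → ℝ) ≃ₜ (VE r × WE r) × VE r)
    (y : (VE r × (WE r × PV (VE r))) × VE r) :
    eY e y = (e.symm ((y.1.1, y.1.2.1), y.2), y.1.2.2) := rfl

/-- a system of sheets, multiplied with the identity of `V` and in coordinates -/
noncomputable def SMap {L : TSet} (e : (Fin K → ℝ) ≃ₜ (VE r × WE r) × VE r)
    (S : Shts L (VE r × WE r) (VE r × (WE r × PV (VE r)))) :
    Shts L (Fin K → ℝ) ((Fin K → ℝ) × PV (VE r)) := (S.sm (VE r)).map e (eY e)

theorem SMap_v {L : TSet} (e : (Fin K → ℝ) ≃ₜ (VE r × WE r) × VE r)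
    (S : Shts L (VE r × WE r) (VE r × (WE r × PV (VE r)))) {p : ℕ} (s : L.obj p) (t : G2.Dl p)
    (z : OnePoint (Fin K → ℝ)) (χ : unitInterval) :
    (SMap e S).v s (t, (z, χ)) = OnePoint.map (eY e) (Shts.smv (fun a => S.v s (t, (a, χ)))
      (OnePoint.map e z)) := rfl

/-- **The literal `J ∧ id_V` in coordinates, on simplices.** -/
noncomputable def JM (e : (Fin K → ℝ) ≃ₜ (VE r × WE r) × VE r) :
    SS.Map ((G2.sing (T0.Om r)).prod (G2.sing (T0.Sph K)))
      (G2.sing (OnePoint ((Fin K → ℝ) × PV (VE r)))) := (SMap e (jsh r)).SM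

/-- the value, pointwise -/
noncomputable def jv (e : (Fin K → ℝ) ≃ₜ (VE r × WE r) × VE r) (g : T0.Om r) (z : T0.Sph K) :
    OnePoint ((Fin K → ℝ) × PV (VE r)) :=
  OnePoint.map (eY e) (Shts.smv (jj g) (OnePoint.map e z))

theorem JM_apply (e : (Fin K → ℝ) ≃ₜ (VE r × WE r) × VE r) {p : ℕ}
    (u : ((G2.sing (T0.Om r)).prod (G2.sing (T0.Sph K))).obj p) (t : G2.Dl p) :
    toC (p := p) ((JM e).app u) t = jv e (toC (p := p) u.1 t) (toC (p := p) u.2 t) := rfl

@[simp] theorem jv_infty (e : (Fin K → ℝ) ≃ₜ (VE r × WE r) × VE r) (g : T0.Om r) :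
    jv e g ∞ = ∞ := rfl

theorem jv_of (e : (Fin K → ℝ) ≃ₜ (VE r × WE r) × VE r) (g : T0.Om r) (s : VE r) (B : WE r)
    (z : VE r) : jv e g (((e.symm ((s, B), z)) : Fin K → ℝ) : OnePoint (Fin K → ℝ)) =
      OnePoint.map (eY e) (LC.smash (jj g (((s, B) : VE r × WE r) : OnePoint (VE r × WE r)))
        (z : OnePoint (VE r))) := by
  unfold jv
  rw [OnePoint.map_some, Homeomorph.apply_symm_apply]
  rfl

/-- the family of the sheets over boxes -/
noncomputable def jfam {r n : ℕ} (e : (Fin K → ℝ) ≃ₜ (VE r × WE r) × VE r)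
    {S : Shts (lab2 r).L (VE r × WE r) (VE r × (WE r × PV (VE r)))}
    (hS : (Loops.box r).Start S) :
    PFam (FT r n) (lab2 r) (T0.Sph K) ((Fin K → ℝ) × PV (VE r)) :=
  (BIdx.bS r n).idx.fam (SMap e S)
    (Idx.dj_map (Idx.dj_smash ((BIdx.bS r n).dj (Loops.box r) hS) (VE r)) e (eY e))

theorem jfam_MX {r n : ℕ} (e : (Fin K → ℝ) ≃ₜ (VE r × WE r) × VE r)
    {S : Shts (lab2 r).L (VE r × WE r) (VE r × (WE r × PV (VE r)))}
    (hS : (Loops.box r).Start S) :
    (jfam (n := n) e hS).MX = (JM e).comp (pid (gB r n) (G2.sing (T0.Sph K))) :=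
  Idx.Jn.MX (Idx.Jn.map (Idx.Jn.sm (jnS_gB hS n) ((BIdx.bS r n).dj (Loops.box r) hS) (VE r))
    (Idx.dj_smash ((BIdx.bS r n).dj (Loops.box r) hS) (VE r)) e (eY e))
    (Idx.dj_map (Idx.dj_smash ((BIdx.bS r n).dj (Loops.box r) hS) (VE r)) e (eY e))

theorem jfam_pointed {r n : ℕ} (e : (Fin K → ℝ) ≃ₜ (VE r × WE r) × VE r)
    {S : Shts (lab2 r).L (VE r × WE r) (VE r × (WE r × PV (VE r)))}
    (hS : (Loops.box r).Start S) : (jfam (n := n) e hS).Pointed (∞ : T0.Sph K) :=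
  Idx.fam_pointed _ _
    (Idx.dj_map (Idx.dj_smash ((BIdx.bS r n).dj (Loops.box r) hS) (VE r)) e (eY e))

/-- **The family of the sheets over boxes with a fixed loop.** -/
noncomputable def jfamR {r n : ℕ} {c : GB.Cut} {R : T0.Om (r + 1)}
    (e : (Fin K → ℝ) ≃ₜ (VE (r + 1) × WE (r + 1)) × VE (r + 1))
    {S : Shts (lab2 (r + 1)).L (VE (r + 1) × WE (r + 1))
      (VE (r + 1) × (WE (r + 1) × PV (VE (r + 1))))}
    (hS : (loopsR c R).Start S) :
    PFam (FT (r + 1) n) (lab2 (r + 1)) (T0.Sph K) ((Fin K → ℝ) × PV (VE (r + 1))) :=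
  (BIdx.bR (r + 1) n).idx.fam (SMap e S)
    (Idx.dj_map (Idx.dj_smash ((BIdx.bR (r + 1) n).dj (loopsR c R) hS) (VE (r + 1))) e (eY e))

theorem jfamR_idx {r n : ℕ} {c : GB.Cut} {R : T0.Om (r + 1)}
    (e : (Fin K → ℝ) ≃ₜ (VE (r + 1) × WE (r + 1)) × VE (r + 1))
    {S : Shts (lab2 (r + 1)).L (VE (r + 1) × WE (r + 1))
      (VE (r + 1) × (WE (r + 1) × PV (VE (r + 1))))}
    (hS : (loopsR c R).Start S) {p : ℕ} (x : (FT (r + 1) n).obj p) :
    (jfamR (n := n) e hS).idx x = idxR (r + 1) x.1 := rfl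

/-- **The join of the sheets is `J` of the boxes with the fixed loop.** -/
theorem jfamR_MX {r n : ℕ} {c : GB.Cut} {R : T0.Om (r + 1)}
    (e : (Fin K → ℝ) ≃ₜ (VE (r + 1) × WE (r + 1)) × VE (r + 1))
    {S : Shts (lab2 (r + 1)).L (VE (r + 1) × WE (r + 1))
      (VE (r + 1) × (WE (r + 1) × PV (VE (r + 1))))}
    (hS : (loopsR c R).Start S) :
    (jfamR (n := n) e hS).MX = (JM e).comp (pid (gBR r n c R) (G2.sing (T0.Sph K))) :=
  Idx.Jn.MX (Idx.Jn.map (Idx.Jn.sm (jnS_gBR hS n)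
      ((BIdx.bR (r + 1) n).dj (loopsR c R) hS) (VE (r + 1)))
    (Idx.dj_smash ((BIdx.bR (r + 1) n).dj (loopsR c R) hS) (VE (r + 1))) e (eY e))
    (Idx.dj_map (Idx.dj_smash ((BIdx.bR (r + 1) n).dj (loopsR c R) hS) (VE (r + 1))) e (eY e))

theorem jfamR_pointed {r n : ℕ} {c : GB.Cut} {R : T0.Om (r + 1)}
    (e : (Fin K → ℝ) ≃ₜ (VE (r + 1) × WE (r + 1)) × VE (r + 1))
    {S : Shts (lab2 (r + 1)).L (VE (r + 1) × WE (r + 1))
      (VE (r + 1) × (WE (r + 1) × PV (VE (r + 1))))}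
    (hS : (loopsR c R).Start S) : (jfamR (n := n) e hS).Pointed (∞ : T0.Sph K) :=
  Idx.fam_pointed _ _
    (Idx.dj_map (Idx.dj_smash ((BIdx.bR (r + 1) n).dj (loopsR c R) hS) (VE (r + 1))) e (eY e))

/-- the labels over a family, as sheets over themselves -/
theorem jfamR_idG {r n : ℕ} {c : GB.Cut} {R : T0.Om (r + 1)}
    (e : (Fin K → ℝ) ≃ₜ (VE (r + 1) × WE (r + 1)) × VE (r + 1))
    {S : Shts (lab2 (r + 1)).L (VE (r + 1) × WE (r + 1))
      (VE (r + 1) × (WE (r + 1) × PV (VE (r + 1))))}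
    (hS : (loopsR c R).Start S) :
    (jfamR (n := n) e hS).idG = (idxFR (r + 1) n).map (Sb.empty _) := by
  apply SS.Map.ext
  intro p x
  refine Subtype.ext ?_
  ext s
  refine (PFam.mem_idF _).trans (Iff.trans ?_ (IdxF.mem_fs _).symm)
  constructor
  · rintro ⟨s, hs, rfl⟩
    exact ⟨s, hs, rfl, fun h => h⟩
  · rintro ⟨s, hs, rfl, -⟩
    exact ⟨s, hs, rfl⟩

/-- **`J ∧ id_V` on the cube.** -/
noncomputable def jz (e : (Fin K → ℝ) ≃ₜ (VE r × WE r) × VE r) :
    SS.Map ((G2.sing (T0.Om r)).prod (SN K))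
      (G2.sing (OnePoint ((Fin K → ℝ) × PV (VE r)))) := (JM e).comp (idp (G2.sing (T0.Om r)) (cx K))

theorem jz_app (e : (Fin K → ℝ) ≃ₜ (VE r × WE r) × VE r) {p : ℕ}
    (u : ((G2.sing (T0.Om r)).prod (SN K)).obj p) (t : G2.Dl p) :
    toC (p := p) ((jz e).app u) t = jv e (toC (p := p) u.1 t) (cxC u.2 t) := rfl

theorem cx_ptS (K : ℕ) {p : ℕ} (τ : (SN K).obj p) (h : (SN.base K).mem τ) :
    (ptS (∞ : T0.Sph K)).mem ((cx K).app τ) := fun t => cxC_base h t

theorem jz_base (e : (Fin K → ℝ) ≃ₜ (VE r × WE r) × VE r) {p : ℕ}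
    (u : ((G2.sing (T0.Om r)).prod (SN K)).obj p) (hu : (bdX (G2.sing (T0.Om r)) K).mem u) :
    (ptS (∞ : OnePoint ((Fin K → ℝ) × PV (VE r)))).mem ((jz e).app u) := by
  intro t
  have h1 : (jz e).app u = ofC (toC (p := p) ((jz e).app u)) := rfl
  have h2 : toC (p := p) ((jz e).app u) t = jv e (toC (p := p) u.1 t) (cxC u.2 t) := rfl
  have h3 : cxC u.2 t = ∞ := cxC_base hu t
  rw [h3] at h2
  exact h2

/-- the family over the cube is `J` of the family of loops -/
theorem jfamR_jm {r n : ℕ} {c : GB.Cut} {R : T0.Om (r + 1)}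
    (e : (Fin K → ℝ) ≃ₜ (VE (r + 1) × WE (r + 1)) × VE (r + 1))
    {S : Shts (lab2 (r + 1)).L (VE (r + 1) × WE (r + 1))
      (VE (r + 1) × (WE (r + 1) × PV (VE (r + 1))))}
    (hS : (loopsR c R).Start S) :
    (jfamR (n := n) e hS).MX.comp (PFam.jm (FT (r + 1) n) (cx K)) =
      (jz e).comp (timesN (gBR r n c R) K) := by
  rw [jfamR_MX]
  rfl

end coord

end Vale.Agent.P263.KJ
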