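import Vale.Agent.P263.TJ.Cube

/-!
# P263, block KJ: two blocks of cube coordinates

* `cxC_split` : the cube `SN (n + k)` in `S^(n+k)` is the smash product of the two cubes.
* `m3 d n k : sing (Sph d) × SN (n + k) → sing (Sph (d + n + k))`,
  `(x, τ) ↦ join2 (join2 x τ₁) τ₂`.
-/

open Finset OnePoint Topology

namespace Vale.Agent.P263.KJ

open Vale.Agent.P263.S Vale.Agent.P263.E Vale.Agent.P263.H83 Vale.Agent.P263.G2
  Vale.Agent.P263.T0 Vale.Agent.P263.TJ

variable {d n k p : ℕ}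

/-- the first coordinates -/
def tau1 (τ : Fin (n + k) → Op p 1) : Fin n → Op p 1 := fun j => τ (Fin.castAdd k j)

/-- the last coordinates -/
def tau2 (τ : Fin (n + k) → Op p 1) : Fin k → Op p 1 := fun j => τ (Fin.natAdd n j)

theorem tup_append (v : Fin (n + k) → OnePoint ℝ) :
    (tup v : Sph (n + k)) = join2 (tup (fun j => v (Fin.castAdd k j)) : Sph n)
      (tup (fun j => v (Fin.natAdd n j)) : Sph k) := by
  by_cases h1 : ∃ j, v (Fin.castAdd k j) = ∞
  · obtain ⟨j, hj⟩ := h1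
    rw [tup_of_eq_infty hj, tup_of_eq_infty (v := fun j => v (Fin.castAdd k j)) hj,
      join2_infty_left]
  by_cases h2 : ∃ j, v (Fin.natAdd n j) = ∞
  · obtain ⟨j, hj⟩ := h2
    rw [tup_of_eq_infty hj, tup_of_eq_infty (v := fun j => v (Fin.natAdd n j)) hj,
      join2_infty_right]
  push Not at h1 h2
  have h3 : ∀ j, ∃ x : ℝ, v j = (x : OnePoint ℝ) := by
    intro j
    have hj : v j ≠ ∞ := by
      refine Fin.addCases (motive := fun j => v j ≠ ∞) (fun j => h1 j) (fun j => h2 j) j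
    obtain ⟨x, hx⟩ := OnePoint.ne_infty_iff_exists.1 hj
    exact ⟨x, hx.symm⟩
  choose x hx using h3
  obtain rfl : v = fun j => (x j : OnePoint ℝ) := funext hx
  have e1 : (tup (fun j => ((x (Fin.castAdd k j) : ℝ) : OnePoint ℝ)) : Sph n) =
      ((fun j => x (Fin.castAdd k j) : Fin n → ℝ) : Sph n) := tup_coe _
  have e2 : (tup (fun j => ((x (Fin.natAdd n j) : ℝ) : OnePoint ℝ)) : Sph k) =
      ((fun j => x (Fin.natAdd n j) : Fin k → ℝ) : Sph k) := tup_coe _
  have e3 : (tup (fun j => ((x j : ℝ) : OnePoint ℝ)) : Sph (n + k)) =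
      ((x : Fin (n + k) → ℝ) : Sph (n + k)) := tup_coe _
  rw [e1, e2, e3, join2_coe]
  congr 1
  funext j
  refine Fin.addCases (fun j => ?_) (fun j => ?_) j
  · rw [Fin.append_left]
  · rw [Fin.append_right]

theorem cxC_split (τ : Fin (n + k) → Op p 1) (t : Dl p) :
    cxC τ t = join2 (cxC (tau1 τ) t) (cxC (tau2 τ) t) := by
  rw [cxC_apply, tup_append]
  rfl

/-- `(x, τ) ↦ join2 (join2 x τ₁) τ₂` -/
noncomputable def m3 (d n k : ℕ) :
    SS.Map ((sing (Sph d)).prod (SN (n + k))) (sing (Sph (d + n + k))) :=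
  ⟨fun {p} z => ofC (⟨fun t : Dl p => join2 (join2 (toC z.1 t) (cxC (tau1 z.2) t))
      (cxC (tau2 z.2) t), continuous_join2.comp
      ((continuous_join2.comp ((toC z.1).continuous.prodMk (cxC (tau1 z.2)).continuous)).prodMk
        (cxC (tau2 z.2)).continuous)⟩ : C(Dl p, Sph (d + n + k))), fun f z => by
    apply ContinuousMap.ext
    intro t
    have h1 := DFunLike.congr_fun (cxC_comp f (tau1 z.2)) t
    have h2 := DFunLike.congr_fun (cxC_comp f (tau2 z.2)) t
    exact congrArg₂ (fun u v => join2 (join2 (toC z.1 (dmap f t)) u) v) h1 h2⟩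

theorem m3_app (z : ((sing (Sph d)).prod (SN (n + k))).obj p) (t : Dl p) :
    toC ((m3 d n k).app z) t =
      join2 (join2 (toC z.1 t) (cxC (tau1 z.2) t)) (cxC (tau2 z.2) t) := rfl

theorem m3_base {z : ((sing (Sph d)).prod (SN (n + k))).obj p}
    (h : (ends (sing (Sph d)) (n + k)).mem z) : (bs (d + n + k)).mem ((m3 d n k).app z) := by
  intro t
  rw [m3_app]
  obtain ⟨j, hj⟩ : ∃ j : Fin (n + k), z.2 j = c0 p ∨ z.2 j = c1 p := h
  have key : cxC (tau1 z.2) t = ∞ ∨ cxC (tau2 z.2) t = ∞ := by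
    revert hj
    refine Fin.addCases (motive := fun j => (z.2 j = c0 p ∨ z.2 j = c1 p) →
      cxC (tau1 z.2) t = ∞ ∨ cxC (tau2 z.2) t = ∞) (fun j hj => ?_) (fun j hj => ?_) j
    · exact Or.inl (cxC_base (τ := tau1 z.2) ⟨j, hj⟩ t)
    · exact Or.inr (cxC_base (τ := tau2 z.2) ⟨j, hj⟩ t)
  rcases key with h1 | h1
  · rw [h1, join2_infty_right, join2_infty_left]
  · rw [h1, join2_infty_right]

end Vale.Agent.P263.KJ
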