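import Vale.Agent.P263.KJ.L2
import Vale.Agent.P263.KJ.M3
import Vale.Agent.P263.KJ.JMX
import Vale.Agent.P263.KJ.FamVal

/-!
# P263, block KJ: level L2(b), assembly

`jz e` : the literal `J ∧ id_V` on `sing (Ωⁿ Sⁿ) × cube`.
`l2_main` : the value on a chain of boxes and the functional squares of the adjoint.
-/

open Finset OnePoint Topology

namespace Vale.Agent.P263.KJ

open Vale.Agent.P263.S Vale.Agent.P263.E Vale.Agent.P263.H83 Vale.Agent.P263.G2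
  Vale.Agent.P263.TJ

section main

variable {r i N k d : ℕ} {c : GB.Cut} {R : T0.Om (r + 1)}
  (e : (Fin (i + 1) → ℝ) ≃ₜ (VE (r + 1) × WE (r + 1)) × VE (r + 1))
  {S : Shts (lab2 (r + 1)).L (VE (r + 1) × WE (r + 1))
    (VE (r + 1) × (WE (r + 1) × PV (VE (r + 1))))}
  (hS : (loopsR c R).Start S)
  {x : Cc (sing (PV (VE (r + 1))))} (hq : Cc.IsDeg (k + 1) x) (hx : Cc.d x = 0)
  (τ : SS.Map (sing (OnePoint ((Fin (i + 1) → ℝ) × PV (VE (r + 1)))))
    (sing (OnePoint ((Fin (i + 1) → ℝ) × PV (VE (r + 1))))))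
  (hτ : ∀ {p : ℕ} (x : (sing (OnePoint ((Fin (i + 1) → ℝ) × PV (VE (r + 1))))).obj p),
    (ptS (∞ : OnePoint ((Fin (i + 1) → ℝ) × PV (VE (r + 1))))).mem x →
    (ptS (∞ : OnePoint ((Fin (i + 1) → ℝ) × PV (VE (r + 1))))).mem (τ.app x))
  (hτZ : ∀ {p : ℕ} (x : (sing (OnePoint ((Fin (i + 1) → ℝ) × PV (VE (r + 1))))).obj p),
    (inU (misT (i + 1) (PV (VE (r + 1))))).mem x →
      (inU (misT (i + 1) (PV (VE (r + 1))))).mem (τ.app x))
  (hττ : τ.comp τ = SS.Map.id _) (ell : SS.Map (FNr (r + 1) 2 Unit) (sing (PV (VE (r + 1)))))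
  (hu : ∀ N, (jfamR (n := N) e hS).uP (cx (i + 1)) = τ.comp (muL ell i))

include hS hτZ hττ hu in
/-- the value on the configurations of boxes -/
theorem box_value_jz (N : ℕ) : (Cc.cupC (FNr (r + 1) N Unit)).Coh
    (Cc.pull (gBR r N c R) (theta (twD hq hx τ hτ) (jz e) (jz_base e)))
      (Cc.pull ((idxFR (r + 1) N).map (Sb.empty _))
        (KK (lab2 (r + 1)).lab (Sb.empty _) 0 0 (extP (r + 1) (Cc.pull ell x)))) := by
  refine PFam.box_value (jfamR (n := N) e hS) (fun _ => rfl)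
    (cA := cx (i + 1)) (a := (∞ : T0.Sph (i + 1))) (fun τ h t => cxC_base (τ := τ) h t)
    (jfamR_pointed e hS) hq hx τ hτ hτZ hττ ell (hu N) (gBR r N c R) (jfamR_jm e hS)

include hS hτZ hττ hu in
/-- **L2(b), the core with literal data.** -/
theorem l2_main {A : SS} {U : SS} {U₀ : Sb U} (a : SS.Map A (sing (T0.Om (r + 1))))
    (γ : SS.Map U (sing (OnePoint ((Fin (i + 1) → ℝ) × PV (VE (r + 1))))))
    (hγ : ∀ {p : ℕ} (x : U.obj p), U₀.mem x →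
      (ptS (∞ : OnePoint ((Fin (i + 1) → ℝ) × PV (VE (r + 1))))).mem (γ.app x))
    (m3 : SS.Map (A.prod (SN (i + 1))) U)
    (hm3 : ∀ {p : ℕ} (x : (A.prod (SN (i + 1))).obj p), (bdX A (i + 1)).mem x →
      U₀.mem (m3.app x))
    (hc : γ.comp m3 = (jz e).comp (timesN a (i + 1)))
    {fc : Chn (ZMod 2) A d} {ξ : Chn (ZMod 2) (FNr (r + 1) N Unit) d} (hfc : IsCyc d fc)
    (hξ : IsCyc d ξ)
    (hbd : IsBd (push (ZMod 2) (gBR r N c R) d ξ - push (ZMod 2) a d fc))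
    (hval : evc (Cc.pull ((idxFR (r + 1) N).map (Sb.empty _))
      (KK (lab2 (r + 1)).lab (Sb.empty _) 0 0 (extP (r + 1) (Cc.pull ell x)))) ξ ≠ 0)
    (E : CupC.FSqD (Cc.relHom γ U₀ _ hγ) i) (hEb : Cc.val E.b = (twD hq hx τ hτ).b)
    (hEc : Cc.val E.c = (twD hq hx τ hτ).c) : ¬ (Cc.rel U₀).Coh E.val 0 := by
  refine l2_core (twD hq hx τ hτ) (hj := jz_base e) a (gBR r N c R) γ hγ m3 hm3 hc hfc hbd ?_ E
    hEb hEc
  rw [evc_coh (box_value_jz e hS hq hx τ hτ hτZ hττ ell hu N) hξ]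
  exact hval

end main

end Vale.Agent.P263.KJ
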