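import Vale.Agent.P263.KJ.FamVal
import Vale.Agent.P263.KJ.HPV
import Vale.Agent.P263.K.HSI

/-!
# P263, block KJ: the class of the twisted data

`tw_class` : if the only classes of degree `q` of `P` are `0` and the class of `x` then the data
pulled back along a self map `τ` of the target with `τ τ = 1` still have the class of `x`:
`muT^* (τ^* b) = sn x + d a`, `a` relative to the ends.  `twP` : the data for `x = w^(k+1)` on
`P = PV V`; `twP_class`.
-/

open Finset OnePoint Topology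

namespace Vale.Agent.P263.KJ

open Vale.Agent.P263.S hiding sn sn_add
open Vale.Agent.P263.E Vale.Agent.P263.H83 Vale.Agent.P263.G2 Vale.Agent.P263.TJ Vale.Agent.P263.K

section general

variable {P : Type} [TopologicalSpace P] [CompactSpace P] [T2Space P] {i q : ℕ}
  {x : Cc (sing P)} (hq : Cc.IsDeg q x) (hx : Cc.d x = 0)
  (τ : SS.Map (sing (OnePoint ((Fin (i + 1) → ℝ) × P))) (sing (OnePoint ((Fin (i + 1) → ℝ) × P))))
  (hτ : ∀ {p : ℕ} (x : (sing (OnePoint ((Fin (i + 1) → ℝ) × P))).obj p),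
    (ptS (∞ : OnePoint ((Fin (i + 1) → ℝ) × P))).mem x →
    (ptS (∞ : OnePoint ((Fin (i + 1) → ℝ) × P))).mem (τ.app x))
  (hττ : τ.comp τ = SS.Map.id _)

include hττ in
/-- the cocycle of the twisted data, up to a relative coboundary -/
theorem tw_class_aux (h01 : ∀ y : Cc (sing P), Cc.IsDeg q y → Cc.d y = 0 →
    ∃ f, y = Cc.d f ∨ y = x + Cc.d f) :
    ∃ a : Cc ((sing P).prod (SN (i + 1))), Vn (bdX (sing P) (i + 1)) a ∧
      Cc.pull (muT (i + 1) P) (twD hq hx τ hτ).b = sn (i + 1) x + Cc.d a := by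
  have hvb : Vn (bsT (i + 1) P) (twD hq hx τ hτ).b := (twD hq hx τ hτ).vn_b
  obtain ⟨y, a, hy, dy, ha, h1⟩ := muT_red (twD_deg_b hq hx τ hτ) (twD hq hx τ hτ).d_b hvb
  obtain ⟨f, hf⟩ := h01 y hy dy
  rcases hf with hf | hf
  · have h2 : Cc.pull (muT (i + 1) P) (twD hq hx τ hτ).b = Cc.d (sn (i + 1) f + a) := by
      rw [h1, hf, d_add, d_sn]
    obtain ⟨β, hβ, hβ2⟩ := (relIso_muT (i + 1) P).inj _ hvb (twD hq hx τ hτ).d_b
      ⟨sn (i + 1) f + a, (Vn_sn _ _).add ha, h2.symm⟩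
    have h3 : Cc.pull τ (twD hq hx τ hτ).b = (jtD i hq hx).b :=
      pull_twist hττ (m := SS.Map.id _) (m' := τ) rfl _
    have hβ3 : Vn (bdX (sing P) (i + 1)) (Cc.pull (muT (i + 1) P) (Cc.pull τ β)) := by
      intro p z hz
      exact hβ p _ (hτ _ (muT_infty (i + 1) P hz))
    have h4 : Cc.pull (muT (i + 1) P) (jtD i hq hx).b =
        Cc.d (Cc.pull (muT (i + 1) P) (Cc.pull τ β)) := by
      rw [← h3, ← hβ2, pull_d, pull_d]
    obtain ⟨g, hg'⟩ : ∃ g : Cc (sing P),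
        DstN (i + 1) (Cc.pull (muT (i + 1) P) (jtD i hq hx).b) + x = Cc.d g :=
      DstN_muT (i := i) hq hx
    rw [h4, DstN_d hβ3] at hg'
    have h5 : x = Cc.d (g + DstN (i + 1) (Cc.pull (muT (i + 1) P) (Cc.pull τ β))) := by
      rw [d_add, ← hg']
      funext p z
      simp only [Pi.add_apply]
      grind
    obtain ⟨v, hv⟩ : ∃ v, v = g + DstN (i + 1) (Cc.pull (muT (i + 1) P) (Cc.pull τ β)) := ⟨_, rfl⟩
    rw [← hv] at h5
    refine ⟨sn (i + 1) v + (sn (i + 1) f + a), (Vn_sn _ _).add ((Vn_sn _ _).add ha), ?_⟩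
    rw [h2, d_add (sn (i + 1) v), d_sn, ← h5]
    funext p z
    simp only [Pi.add_apply]
    grind
  · refine ⟨sn (i + 1) f + a, (Vn_sn _ _).add ha, ?_⟩
    rw [h1, hf, sn_add, d_add, d_sn, add_assoc]

include hττ in
/-- **The class of the twisted data.** -/
theorem tw_class (h01 : ∀ y : Cc (sing P), Cc.IsDeg q y → Cc.d y = 0 →
    ∃ f, y = Cc.d f ∨ y = x + Cc.d f) :
    ∃ a : Cc ((sing P).prod (SN (i + 1))), Vn (bdX (sing P) (i + 1)) a ∧ Cc.IsDeg (q + i) a ∧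
      Cc.pull (muT (i + 1) P) (twD hq hx τ hτ).b = sn (i + 1) x + Cc.d a := by
  obtain ⟨a, ha, h1⟩ := tw_class_aux hq hx τ hτ hττ h01
  refine ⟨Cc.comp (q + i) a, Cc.vn_comp ha _, Cc.isDeg_comp _ _, ?_⟩
  have h2 := congrArg (Cc.comp (q + i + 1)) h1
  have h3 : Cc.IsDeg (q + i + 1) (sn (i + 1) x) := isDeg_sn (i + 1) hq
  have h4 : Cc.IsDeg (q + i + 1) (Cc.pull (muT (i + 1) P) (twD hq hx τ hτ).b) :=
    (twD_deg_b hq hx τ hτ).pull _
  rwa [Cc.comp_add, Cc.comp_eq h4, Cc.comp_eq h3, Cc.comp_d] at h2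

end general

section PV

variable (V : Type) [NormedAddCommGroup V] [InnerProductSpace ℝ V] [FiniteDimensional ℝ V]
  {i : ℕ} (k : ℕ)

theorem isDeg_pwP : Cc.IsDeg k (Cc.pw (wP V) k) := Cc.isDeg_pw_one (isDeg_wP V) _

theorem d_pwP : Cc.d (Cc.pw (wP V) k) = 0 := Cc.d_pw (d_wP V) _

variable {V k}
  (τ : SS.Map (sing (OnePoint ((Fin (i + 1) → ℝ) × PV V)))
    (sing (OnePoint ((Fin (i + 1) → ℝ) × PV V))))
  (hτ : ∀ {p : ℕ} (x : (sing (OnePoint ((Fin (i + 1) → ℝ) × PV V))).obj p),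
    (ptS (∞ : OnePoint ((Fin (i + 1) → ℝ) × PV V))).mem x →
    (ptS (∞ : OnePoint ((Fin (i + 1) → ℝ) × PV V))).mem (τ.app x))
  (hττ : τ.comp τ = SS.Map.id _)

include hττ in
/-- **The class of the twisted data on the projective space.** -/
theorem tw_class_PV {d : ℕ} (hd : Module.finrank ℝ V = d + 1) (hk : k + 1 < d) :
    ∃ a : Cc ((sing (PV V)).prod (SN (i + 1))), Vn (bdX (sing (PV V)) (i + 1)) a ∧
      Cc.IsDeg (k + 1 + i) a ∧
      Cc.pull (muT (i + 1) (PV V)) (twD (isDeg_pwP V (k + 1)) (d_pwP V (k + 1)) τ hτ).b =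
        sn (i + 1) (Cc.pw (wP V) (k + 1)) + Cc.d a :=
  tw_class _ _ τ hτ hττ fun y hy dy => by
    obtain ⟨f, -, hf⟩ := exists_pw_PV hd hk hy dy
    exact ⟨f, hf⟩

end PV

end Vale.Agent.P263.KJ
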