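import Vale.Agent.P263.KJ.SheetInst
import Vale.Agent.P263.KJ.L2Main
import Vale.Agent.P263.KJ.TwClass

/-!
# P263, block KJ: the literal value of `J ∧ id_V` on boxes

`tauT_pt`, `tauT_mis`, `tauT_id` : the twist of the target preserves infinity and the complement of
the zero section, and is an involution; `twT e hq hx` : the twisted literal data;
`uP_lit` : the universal sheet at time one over the pairs of boxes is the twist of `muL (ellM ctrC)`;
`value_lit` : the generalised functional square of `J ∧ id_V` on configurations of boxes with a fixed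
loop; `l2_lit` : the core of L2(b) for the literal data; `twT_class` : the class of the data.
-/

open Finset OnePoint Topology

namespace Vale.Agent.P263.KJ

open Vale.Agent.P263.S Vale.Agent.P263.E Vale.Agent.P263.H83 Vale.Agent.P263.G2
  Vale.Agent.P263.TJ

/-! ### the twist -/

section twist

variable {r K : ℕ} (e : (Fin K → ℝ) ≃ₜ (VE r × WE r) × VE r)

theorem tauT_id : (singMap (tauT e)).comp (singMap (tauT e)) = SS.Map.id _ := by
  apply SS.Map.ext
  intro p σ
  apply ContinuousMap.ext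
  intro t
  exact tauT_tauT e _

theorem tauT_pt {p : ℕ} (σ : (sing (OnePoint ((Fin K → ℝ) × PV (VE r)))).obj p)
    (h : (ptS (∞ : OnePoint ((Fin K → ℝ) × PV (VE r)))).mem σ) :
    (ptS (∞ : OnePoint ((Fin K → ℝ) × PV (VE r)))).mem ((singMap (tauT e)).app σ) := by
  intro t
  show tauT e (toC σ t) = ∞
  rw [h t]
  rfl

theorem tw_zero (p : PV (VE r)) : tw p (0 : WE r) = 0 := by
  ext v
  simp [tw]

theorem tauT_mis (he : e 0 = 0) {p : ℕ} (σ : (sing (OnePoint ((Fin K → ℝ) × PV (VE r)))).obj p)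
    (h : (inU (misT K (PV (VE r)))).mem σ) :
    (inU (misT K (PV (VE r)))).mem ((singMap (tauT e)).app σ) := by
  intro t q hq
  have h1 : tauT e (toC σ t) = (((0 : Fin K → ℝ), q) : (Fin K → ℝ) × PV (VE r)) := hq
  have h2 := congrArg (tauT e) h1
  rw [tauT_tauT] at h2
  refine h t q (h2.trans ?_)
  have h4 : (0 : Fin K → ℝ) = e.symm 0 := by rw [← he, Homeomorph.symm_apply_apply]
  have h3 : tauK e ((0 : Fin K → ℝ), q) = (0, q) := by
    rw [h4]
    refine (tauK_eq e 0 0 0 q).trans ?_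
    rw [tw_zero]
    rfl
  exact congrArg _ h3

end twist

/-! ### the literal data -/

section data

variable {r i k : ℕ} (e : (Fin (i + 1) → ℝ) ≃ₜ (VE (r + 1) × WE (r + 1)) × VE (r + 1))
  {x : Cc (sing (PV (VE (r + 1))))} (hq : Cc.IsDeg (k + 1) x) (hx : Cc.d x = 0)

/-- **the twisted literal data** -/
noncomputable def twT : SqD (ptS (∞ : OnePoint ((Fin (i + 1) → ℝ) × PV (VE (r + 1))))) (i + 1) :=
  twD hq hx (singMap (tauT e)) (tauT_pt e)

theorem twT_deg_b : Cc.IsDeg (k + 1 + (i + 1)) (twT e hq hx).b :=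
  twD_deg_b hq hx (singMap (tauT e)) (tauT_pt e)

theorem twT_deg_c : Cc.IsDeg (k + 1 + (k + 1) + (i + 1)) (twT e hq hx).c :=
  twD_deg_c hq hx (singMap (tauT e)) (tauT_pt e)

variable (k) in
/-- the class of the data for `x = w^(k+1)` -/
theorem twT_class (hk : k + 1 < r) :
    ∃ a : Cc ((sing (PV (VE (r + 1)))).prod (SN (i + 1))),
      Vn (bdX (sing (PV (VE (r + 1)))) (i + 1)) a ∧ Cc.IsDeg (k + 1 + i) a ∧
      Cc.pull (muT (i + 1) (PV (VE (r + 1))))
        (twT e (isDeg_pwP (VE (r + 1)) (k + 1)) (d_pwP (VE (r + 1)) (k + 1))).b =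
        TJ.sn (i + 1) (Cc.pw (wP (VE (r + 1))) (k + 1)) + Cc.d a :=
  tw_class_PV (singMap (tauT e)) (tauT_pt e) (tauT_id e) (finrank_euclideanSpace_fin) hk

variable {N : ℕ} {c : GB.Cut} {R : T0.Om (r + 1)}

/-- **The universal sheet at time one over the pairs of boxes.** -/
theorem uP_lit (𝓗 : PairHt (loopsR c R)) :
    (jfamR (n := N) e 𝓗.start).uP (cx (i + 1)) = (singMap (tauT e)).comp (muL 𝓗.ell i) :=
  uY1_pair e 𝓗

variable (he : e 0 = 0)

include he in
/-- **The literal value on the configurations of boxes.** -/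
theorem value_lit (N : ℕ) (c : GB.Cut) (R : T0.Om (r + 1)) : (Cc.cupC (FNr (r + 1) N Unit)).Coh
    (Cc.pull (gBR r N c R) (theta (twT e hq hx) (jz e) (jz_base e)))
    (Cc.pull ((idxFR (r + 1) N).map (Sb.empty _))
      (KK (lab2 (r + 1)).lab (Sb.empty _) 0 0
        (extP (r + 1) (Cc.pull (ellM (ctrC r c)) x)))) :=
  box_value_jz e ((sheetHt (V := VE (r + 1))).pairHt c R).start hq hx (singMap (tauT e))
    (tauT_pt e) (tauT_mis e he) (tauT_id e) (ellM (ctrC r c))
    (fun _ => uP_lit e ((sheetHt (V := VE (r + 1))).pairHt c R)) N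

include he in
/-- **L2(b), the core with all literal data.** -/
theorem l2_lit {N d : ℕ} {c : GB.Cut} {R : T0.Om (r + 1)} {A : SS} {U : SS} {U₀ : Sb U}
    (a : SS.Map A (sing (T0.Om (r + 1))))
    (γ : SS.Map U (sing (OnePoint ((Fin (i + 1) → ℝ) × PV (VE (r + 1))))))
    (hγ : ∀ {p : ℕ} (x : U.obj p), U₀.mem x →
      (ptS (∞ : OnePoint ((Fin (i + 1) → ℝ) × PV (VE (r + 1))))).mem (γ.app x))
    (m3 : SS.Map (A.prod (SN (i + 1))) U)
    (hm3 : ∀ {p : ℕ} (x : (A.prod (SN (i + 1))).obj p), (bdX A (i + 1)).mem x →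
      U₀.mem (m3.app x))
    (hc : γ.comp m3 = (jz e).comp (timesN a (i + 1)))
    {fc : Chn (ZMod 2) A d} {ξ : Chn (ZMod 2) (FNr (r + 1) N Unit) d} (hfc : IsCyc d fc)
    (hξ : IsCyc d ξ)
    (hbd : IsBd (push (ZMod 2) (gBR r N c R) d ξ - push (ZMod 2) a d fc))
    (hval : evc (Cc.pull ((idxFR (r + 1) N).map (Sb.empty _))
      (KK (lab2 (r + 1)).lab (Sb.empty _) 0 0
        (extP (r + 1) (Cc.pull (ellM (ctrC r c)) x)))) ξ ≠ 0)
    (E : CupC.FSqD (Cc.relHom γ U₀ _ hγ) i) (hEb : Cc.val E.b = (twT e hq hx).b)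
    (hEc : Cc.val E.c = (twT e hq hx).c) : ¬ (Cc.rel U₀).Coh E.val 0 :=
  l2_main e ((sheetHt (V := VE (r + 1))).pairHt c R).start hq hx (singMap (tauT e))
    (tauT_pt e) (tauT_mis e he) (tauT_id e) (ellM (ctrC r c))
    (fun _ => uP_lit e ((sheetHt (V := VE (r + 1))).pairHt c R)) a γ hγ m3 hm3 hc hfc hξ hbd hval
    E hEb hEc

end data

end Vale.Agent.P263.KJ
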