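import Vale.Agent.P263.KJ.JMX
import Vale.Agent.P263.KJ.Bridge
import Vale.Agent.P263.KJ.M3
import Vale.Agent.P263.TJ.SqMu

/-!
# P263, block KJ: the literal `J` of the adjoint and `J` on simplices

* `eK n : (Fin (n + kk n) → ℝ) ≃ₜ (V × W) × V` : the coordinates of `Bridge`, bracketed for `JMX`;
* `gamS_join2` : the literal `J` of the adjoint of the family `A`, at `(x, v, u)`, is the literal `J`
  of the loop `A x`, at `(v, u)`;
* `gam_m3` : `sing (gamS (adjS A)) ∘ m3 = jz ∘ (sing A × 1)`.
-/

open CategoryTheory MonoidalCategory Filter Topology OnePoint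
open Vale.Agent.P251.G
open Vale.Agent.P251.G.LC hiding Sph RR
open Vale.Agent.P263.S Vale.Agent.P263.E Vale.Agent.P263.TJ Vale.Agent.P263.G2 Vale.Agent.P263.T0

namespace Vale.Agent.P263.KJ

/-- `J` of a morphism over a point, by the loop over the point -/
theorem app_JJ_of {r : ℕ} {X : LC} (F : LC.of (X × VE r) ⟶ LC.of (VE r)) (x : X) (g : T0.Om r)
    (h : ∀ v : VE r, app F (((x, v) : X × VE r) : OnePoint (X × VE r)) = omV g v) (v : VE r)
    (w : WE r) :
    app (JJ (X := X) F) ((((x, v), w) : (X × VE r) × WE r) : OnePoint ((X × VE r) × WE r)) =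
      jj g (((v, w) : VE r × WE r) : OnePoint (VE r × WE r)) := by
  have e : sl F x = omV g := by
    funext v
    induction v using OnePoint.rec with
    | infty => rw [sl_infty, omV_infty]
    | coe v => exact h v
  rw [JJ, app_J_DD (X := X) F x v w, e]
  rfl

/-- `J` of the constant loop is constant -/
theorem jj_const {r : ℕ} {g : T0.Om r} (hg : ∀ v, g v = ∞)
    (z : OnePoint (VE r × WE r)) : jj g z = ∞ := by
  by_contra h
  obtain ⟨s, p, -, h1⟩ := jT_ne_infty (Z := LC.of (VE r)) h
  have h0 : ∀ v, omV g v = ∞ := fun v => by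
    unfold omV
    rw [hg, OnePoint.map_infty]
  apply h1
  unfold dd
  split_ifs
  · rw [h0, h0]
    rfl
  · rw [h0, smash_infty_left]

/-- bracketing -/
def hBr (A B C : Type*) [TopologicalSpace A] [TopologicalSpace B] [TopologicalSpace C] :
    (A × (B × C)) ≃ₜ ((A × B) × C) where
  toFun p := ((p.1, p.2.1), p.2.2)
  invFun q := (q.1.1, (q.1.2, q.2))
  left_inv _ := rfl
  right_inv _ := rfl
  continuous_toFun := by fun_prop
  continuous_invFun := by fun_prop

/-- the coordinates `append m (B, z) ↦ ((m, B), z)` -/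
noncomputable def eK (n : ℕ) : (Fin (n + kk n) → ℝ) ≃ₜ (VE n × WE n) × VE n :=
  (hU n).symm.trans (hBr (VE n) (WE n) (VE n))

theorem eK_symm (n : ℕ) (m : VE n) (B : WE n) (z : VE n) :
    (eK n).symm ((m, B), z) = Fin.append (eV n m) (eW n (B, z)) := rfl

theorem eY_eK (n : ℕ) (y : (VE n × (WE n × PV (VE n))) × VE n) : eY (eK n) y = hT n y := rfl

/-- every point of the sphere of matrices and vectors -/
theorem eW_surj (n : ℕ) (u : Fin (kk n) → ℝ) : ∃ (B : WE n) (z : VE n), eW n (B, z) = u :=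
  ⟨((eW n).symm u).1, ((eW n).symm u).2, (eW n).apply_symm_apply u⟩

section pointwise

variable {d n : ℕ}

/-- the literal `J` at finite points -/
theorem gamS_coe (F : C(T0.Sph (d + n), T0.Sph n)) (hF : F ∞ = ∞) (x : Fin d → ℝ) (m : VE n)
    (B : WE n) (z : VE n) :
    gamS F hF ((Fin.append (Fin.append x (eV n m)) (eW n (B, z)) : Fin ((d + n) + kk n) → ℝ) :
      OnePoint (Fin ((d + n) + kk n) → ℝ)) =
      OnePoint.map (hT n) (smash (app (JJ (X := LC.of (Fin d → ℝ)) (FL F hF))
        ((((x, m), B) : ((Fin d → ℝ) × VE n) × WE n) : OnePoint (((Fin d → ℝ) × VE n) × WE n)))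
        (z : OnePoint (VE n))) := by
  have h1 : (ofHomeo (X := LC.of ((((Fin d → ℝ) × VV n) × (VV n →L[ℝ] VV n)) × VV n))
      (Y := RR ((d + n) + kk n)) (hSrc d n)).hom ≫ gamLC F hF =
      tensorHom' (JJ (X := LC.of (Fin d → ℝ)) (FL F hF)) (𝟙 (LC.of (VV n))) ≫
      (ofHomeo (X := LC.of ((VV n × ((VV n →L[ℝ] VV n) × PV (VV n))) × VV n))
        (Y := LC.of ((Fin (n + kk n) → ℝ) × PV (VV n))) (hT n)).hom := by
    unfold gamLC
    rw [Iso.hom_inv_id_assoc]
  have h2 := congrArg (fun f => app f (((((x, m), B), z) :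
    (((Fin d → ℝ) × VV n) × (VV n →L[ℝ] VV n)) × VV n) :
      OnePoint ((((Fin d → ℝ) × VV n) × (VV n →L[ℝ] VV n)) × VV n))) h1
  exact h2

theorem jv_of' (n : ℕ) (g : T0.Om n) (m : VE n) (B : WE n) (z : VE n) :
    jv (eK n) g ((Fin.append (eV n m) (eW n (B, z)) : Fin (n + kk n) → ℝ) :
      OnePoint (Fin (n + kk n) → ℝ)) =
      OnePoint.map (hT n) (smash (jj g (((m, B) : VE n × WE n) : OnePoint (VE n × WE n)))
        (z : OnePoint (VE n))) := jv_of (eK n) g m B z

theorem jv_const (n : ℕ) {g : T0.Om n} (hg : ∀ v, g v = ∞) (w : T0.Sph (n + kk n)) :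
    jv (eK n) g w = ∞ := by
  induction w using OnePoint.rec with
  | infty => rfl
  | coe w =>
    obtain ⟨y, hy⟩ := (eK n).symm.surjective w
    obtain ⟨⟨m, B⟩, z⟩ := y
    rw [← hy, jv_of, jj_const hg, smash_infty_left]
    rfl

/-- **the literal `J` of the adjoint of a family** -/
theorem gamS_join2 (A : C(T0.Sph d, T0.Om n)) (hA : A ∞ = Om.const n)
    (x : T0.Sph d) (v : T0.Sph n) (u : T0.Sph (kk n)) :
    gamS (adjS A hA) (adjS_infty A hA) (join2 (join2 x v) u) = jv (eK n) (A x) (join2 v u) := by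
  induction x using OnePoint.rec with
  | infty =>
    have h : ∀ v, (A ∞ : T0.Om n) v = ∞ := fun v => by rw [hA]; rfl
    rw [join2_infty_left, join2_infty_left, gamS_infty, jv_const n h]
  | coe x =>
    induction v using OnePoint.rec with
    | infty => rw [join2_infty_right, join2_infty_left, gamS_infty, join2_infty_left, jv_infty]
    | coe v =>
      induction u using OnePoint.rec with
      | infty => rw [join2_infty_right, gamS_infty, join2_infty_right, jv_infty]
      | coe u =>
        obtain ⟨B, z, rfl⟩ := eW_surj n u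
        obtain ⟨m, rfl⟩ := (eV n).surjective v
        rw [join2_coe, join2_coe, join2_coe, gamS_coe, jv_of']
        congr 2
        refine app_JJ_of (X := LC.of (Fin d → ℝ)) (FL (adjS A hA) (adjS_infty A hA)) x
          (A (x : T0.Sph d)) (fun v => ?_) m B
        have h := app_FL (adjS A hA) (adjS_infty A hA) (x : T0.Sph d) (v : OnePoint (VE n))
        refine h.trans ?_
        rw [adjS_join2]
        rfl

end pointwise

section strict

variable {d n : ℕ}

/-- **The strict identity**: the literal `J` of the adjoint of `A` on `m3` is `J` on simplices. -/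
theorem gam_m3 (A : C(T0.Sph d, T0.Om n)) (hA : A ∞ = Om.const n) :
    (singMap (gamS (adjS A hA) (adjS_infty A hA))).comp (m3 d n (kk n)) =
      (jz (eK n)).comp (timesN (singMap A) (n + kk n)) := by
  apply SS.Map.ext
  intro p z
  apply ContinuousMap.ext
  intro t
  have h1 := gamS_join2 A hA (toC z.1 t) (cxC (tau1 z.2) t) (cxC (tau2 z.2) t)
  exact h1.trans (congrArg (jv (eK n) _) (cxC_split (z.2 : Fin (n + kk n) → Op p 1) t).symm)

/-- the ends of the cube go to the base point -/
theorem singMap_gamS_mem (F : C(T0.Sph (d + n), T0.Sph n)) (hF : F ∞ = ∞) {p : ℕ}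
    (x : (sing (T0.Sph ((d + n) + kk n))).obj p) (hx : (bs ((d + n) + kk n)).mem x) :
    (bsT (n + kk n) (PV (VV n))).mem ((singMap (gamS F hF)).app x) := by
  intro t
  have h1 : toC (p := p) x t = ∞ := hx t
  show gamS F hF (toC (p := p) x t) = ∞
  rw [h1, gamS_infty]

/-- the ends of the cube go to the base point -/
theorem gam_m3_mem (F : C(T0.Sph (d + n), T0.Sph n)) (hF : F ∞ = ∞) {p : ℕ}
    (x : ((sing (T0.Sph d)).prod (SN (n + kk n))).obj p)
    (hx : (bdX (sing (T0.Sph d)) (n + kk n)).mem x) :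
    (bsT (n + kk n) (PV (VV n))).mem (((singMap (gamS F hF)).comp (m3 d n (kk n))).app x) :=
  singMap_gamS_mem F hF _ (m3_base hx)

end strict

end Vale.Agent.P263.KJ
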