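import Vale.Agent.P263.KJ.CL3

/-!
# P263, block KJ (CL3): the double cover of the pairs of disjoint boxes

* `DCov.desc1` : invariant maps descend.
* `d2 r : DCov (OFr r (Fin 2)) (FNr r 2 Unit)` : ordered pairs over unordered pairs of disjoint boxes.
* `dirM ctr`, `ellM ctr` : the direction from one centre to the other, in the sphere and in the
  projective space of `V`, for any continuous `ctr : Bx → V` which separates disjoint boxes.
* `pair_wP`, `pair_wP_pw` : `ell^* w = v + d χ` for every cocycle `v` of the double cover `d2 r`, and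
  for the powers.
-/

open Finset Topology
open scoped InnerProductSpace RealInnerProductSpace

namespace Vale.Agent.P263.KJ

open Vale.Agent.P263.S Vale.Agent.P263.E Vale.Agent.P263.H83 Vale.Agent.P263.TJ
open Vale.Agent.P263.G2

namespace DCov

variable {E B Y : SS} (D : DCov E B)

/-- invariant maps descend -/
noncomputable def desc1 (F : SS.Map E Y) (hF : F.comp D.fl = F) : SS.Map B Y where
  app b := F.app (D.surj b).choose
  nat {p q} f b := by
    have key : ∀ {p : ℕ} {e e' : E.obj p}, D.pr.app e' = D.pr.app e → F.app e' = F.app e := by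
      intro p e e' h
      rcases D.eq_or h with h | h
      · rw [h]
      · rw [h]
        exact congrArg (fun G : SS.Map E Y => G.app e) hF
    rw [← F.nat]
    apply key
    rw [(D.surj _).choose_spec, D.pr.nat, (D.surj _).choose_spec]

theorem desc1_pr (F : SS.Map E Y) (hF : F.comp D.fl = F) : (D.desc1 F hF).comp D.pr = F := by
  refine SS.Map.ext fun {p} e => ?_
  change F.app (D.surj (D.pr.app e)).choose = F.app e
  rcases D.eq_or (D.surj (D.pr.app e)).choose_spec with h | h
  · rw [h]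
  · rw [h]
    exact congrArg (fun G : SS.Map E Y => G.app e) hF

theorem map_ext {G G' : SS.Map B Y} (h : G.comp D.pr = G'.comp D.pr) : G = G' := by
  refine SS.Map.ext fun {p} b => ?_
  obtain ⟨e, rfl⟩ := D.surj b
  exact congrArg (fun G : SS.Map E Y => G.app e) h

end DCov

/-! ### ordered and unordered pairs of boxes -/

/-- the exchange of the two elements -/
def swE : Fin 2 ↪ Fin 2 := (Equiv.swap (0 : Fin 2) 1).toEmbedding

theorem perm_two (e : Equiv.Perm (Fin 2)) : e = 1 ∨ e = Equiv.swap 0 1 := by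
  revert e
  decide

/-- **ordered pairs over unordered pairs of disjoint boxes** -/
noncomputable def d2 (r : ℕ) : DCov (OFr r (Fin 2)) (FNr r 2 Unit) where
  pr := ⟨fun {p} c => ⟨c.1.toConf fun _ => (), OConf.isSt_toConf.2 c.2, by
    rw [OConf.card_toConf, Fintype.card_fin]⟩, fun f c => Subtype.ext (OConf.toConf_pull _ _ _)⟩
  fl := ⟨fun {p} c => ⟨c.1.re swE, c.2.re _⟩, fun _ _ => rfl⟩
  surj {p} b := by
    obtain ⟨c, x, h⟩ := OConf.exists_toConf b.1 b.2.2
    have hx : x = fun _ => () := funext fun _ => rfl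
    subst hx
    exact ⟨⟨c, OConf.isSt_toConf.1 (by rw [h]; exact b.2.1)⟩, Subtype.ext h⟩
  pr_fl {p} c := by
    apply Subtype.ext
    apply Conf.ext
    ext y
    rw [OConf.mem_toConf, OConf.mem_toConf]
    constructor
    · rintro ⟨j, hj⟩
      exact ⟨swE j, hj⟩
    · rintro ⟨j, hj⟩
      refine ⟨Equiv.swap 0 1 j, ?_⟩
      rw [← hj]
      have h1 : swE (Equiv.swap 0 1 j) = j := Equiv.swap_apply_self 0 1 j
      rw [OConf.re_box, h1]
  eq_or {p c c'} h := by
    obtain ⟨e, he, -⟩ := OConf.exists_perm (congrArg Subtype.val h.symm)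
    rcases perm_two e with h1 | h1
    · left
      apply Subtype.ext
      rw [← he, h1]
      rfl
    · right
      apply Subtype.ext
      rw [← he, h1]
      rfl
  fl_ne c h := by
    have h1 := OConf.re_eq_self c.1 swE (congrArg Subtype.val h) 0
    exact absurd h1 (by decide)

theorem d2_pr_val (r : ℕ) {p : ℕ} (c : (OFr r (Fin 2)).obj p) :
    ((d2 r).pr.app c).1 = OConf.toConf (fun _ => ()) c.1 := rfl

theorem d2_fl_val (r : ℕ) {p : ℕ} (c : (OFr r (Fin 2)).obj p) :
    ((d2 r).fl.app c).1 = OConf.re swE c.1 := rfl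

section Dir

variable {V : Type} [NormedAddCommGroup V] [InnerProductSpace ℝ V]

/-- the unit vector of a nonzero vector -/
noncomputable def unitV (v : {v : V // v ≠ 0}) : SV V := ⟨‖v.1‖⁻¹ • v.1, by
  rw [mem_sphere_zero_iff_norm, norm_smul, norm_inv, norm_norm,
    inv_mul_cancel₀ (norm_ne_zero_iff.mpr v.2)]⟩

theorem continuous_unitV : Continuous (unitV (V := V)) := by
  refine Continuous.subtype_mk ?_ _
  exact (continuous_subtype_val.norm.inv₀ fun v => norm_ne_zero_iff.mpr v.2).smul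
    continuous_subtype_val

/-- continuous maps `Bx → V` which separate disjoint boxes of stage `r` -/
structure Ctr (r : ℕ) (V : Type) [NormedAddCommGroup V] where
  /-- the centre -/
  ctr : Bx → V
  cont : Continuous ctr
  ne : ∀ {b c : Bx}, Bx.St r b → Bx.St r c → Bx.Disj b c → ctr b ≠ ctr c

variable {r : ℕ} (C : Ctr r V)

/-- the difference of the centres -/
noncomputable def difM {p : ℕ} (c : (OFr r (Fin 2)).obj p) : C(Dl p, {v : V // v ≠ 0}) :=
  ⟨fun t => ⟨C.ctr (c.1.box 0 t) - C.ctr (c.1.box 1 t),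
    sub_ne_zero.2 (C.ne (c.2 0 t) (c.2 1 t) (c.1.disj 0 1 (by decide) t))⟩,
    Continuous.subtype_mk (((C.cont.comp (c.1.box 0).continuous)).sub
      (C.cont.comp (c.1.box 1).continuous)) _⟩

/-- **the direction of an ordered pair of disjoint boxes** -/
noncomputable def dirM : SS.Map (OFr r (Fin 2)) (sing (SV V)) :=
  ⟨fun c => ofC (ContinuousMap.comp ⟨unitV, continuous_unitV⟩ (difM C c)), fun _ _ => rfl⟩

theorem dirM_apply {p : ℕ} (c : (OFr r (Fin 2)).obj p) (t : Dl p) :
    toC ((dirM C).app c) t = unitV ⟨C.ctr (c.1.box 0 t) - C.ctr (c.1.box 1 t),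
      sub_ne_zero.2 (C.ne (c.2 0 t) (c.2 1 t) (c.1.disj 0 1 (by decide) t))⟩ := rfl

theorem dirM_fl {p : ℕ} (c : (OFr r (Fin 2)).obj p) (t : Dl p) :
    toC ((dirM C).app ((d2 r).fl.app c)) t = -toC ((dirM C).app c) t := by
  apply Subtype.ext
  rw [coe_neg_sphere, dirM_apply, dirM_apply]
  change ‖C.ctr (c.1.box 1 t) - C.ctr (c.1.box 0 t)‖⁻¹ •
      (C.ctr (c.1.box 1 t) - C.ctr (c.1.box 0 t)) =
    -(‖C.ctr (c.1.box 0 t) - C.ctr (c.1.box 1 t)‖⁻¹ •
      (C.ctr (c.1.box 0 t) - C.ctr (c.1.box 1 t)))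
  rw [← smul_neg, neg_sub, norm_sub_rev]

variable [FiniteDimensional ℝ V]

theorem piP_dirM_fl : ((dcP V).pr.comp (dirM C)).comp (d2 r).fl = (dcP V).pr.comp (dirM C) := by
  refine SS.Map.ext fun {p} c => ContinuousMap.ext fun t => ?_
  change piP V (toC ((dirM C).app ((d2 r).fl.app c)) t) = piP V (toC ((dirM C).app c) t)
  rw [dirM_fl, piP_neg]

/-- **the direction of an unordered pair of disjoint boxes** -/
noncomputable def ellM : SS.Map (FNr r 2 Unit) (sing (PV V)) :=
  (d2 r).desc1 ((dcP V).pr.comp (dirM C)) (piP_dirM_fl C)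

theorem ellM_pr : (ellM C).comp (d2 r).pr = (dcP V).pr.comp (dirM C) := (d2 r).desc1_pr _ _

theorem ellM_apply {p : ℕ} (c : (OFr r (Fin 2)).obj p) (t : Dl p) :
    toC ((ellM C).app ((d2 r).pr.app c)) t = piP V (toC ((dirM C).app c) t) :=
  DFunLike.congr_fun
    (congrArg (fun G : SS.Map (OFr r (Fin 2)) (sing (PV V)) => toC (G.app c)) (ellM_pr C)) t

/-- the direction is the only map with this value on the ordered pairs -/
theorem ellM_unique (G : SS.Map (FNr r 2 Unit) (sing (PV V)))
    (h : ∀ {p : ℕ} (c : (OFr r (Fin 2)).obj p) (t : Dl p),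
      toC (G.app ((d2 r).pr.app c)) t = piP V (toC ((dirM C).app c) t)) : G = ellM C := by
  apply (d2 r).map_ext
  rw [ellM_pr]
  exact SS.Map.ext fun {p} c => ContinuousMap.ext fun t => h c t

/-- **(CL3) for the pairs of disjoint boxes** -/
theorem pair_wP {v : Cc (FNr r 2 Unit)} {s : Cc (OFr r (Fin 2))} (h : (d2 r).Cl v s) :
    ∃ χ : Cc (FNr r 2 Unit), Cc.IsDeg 0 χ ∧ Cc.pull (ellM C) (wP V) = v + Cc.d χ ∧
      Cc.pull (d2 r).pr χ = Cc.pull (dirM C) (sP V) + s :=
  ell_wP h (ellM C) (dirM C) (fun c t => ellM_apply C c t) fun c t => dirM_fl C c t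

/-- **(CL3) for the pairs of disjoint boxes, powers** -/
theorem pair_wP_pw {v : Cc (FNr r 2 Unit)} {s : Cc (OFr r (Fin 2))} (h : (d2 r).Cl v s) (n : ℕ) :
    ∃ β : Cc (FNr r 2 Unit), Cc.IsDeg n β ∧
      Cc.pull (ellM C) (Cc.pw (wP V) (n + 1)) = Cc.pw v (n + 1) + Cc.d β :=
  ell_wP_pw h (ellM C) (dirM C) (fun c t => ellM_apply C c t) (fun c t => dirM_fl C c t) n

end Dir

/-! ### the standard centre -/

/-- the middle points of the sides -/
noncomputable def midB (r : ℕ) (b : Bx) : EuclideanSpace ℝ (Fin r) :=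
  WithLp.toLp 2 fun i => ((b i).lo + (b i).hi) / 2

theorem midB_ne {r : ℕ} {b c : Bx} (hb : Bx.St r b) (hc : Bx.St r c) (h : Bx.Disj b c) :
    ∃ i : Fin r, ((b i).hi ≤ (c i).lo ∨ (c i).hi ≤ (b i).lo) ∧
      ((b i).lo + (b i).hi) / 2 ≠ ((c i).lo + (c i).hi) / 2 := by
  obtain ⟨i, hi, h1⟩ := h.exists_lt hb hc
  refine ⟨⟨i, hi⟩, h1, ?_⟩
  have h2 := (b i).lo_lt_hi
  have h3 := (c i).lo_lt_hi
  change ((b i).lo + (b i).hi) / 2 ≠ ((c i).lo + (c i).hi) / 2
  rcases h1 with h1 | h1
  · exact ne_of_lt (by linarith)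
  · exact ne_of_gt (by linarith)

/-- the middle points, after a strictly increasing change of the coordinates `φ : (0, 1) → ℝ` -/
noncomputable def midC (r : ℕ) (φ : ℝ → ℝ) (hφ : StrictMonoOn φ (Set.Ioo 0 1))
    (hc : ContinuousOn φ (Set.Ioo 0 1)) : Ctr r (EuclideanSpace ℝ (Fin r)) where
  ctr b := WithLp.toLp 2 fun i => φ (((b i).lo + (b i).hi) / 2)
  cont := by
    refine (PiLp.continuous_toLp 2 _).comp (continuous_pi fun i => ?_)
    refine hc.comp_continuous ?_ fun b => ?_
    · exact ((Iv.continuous_lo.comp (continuous_apply i.1)).add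
        (Iv.continuous_hi.comp (continuous_apply i.1))).div_const 2
    · have h1 := (b i).lo_nonneg
      have h2 := (b i).lo_lt_hi
      have h3 := (b i).hi_le_one
      constructor
      · linarith
      · linarith
  ne {b c} hb hc' h he := by
    obtain ⟨i, -, h1⟩ := midB_ne hb hc' h
    have h2 : φ (((b i).lo + (b i).hi) / 2) = φ (((c i).lo + (c i).hi) / 2) :=
      congrFun (congrArg (WithLp.ofLp) he) i
    have mem : ∀ b : Iv, (b.lo + b.hi) / 2 ∈ Set.Ioo (0 : ℝ) 1 := fun b => by
      have h1 := b.lo_nonneg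
      have h2 := b.lo_lt_hi
      have h3 := b.hi_le_one
      constructor
      · linarith
      · linarith
    exact h1 (hφ.injOn (mem _) (mem _) h2)

/-- the middle points -/
noncomputable def mid (r : ℕ) : Ctr r (EuclideanSpace ℝ (Fin r)) :=
  midC r id strictMonoOn_id continuousOn_id

end Vale.Agent.P263.KJ
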