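import Vale.Agent.P263.KJ.LamSh
import Vale.Agent.P263.TJ.SqMu
import Vale.Agent.P263.TJ.MuInj
import Vale.Agent.P263.TJ.Miss

/-!
# P263, block KJ: the functional squares of the literal Kahn-Priddy map

* `svLab` : the label system of the unit vectors; `lamF φ` : the two sheets of the literal
  Kahn-Priddy map over the projective space and their homotopy to the identity.
* `pull_lb_tln` : the sum of `v^j o` over the two ordered pairs of lifts is the power `w^j` of the
  cocycle of the double cover.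
* `fsq_lam` : **the functional squares**.
-/

open CategoryTheory MonoidalCategory Filter Topology OnePoint Finset
open scoped InnerProductSpace RealInnerProductSpace
open Vale.Agent.P251.G Vale.Agent.P251.G.LC

namespace Vale.Agent.P263.KJ

open Vale.Agent.P263.S Vale.Agent.P263.E Vale.Agent.P263.H83 Vale.Agent.P263.G2
  Vale.Agent.P263.TJ

variable (V : Type) [NormedAddCommGroup V] [InnerProductSpace ℝ V] [FiniteDimensional ℝ V]

/-! ### the label system -/

/-- the unit vectors with a well-ordering -/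
def SO : Type := SV V

/-- some linear order of the unit vectors -/
noncomputable instance : LinearOrder (SO V) := by
  classical
  exact linearOrderOfSTO (WellOrderingRel : SO V → SO V → Prop)

/-- the maps in `F` are pairwise different at every point -/
def PDif {p : ℕ} (F : Set (C(G2.Dl p, SV V))) : Prop :=
  ∀ a ∈ F, ∀ b ∈ F, a ≠ b → ∀ t, a t ≠ b t

omit [FiniteDimensional ℝ V] in
/-- the label system of the unit vectors -/
noncomputable def svLab : TLab where
  L := TSet.sing (SV V)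
  O := SO V
  ord c := (toC c) pt0
  Good {p} F := PDif V (p := p) F
  good_map := by
    rintro p q f F h _ ⟨a, ha, rfl⟩ _ ⟨b, hb, rfl⟩ hab t
    exact h a ha b hb (fun hc => hab (by rw [hc])) _
  good_sub h h' a ha b hb := h a (h' ha) b (h' hb)
  good_inj := by
    intro p F h i a ha b hb hab
    by_contra hne
    exact h a ha b hb hne _ hab

variable {V}

/-- a label as a continuous map -/
def toS {p : ℕ} (s : (svLab V).L.obj p) : C(G2.Dl p, SV V) := s

/-- the lifts of a simplex -/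
noncomputable def lifts {p : ℕ} (x : C(G2.Dl p, PV V)) : Finset C(G2.Dl p, SV V) := by
  classical
  exact {(exists_lift x).choose, (negC V).comp (exists_lift x).choose}

theorem mem_lifts {p : ℕ} {x : C(G2.Dl p, PV V)} {s : C(G2.Dl p, SV V)} :
    s ∈ lifts x ↔ ∀ t, piP V (s t) = x t := by
  classical
  unfold lifts
  rw [mem_insert, mem_singleton]
  have h := (exists_lift x).choose_spec
  constructor
  · rintro (rfl | rfl) t
    · exact h t
    · exact (piP_neg _).trans (h t)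
  · intro hs
    rcases lift_unique (τ := (exists_lift x).choose) (τ' := s) (fun t => (hs t).trans (h t).symm)
      with h1 | h1
    · exact Or.inl h1
    · exact Or.inr (ContinuousMap.ext h1)

theorem neg_mem_lifts {p : ℕ} {x : C(G2.Dl p, PV V)} {s : C(G2.Dl p, SV V)}
    (h : s ∈ lifts x) : (negC V).comp s ∈ lifts x :=
  mem_lifts.2 fun t => (piP_neg _).trans (mem_lifts.1 h t)

theorem lifts_eq {p : ℕ} {x : C(G2.Dl p, PV V)} {s s' : C(G2.Dl p, SV V)} (h : s ∈ lifts x)
    (h' : s' ∈ lifts x) : s' = s ∨ s' = (negC V).comp s := by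
  rcases lift_unique (τ := s) (τ' := s') (fun t => (mem_lifts.1 h' t).trans (mem_lifts.1 h t).symm)
    with h1 | h1
  · exact Or.inl h1
  · exact Or.inr (ContinuousMap.ext h1)

omit [FiniteDimensional ℝ V] in
theorem negC_ne {p : ℕ} (s : C(G2.Dl p, SV V)) (t : G2.Dl p) : (negC V).comp s t ≠ s t :=
  neg_ne (s t)

theorem card_lifts {p : ℕ} (x : C(G2.Dl p, PV V)) : (lifts x).card = 2 := by
  classical
  unfold lifts
  refine card_pair fun h => ?_
  obtain ⟨t⟩ : Nonempty (G2.Dl p) := ⟨T0.Small.vx p 0⟩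
  exact negC_ne _ t (DFunLike.congr_fun h t).symm

section fam

variable {W : Type} [NormedAddCommGroup W] [NormedSpace ℝ W] {K : ℕ}
  (φ : (V × W) ≃L[ℝ] (Fin K → ℝ))

/-- **the two sheets** -/
noncomputable def lamF : PFam (TSet.sing (PV V)) (svLab V) (T0.Sph K) (Fin K → ℝ) where
  idx {p} x := (lifts (p := p) x : Finset (C(G2.Dl p, SV V)))
  mem_pull := by
    intro p q f x s
    refine (mem_lifts (x := (x : C(G2.Dl q, PV V)).comp f) (s := s)).trans ?_
    constructor
    · intro h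
      obtain ⟨τ, hτ⟩ := exists_lift x
      rcases lift_unique (τ := τ.comp f) (τ' := s) (fun t => (h t).trans (hτ (f t)).symm)
        with h1 | h1
      · exact ⟨τ, mem_lifts.2 hτ, h1.symm⟩
      · exact ⟨(negC V).comp τ, neg_mem_lifts (mem_lifts.2 hτ), (ContinuousMap.ext h1).symm⟩
    · rintro ⟨s', hs', rfl⟩ t
      exact mem_lifts.1 hs' (f t)
  good := by
    intro p x a ha b hb hab t
    rcases lifts_eq (mem_coe.1 ha) (mem_coe.1 hb) with h | h
    · exact absurd h.symm hab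
    · rw [h]
      exact (negC_ne a t).symm
  val s τ χ := ⟨fun t => shv φ (χ t, toS s t) (τ t), (continuous_shv φ).comp
    ((χ.continuous.prodMk (toS s).continuous).prodMk τ.continuous)⟩
  val_pull _ _ _ _ := rfl
  disj := by
    intro p x s hs s' hs' hne τ t
    have h1 : ∀ u : SV V, ∀ y : T0.Sph K, shv φ (0, u) y ≠ ∞ → shv φ (0, -u) y = ∞ := by
      intro u y h
      induction y using OnePoint.rec with
      | infty => exact shv_infty φ _
      | coe y =>
        obtain ⟨⟨z, w⟩, rfl⟩ := φ.surjective y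
        by_cases h2 : rho 0 - (1 - (0 : unitInterval).1) *
            ‖z - (1 - (0 : unitInterval).1) • (u : V)‖ ≤ 0
        · exact absurd (shv_of_le φ h2) h
        refine shv_of_le φ ?_
        have e0 : rho 0 = 1 / 4 := by unfold rho; norm_num
        have e1 : (1 - (0 : unitInterval).1) = 1 := by norm_num
        rw [e0, e1, one_mul, one_smul] at h2 ⊢
        rw [coe_neg_sphere]
        have h3 : ‖(2 : ℝ) • (u : V)‖ = 2 := by rw [norm_smul, norm_SV]; norm_num
        have h4 : (2 : ℝ) • (u : V) = (z - -(u : V)) - (z - u) := by rw [two_smul]; abel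
        have h5 := norm_sub_le (z - -(u : V)) (z - u)
        rw [← h4, h3] at h5
        linarith
    rcases lifts_eq hs hs' with h | h
    · exact absurd h.symm hne
    · by_cases h2 : shv φ (0, toS s t) (τ t) = ∞
      · exact Or.inl h2
      · right
        rw [h]
        exact h1 (toS s t) (τ t) h2

theorem lamF_pointed : (lamF φ).Pointed (∞ : T0.Sph K) := by
  intro p s τ χ t h
  show shv φ (χ t, toS s t) (τ t) = ∞
  rw [h, shv_infty]

theorem lamF_full : (lamF φ).Full := by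
  intro p s τ
  apply ContinuousMap.ext
  intro t
  exact shv_one φ _ _

theorem lamF_card : (lamF φ).Card 2 := fun x => card_lifts x

end fam

/-! ### the sum over the two ordered pairs of lifts -/

namespace Cc

variable {X : SS}

theorem pw_left (u : Cc X) (n : ℕ) : pw u (n + 1) = Cc.cup 1 u (pw u n) := by
  induction n with
  | zero =>
    show Cc.cup 1 (Cc.one X) u = Cc.cup 1 u (Cc.one X)
    rw [TJ.one_cup, TJ.cup_one]
  | succ n ih =>
    show Cc.cup 1 (pw u (n + 1)) u = Cc.cup 1 u (Cc.cup 1 (pw u n) u)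
    rw [ih]
    exact cup_assoc u (pw u n) u

end Cc

section tr

/-- the ordered pair of lifts -/
noncomputable def ddM : SS.Map (sing (SV V)) (PL (svLab V).lab) where
  app {p} e := ⟨(e, (negC V).comp (toC e)), fun i h => by
    refine negC_ne (toC e) (dmap (TJ.vx p i) pt0) ?_
    exact h.symm⟩
  nat _ _ := rfl

omit [FiniteDimensional ℝ V] in
theorem exl_dd (c : Cc (PL (svLab V).lab)) {p : ℕ} (e : C(G2.Dl p, SV V)) :
    exl (svLab V).lab c (p := p) e ((negC V).comp e) = Cc.pull ddM c p e :=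
  exl_of (l := (svLab V).lab) (c := c) ((ddM.app (p := p) e).2)

omit [InnerProductSpace ℝ V] [FiniteDimensional ℝ V] in
theorem negC_negC {p : ℕ} (e : C(G2.Dl p, SV V)) : (negC V).comp ((negC V).comp e) = e := by
  apply ContinuousMap.ext
  intro t
  exact neg_neg (e t)

theorem exl_dd' (c : Cc (PL (svLab V).lab)) {p : ℕ} (e : C(G2.Dl p, SV V)) :
    exl (svLab V).lab c (p := p) ((negC V).comp e) e =
      Cc.pull (dcP V).fl (Cc.pull ddM c) p e := by
  have h := exl_dd c ((negC V).comp e)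
  rw [negC_negC] at h
  exact h

/-- the order cochain of the pair of lifts -/
noncomputable def oV (V : Type) [NormedAddCommGroup V] [InnerProductSpace ℝ V]
    [FiniteDimensional ℝ V] : Cc (sing (SV V)) := Cc.pull ddM (ool (svLab V).lab)

theorem oV_add : oV V + Cc.pull (dcP V).fl (oV V) = Cc.one _ := by
  classical
  funext p e
  show ool (svLab V).lab p (ddM.app e) + ool (svLab V).lab p (ddM.app ((dcP V).fl.app e)) =
    Cc.one _ p e
  have h2 : (ddM.app ((dcP V).fl.app e)).1 = (((ddM.app e).1.2, (ddM.app e).1.1) :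
      (svLab V).lab.L.obj p × (svLab V).lab.L.obj p) :=
    Prod.ext rfl (negC_negC (toC e))
  have hne := (ddM.app e).2 0
  unfold ool Cc.one
  rw [h2]
  by_cases hp : p = 0
  · simp only [hp, true_and, if_true]
    subst hp
    rcases lt_or_gt_of_ne hne with h | h
    · rw [if_pos h, if_neg (not_lt_of_gt h), add_zero]
    · rw [if_neg (not_lt_of_gt h), if_pos h, zero_add]
  · simp only [hp, false_and, if_false, add_zero]

theorem fl_oV : Cc.pull (dcP V).fl (oV V) = oV V + Cc.one _ := by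
  rw [← oV_add, ← add_assoc, cc_add_self, zero_add]

theorem isDeg_oV : Cc.IsDeg 0 (oV V) := by
  classical
  intro p hp e
  show ool (svLab V).lab p (ddM.app e) = 0
  unfold ool
  exact if_neg fun h => hp h.1

theorem exists_wV : ∃ w : Cc (sing (PV V)), (dcP V).Cl w (oV V) :=
  (dcP V).cl_of _ isDeg_oV fl_oV

theorem vol_add (k : ℕ) : Cc.pull ddM (vol (svLab V).lab k) +
    Cc.pull (dcP V).fl (Cc.pull ddM (vol (svLab V).lab k)) = Cc.pw (Cc.d (oV V)) k := by
  induction k with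
  | zero => exact oV_add
  | succ k ih =>
    rw [Cc.pw_left, ← ih]
    have h1 : Cc.pull ddM (vol (svLab V).lab (k + 1)) =
        Cc.cup 1 (Cc.d (oV V)) (Cc.pull ddM (vol (svLab V).lab k)) := by
      show Cc.pull ddM (Cc.cup 1 (Cc.d (ool (svLab V).lab)) (vol (svLab V).lab k)) = _
      rw [pull_cup, pull_d]
      rfl
    have h2 : Cc.pull (dcP V).fl (Cc.d (oV V)) = Cc.d (oV V) := by
      rw [pull_d, fl_oV, d_add, d_one, add_zero]
    rw [h1, pull_cup, h2, cup_add_right]

open Classical in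
theorem lifts_pr {p : ℕ} (e : C(G2.Dl p, SV V)) :
    lifts ((piC V).comp e) = ({e, (negC V).comp e} : Finset (C(G2.Dl p, SV V))) := by
  classical
  ext s
  rw [mem_insert, mem_singleton]
  have he : e ∈ lifts ((piC V).comp e) := mem_lifts.2 fun _ => rfl
  constructor
  · intro hs
    exact lifts_eq he hs
  · rintro (rfl | rfl)
    · exact he
    · exact neg_mem_lifts he

/-- **the sum over the two ordered pairs of lifts** -/
theorem pull_lb_tln {W : Type} [NormedAddCommGroup W] [NormedSpace ℝ W] {K : ℕ}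
    (φ : (V × W) ≃L[ℝ] (Fin K → ℝ)) {w : Cc (sing (PV V))} (hw : (dcP V).Cl w (oV V)) (j : ℕ) :
    Cc.pull (PFam.lb (lamF_card φ)) (tln (svLab V).lab 2 j) = Cc.pw w j := by
  classical
  refine (dcP V).pull_inj ?_
  rw [Cc.pull_pw, hw.pull_w, ← vol_add]
  funext p e
  obtain ⟨e', he'⟩ : ∃ e' : C(G2.Dl p, SV V), e' = toC e := ⟨_, rfl⟩
  have hne : e' ≠ (negC V).comp e' := by
    intro h
    obtain ⟨t⟩ : Nonempty (G2.Dl p) := ⟨T0.Small.vx p 0⟩
    exact negC_ne e' t (DFunLike.congr_fun h t).symm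
  obtain ⟨F, hF⟩ : ∃ F : C(G2.Dl p, SV V) → C(G2.Dl p, SV V) → ZMod 2,
    F = fun a b => exl (svLab V).lab (vol (svLab V).lab j) (p := p) a b := ⟨_, rfl⟩
  have h0 : ∑ a ∈ lifts ((piC V).comp e'), ∑ b ∈ lifts ((piC V).comp e'), F a b =
      F e' ((negC V).comp e') + F ((negC V).comp e') e' := by
    have h1 : ∀ a, F a a = 0 := fun a => by
      rw [hF]
      exact exl_self (l := (svLab V).lab) _ _
    rw [lifts_pr, sum_pair hne, sum_pair hne, sum_pair hne, h1, h1, zero_add, add_zero]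
  have h3 : F e' ((negC V).comp e') = Cc.pull ddM (vol (svLab V).lab j) p e := by
    rw [hF, he']
    exact exl_dd _ _
  have h4 : F ((negC V).comp e') e' =
      Cc.pull (dcP V).fl (Cc.pull ddM (vol (svLab V).lab j)) p e := by
    rw [hF, he']
    exact exl_dd' _ _
  rw [h3, h4] at h0
  subst hF
  subst he'
  exact h0

end tr

/-! ### the literal map -/

section lit

variable {W : Type} [NormedAddCommGroup W] [NormedSpace ℝ W] {K : ℕ}
  (φ : (V × W) ≃L[ℝ] (Fin K → ℝ))

/-- `Lf` is the suspension of the literal Kahn-Priddy map, in the coordinates `φ` -/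
structure IsLam (Lf : C(OnePoint ((Fin K → ℝ) × PV V), T0.Sph K)) : Prop where
  inf : Lf ∞ = ∞
  eq : ∀ (p : PV V) (z : V) (w : W),
    Lf (((φ (z, w), p) : (Fin K → ℝ) × PV V) : OnePoint ((Fin K → ℝ) × PV V)) =
      OnePoint.map (fun x : V => φ (x, w)) (app (lam V) (((p, z) : PV V × V) : OnePoint (PV V × V)))

variable {φ}

theorem shv_zero (u : SV V) (z : V) (w : W) :
    (‖z - (u : V)‖ < 1 / 4 → shv φ (0, u) ((φ (z, w) : Fin K → ℝ) : T0.Sph K) =
      ((φ ((1 / 4 - ‖z - (u : V)‖)⁻¹ • (z - (u : V)), w) : Fin K → ℝ) : T0.Sph K)) ∧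
    (1 / 4 ≤ ‖z - (u : V)‖ → shv φ (0, u) ((φ (z, w) : Fin K → ℝ) : T0.Sph K) = ∞) := by
  have e0 : rho 0 = 1 / 4 := by unfold rho; norm_num
  have e1 : (1 - (0 : unitInterval).1) = 1 := by norm_num
  have e2 : rho 0 - (1 - (0 : unitInterval).1) * ‖z - (1 - (0 : unitInterval).1) • (u : V)‖ =
      1 / 4 - ‖z - (u : V)‖ := by rw [e0, e1, one_mul, one_smul]
  constructor
  · intro h
    rw [shv_of_pos φ (by rw [e2]; linarith)]
    unfold stI
    rw [e2, e1, one_smul]
  · intro h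
    exact shv_of_le φ (by rw [e2]; linarith)

theorem IsLam.eq_sheet {Lf : C(OnePoint ((Fin K → ℝ) × PV V), T0.Sph K)} (h : IsLam φ Lf)
    (u : SV V) (y : T0.Sph K) (hy : shv φ (0, u) y ≠ ∞) :
    Lf (smP K (PV V) (y, piP V u)) = shv φ (0, u) y := by
  induction y using OnePoint.rec with
  | infty => exact absurd (shv_infty φ _) hy
  | coe y =>
    obtain ⟨⟨z, w⟩, rfl⟩ := φ.surjective y
    by_cases h1 : ‖z - (u : V)‖ < 1 / 4
    · rw [(shv_zero u z w).1 h1]
      refine (h.eq (piP V u) z w).trans ?_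
      rw [app_lam_of_lt u h1]
      rfl
    · exact absurd ((shv_zero u z w).2 (not_lt.1 h1)) hy

theorem IsLam.eq_infty {Lf : C(OnePoint ((Fin K → ℝ) × PV V), T0.Sph K)} (h : IsLam φ Lf)
    (u : SV V) (y : T0.Sph K) (hy : shv φ (0, u) y = ∞) (hy' : shv φ (0, -u) y = ∞) :
    Lf (smP K (PV V) (y, piP V u)) = ∞ := by
  induction y using OnePoint.rec with
  | infty => exact h.inf
  | coe y =>
    obtain ⟨⟨z, w⟩, rfl⟩ := φ.surjective y
    have hle : ∀ u' : SV V, shv φ (0, u') ((φ (z, w) : Fin K → ℝ) : T0.Sph K) = ∞ →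
        1 / 4 ≤ ‖z - (u' : V)‖ := by
      intro u' h'
      by_contra hc
      rw [(shv_zero u' z w).1 (not_le.1 hc)] at h'
      exact OnePoint.coe_ne_infty _ h'
    refine (h.eq (piP V u) z w).trans ?_
    rw [app_lam_of_le (piP V u) fun u' hu' => ?_]
    · rfl
    · rcases piP_eq hu'.symm with h3 | h3
      · rw [h3]; exact hle u hy
      · have h4 := hle (-u) hy'
        rw [coe_neg_sphere] at h4
        rw [h3]; exact h4

/-- **the literal map is the join of the two sheets** -/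
theorem IsLam.MX_eq {Lf : C(OnePoint ((Fin K → ℝ) × PV V), T0.Sph K)} (h : IsLam φ Lf) :
    (lamF φ).MX.comp (idp (sing (PV V)) (cx K)) = (singMap Lf).comp (muT K (PV V)) := by
  apply SS.Map.ext
  intro p z
  apply ContinuousMap.ext
  intro t
  show (lamF φ).mval z.1 (cxC z.2) t = Lf (smP K (PV V) (cxC z.2 t, toC z.1 t))
  by_cases h1 : ∃ s ∈ lifts (toC z.1), shv φ (0, s t) (cxC z.2 t) ≠ ∞
  · obtain ⟨s, hs, h1⟩ := h1
    rw [← mem_lifts.1 hs t, h.eq_sheet (s t) _ h1]
    exact (lamF φ).mval_of_mem (s := (s : (svLab V).L.obj p)) hs h1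
  · push Not at h1
    obtain ⟨s, hs⟩ := exists_lift (toC z.1)
    have hs' : s ∈ lifts (toC z.1) := mem_lifts.2 hs
    rw [← hs t, h.eq_infty (s t) _ (h1 s hs') (h1 _ (neg_mem_lifts hs'))]
    rcases (lamF φ).mval_cases z.1 (cxC z.2) t with h2 | ⟨s', hs2, h2⟩
    · exact h2
    · rw [h2]
      exact h1 s' hs2

end lit

/-! ### the functional squares -/

section final

variable {W : Type} [NormedAddCommGroup W] [NormedSpace ℝ W]

/-- a pointed map `(ℝᴷ × P)⁺ → Sᴷ` on reduced cochains -/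
noncomputable def relL {K : ℕ} {P : Type} [TopologicalSpace P]
    (Lf : C(OnePoint ((Fin K → ℝ) × P), T0.Sph K)) (h : Lf ∞ = ∞) :
    CupC.Hom (Cc.rel (bs K)) (Cc.rel (bsT K P)) :=
  Cc.relHom (singMap Lf) (bsT K P) (bs K) fun {p} σ hσ (t : Dl p) => by
    change Lf (toC σ t) = ∞
    rw [hσ t, h]

/-- the cube in `(ℝᴷ × P)⁺` on reduced cochains -/
noncomputable def relMu (K : ℕ) (P : Type) [TopologicalSpace P] [CompactSpace P] [T2Space P] :
    CupC.Hom (Cc.rel (bsT K P)) (Cc.rel (ends (sing P) K)) :=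
  Cc.relHom (muT K P) (ends (sing P) K) (bsT K P) fun _ hz t => muT_infty K P hz t

variable {m : ℕ}

/-- **The functional squares of a map `(ℝᴷ × P)⁺ → Sᴷ` are well defined on the cube.** -/
theorem fsq_unamb {P : Type} [TopologicalSpace P] [CompactSpace P] [T2Space P]
    {Lf : C(OnePoint ((Fin (m + 1) → ℝ) × P), T0.Sph (m + 1))} (h : Lf ∞ = ∞) {i j : ℕ}
    {D D' : CupC.FSqD ((relMu (m + 1) P).comp (relL Lf h)) i}
    (hD : D.Homog (Cc.relGr _) (Cc.relGr _) m (m + 1 + j))
    (hD' : D'.Homog (Cc.relGr _) (Cc.relGr _) m (m + 1 + j))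
    (hb : ¬ (Cc.rel (bs (m + 1))).Coh D.b 0) (hb' : ¬ (Cc.rel (bs (m + 1))).Coh D'.b 0) :
    (Cc.rel (ends (sing P) (m + 1))).Coh D.val D'.val := by
  have hK : 0 < m + 1 := Nat.succ_pos m
  refine CupC.FSqD.coh_of_van hD hD' (van_ends (Nat.lt_succ_self m))
    (fun x hx => (hx.pull _).pull _) ?_
    (SphCc.rel_coh_of_ne hK hD.b_mem D.d_b hD'.b_mem D'.d_b hb hb')
  intro y hy hdy
  rcases Nat.eq_zero_or_pos j with rfl | hj
  · by_cases hy0 : (Cc.rel (bs (m + 1))).Coh y 0
    · have := hy0.map ((relMu (m + 1) P).comp (relL Lf h))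
      rwa [map_zero] at this
    · have h4 : (Cc.rel (bs (m + 1))).Coh y D.b :=
        SphCc.rel_coh_of_ne hK hy hdy hD.b_mem D.d_b hy0 hb
      refine (h4.map ((relMu (m + 1) P).comp (relL Lf h))).trans ?_
      rw [← D.d_e]
      exact CupC.coh_d _ _
  · have := ((SphCc.rel_van hK (by omega)) y hy hdy).map
      ((relMu (m + 1) P).comp (relL Lf h))
    rwa [map_zero] at this

variable {φ : (V × W) ≃L[ℝ] (Fin (m + 1) → ℝ)}
  {Lf : C(OnePoint ((Fin (m + 1) → ℝ) × PV V), T0.Sph (m + 1))}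

/-- existence of data with the expected value -/
theorem exists_fsq (h : IsLam φ Lf) {i j : ℕ} (hij : i + j = m) :
    ∃ D : CupC.FSqD ((relMu (m + 1) (PV V)).comp (relL Lf h.inf)) i,
      D.Homog (Cc.relGr _) (Cc.relGr _) m (m + 1 + j) ∧
      ¬ (Cc.rel (bs (m + 1))).Coh D.b 0 ∧
      (Cc.rel (ends (sing (PV V)) (m + 1))).Coh D.val
        (Cc.mkRel _ (TJ.sn (m + 1) (Cc.pw (wP V) j)) (Vn_sn (m + 1) _)) := by
  have hK : 0 < m + 1 := Nat.succ_pos m
  obtain ⟨B, hBb, hBc, hBne⟩ := exists_BC (d := j) (r := m + 1) (i := i) (by omega)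
  have hZ : IsClosed ({orig (m + 1)} : Set (T0.Sph (m + 1))) := isClosed_singleton
  have hZi : (∞ : T0.Sph (m + 1)) ∉ ({orig (m + 1)} : Set (T0.Sph (m + 1))) := fun hc =>
    orig_ne (m + 1) (Set.mem_singleton_iff.1 hc).symm
  have hBb' : Vn (missZ ({orig (m + 1)} : Set (T0.Sph (m + 1)))) (Cc.val B.b) :=
    fun p σ hσ => hBb p σ fun t ht => hσ t (Set.mem_singleton_iff.2 ht)
  have hBc' : Vn (missZ ({orig (m + 1)} : Set (T0.Sph (m + 1)))) (Cc.val B.c) :=
    fun p σ hσ => hBc p σ fun t ht => hσ t (Set.mem_singleton_iff.2 ht)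
  obtain ⟨D2, hb2, hc2, he2⟩ := PFam.exists_FSqD (𝓕 := lamF φ) (X := TSet.sing (PV V))
    (lamF_pointed φ) (lamF_full φ) (lamF_card φ) even_two (i := i) (m := m) hZ hZi
    (b := B.b) (c := B.c) hBb' B.d_b B.d_c B.b_deg
  have hne : ¬ ∃ a : Cc (sing (T0.Sph (m + 1))), Cc.d a = Cc.val B.b := by
    rintro ⟨a, ha⟩
    exact hBne (SphCc.rel_coh_of_coh B.b_deg (coh_of_d ha.symm))
  obtain ⟨β, hβ, -, hβ'⟩ := cx_class hK B.b_deg (congrArg Cc.val B.d_b) (Cc.vn_val B.b) hne
  have hcx : ∀ {p : ℕ} (x : (SN (m + 1)).obj p), (SN.base (m + 1)).mem x →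
      (ptS (∞ : OnePoint (Fin (m + 1) → ℝ))).mem ((cx (m + 1)).app x) := fun x hx => cx_base hx
  have h1 := PFam.val_cube (𝓕 := lamF φ) (X := TSet.sing (PV V)) (lamF_pointed φ)
    (lamF_full φ) (lamF_card φ) even_two (cx (m + 1)) hcx hZ hZi (m := m) rfl
    (show i + 1 ≤ m + 1 by omega) D2 (by rw [hb2]; exact hBb') (by rw [hc2]; exact hBc')
    (by rw [hb2]; exact B.b_deg) he2 hβ (by rw [hb2]; exact hβ')
  obtain ⟨w, hw⟩ := exists_wV (V := V)
  have h2 : m + 1 - (i + 1) = j := by omega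
  have h3 : Cc.pull (PFam.lb (lamF_card φ)) (tln (svLab V).lab 2 (m + 1 - (i + 1))) =
      Cc.pw w j := by
    rw [h2]
    exact pull_lb_tln φ hw j
  obtain ⟨χ, -, hχ, -⟩ := (cl_wP V).coh hw
  obtain ⟨γ, hγ⟩ := Cc.pw_coh (d_wP V) hχ j
  have hM : ∀ u : (Cc.rel (bs (m + 1))).C, ((relMu (m + 1) (PV V)).comp (relL Lf h.inf)).f u =
      ((PFam.relC (X := TSet.sing (PV V)) (cx (m + 1)) hcx).comp
        (PFam.relM (X := TSet.sing (PV V)) (lamF_pointed φ))).f u := fun u => Cc.rel_ext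
    (congrArg (fun M => Cc.pull M (Cc.val u)) h.MX_eq.symm)
  have hB1 : Cc.IsDeg (m + 1) (Cc.val D2.b) := by rw [hb2]; exact B.b_deg
  have hB2 : Cc.IsDeg (m + 1 + j) (Cc.val D2.c) := by
    have := B.c_deg
    rw [hc2]
    exact fun p hp x => this p (by omega) x
  have hB3 : ¬ (Cc.rel (ptS (∞ : OnePoint (Fin (m + 1) → ℝ)))).Coh D2.b 0 := by
    rw [hb2]; exact hBne
  have h4 : ((D2.post (PFam.relC (X := TSet.sing (PV V)) (cx (m + 1)) hcx)).congr hM).val =
      (PFam.relC (X := TSet.sing (PV V)) (cx (m + 1)) hcx).f D2.val :=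
    (CupC.FSqD.val_congr _ _).trans (CupC.FSqD.val_post _ _)
  have h5 : ∀ u : Cc (sing (PV V)), u = Cc.pw w j → (Cc.rel (ends (sing (PV V)) (m + 1))).Coh
      (Cc.mkRel _ (TJ.sn (m + 1) u) (Vn_sn (m + 1) _))
      (Cc.mkRel _ (TJ.sn (m + 1) (Cc.pw (wP V) j)) (Vn_sn (m + 1) _)) := by
    intro u hu
    refine ⟨Cc.mkRel _ (TJ.sn (m + 1) γ) (Vn_sn (m + 1) _), Cc.rel_ext ?_⟩
    show TJ.sn (m + 1) u + TJ.sn (m + 1) (Cc.pw (wP V) j) = Cc.d (TJ.sn (m + 1) γ)
    rw [hu, hγ, TJ.sn_add, TJ.d_sn, add_comm (TJ.sn (m + 1) (Cc.pw (wP V) j)), add_assoc,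
      cc_add_self, add_zero]
  exact ⟨(D2.post (PFam.relC (X := TSet.sing (PV V)) (cx (m + 1)) hcx)).congr hM,
    ⟨hB1, he2.pull _, hB2, by omega⟩, hB3,
    Eq.subst (motive := fun v => (Cc.rel (ends (sing (PV V)) (m + 1))).Coh v _) h4.symm
      (CupC.Coh.trans h1 (h5 _ h3))⟩

/-- **The functional squares of the literal Kahn-Priddy map.** -/
theorem fsq_lam (h : IsLam φ Lf) {i j : ℕ} (hij : i + j = m) (D : CupC.FSqD (relL Lf h.inf) i)
    (hD : D.Homog (Cc.relGr _) (Cc.relGr _) m (m + 1 + j))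
    (hb : ¬ (Cc.rel (bs (m + 1))).Coh D.b 0) :
    (Cc.rel (ends (sing (PV V)) (m + 1))).Coh ((relMu (m + 1) (PV V)).f D.val)
      (Cc.mkRel _ (TJ.sn (m + 1) (Cc.pw (wP V) j)) (Vn_sn (m + 1) _)) := by
  obtain ⟨D', hD', hb', hv⟩ := exists_fsq h hij
  have h1 := fsq_unamb h.inf (D := D.post (relMu (m + 1) (PV V)))
    ⟨hD.b_mem, Cc.IsDeg.pull (u := Cc.val D.e) hD.e_mem _, hD.c_mem, hD.deg_eq⟩ hD' hb hb'
  rw [CupC.FSqD.val_post] at h1
  exact h1.trans hv

end final

end Vale.Agent.P263.KJ
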