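import Vale.Agent.P263.KJ.Bridge
import Vale.Agent.P263.KJ.LamSq

/-!
# P263, block KJ: the literal Kahn-Priddy map in the form of `LamSq`

* `phiS n : V × (V × (V →L V)) ≃L (Fin (n + kk n) → ℝ)`, `(z, (m, B)) ↦ append m (B, z)`;
* `isLam_lamS : IsLam (phiS n) (lamS n)`.
-/

open CategoryTheory MonoidalCategory Filter Topology OnePoint
open Vale.Agent.P251.G
open Vale.Agent.P251.G.LC hiding Sph RR

namespace Vale.Agent.P263.KJ

/-- `ℝᵐ × ℝᵏ = ℝᵐ⁺ᵏ`, linear -/
noncomputable def appLin (m k : ℕ) : ((Fin m → ℝ) × (Fin k → ℝ)) ≃L[ℝ] (Fin (m + k) → ℝ) :=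
  LinearEquiv.toContinuousLinearEquiv
    { toFun := fun p => Fin.append p.1 p.2
      invFun := fun v => (fun i => v (Fin.castAdd k i), fun i => v (Fin.natAdd m i))
      left_inv := fun p => by
        refine Prod.ext ?_ ?_
        · funext i
          exact Fin.append_left p.1 p.2 i
        · funext i
          exact Fin.append_right p.1 p.2 i
      right_inv := fun v => Fin.append_castAdd_natAdd
      map_add' := fun p q => by
        funext i
        refine Fin.addCases (fun i => ?_) (fun i => ?_) i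
        · simp [Fin.append_left]
        · simp [Fin.append_right]
      map_smul' := fun c p => by
        funext i
        refine Fin.addCases (fun i => ?_) (fun i => ?_) i
        · simp [Fin.append_left]
        · simp [Fin.append_right] }

theorem appLin_apply (m k : ℕ) (x : Fin m → ℝ) (y : Fin k → ℝ) :
    appLin m k (x, y) = Fin.append x y := rfl

/-- permutation of the factors -/
noncomputable def permL (n : ℕ) : (VV n × (VV n × (VV n →L[ℝ] VV n))) ≃L[ℝ]
    (VV n × ((VV n →L[ℝ] VV n) × VV n)) :=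
  { toFun := fun p => (p.2.1, (p.2.2, p.1))
    invFun := fun q => (q.2.2, (q.1, q.2.1))
    left_inv := fun _ => rfl
    right_inv := fun _ => rfl
    map_add' := fun _ _ => rfl
    map_smul' := fun _ _ => rfl
    continuous_toFun := by fun_prop
    continuous_invFun := by fun_prop }

/-- `(z, (m, B)) ↦ append m (B, z)` -/
noncomputable def phiS (n : ℕ) : (VV n × (VV n × (VV n →L[ℝ] VV n))) ≃L[ℝ]
    (Fin (n + kk n) → ℝ) :=
  (permL n).trans (((eV n).prodCongr (eW n)).trans (appLin n (kk n)))

theorem phiS_apply (n : ℕ) (z m : VV n) (B : VV n →L[ℝ] VV n) :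
    phiS n (z, (m, B)) = Fin.append (eV n m) (eW n (B, z)) := rfl

theorem lamS_apply (n : ℕ) (p : PV (VV n)) (z m : VV n) (B : VV n →L[ℝ] VV n) :
    lamS n (((phiS n (z, (m, B)), p) : (Fin (n + kk n) → ℝ) × PV (VV n)) :
      OnePoint ((Fin (n + kk n) → ℝ) × PV (VV n))) =
      OnePoint.map (fun x : VV n => phiS n (x, (m, B)))
        (app (lam (VV n)) (((p, z) : PV (VV n) × VV n) : OnePoint (PV (VV n) × VV n))) := by
  have h1 : lamS n (((phiS n (z, (m, B)), p) : (Fin (n + kk n) → ℝ) × PV (VV n)) :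
      OnePoint ((Fin (n + kk n) → ℝ) × PV (VV n))) =
      app (lamLC n) (app (ofHomeo (X := LC.of ((VV n × ((VV n →L[ℝ] VV n) × PV (VV n))) × VV n))
        (Y := LC.of ((Fin (n + kk n) → ℝ) × PV (VV n))) (hT n)).hom
        ((((m, (B, p)), z) : (VV n × ((VV n →L[ℝ] VV n) × PV (VV n))) × VV n) :
          OnePoint ((VV n × ((VV n →L[ℝ] VV n) × PV (VV n))) × VV n))) := rfl
  rw [h1, lamLC, ← app_comp, Iso.hom_inv_id_assoc, app_comp, app_lamW]
  generalize app (lam (VV n)) _ = w
  induction w using OnePoint.rec with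
  | infty => rfl
  | coe w => rfl

/-- the literal Kahn-Priddy map in the form of `LamSq` -/
theorem isLam_lamS (n : ℕ) : IsLam (phiS n) (lamS n) where
  inf := lamS_infty n
  eq p z w := lamS_apply n p z w.1 w.2

end Vale.Agent.P263.KJ
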