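import Vale.Agent.P263.KJ.LamFS
import Vale.Agent.P263.KJ.BridgeLam
import Vale.Agent.P263.K.NotAF

/-!
# P263, block KJ: the functional squares of the literal Kahn-Priddy map

`lamOK` : `K.LamOK n` for all `n`; `not_AFge3` : the end of the argument with this input plugged.
-/

open OnePoint

namespace Vale.Agent.P263.KJ

open Vale.Agent.P263.T0 Vale.Agent.P263.TJ

/-- **The functional squares of the literal Kahn-Priddy map.** -/
theorem lamOK (n : ℕ) : K.LamOK n := fun _ hi => fsok_lam hi (isLam_lamS n)

/-- **`g` is not of Adams filtration at least three**, if the functional squares of the literal `γ`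
are nonzero at all large stages. -/
theorem not_AFge3_of_gamNe {d c s : ℕ} (hd : 0 < d) (hdc : d = 2 * c) (hs : 1 ≤ s)
    (hc : c + 1 = 2 ^ s) {g : BMap d} {r0 : ℕ}
    (h : ∀ r, r0 ≤ r → ∃ (A : C(T0.Sph d, Om (r + 1))) (hA : K.Rep g (r + 1) A),
      K.GamNe A hA.base c) : ¬ K.AFge3 g :=
  K.not_AFge3_of hd hdc hs hc lamOK h

end Vale.Agent.P263.KJ
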