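import Vale.Agent.P263.KJ.Sheets

/-!
# P263, block KJ: the polar map of the sheet of a pair

`dP f g` : the polar map of the sheet `{i, j}` with `φ i = f`, `φ j = g`; `dK_pair` : it is
`dK φ {i, j}`, `dP_swap`, `dP_of_left`, `dP_of_right`.
-/

open Filter Topology OnePoint
open Vale.Agent.P251.G Vale.Agent.P251.G.LC
open Vale.Agent.P263.G2 (join_of_mem join_of_forall)

namespace Vale.Agent.P263.KJ

set_option linter.unusedSectionVars false

variable {V : Type} [NormedAddCommGroup V] [InnerProductSpace ℝ V] [FiniteDimensional ℝ V]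

/-- the polar map of the sheet of a pair -/
noncomputable def dP (f g : OnePoint V → OnePoint V) (s : V) (r : ℝ) (u : SV V) :
    OnePoint (V × V) :=
  if r ≤ 0 then
    G2.join {hs (f ((s - r • (u : V) : V) : OnePoint V)) (g ((s + r • (u : V) : V) : OnePoint V)),
      hs (g ((s - r • (u : V) : V) : OnePoint V)) (f ((s + r • (u : V) : V) : OnePoint V))}
  else ∞

theorem dP_swap (f g : OnePoint V → OnePoint V) : dP g f = dP f g := by
  funext s r u
  unfold dP
  rw [Set.pair_comm]

theorem dP_of_pos (f g : OnePoint V → OnePoint V) (s : V) {r : ℝ} (hr : 0 < r) (u : SV V) :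
    dP f g s r u = ∞ := if_neg (not_le.2 hr)

theorem sub_dP {f g : OnePoint V → OnePoint V} (h : ∀ z, f z = ∞ ∨ g z = ∞) (a b : OnePoint V) :
    G2.Sub {hs (f a) (g b), hs (g a) (f b)} := by
  have key : hs (f a) (g b) = ∞ ∨ hs (g a) (f b) = ∞ := by
    rcases h a with h | h
    · left; rw [h, hs_infty_left]
    · right; rw [h, hs_infty_left]
  rintro x hx y hy h1 h2
  simp only [Set.mem_insert_iff, Set.mem_singleton_iff] at hx hy
  rcases hx with rfl | rfl <;> rcases hy with rfl | rfl
  · rfl
  · rcases key with h | h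
    · exact absurd h h1
    · exact absurd h h2
  · rcases key with h | h
    · exact absurd h h2
    · exact absurd h h1
  · rfl

/-- the value if `f` is finite at `s - r u` -/
theorem dP_of_left {f g : OnePoint V → OnePoint V} (h : ∀ z, f z = ∞ ∨ g z = ∞) (s : V) {r : ℝ}
    (hr : r ≤ 0) (u : SV V) (hf : f ((s - r • (u : V) : V) : OnePoint V) ≠ ∞) :
    dP f g s r u = hs (f ((s - r • (u : V) : V) : OnePoint V))
      (g ((s + r • (u : V) : V) : OnePoint V)) := by
  unfold dP
  rw [if_pos hr]
  have hg : g ((s - r • (u : V) : V) : OnePoint V) = ∞ := (h _).resolve_left hf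
  by_cases hc : g ((s + r • (u : V) : V) : OnePoint V) = ∞
  · rw [hc, hs_infty_right, hg, hs_infty_left]
    exact join_of_forall (by rintro y (rfl | rfl) <;> rfl)
  · refine join_of_mem (sub_dP h _ _) (Set.mem_insert _ _) ?_
    obtain ⟨x, hx⟩ := OnePoint.ne_infty_iff_exists.1 hf
    obtain ⟨y, hy⟩ := OnePoint.ne_infty_iff_exists.1 hc
    rw [← hx, ← hy]
    exact OnePoint.coe_ne_infty _

/-- the value if `g` is finite at `s - r u` -/
theorem dP_of_right {f g : OnePoint V → OnePoint V} (h : ∀ z, f z = ∞ ∨ g z = ∞) (s : V) {r : ℝ}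
    (hr : r ≤ 0) (u : SV V) (hg : g ((s - r • (u : V) : V) : OnePoint V) ≠ ∞) :
    dP f g s r u = hs (g ((s - r • (u : V) : V) : OnePoint V))
      (f ((s + r • (u : V) : V) : OnePoint V)) := by
  rw [← dP_swap]
  exact dP_of_left (fun z => (h z).symm) s hr u hg

/-- the value if both are infinite at `s - r u` -/
theorem dP_of_inf {f g : OnePoint V → OnePoint V} (s : V) (r : ℝ) (u : SV V)
    (hf : f ((s - r • (u : V) : V) : OnePoint V) = ∞)
    (hg : g ((s - r • (u : V) : V) : OnePoint V) = ∞) : dP f g s r u = ∞ := by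
  unfold dP
  split_ifs
  · rw [hf, hg, hs_infty_left, hs_infty_left]
    exact join_of_forall (by rintro y (rfl | rfl) <;> rfl)
  · rfl

/-- **The polar map of the sheet `{i, j}`.** -/
theorem dK_pair {ι : Type*} [DecidableEq ι] (φ : ι → OnePoint V → OnePoint V) {i j : ι}
    (hij : i ≠ j) : dK φ {i, j} = dP (φ i) (φ j) := by
  funext s r u
  unfold dK dP
  split_ifs with hr
  · congr 1
    ext y
    simp only [Set.mem_insert_iff, Set.mem_singleton_iff]
    constructor
    · rintro ⟨⟨a, b⟩, hab, rfl⟩
      have hab' : ({a, b} : Finset ι) = {i, j} := hab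
      have ha : a ∈ ({i, j} : Finset ι) := hab' ▸ by simp
      have hb : b ∈ ({i, j} : Finset ι) := hab' ▸ by simp
      have hi : i ∈ ({a, b} : Finset ι) := hab'.symm ▸ by simp
      have hj : j ∈ ({a, b} : Finset ι) := hab'.symm ▸ by simp
      simp only [Finset.mem_insert, Finset.mem_singleton] at ha hb hi hj
      rcases ha with rfl | rfl
      · rcases hb with rfl | rfl
        · rcases hj with hj | hj
          · exact absurd hj.symm hij
          · exact absurd hj.symm hij
        · exact Or.inl rfl
      · rcases hb with rfl | rfl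
        · exact Or.inr rfl
        · rcases hi with hi | hi
          · exact absurd hi hij
          · exact absurd hi hij
    · rintro (rfl | rfl)
      · exact ⟨(i, j), rfl, rfl⟩
      · exact ⟨(j, i), Finset.pair_comm j i, rfl⟩
  · refine join_of_forall ?_
    rintro _ ⟨k, hk, rfl⟩
    have hk' : ({k} : Finset ι) = {i, j} := hk
    have hi : i ∈ ({k} : Finset ι) := hk'.symm ▸ by simp
    have hj : j ∈ ({k} : Finset ι) := hk'.symm ▸ by simp
    rw [Finset.mem_singleton] at hi hj
    exact absurd (hi.trans hj.symm) hij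

end Vale.Agent.P263.KJ
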