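import Vale.Agent.P263.KJ.Inner
import Vale.Agent.P263.KJ.Lam

/-!
# P263, block KJ: the equivariant polar map `DD F`

`X` any object of `LC`, `F : (X × V)⁺ → V⁺`.  `DD F : ((X × V) × (ℝ × SV V))⁺ → (V × V)⁺` is
`(y, (r, u)) ↦ (F y, r u)` for `0 ≤ r` and (half sum, half difference) of `F (x, s - r u)`,
`F (x, s + r u)` for `r ≤ 0`.  It is equivariant for `u ↦ -u`, and for `X = E` a normed space it is
`D F` of `KJ/Inner.lean` in polar coordinates (`D_pol`).
-/

open CategoryTheory MonoidalCategory Filter Topology OnePoint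
open Vale.Agent.P251.G Vale.Agent.P251.G.LC

namespace Vale.Agent.P263.KJ

variable {V : Type} [NormedAddCommGroup V] [InnerProductSpace ℝ V] [FiniteDimensional ℝ V]
variable {X : LC}

theorem tendsto_mu (c : ℝ) (hc : c ≠ 0) : Tendsto (fun p : ℝ × SV V => (c * p.1) • (p.2 : V))
    (cocompact (ℝ × SV V)) (cocompact V) := by
  have h1 : Tendsto (Prod.fst : ℝ × SV V → ℝ) (cocompact (ℝ × SV V)) (cocompact ℝ) :=
    (isProperMap_iff_tendsto_cocompact.mp isProperMap_fst_of_compactSpace).2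
  have h2 : Tendsto (fun p : ℝ × SV V => ‖p.1‖) (cocompact (ℝ × SV V)) atTop := by
    rw [← Metric.cobounded_eq_cocompact (α := ℝ)] at h1
    exact tendsto_norm_cobounded_atTop.comp h1
  rw [← Metric.cobounded_eq_cocompact (α := V), ← tendsto_norm_atTop_iff_cobounded]
  have h3 : (fun p : ℝ × SV V => ‖(c * p.1) • (p.2 : V)‖) = fun p => ‖c‖ * ‖p.1‖ := by
    funext p
    rw [norm_smul, norm_SV, mul_one, norm_mul]
  rw [h3]
  exact h2.const_mul_atTop (norm_pos_iff.mpr hc)

/-- `(r, u) ↦ (c r) u` -/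
def muc (V : Type) [NormedAddCommGroup V] [InnerProductSpace ℝ V] [FiniteDimensional ℝ V]
    (c : ℝ) (hc : c ≠ 0) : LC.of (ℝ × SV V) ⟶ LC.of V :=
  ofProper (X := LC.of (ℝ × SV V)) (Y := LC.of V) (fun p : ℝ × SV V => (c * p.1) • (p.2 : V))
    (by fun_prop) (tendsto_mu c hc)

/-- `((x, s), g) ↦` (half sum, half difference) of `F (x, s + g)`, `F (x, s - g)` -/
noncomputable def twoX (F : LC.of (X × V) ⟶ LC.of V) : LC.of ((X × V) × V) ⟶ LC.of (V × V) :=
  ofClosed (X := LC.of ((X × V) × V)) (Y := LC.of ((X × V) × (X × V)))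
    (fun p : (X × V) × V => ((p.1.1, p.1.2 + p.2), (p.1.1, p.1.2 - p.2)))
    (Function.LeftInverse.isClosedEmbedding
      (f := fun q : (X × V) × (X × V) =>
        ((q.1.1, (2 : ℝ)⁻¹ • (q.1.2 + q.2.2)), (2 : ℝ)⁻¹ • (q.1.2 - q.2.2)))
      (by
        rintro ⟨⟨x, s⟩, g⟩
        simp only [add_add_sub_cancel, add_sub_sub_cancel, ← two_smul ℝ, smul_smul]
        norm_num)
      (by fun_prop) (by fun_prop)) ≫ tensorHom' F F ≫
    (ofHomeo (X := LC.of (V × V)) (Y := LC.of (V × V)) (addSub V).symm).hom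

theorem app_twoX (F : LC.of (X × V) ⟶ LC.of V) (x : X) (s g : V) :
    app (twoX F) ((((x, s), g) : (X × V) × V) : OnePoint ((X × V) × V)) =
      OnePoint.map (addSub V).symm
        (smash (app F (((x, s + g) : X × V) : OnePoint (X × V)))
          (app F (((x, s - g) : X × V) : OnePoint (X × V)))) := rfl

omit [FiniteDimensional ℝ V] in
theorem map_addSub_self (w : OnePoint V) :
    OnePoint.map (addSub V).symm (smash w w) = smash w ((0 : V) : OnePoint V) := by
  induction w using OnePoint.rec with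
  | infty => simp
  | coe w =>
    simp only [smash_coe_coe, OnePoint.map_some, addSub_symm_apply, sub_self, smul_zero]
    rw [← two_smul ℝ, smul_smul, inv_mul_cancel₀ two_ne_zero, one_smul]

omit [FiniteDimensional ℝ V] in
theorem map_addSub_swap (w w' : OnePoint V) :
    OnePoint.map (addSub V).symm (smash w' w) =
      OnePoint.map (fun p : V × V => (p.1, -p.2)) (OnePoint.map (addSub V).symm (smash w w')) := by
  induction w using OnePoint.rec with
  | infty => simp
  | coe w =>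
    induction w' using OnePoint.rec with
    | infty => simp
    | coe w' =>
      simp only [smash_coe_coe, OnePoint.map_some, addSub_symm_apply]
      rw [add_comm w' w, ← smul_neg, neg_sub]

/-- THE EQUIVARIANT POLAR MAP -/
noncomputable def DD (F : LC.of (X × V) ⟶ LC.of V) :
    LC.of ((X × V) × (ℝ × SV V)) ⟶ LC.of (V × V) :=
  glue (X := LC.of ((X × V) × (ℝ × SV V))) (Y := LC.of (V × V))
    (tensorHom' (𝟙 (LC.of (X × V))) (muc V (-1) (by norm_num)) ≫ twoX F)
    (tensorHom' F (muc V 1 one_ne_zero)) (fun p : (X × V) × (ℝ × SV V) => p.2.1) (by fun_prop)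
    (by
      rintro ⟨⟨x, s⟩, r, u⟩ hr
      change r = 0 at hr
      subst hr
      change app (twoX F) ((((x, s), (((-1 : ℝ) * 0) • (u : V))) : (X × V) × V) :
        OnePoint ((X × V) × V)) = smash (app F (((x, s) : X × V) : OnePoint (X × V)))
          ((((1 : ℝ) * 0) • (u : V) : V) : OnePoint V)
      rw [app_twoX, mul_zero, mul_zero, zero_smul, add_zero, sub_zero, map_addSub_self])

theorem app_DD_of_nonpos (F : LC.of (X × V) ⟶ LC.of V) (x : X) (s : V) {r : ℝ} (hr : r ≤ 0)
    (u : SV V) :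
    app (DD F) ((((x, s), (r, u)) : (X × V) × (ℝ × SV V)) : OnePoint ((X × V) × (ℝ × SV V))) =
      OnePoint.map (addSub V).symm
        (smash (app F (((x, s - r • (u : V)) : X × V) : OnePoint (X × V)))
          (app F (((x, s + r • (u : V)) : X × V) : OnePoint (X × V)))) := by
  unfold DD
  refine (app_glue_of_le (X := LC.of ((X × V) × (ℝ × SV V))) (x := ((x, s), (r, u))) hr).trans ?_
  change app (twoX F) ((((x, s), (((-1 : ℝ) * r) • (u : V))) : (X × V) × V) :
        OnePoint ((X × V) × V)) = _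
  rw [app_twoX, neg_one_mul, neg_smul, ← sub_eq_add_neg, sub_neg_eq_add]

theorem app_DD_of_nonneg (F : LC.of (X × V) ⟶ LC.of V) (y : X × V) {r : ℝ} (hr : 0 ≤ r)
    (u : SV V) :
    app (DD F) (((y, (r, u)) : (X × V) × (ℝ × SV V)) : OnePoint ((X × V) × (ℝ × SV V))) =
      smash (app F (y : OnePoint (X × V))) ((r • (u : V) : V) : OnePoint V) := by
  unfold DD
  refine (app_glue_of_ge (X := LC.of ((X × V) × (ℝ × SV V))) (x := (y, (r, u))) hr).trans ?_
  change smash _ ((((1 : ℝ) * r) • (u : V) : V) : OnePoint V) = _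
  rw [one_mul]

/-- equivariance of a morphism `Y ⊗ (ℝ ⊗ S) ⟶ Z ⊗ V` under `u ↦ -u`, `w ↦ -w` -/
def Equi {Y Z : LC} (D : LC.of (Y × (ℝ × SV V)) ⟶ LC.of (Z × V)) : Prop :=
  ∀ (y : Y) (r : ℝ) (u : SV V),
    app D (((y, (r, -u)) : Y × (ℝ × SV V)) : OnePoint (Y × (ℝ × SV V))) =
      OnePoint.map (fun p : Z × V => (p.1, -p.2))
        (app D (((y, (r, u)) : Y × (ℝ × SV V)) : OnePoint (Y × (ℝ × SV V))))

theorem equi_DD (F : LC.of (X × V) ⟶ LC.of V) :
    Equi (Y := LC.of (X × V)) (Z := LC.of V) (DD F) := by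
  rintro ⟨x, s⟩ r u
  rcases le_total r 0 with hr | hr
  · rw [app_DD_of_nonpos F x s hr, app_DD_of_nonpos F x s hr, map_addSub_swap]
    congr 3
    · rw [coe_neg_sphere, smul_neg, ← sub_eq_add_neg]
    · rw [coe_neg_sphere, smul_neg, sub_neg_eq_add]
  · rw [app_DD_of_nonneg F (x, s) hr, app_DD_of_nonneg F (x, s) hr]
    generalize app F _ = w
    induction w using OnePoint.rec with
    | infty => simp
    | coe w =>
      simp only [smash_coe_coe, OnePoint.map_some, coe_neg_sphere, smul_neg]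

section normed

variable {E : Type} [NormedAddCommGroup E] [NormedSpace ℝ E] [ProperSpace E]

theorem D_pol (F : LC.of (E × V) ⟶ LC.of V) (e : E) (he : e ≠ 0) (y : E × V) (r : ℝ) (u : SV V) :
    app (D F e he) (((y, Kr r • (u : V)) : (E × V) × V) : OnePoint ((E × V) × V)) =
      app (DD (X := LC.of E) F)
        (((y, (r, u)) : (E × V) × (ℝ × SV V)) : OnePoint ((E × V) × (ℝ × SV V))) := by
  have hK := Kr_pos r
  have hn : ‖Kr r • (u : V)‖ = Kr r := by
    rw [norm_smul, norm_SV, mul_one, Real.norm_of_nonneg hK.le]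
  have hu0 : Kr r • (u : V) ≠ 0 := by
    rw [← norm_pos_iff, hn]; exact hK
  rcases le_total r 0 with hr | hr
  · have hK1 : Kr r = (1 - r)⁻¹ := Kr_of_nonpos hr
    have h1r : 0 < 1 - r := by linarith
    obtain ⟨x, s⟩ := y
    have hle : ‖Kr r • (u : V)‖ ≤ 1 := by
      rw [hn, hK1]; exact inv_le_one_of_one_le₀ (by linarith)
    rw [app_D_of_le F e he x s hu0 hle, app_DD_of_nonpos (X := LC.of E) F x s hr, hn, smul_smul]
    have h2 : ((Kr r)⁻¹ - 1) * (Kr r)⁻¹ * Kr r = -r := by
      rw [mul_assoc, inv_mul_cancel₀ hK.ne', mul_one, hK1, inv_inv]; ring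
    rw [h2, neg_smul, ← sub_eq_add_neg, sub_neg_eq_add]
  · have hK1 : Kr r = 1 + r := Kr_of_nonneg hr
    have hge : 1 ≤ ‖Kr r • (u : V)‖ := by rw [hn, hK1]; linarith
    rw [app_D_of_ge F e he y hge, app_DD_of_nonneg (X := LC.of E) F y hr, hn, smul_smul]
    have h2 : (1 - (Kr r)⁻¹) * Kr r = r := by
      rw [sub_mul, inv_mul_cancel₀ hK.ne', hK1]; ring
    rw [h2]

end normed

end Vale.Agent.P263.KJ
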