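import Vale.Agent.P263.KJ.SheetA
import Vale.Agent.P263.KJ.JFamR
import Vale.Agent.P263.KJ.PairCov
import Vale.Agent.P263.G2.QInf
import Vale.Agent.P263.G2.AlFn

/-!
# P263, block KJ: the data of the single sheet for two disjoint boxes

* `invI` : the inverse of `loopI`; `sqB c b` : the box `b` squeezed into the part `(0, c)` of the
  coordinate `0`; `lpR_eq_coe` : the loop of `some b`, coordinatewise.
* `ctrV c r b` : the centre, i.e. the zero of the loop; continuous in `b`.
* `boxDat c a b : Sht.Dat (VE (r + 1))` for disjoint boxes of stage `r + 1`; `boxDat_swap`.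
* `boxFam c a b : Δᵖ → Sht.Dat`, `fm_boxFam : Fm`, `boxFam_comp`; `boxFam_f : f = omV (lpR c R a)`.
* `ctrC c r : Ctr (r + 1) (VE (r + 1))`.
-/

open Finset Topology InnerProductSpace
open scoped OnePoint

namespace Vale.Agent.P263.KJ

open Vale.Agent.P263.S Vale.Agent.P263.E Vale.Agent.P263.G2 Vale.Agent.P263.TJ
open Vale.Agent.P263.T0 (Sph Om)

/-! ### the inverse of `loopI` -/

/-- the inverse of `loopI` on `(0, 1)` -/
noncomputable def invI (u : ℝ) : ℝ := Real.tan (Real.pi * (u - 1 / 2))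

theorem loopI_invI {u : ℝ} (h0 : 0 < u) (h1 : u < 1) : GB.loopI (invI u) = u :=
  GB.loopI_tan h0 h1

theorem loopI_zero : GB.loopI 0 = 1 / 2 := by
  unfold GB.loopI
  rw [Real.arctan_zero, zero_div, zero_add]

theorem loopI_strictMono : StrictMono GB.loopI := by
  intro s t h
  unfold GB.loopI
  have := Real.arctan_strictMono h
  have := div_lt_div_of_pos_right this Real.pi_pos
  linarith

theorem continuousOn_invI : ContinuousOn invI (Set.Ioo 0 1) := by
  have h : ContinuousOn (fun u : ℝ => Real.tan (Real.pi * (u - 1 / 2))) (Set.Ioo 0 1) := by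
    refine Real.continuousOn_tan_Ioo.comp (by fun_prop) ?_
    intro u hu
    have h1 := hu.1
    have h2 := hu.2
    have h3 := Real.pi_pos
    constructor
    · nlinarith
    · nlinarith
  exact h

/-- the middle of an interval, in the coordinate of `ℝ` -/
noncomputable def midI (J : Iv) : ℝ := invI ((J.lo + J.hi) / 2)

theorem mid_mem (J : Iv) : (J.lo + J.hi) / 2 ∈ Set.Ioo (0 : ℝ) 1 := by
  have h1 := J.lo_nonneg
  have h2 := J.lo_lt_hi
  have h3 := J.hi_le_one
  constructor
  · linarith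
  · linarith

theorem rel_midI (J : Iv) : J.Rel (midI J) 0 := by
  unfold Iv.Rel midI
  rw [loopI_zero, loopI_invI (mid_mem J).1 (mid_mem J).2]
  ring

theorem continuous_midI : Continuous midI := by
  refine continuousOn_invI.comp_continuous ?_ mid_mem
  exact (Iv.continuous_lo.add Iv.continuous_hi).div_const 2

theorem rel_mono {J : Iv} {u v u' v' : ℝ} (h : J.Rel u v) (h' : J.Rel u' v') :
    0 ≤ (v - v') * (u - u') := by
  unfold Iv.Rel at h h'
  have h1 := sub_pos.2 J.lo_lt_hi
  rcases lt_trichotomy v v' with h2 | h2 | h2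
  · have h3 := loopI_strictMono h2
    have h4 : GB.loopI u < GB.loopI u' := by rw [← h, ← h']; nlinarith
    have h5 : u < u' := loopI_strictMono.lt_iff_lt.1 h4
    nlinarith
  · rw [h2, sub_self, zero_mul]
  · have h3 := loopI_strictMono h2
    have h4 : GB.loopI u' < GB.loopI u := by rw [← h, ← h']; nlinarith
    have h5 : u' < u := loopI_strictMono.lt_iff_lt.1 h4
    nlinarith

/-! ### the squeezed box -/

/-- the interval `(0, c)` -/
noncomputable def cutI (c : GB.Cut) : Iv := ⟨(0, c.1), le_rfl, c.2.1, c.2.2.le⟩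

/-- the box squeezed into the part `(0, c)` of the coordinate `0` -/
noncomputable def sqB (c : GB.Cut) (b : Bx) : Bx := fun i => Iv.comp (bxc 0 (cutI c) i) (b i)

theorem collB_coe_iff {n : ℕ} {b : Bx} {x z : Fin n → ℝ} :
    collB n b (x : OnePoint (Fin n → ℝ)) = (z : OnePoint (Fin n → ℝ)) ↔
      ∀ i : Fin n, (b i).Rel (x i) (z i) :=
  collB_eq_coe.trans (forall_congr' fun _ => Iv.rho_eq_coe)

theorem act_cut {r : ℕ} (c : GB.Cut) (x : OnePoint (Fin (r + 1) → ℝ)) :
    GB.act (GB.rho 0 c.1) x = collB (r + 1) (bxc 0 (cutI c)) x := by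
  rw [GB.act_rho]
  refine congrArg₂ (fun lo hi => coll lo hi x) ?_ ?_
  · funext i
    by_cases h : i = 0
    · subst h
      rw [Function.update_self]
      exact (congrArg Iv.lo (bxc_self 0 (cutI c))).symm
    · rw [Function.update_of_ne h]
      have : (i : ℕ) ≠ 0 := fun h' => h (Fin.ext h')
      rw [bxc_ne this]
      rfl
  · funext i
    by_cases h : i = 0
    · subst h
      rw [Function.update_self]
      exact (congrArg Iv.hi (bxc_self 0 (cutI c))).symm
    · rw [Function.update_of_ne h]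
      have : (i : ℕ) ≠ 0 := fun h' => h (Fin.ext h')
      rw [bxc_ne this]
      rfl

theorem collB_act_iff {r : ℕ} {c : GB.Cut} {b : Bx} {x z : Fin (r + 1) → ℝ} :
    collB (r + 1) b (GB.act (GB.rho 0 c.1) (x : OnePoint (Fin (r + 1) → ℝ))) =
      (z : OnePoint (Fin (r + 1) → ℝ)) ↔ ∀ i : Fin (r + 1), (sqB c b i).Rel (x i) (z i) := by
  rw [act_cut]
  constructor
  · intro h i
    have h1 : collB (r + 1) (bxc 0 (cutI c)) (x : OnePoint (Fin (r + 1) → ℝ)) ≠ ∞ := by
      intro h2
      rw [h2, collB_infty] at h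
      exact OnePoint.infty_ne_coe _ h
    obtain ⟨y, hy⟩ := OnePoint.ne_infty_iff_exists.1 h1
    rw [← hy] at h
    exact Iv.rel_comp.2 ⟨y i, collB_coe_iff.1 hy.symm i, collB_coe_iff.1 h i⟩
  · intro h
    choose y h1 h2 using fun i => Iv.rel_comp.1 (h i)
    have h3 : collB (r + 1) (bxc 0 (cutI c)) (x : OnePoint (Fin (r + 1) → ℝ)) =
        (y : OnePoint (Fin (r + 1) → ℝ)) := collB_coe_iff.2 h1
    rw [h3]
    exact collB_coe_iff.2 h2

/-! ### the loop of a box -/

/-- the loop of a box in the part `(0, c)` -/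
noncomputable def loopB (r : ℕ) (c : GB.Cut) (b : Bx) : Om (r + 1) :=
  GB.plus c (Om.const (r + 1)) (collBx (r + 1) b)

theorem lpR_eq {p r : ℕ} (c : GB.Cut) (R : Om (r + 1)) (b : C(Dl p, Bx)) (t : Dl p) :
    lpR c R (some b : OB p) t = loopB r c (b t) := rfl

theorem loopB_apply {r : ℕ} (c : GB.Cut) (b : Bx) (x : Sph (r + 1)) :
    (loopB r c b).1 x = collB (r + 1) b (GB.act (GB.rho 0 c.1) x) := by
  unfold loopB
  rw [GB.plus_apply]
  exact GB.ws_infty_right _

theorem loopB_eq_coe {r : ℕ} {c : GB.Cut} {b : Bx} {v w : VE (r + 1)} :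
    omV (loopB r c b) (v : OnePoint (VE (r + 1))) = (w : OnePoint (VE (r + 1))) ↔
      ∀ i : Fin (r + 1), (sqB c b i).Rel (v i) (w i) := by
  have h1 : omV (loopB r c b) (v : OnePoint (VE (r + 1))) =
      OnePoint.map (eVH (r + 1)).symm (collB (r + 1) b (GB.act (GB.rho 0 c.1)
        ((eVH (r + 1) v : Fin (r + 1) → ℝ) : OnePoint (Fin (r + 1) → ℝ)))) :=
    congrArg (OnePoint.map (eVH (r + 1)).symm) (loopB_apply c b _)
  rw [h1]
  have h2 : (∀ i : Fin (r + 1), (sqB c b i).Rel (v i) (w i)) ↔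
      ∀ i : Fin (r + 1), (sqB c b i).Rel (eVH (r + 1) v i) (eVH (r + 1) w i) := Iff.rfl
  rw [h2, ← collB_act_iff]
  generalize collB (r + 1) b (GB.act (GB.rho 0 c.1)
        ((eVH (r + 1) v : Fin (r + 1) → ℝ) : OnePoint (Fin (r + 1) → ℝ))) = z
  induction z using OnePoint.rec with
  | infty =>
    constructor
    · intro h
      rw [OnePoint.map_infty] at h
      exact absurd h (OnePoint.infty_ne_coe _)
    · intro h
      exact absurd h (OnePoint.infty_ne_coe _)
  | coe z =>
    rw [OnePoint.map_some]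
    constructor
    · intro h
      have h3 := OnePoint.coe_injective h
      rw [← h3, Homeomorph.apply_symm_apply]
    · intro h
      rw [OnePoint.coe_injective h, Homeomorph.symm_apply_apply]

/-- the centre: the zero of the loop -/
noncomputable def ctrV (r : ℕ) (c : GB.Cut) (b : Bx) : VE (r + 1) :=
  WithLp.toLp 2 fun i => midI (sqB c b i)

theorem continuous_ctrV (r : ℕ) (c : GB.Cut) : Continuous (ctrV r c) := by
  refine (PiLp.continuous_toLp 2 _).comp (continuous_pi fun i => ?_)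
  exact continuous_midI.comp (continuous_const.ivComp (continuous_apply i.1))

theorem loopB_ctrV (r : ℕ) (c : GB.Cut) (b : Bx) :
    omV (loopB r c b) (ctrV r c b : OnePoint (VE (r + 1))) = ((0 : VE (r + 1)) : OnePoint _) :=
  loopB_eq_coe.2 fun i => rel_midI (sqB c b i)

theorem loopB_pos (r : ℕ) (c : GB.Cut) (b : Bx) (v : VE (r + 1)) :
    0 ≤ ⟪Sht.vf (omV (loopB r c b) (v : OnePoint (VE (r + 1)))), v - ctrV r c b⟫_ℝ := by
  by_cases h : omV (loopB r c b) (v : OnePoint (VE (r + 1))) = ∞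
  · rw [h]
    show 0 ≤ ⟪(0 : VE (r + 1)), v - ctrV r c b⟫_ℝ
    rw [inner_zero_left]
  · obtain ⟨w, hw⟩ := OnePoint.ne_infty_iff_exists.1 h
    have h1 := loopB_eq_coe.1 hw.symm
    rw [← hw, Sht.vf_coe, PiLp.inner_apply]
    refine Finset.sum_nonneg fun i _ => ?_
    have h2 := rel_mono (h1 i) (rel_midI (sqB c b i))
    rw [sub_zero] at h2
    have h3 : ⟪w i, (v - ctrV r c b) i⟫_ℝ = w i * (v i - midI (sqB c b i)) := by
      rw [real_inner_eq_re_inner]
      simp [ctrV, mul_comm]
    rw [h3]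
    exact h2

theorem loopB_disj {r : ℕ} (c : GB.Cut) {a b : Bx} (ha : Bx.St (r + 1) a) (hb : Bx.St (r + 1) b)
    (h : Bx.Disj a b) (z : OnePoint (VE (r + 1))) :
    omV (loopB r c a) z = ∞ ∨ omV (loopB r c b) z = ∞ := by
  rcases collB_disj ha hb h (GB.act (GB.rho 0 c.1) (OnePoint.map (eVH (r + 1)) z)) with h1 | h1
  · left
    exact omV_eq_infty.2 ((loopB_apply c a _).trans h1)
  · right
    exact omV_eq_infty.2 ((loopB_apply c b _).trans h1)

/-- **The data of the sheet for two disjoint boxes.** -/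
noncomputable def boxDat (r : ℕ) (c : GB.Cut) (a b : Bx) (ha : Bx.St (r + 1) a)
    (hb : Bx.St (r + 1) b) (h : Bx.Disj a b) : Sht.Dat (VE (r + 1)) where
  f := omV (loopB r c a)
  g := omV (loopB r c b)
  x := ctrV r c a
  y := ctrV r c b
  f_inf := omV_infty _
  g_inf := omV_infty _
  fx := by rw [loopB_ctrV]; exact OnePoint.coe_ne_infty _
  gy := by rw [loopB_ctrV]; exact OnePoint.coe_ne_infty _
  fpos := loopB_pos r c a
  gpos := loopB_pos r c b
  disj := loopB_disj c ha hb h

theorem boxDat_swap (r : ℕ) (c : GB.Cut) (a b : Bx) (ha : Bx.St (r + 1) a)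
    (hb : Bx.St (r + 1) b) (h : Bx.Disj a b) :
    (boxDat r c a b ha hb h).swap = boxDat r c b a hb ha h.symm := rfl

theorem ctrV_ne {r : ℕ} (c : GB.Cut) {a b : Bx} (ha : Bx.St (r + 1) a) (hb : Bx.St (r + 1) b)
    (h : Bx.Disj a b) : ctrV r c a ≠ ctrV r c b := (boxDat r c a b ha hb h).ne

/-- the centres -/
noncomputable def ctrC (r : ℕ) (c : GB.Cut) : Ctr (r + 1) (VE (r + 1)) where
  ctr := ctrV r c
  cont := continuous_ctrV r c
  ne := fun ha hb h => ctrV_ne c ha hb h

/-- the data of the sheet for two families of boxes -/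
noncomputable def boxFam {p : ℕ} (r : ℕ) (c : GB.Cut) (a b : C(Dl p, Bx))
    (ha : ∀ t, Bx.St (r + 1) (a t)) (hb : ∀ t, Bx.St (r + 1) (b t))
    (h : ∀ t, Bx.Disj (a t) (b t)) (t : Dl p) : Sht.Dat (VE (r + 1)) :=
  boxDat r c (a t) (b t) (ha t) (hb t) (h t)

section boxFam

variable {p r : ℕ} {c : GB.Cut} {a b : C(Dl p, Bx)}
    {ha : ∀ t, Bx.St (r + 1) (a t)} {hb : ∀ t, Bx.St (r + 1) (b t)}
    {h : ∀ t, Bx.Disj (a t) (b t)}

theorem boxFam_f (R : Om (r + 1)) (t : Dl p) :
    (boxFam r c a b ha hb h t).f = omV (lpR c R (some a : OB p) t) := rfl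

theorem boxFam_g (R : Om (r + 1)) (t : Dl p) :
    (boxFam r c a b ha hb h t).g = omV (lpR c R (some b : OB p) t) := rfl

theorem boxFam_x (t : Dl p) : (boxFam r c a b ha hb h t).x = (ctrC r c).ctr (a t) := rfl

theorem boxFam_y (t : Dl p) : (boxFam r c a b ha hb h t).y = (ctrC r c).ctr (b t) := rfl

theorem boxFam_swap (t : Dl p) : (boxFam r c a b ha hb h t).swap =
    boxFam r c b a hb ha (fun t => (h t).symm) t := rfl

theorem boxFam_comp {q : ℕ} (f : C(Dl q, Dl p)) (t : Dl q) :
    boxFam r c (a.comp f) (b.comp f) (fun t => ha (f t)) (fun t => hb (f t)) (fun t => h (f t)) t =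
      boxFam r c a b ha hb h (f t) := rfl

theorem fm_boxFam : Sht.Fm (boxFam r c a b ha hb h) where
  cf := continuous_omV ((lpR c (Om.const (r + 1)) (some a : OB p)).continuous.comp continuous_fst)
    continuous_snd
  cg := continuous_omV ((lpR c (Om.const (r + 1)) (some b : OB p)).continuous.comp continuous_fst)
    continuous_snd
  cx := (continuous_ctrV r c).comp a.continuous
  cy := (continuous_ctrV r c).comp b.continuous

end boxFam

end Vale.Agent.P263.KJ
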