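import Vale.Agent.P263.KJ.ShtsHH
import Vale.Agent.P263.KJ.SheetBox
import Vale.Agent.P263.KJ.DPair

/-!
# P263, block KJ: the homotopy of the sheets of the pairs of boxes

* `SheetHt V` : a homotopy of the sheet of a pair of maps with disjoint supports and centres, natural
  and symmetric;
* `SheetHt.pairHt` : the homotopy of the sheets of the pairs of boxes.
-/

open Filter Topology OnePoint
open Vale.Agent.P251.G Vale.Agent.P251.G.LC
open Vale.Agent.P263.S Vale.Agent.P263.E Vale.Agent.P263.TJ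
open Vale.Agent.P263.G2 (ofC toC dmap Bx FNr OFr Conf OConf)

namespace Vale.Agent.P263.KJ

set_option linter.unusedSectionVars false

section

variable (V : Type) [NormedAddCommGroup V] [InnerProductSpace ℝ V] [FiniteDimensional ℝ V]

/-- the direction of the centres -/
noncomputable def Sht.Dat.dirP {V : Type} [NormedAddCommGroup V] [InnerProductSpace ℝ V]
    [FiniteDimensional ℝ V] (D : Sht.Dat V) : PV V :=
  piP V (unitV ⟨D.x - D.y, sub_ne_zero.2 D.ne⟩)

/-- A natural symmetric homotopy of the sheet of a pair to the twisted direction. -/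
structure SheetHt where
  /-- the homotopy -/
  HH : Sht.Dat V → ℝ → OnePoint (V × (V →L[ℝ] V)) → OnePoint (V × ((V →L[ℝ] V) × PV V))
  inf : ∀ (D : Sht.Dat V) (t : ℝ), HH D t ∞ = ∞
  swap : ∀ D : Sht.Dat V, HH D.swap = HH D
  cont : ∀ {T : Type} [TopologicalSpace T] {D : T → Sht.Dat V}, Sht.Fm D →
    Continuous fun p : T × (OnePoint (V × (V →L[ℝ] V)) × unitInterval) =>
      HH (D p.1) (p.2.2 : ℝ) p.2.1
  zero : ∀ (D : Sht.Dat V) (z : OnePoint (V × (V →L[ℝ] V))),
    HH D 0 z = jT (Z := LC.of V) (dP D.f D.g) z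
  one : ∀ (D : Sht.Dat V) (z : OnePoint (V × (V →L[ℝ] V))),
    HH D 1 z = OnePoint.map tauH (at3 z D.dirP)

end

namespace SheetHt

variable {r : ℕ} (𝓢 : SheetHt (VE (r + 1)))

theorem sheet_prL (c : GB.Cut) (R : T0.Om (r + 1)) {p : ℕ} {a b : C(G2.Dl p, Bx)}
    (h : Pr (r + 1) a b) (t : G2.Dl p) (z : OnePoint (VE (r + 1) × WE (r + 1))) :
    (loopsR c R).sheet (prL h) t z = jT (Z := LC.of (VE (r + 1)))
      (dP (boxFam r c a b h.sta h.stb h.dis t).f (boxFam r c a b h.sta h.stb h.dis t).g) z := by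
  classical
  unfold Loops.sheet jK
  have h1 : (prL h).1 = {Option.some a, Option.some b} := by
    ext x
    rw [mem_prL, Finset.mem_insert, Finset.mem_singleton]
  rw [h1, dK_pair _ fun h' => h.ne (Option.some_injective _ h')]
  rfl

/-- **The homotopy of the sheets of the pairs of boxes.** -/
noncomputable def pairHt (c : GB.Cut) (R : T0.Om (r + 1)) : PairHt (loopsR c R) where
  H {p a b} h := ⟨fun z => 𝓢.HH (boxFam r c a b h.sta h.stb h.dis z.1) (z.2.2 : ℝ) z.2.1,
    𝓢.cont (fm_boxFam (ha := h.sta) (hb := h.stb) (h := h.dis))⟩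
  ell := ellM (ctrC r c)
  symm {p a b} h := by
    apply ContinuousMap.ext
    rintro ⟨t, z, χ⟩
    show 𝓢.HH (boxFam r c b a h.stb h.sta _ t) (χ : ℝ) z =
      𝓢.HH (boxFam r c a b h.sta h.stb h.dis t) (χ : ℝ) z
    rw [← 𝓢.swap (boxFam r c a b h.sta h.stb h.dis t)]
    rfl
  pull f a b h t z := rfl
  infty h t χ := 𝓢.inf _ _
  zero {p a b} h t z := by
    rw [sheet_prL]
    exact 𝓢.zero _ z
  one {p a b} h t z := by
    refine (𝓢.one (boxFam r c a b h.sta h.stb h.dis t) z).trans ?_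
    congr 2
    exact (ellM_apply (ctrC r c) (ordC h) t).symm

theorem pairHt_ell (c : GB.Cut) (R : T0.Om (r + 1)) : (𝓢.pairHt c R).ell = ellM (ctrC r c) := rfl

end SheetHt

end Vale.Agent.P263.KJ
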