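import Vale.Agent.P263.KJ.SheetC
import Vale.Agent.P263.KJ.PairInst

/-!
# P263, block KJ: the term of `SheetHt`

`sheetHt : SheetHt V` : the homotopy `Sht.Dat.HH` of the sheet of a pair, from the sheet of the pair in
the literal `J` to the twisted direction of the centres.
-/

open Filter Topology OnePoint InnerProductSpace RealInnerProductSpace
open Vale.Agent.P251.G Vale.Agent.P251.G.LC
open Vale.Agent.P263.S Vale.Agent.P263.E Vale.Agent.P263.TJ

namespace Vale.Agent.P263.KJ

set_option linter.unusedSectionVars false

section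

variable {V : Type} [NormedAddCommGroup V] [InnerProductSpace ℝ V] [FiniteDimensional ℝ V]

theorem Sht.Dat.uw_eq (D : Sht.Dat V) : D.uw = unitV ⟨D.x - D.y, sub_ne_zero.2 D.ne⟩ := by
  apply Subtype.ext
  change ‖D.vw‖⁻¹ • D.vw = ‖D.x - D.y‖⁻¹ • (D.x - D.y)
  unfold Sht.Dat.vw
  rw [norm_smul, norm_inv, Real.norm_two, mul_inv, inv_inv, smul_smul]
  congr 1
  ring

theorem Sht.Dat.dirP_eq (D : Sht.Dat V) : D.dirP = piP V D.uw := by
  rw [D.uw_eq]
  rfl

/-- the reflection of operators is the twist in the direction -/
theorem Rf_eq_tw (u : SV V) (A : V →L[ℝ] V) : Sht.Rf (u : V) A = tw (piP V u) A := by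
  unfold Sht.Rf tw
  congr 1
  rw [mul_smul]
  congr 1
  ext v
  change (⟪A (u : V), (u : V)⟫_ℝ • ten (u : V) (u : V)) v =
    ten (u : V) (u : V) (A (ten (u : V) (u : V) v))
  rw [_root_.smul_apply, ten_apply, ten_apply, _root_.map_smul, real_inner_smul_right, smul_smul,
    real_inner_comm, mul_comm]

/-- **The homotopy of the sheet of a pair.** -/
noncomputable def sheetHt : SheetHt V where
  HH D t z := D.HH t z
  inf D t := D.HH_infty t
  swap D := by
    funext t z
    exact D.HH_swap t z
  cont {T _ D} h := by
    have h1 : Sht.Fm fun p : T × (OnePoint (V × (V →L[ℝ] V)) × unitInterval) => D p.1 :=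
      h.comp continuous_fst
    exact (h1.continuous_HH (τ := fun p => ((p.2.2 : unitInterval) : ℝ))
      (continuous_subtype_val.comp (continuous_snd.comp continuous_snd))).comp
      (continuous_id.prodMk (continuous_fst.comp continuous_snd))
  zero D z := by
    have h := D.HH_zero_eq (φ := fun b : Bool => if b then D.f else D.g) (i := true) (j := false)
      (by decide) rfl rfl z
    rw [h, dK_pair _ (by decide)]
    rfl
  one D z := by
    induction z using OnePoint.rec with
    | infty =>
      rw [D.HH_infty, at3_infty]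
      rfl
    | coe w =>
      obtain ⟨s, A⟩ := w
      rw [D.HH_one, at3_coe, D.dirP_eq, Rf_eq_tw]
      rfl

end

end Vale.Agent.P263.KJ
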