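import Vale.Agent.P263.KJ.UpEq
import Vale.Agent.P263.KJ.SheetInst

/-!
# P263, block KJ: the value on the boxes with a fixed loop, unconditional

* `bxHt c R` : the homotopy of the sheets of the pairs of boxes;
* `bxS c R` : the system of sheets, `bxS_start`, `bxS_end : EndAt (ctrC r c)`;
* `value_box` : `value_jz` for this system.
-/

open Finset Topology OnePoint
open Vale.Agent.P263.S Vale.Agent.P263.E Vale.Agent.P263.H83 Vale.Agent.P263.G2
  Vale.Agent.P263.TJ

namespace Vale.Agent.P263.KJ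

section

variable {r : ℕ} (c : GB.Cut) (R : T0.Om (r + 1))

/-- the homotopy of the sheets of the pairs of boxes -/
noncomputable def bxHt : PairHt (loopsR c R) := (sheetHt (V := VE (r + 1))).pairHt c R

/-- the system of sheets -/
noncomputable def bxS : Shts (lab2 (r + 1)).L (VE (r + 1) × WE (r + 1))
    (VE (r + 1) × (WE (r + 1) × PV (VE (r + 1)))) := (bxHt c R).shts

theorem bxS_start : (loopsR c R).Start (bxS c R) := (bxHt c R).start

theorem bxS_end : EndAt (ctrC r c) (bxS c R) := by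
  intro p F t v B
  obtain ⟨a, b, h, rfl⟩ := exists_pairC F
  have h1 : ∀ L : (lab2 (r + 1)).L.obj p, L = prL h →
      (bxS c R).v L (t, (((v, B) : VE (r + 1) × WE (r + 1)), 1)) =
      OnePoint.map Vale.Agent.P263.KJ.tauH (at3 ((v, B) : VE (r + 1) × WE (r + 1))
        (toC ((bxHt c R).ell.app (pairC h)) t)) := by
    rintro _ rfl
    exact (bxHt c R).shts_one h t _
  exact h1 _ (pairL_pairC h)

/-- **The value of `J ∧ id_V` on the boxes with a fixed loop.** -/
theorem value_box (n : ℕ) {i : ℕ}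
    (e : (Fin (i + 1) → ℝ) ≃ₜ (VE (r + 1) × WE (r + 1)) × VE (r + 1)) (he : e 0 = 0)
    {k : ℕ} {x : Cc (sing (PV (VE (r + 1))))} (hq : Cc.IsDeg (k + 1) x) (hx : Cc.d x = 0) :
    (Cc.cupC (FNr (r + 1) n Unit)).Coh
      (Cc.pull (gBR r n c R) (theta (twD hq hx (tauS e) (tauS_inf e)) (jz e) (jz_base e)))
      (Cc.pull ((idxFR (r + 1) n).map (Sb.empty _))
        (KK (lab2 (r + 1)).lab (Sb.empty _) 0 0
          (extP (r + 1) (Cc.pull (ellM (ctrC r c)) x)))) :=
  value_jz (bxS_start c R) (bxS_end c R) e he hq hx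

end

end Vale.Agent.P263.KJ
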