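import Vale.Agent.P263.KJ.RotLC

/-!
# P263, literal `J`: the end of the rotation

`qE (s, (r, (u, N), x)) = (s, ((1-s) u uᵀ + es s N - (es s x) uᵀ, Kr r • u))`: an open embedding of
`[0,1] × (ℝ × EN V × V)` into `[0,1] × ((V →L V) × V)`.  `s = 0` is `qR` at `t = 1`; for `s = 1`
it is `(N - x uᵀ, Kr r • u)`.
-/

open CategoryTheory MonoidalCategory Filter Topology OnePoint InnerProductSpace RealInnerProductSpace

namespace Vale.Agent.P263.KJ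

open Vale.Agent.P251.G Vale.Agent.P251.G.LC

variable {V : Type} [NormedAddCommGroup V] [InnerProductSpace ℝ V]

section es

variable {E : Type*} [NormedAddCommGroup E] [NormedSpace ℝ E]

theorem continuous_es : Continuous fun p : unitInterval × E => es (p.1 : ℝ) p.2 := by
  unfold es
  refine Continuous.smul (Continuous.mul (by fun_prop) (Continuous.inv₀ (by fun_prop) fun p => ?_))
    continuous_snd
  have h2 : 0 ≤ (1 - (p.1 : ℝ)) * ‖p.2‖ :=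
    mul_nonneg (sub_nonneg.mpr p.1.2.2) (norm_nonneg _)
  positivity

theorem continuousAt_ues {s : ℝ} {v : E} (h : (1 - s) * ‖v‖ < 1 / 4 + 3 / 4 * s) :
    ContinuousAt (fun p : ℝ × E => ues p.1 p.2) (s, v) := by
  unfold ues
  have h1 : ContinuousAt (fun p : ℝ × E => (1 / 4 + 3 / 4 * p.1) - (1 - p.1) * ‖p.2‖) (s, v) := by
    fun_prop
  have h2 : ContinuousAt (fun p : ℝ × E => p.2) (s, v) := continuousAt_snd
  exact (h1.inv₀ (by change (1 / 4 + 3 / 4 * s) - (1 - s) * ‖v‖ ≠ 0; exact (sub_pos.mpr h).ne')).smul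
    h2

end es

/-- the end tube -/
noncomputable def qE (a : unitInterval × XR V) : unitInterval × ((V →L[ℝ] V) × V) :=
  (a.1, ((1 - (a.1 : ℝ)) • ten (a.2.2.1.1.1 : V) (a.2.2.1.1.1 : V) +
      es (a.1 : ℝ) a.2.2.1.1.2 - ten (es (a.1 : ℝ) a.2.2.2) (a.2.2.1.1.1 : V),
    Kr a.2.1 • (a.2.2.1.1.1 : V)))

theorem continuous_qE : Continuous (qE (V := V)) := by
  unfold qE
  have h2 : Continuous fun a : unitInterval × XR V => Kr a.2.1 := by fun_prop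
  have h3 : Continuous fun a : unitInterval × XR V => es (a.1 : ℝ) a.2.2.2 :=
    continuous_es.comp (continuous_fst.prodMk (by fun_prop))
  have h4 : Continuous fun a : unitInterval × XR V => es (a.1 : ℝ) a.2.2.1.1.2 :=
    continuous_es.comp (continuous_fst.prodMk (by fun_prop))
  have h5 : Continuous fun a : unitInterval × XR V => (a.2.2.1.1.1 : V) := by fun_prop
  have h6 : Continuous fun a : unitInterval × XR V => ten (a.2.2.1.1.1 : V) (a.2.2.1.1.1 : V) :=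
    Continuous.ten h5 h5
  have h7 : Continuous fun a : unitInterval × XR V =>
      ten (es (a.1 : ℝ) a.2.2.2) (a.2.2.1.1.1 : V) := Continuous.ten h3 h5
  fun_prop

theorem es_apply {s : ℝ} {N : V →L[ℝ] V} {u : V} (h : N u = 0) : es s N u = 0 := by
  simp [es, h]

theorem ues_apply {s : ℝ} {N : V →L[ℝ] V} {u : V} (h : N u = 0) : ues s N u = 0 := by
  simp [ues, h]

/-- at `s = 0` the end tube is the rotating tube at `t = 1` -/
theorem qE_zero (a : XR V) : qE (0, a) = (0, (qR (1, a)).2) := by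
  unfold qE qR tA tz sN ka
  have h : es (0 : ℝ) a.2.1.1.2 = (1 / 4 : ℝ) • sq a.2.1.1.2 := es_zero _
  have h' : es (0 : ℝ) a.2.2 = (1 / 4 : ℝ) • sq a.2.2 := es_zero _
  simp only [Set.Icc.coe_zero, Set.Icc.coe_one, sub_zero, one_smul, sub_self, zero_mul,
    zero_add, one_mul, zero_smul, add_zero, h, h']

theorem qE_one (a : XR V) : qE (1, a) = (1, (a.2.1.1.2 - ten a.2.2 (a.2.1.1.1 : V),
    Kr a.1 • (a.2.1.1.1 : V))) := by
  unfold qE
  simp only [Set.Icc.coe_one, sub_self, zero_smul, zero_add, es_one]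

/-- the operator part applied to `u` -/
theorem qE_apply {s : ℝ} {u x : V} {N : V →L[ℝ] V} (hu : ‖u‖ = 1) (hN : N u = 0) :
    ((1 - s) • ten u u + es s N - ten (es s x) u) u - (1 - s) • u = -es s x := by
  have h1 : ((1 - s) • ten u u + es s N - ten (es s x) u) u =
      (1 - s) • ten u u u + es s N u - ten (es s x) u u := rfl
  rw [h1, ten_self hu, ten_self hu, es_apply hN]
  abel

section inverse

/-- the unit vector recovered from `(s, B, z)` -/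
noncomputable def enu (u₀ : SV V) (b : unitInterval × ((V →L[ℝ] V) × V)) : SV V := nz u₀ b.2.2

/-- the vector `- es s x` recovered from `(s, B, z)` -/
noncomputable def eyy (u₀ : SV V) (b : unitInterval × ((V →L[ℝ] V) × V)) : V :=
  b.2.1 (enu u₀ b : V) - (1 - (b.1 : ℝ)) • (enu u₀ b : V)

/-- the operator `es s N` recovered from `(s, B, z)` -/
noncomputable def eNN (u₀ : SV V) (b : unitInterval × ((V →L[ℝ] V) × V)) : V →L[ℝ] V :=
  b.2.1 - (1 - (b.1 : ℝ)) • ten (enu u₀ b : V) (enu u₀ b : V) - ten (eyy u₀ b) (enu u₀ b : V)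

theorem eNN_apply (u₀ : SV V) (b : unitInterval × ((V →L[ℝ] V) × V)) :
    eNN u₀ b (enu u₀ b : V) = 0 := by
  change b.2.1 (enu u₀ b : V) - (1 - (b.1 : ℝ)) • ten (enu u₀ b : V) (enu u₀ b : V) (enu u₀ b : V) -
      ten (eyy u₀ b) (enu u₀ b : V) (enu u₀ b : V) = 0
  rw [ten_self (norm_SV _), ten_self (norm_SV _)]
  exact sub_self _

variable {u₀ : SV V} {b₀ : unitInterval × ((V →L[ℝ] V) × V)}

theorem continuousAt_enu (h : b₀.2.2 ≠ 0) : ContinuousAt (enu u₀) b₀ := by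
  have h1 : ContinuousAt (fun b : unitInterval × ((V →L[ℝ] V) × V) => b.2.2) b₀ := by fun_prop
  exact ContinuousAt.comp (g := nz u₀) (continuousAt_nz u₀ h) h1

theorem continuousAt_enu' (h : b₀.2.2 ≠ 0) : ContinuousAt (fun b => (enu u₀ b : V)) b₀ :=
  continuous_subtype_val.continuousAt.comp (continuousAt_enu h)

theorem continuousAt_eyy (h : b₀.2.2 ≠ 0) : ContinuousAt (eyy u₀) b₀ := by
  have c0 : ContinuousAt (fun b : unitInterval × ((V →L[ℝ] V) × V) => b.2.1) b₀ := by fun_prop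
  have c00 : ContinuousAt (fun b : unitInterval × ((V →L[ℝ] V) × V) => (1 - (b.1 : ℝ))) b₀ := by
    fun_prop
  exact (c0.clm_apply (continuousAt_enu' h)).sub (c00.smul (continuousAt_enu' h))

theorem continuousAt_ten {f g : unitInterval × ((V →L[ℝ] V) × V) → V} (hf : ContinuousAt f b₀)
    (hg : ContinuousAt g b₀) : ContinuousAt (fun b => ten (f b) (g b)) b₀ := by
  have : Continuous fun p : V × V => ten p.1 p.2 := Continuous.ten continuous_fst continuous_snd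
  exact this.continuousAt.comp (hf.prodMk hg)

theorem continuousAt_eNN (h : b₀.2.2 ≠ 0) : ContinuousAt (eNN u₀) b₀ := by
  have c0 : ContinuousAt (fun b : unitInterval × ((V →L[ℝ] V) × V) => b.2.1) b₀ := by fun_prop
  have c00 : ContinuousAt (fun b : unitInterval × ((V →L[ℝ] V) × V) => (1 - (b.1 : ℝ))) b₀ := by
    fun_prop
  have c1 := continuousAt_enu' (u₀ := u₀) h
  exact (c0.sub (c00.smul (continuousAt_ten c1 c1))).sub
    (continuousAt_ten (continuousAt_eyy h) c1)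

/-- the local inverse of the end tube -/
noncomputable def ePs (u₀ : SV V) (b : unitInterval × ((V →L[ℝ] V) × V)) :
    unitInterval × ℝ × SV V × (V →L[ℝ] V) × V :=
  (b.1, Ki ‖b.2.2‖, enu u₀ b, ues (b.1 : ℝ) (eNN u₀ b), ues (b.1 : ℝ) (-eyy u₀ b))

theorem continuousAt_ePs (h : b₀.2.2 ≠ 0)
    (hy : (1 - (b₀.1 : ℝ)) * ‖-eyy u₀ b₀‖ < 1 / 4 + 3 / 4 * (b₀.1 : ℝ))
    (hn : (1 - (b₀.1 : ℝ)) * ‖eNN u₀ b₀‖ < 1 / 4 + 3 / 4 * (b₀.1 : ℝ)) :
    ContinuousAt (ePs u₀) b₀ := by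
  have c01 : ContinuousAt (fun b : unitInterval × ((V →L[ℝ] V) × V) => (b.1 : ℝ)) b₀ := by
    fun_prop
  have c4 : ContinuousAt (fun b => ues (b.1 : ℝ) (eNN u₀ b)) b₀ :=
    ContinuousAt.comp (g := fun p : ℝ × (V →L[ℝ] V) => ues p.1 p.2) (x := b₀)
      (continuousAt_ues hn) (c01.prodMk (continuousAt_eNN h))
  have c5 : ContinuousAt (fun b => ues (b.1 : ℝ) (-eyy u₀ b)) b₀ :=
    ContinuousAt.comp (g := fun p : ℝ × V => ues p.1 p.2) (x := b₀)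
      (continuousAt_ues hy) (c01.prodMk (continuousAt_eyy h).neg)
  have c6 : ContinuousAt (fun b : unitInterval × ((V →L[ℝ] V) × V) => Ki ‖b.2.2‖) b₀ := by
    have h3 : ContinuousAt (fun b : unitInterval × ((V →L[ℝ] V) × V) => ‖b.2.2‖) b₀ := by fun_prop
    exact ContinuousAt.comp (g := Ki) (continuousAt_Ki (norm_ne_zero_iff.mpr h)) h3
  exact continuousAt_fst.prodMk (c6.prodMk ((continuousAt_enu h).prodMk (c4.prodMk c5)))

/-- the point of the tube over `b` -/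
noncomputable def ePt (u₀ : SV V) (b : unitInterval × ((V →L[ℝ] V) × V)) :
    unitInterval × XR V :=
  (b.1, Ki ‖b.2.2‖, ⟨⟨enu u₀ b, ues (b.1 : ℝ) (eNN u₀ b)⟩, ues_apply (eNN_apply u₀ b)⟩,
    ues (b.1 : ℝ) (-eyy u₀ b))

theorem qE_ePt (h : b₀.2.2 ≠ 0)
    (hy : (1 - (b₀.1 : ℝ)) * ‖-eyy u₀ b₀‖ < 1 / 4 + 3 / 4 * (b₀.1 : ℝ))
    (hn : (1 - (b₀.1 : ℝ)) * ‖eNN u₀ b₀‖ < 1 / 4 + 3 / 4 * (b₀.1 : ℝ)) :
    qE (ePt u₀ b₀) = b₀ := by
  change (b₀.1, ((1 - (b₀.1 : ℝ)) • ten (enu u₀ b₀ : V) (enu u₀ b₀ : V) +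
    es (b₀.1 : ℝ) (ues (b₀.1 : ℝ) (eNN u₀ b₀)) -
    ten (es (b₀.1 : ℝ) (ues (b₀.1 : ℝ) (-eyy u₀ b₀))) (enu u₀ b₀ : V),
    Kr (Ki ‖b₀.2.2‖) • (enu u₀ b₀ : V))) = b₀
  rw [es_ues b₀.1.2.1 hy, es_ues b₀.1.2.1 hn, Kr_Ki (norm_pos_iff.mpr h), ten_neg]
  refine Prod.ext rfl (Prod.ext ?_ ?_)
  · change (1 - (b₀.1 : ℝ)) • ten (enu u₀ b₀ : V) (enu u₀ b₀ : V) +
        (b₀.2.1 - (1 - (b₀.1 : ℝ)) • ten (enu u₀ b₀ : V) (enu u₀ b₀ : V) -
          ten (eyy u₀ b₀) (enu u₀ b₀ : V)) - -ten (eyy u₀ b₀) (enu u₀ b₀ : V) = b₀.2.1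
    abel
  · change ‖b₀.2.2‖ • (nz u₀ b₀.2.2 : V) = b₀.2.2
    rw [nz_val u₀ h, smul_smul, mul_inv_cancel₀ (norm_ne_zero_iff.mpr h), one_smul]

theorem enu_qE (t : unitInterval) (r : ℝ) (u₀ : SV V) (N : V →L[ℝ] V) (hN : N (u₀ : V) = 0)
    (x : V) : enu u₀ (qE (t, r, ⟨⟨u₀, N⟩, hN⟩, x)) = u₀ := nz_smul u₀ (Kr_pos r) u₀

theorem eyy_qE (t : unitInterval) (r : ℝ) (u₀ : SV V) (N : V →L[ℝ] V) (hN : N (u₀ : V) = 0)
    (x : V) : eyy u₀ (qE (t, r, ⟨⟨u₀, N⟩, hN⟩, x)) = -es (t : ℝ) x := by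
  unfold eyy
  rw [enu_qE]
  exact qE_apply (norm_SV u₀) hN

theorem eNN_qE (t : unitInterval) (r : ℝ) (u₀ : SV V) (N : V →L[ℝ] V) (hN : N (u₀ : V) = 0)
    (x : V) : eNN u₀ (qE (t, r, ⟨⟨u₀, N⟩, hN⟩, x)) = es (t : ℝ) N := by
  unfold eNN
  rw [enu_qE, eyy_qE, ten_neg]
  change (1 - (t : ℝ)) • ten (u₀ : V) (u₀ : V) + es (t : ℝ) N - ten (es (t : ℝ) x) (u₀ : V) -
    (1 - (t : ℝ)) • ten (u₀ : V) (u₀ : V) - -ten (es (t : ℝ) x) (u₀ : V) = es (t : ℝ) N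
  abel

end inverse

theorem qE_injective : Function.Injective (qE (V := V)) := by
  rintro ⟨t, r, ⟨⟨u, N⟩, hN⟩, x⟩ ⟨t', r', ⟨⟨u', N'⟩, hN'⟩, x'⟩ h
  have ht : t = t' := congrArg Prod.fst h
  subst ht
  have h0 : (0 : ℝ) ≤ t := t.2.1
  have h1 : (t : ℝ) ≤ 1 := t.2.2
  have hA : (1 - (t : ℝ)) • ten (u : V) (u : V) + es (t : ℝ) N - ten (es (t : ℝ) x) (u : V) =
      (1 - (t : ℝ)) • ten (u' : V) (u' : V) + es (t : ℝ) N' - ten (es (t : ℝ) x') (u' : V) :=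
    congrArg (fun p => p.2.1) h
  have hz : Kr r • (u : V) = Kr r' • (u' : V) := congrArg (fun p => p.2.2) h
  have hu : u = u' := by
    rw [← nz_smul u (Kr_pos r) u, hz, nz_smul u (Kr_pos r') u']
  subst hu
  have hr : r = r' := by
    have h2 := congrArg norm hz
    rw [norm_smul, norm_smul, norm_SV, mul_one, mul_one, Real.norm_of_nonneg (Kr_pos r).le,
      Real.norm_of_nonneg (Kr_pos r').le] at h2
    rw [← Ki_Kr r, h2, Ki_Kr]
  subst hr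
  have hx : x = x' := by
    have e1 := qE_apply (s := (t : ℝ)) (x := x) (norm_SV u) hN
    rw [hA, qE_apply (s := (t : ℝ)) (x := x') (norm_SV u) hN'] at e1
    rw [← ues_es h0 h1 x, ← neg_injective e1, ues_es h0 h1]
  subst hx
  have hNN : N = N' := by
    have e1 : es (t : ℝ) N = es (t : ℝ) N' := by
      have := congrArg (fun B : V →L[ℝ] V => B + ten (es (t : ℝ) x) (u : V) -
        (1 - (t : ℝ)) • ten (u : V) (u : V)) hA
      simpa using this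
    rw [← ues_es h0 h1 N, e1, ues_es h0 h1]
  subst hNN
  rfl

theorem isOpenMap_qE : IsOpenMap (qE (V := V)) := by
  refine IsOpenMap.of_nhds_le fun e U hU => ?_
  obtain ⟨t₀, r₀, ⟨⟨u₀, N₀⟩, hN₀⟩, x₀⟩ := e
  rw [mem_map] at hU
  have h0 : (0 : ℝ) ≤ t₀ := t₀.2.1
  have h1 : (t₀ : ℝ) ≤ 1 := t₀.2.2
  let i : unitInterval × XR V → unitInterval × ℝ × SV V × (V →L[ℝ] V) × V := fun a =>
    (a.1, a.2.1, a.2.2.1.1.1, a.2.2.1.1.2, a.2.2.2)
  have hi : IsInducing i := by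
    have e2 : IsInducing fun a : unitInterval × ℝ × EN V × V =>
        (a.1, a.2.1, a.2.2.1.1, a.2.2.2) :=
      IsInducing.id.prodMap (IsInducing.id.prodMap (IsInducing.subtypeVal.prodMap IsInducing.id))
    have e3 : IsInducing fun p : unitInterval × ℝ × (SV V × (V →L[ℝ] V)) × V =>
        ((p.1, p.2.1, p.2.2.1.1, p.2.2.1.2, p.2.2.2) :
          unitInterval × ℝ × SV V × (V →L[ℝ] V) × V) :=
      ((Homeomorph.refl _).prodCongr ((Homeomorph.refl ℝ).prodCongr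
        (Homeomorph.prodAssoc (SV V) (V →L[ℝ] V) V))).isInducing
    exact e3.comp e2
  rw [hi.nhds_eq_comap, mem_comap] at hU
  obtain ⟨O, hO, hOU⟩ := hU
  have hyy := eyy_qE t₀ r₀ u₀ N₀ hN₀ x₀
  have hNN := eNN_qE t₀ r₀ u₀ N₀ hN₀ x₀
  have hnu := enu_qE t₀ r₀ u₀ N₀ hN₀ x₀
  have hb1 : (qE (t₀, r₀, ⟨⟨u₀, N₀⟩, hN₀⟩, x₀)).1 = t₀ := rfl
  have hb2 : (qE (t₀, r₀, ⟨⟨u₀, N₀⟩, hN₀⟩, x₀)).2.2 = Kr r₀ • (u₀ : V) := rfl
  generalize qE (t₀, r₀, ⟨⟨u₀, N₀⟩, hN₀⟩, x₀) = b₀ at hyy hNN hnu hb1 hb2 ⊢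
  subst hb1
  have hnz : b₀.2.2 ≠ 0 := by
    rw [hb2]
    intro h
    have := congrArg norm h
    rw [norm_smul, norm_SV, norm_zero, mul_one, Real.norm_of_nonneg (Kr_pos r₀).le] at this
    exact (Kr_pos r₀).ne' this
  have hy1 : (1 - (b₀.1 : ℝ)) * ‖-eyy u₀ b₀‖ < 1 / 4 + 3 / 4 * (b₀.1 : ℝ) := by
    rw [hyy, neg_neg]; exact es_lt h0 h1 x₀
  have hn1 : (1 - (b₀.1 : ℝ)) * ‖eNN u₀ b₀‖ < 1 / 4 + 3 / 4 * (b₀.1 : ℝ) := by
    rw [hNN]; exact es_lt h0 h1 N₀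
  have hΨv : ePs u₀ b₀ = i (b₀.1, r₀, ⟨⟨u₀, N₀⟩, hN₀⟩, x₀) := by
    unfold ePs
    rw [hyy, hNN, hnu, neg_neg, ues_es h0 h1, ues_es h0 h1, hb2, norm_smul, norm_SV, mul_one,
      Real.norm_of_nonneg (Kr_pos r₀).le, Ki_Kr]
  have hΨc := continuousAt_ePs hnz hy1 hn1
  have c01 : ContinuousAt (fun b : unitInterval × ((V →L[ℝ] V) × V) => 1 / 4 + 3 / 4 * (b.1 : ℝ))
    b₀ := by fun_prop
  have c00 : ContinuousAt (fun b : unitInterval × ((V →L[ℝ] V) × V) => (1 - (b.1 : ℝ))) b₀ := by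
    fun_prop
  have c22 : ContinuousAt (fun b : unitInterval × ((V →L[ℝ] V) × V) => b.2.2) b₀ := by fun_prop
  have e1 : ∀ᶠ b in 𝓝 b₀, ePs u₀ b ∈ O := hΨc.tendsto.eventually (by rw [hΨv]; exact hO)
  have e2 : ∀ᶠ b in 𝓝 b₀, b.2.2 ≠ 0 := c22.eventually_ne hnz
  have e3 : ∀ᶠ b in 𝓝 b₀, (1 - (b.1 : ℝ)) * ‖-eyy u₀ b‖ < 1 / 4 + 3 / 4 * (b.1 : ℝ) :=
    (c00.mul (continuousAt_eyy hnz).neg.norm).eventually_lt c01 hy1
  have e4 : ∀ᶠ b in 𝓝 b₀, (1 - (b.1 : ℝ)) * ‖eNN u₀ b‖ < 1 / 4 + 3 / 4 * (b.1 : ℝ) :=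
    (c00.mul (continuousAt_eNN hnz).norm).eventually_lt c01 hn1
  filter_upwards [e1, e2, e3, e4] with b hb1 hb2 hb3 hb4
  have h2 := qE_ePt hb2 hb3 hb4
  have h3 : ePt u₀ b ∈ qE (V := V) ⁻¹' U := hOU hb1
  have h4 : qE (ePt u₀ b) ∈ U := h3
  rwa [h2] at h4

theorem isOpenEmbedding_qE : IsOpenEmbedding (qE (V := V)) :=
  IsOpenEmbedding.of_continuous_injective_isOpenMap continuous_qE qE_injective isOpenMap_qE

variable (V) [FiniteDimensional ℝ V]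

/-- the collapse onto the end tube -/
noncomputable def cE : LC.of (unitInterval × ((V →L[ℝ] V) × V)) ⟶ LC.of (unitInterval × XR V) :=
  ofOpen (X := LC.of (unitInterval × ((V →L[ℝ] V) × V))) (Y := LC.of (unitInterval × XR V))
    qE isOpenEmbedding_qE

end Vale.Agent.P263.KJ
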