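import Vale.Agent.P263.KJ.Fam
import Vale.Agent.P263.TJ.BoxVal
import Vale.Agent.P263.TJ.HopfDef

/-!
# P263, block KJ: functional squares of families of sheets which grow to the identity

`𝓕 : PFam X T (OnePoint Y) Y` pointed, with `n` labels over every simplex, `n` even, all sheets at
time one the identity.  `PFam.val_cube` : every functional square datum `D` of
`𝓕.MX : X × Sing Y⁺ → Sing Y⁺` with cochains `b, c` which vanish on the simplices missing a closed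
set `Z` (`∞ ∉ Z`) restricts along `1 × g`, `g : SN r → Sing Y⁺` of degree one, to
`sn r (sum of v^(r - 1 - i) o over the ordered pairs of labels)`.
`PFam.exists_FSqD` : such data exist.
-/

open Finset OnePoint Topology

namespace Vale.Agent.P263.KJ

open Vale.Agent.P263.S Vale.Agent.P263.E Vale.Agent.P263.H83 Vale.Agent.P263.G2
  Vale.Agent.P263.TJ

/-- `q_i` of a coboundary -/
theorem q_coh_zero (A : CupC) (i : ℕ) (w : A.C) : A.Coh (A.q i (A.d w)) 0 := by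
  have h : A.q i (A.d w) = A.cup i (A.d w) (A.d w) := by
    show A.cup i (A.d w) (A.d w) + A.cup (i + 1) (A.d w) (A.d (A.d w)) = _
    rw [A.d_d, map_zero, add_zero]
  rw [h]
  exact CupC.cup_d_d A i w

namespace PFam

variable {X : TSet} {T : TLab} {Y : Type} [TopologicalSpace Y]
  (𝓕 : PFam X T (OnePoint Y) Y)

/-- the sheets at time one are the identity -/
def Full : Prop := ∀ {p : ℕ} (s : T.L.obj p) (τ : C(G2.Dl p, OnePoint Y)), 𝓕.val s τ (oI p) = τ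

/-- there are `n` labels -/
def Card (n : ℕ) : Prop := ∀ {p : ℕ} (x : X.obj p), (𝓕.idx x).card = n

variable {𝓕} {n : ℕ}

/-- the labels -/
noncomputable def lb (hn : 𝓕.Card n) : SS.Map X.ss (GLn T.lab n) where
  app {p} x := ⟨(𝓕.idx (p := p) x : Finset (T.L.obj p)), 𝓕.good x, hn x⟩
  nat {p q} f x := Subtype.ext (by
    ext a
    refine (𝓕.mem_pull (dmap f) x a).trans ?_
    exact (mem_lmap (l := T.lab) (f := f)).symm)

theorem aX1_eq (hf : 𝓕.Full) (hn : 𝓕.Card n) : 𝓕.aX1 =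
    (asmn T.lab (ptS (∞ : OnePoint Y)) n).comp (pid (lb hn) (G2.sing (OnePoint Y))) := by
  apply SS.Map.ext
  rintro p ⟨x, τ⟩
  refine Subtype.ext ?_
  ext a
  refine (𝓕.mem_aX1).trans (Iff.trans ?_ (mem_asmF (l := T.lab) (A := ptS (∞ : OnePoint Y))
    (F := (𝓕.idx (p := p) x : Finset (T.L.obj p))) (x := τ)).symm)
  constructor
  · rintro ⟨s, hs, rfl, h⟩
    have h1 : 𝓕.val s τ (oI p) = τ := hf s τ
    refine ⟨hs, h1, fun hc => h ?_⟩
    show (ptS (∞ : OnePoint Y)).mem (ofC (𝓕.val s τ (oI p)))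
    rw [h1]
    exact hc
  · rintro ⟨h1, h2, h3⟩
    have h4 : 𝓕.val a.1 τ (oI p) = τ := hf a.1 τ
    refine ⟨a.1, h1, Prod.ext rfl (h4.trans h2.symm), ?_⟩
    rw [h2]
    exact h3

section val

variable (hP : 𝓕.Pointed (∞ : OnePoint Y)) (hf : 𝓕.Full) (hn : 𝓕.Card n) (he : Even n)

/-- the map `MX` of pairs -/
noncomputable def relM : CupC.Hom (Cc.rel (ptS (∞ : OnePoint Y))) (Cc.rel (PB X (∞ : OnePoint Y))) :=
  Cc.relHom 𝓕.MX (PB X ∞) (ptS ∞) fun u hu => 𝓕.pb_M hP u hu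

include hf hn he in
theorem aX1_hat {y : Cc (G2.sing (OnePoint Y))} (hy : Vn (ptS ∞) y) :
    Cc.pull 𝓕.aX1 (hat T.lab (ptS (∞ : OnePoint Y)) y) = 0 := by
  rw [aX1_eq hf hn]
  exact (congrArg (Cc.pull (pid (lb hn) (G2.sing (OnePoint Y)))) (asmn_hat he hy)).trans
    (pull_zero _)

variable {i r : ℕ} (g : SS.Map (SN r) (G2.sing (OnePoint Y)))
  (hg : ∀ {p : ℕ} (x : (SN r).obj p), (SN.base r).mem x → (ptS (∞ : OnePoint Y)).mem (g.app x))

/-- restriction to `X × cube` -/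
noncomputable def relC :
    CupC.Hom (Cc.rel (PB X (∞ : OnePoint Y))) (Cc.rel (ends X.ss r)) :=
  Cc.relHom (idp X.ss g) (ends X.ss r) (PB X ∞) fun z hz => hg z.2 hz

include hf he in
/-- **The functional squares of the family, on `X × cube`.** -/
theorem val_cube {Z : Set (OnePoint Y)} (hZ : IsClosed Z) (hZi : (∞ : OnePoint Y) ∉ Z) {m : ℕ}
    (hr : m + 1 = r) (hi : i + 1 ≤ r) (D : CupC.FSqD (relM (X := X) hP) i)
    (hb : Vn (missZ Z) (Cc.val D.b)) (hc : Vn (missZ Z) (Cc.val D.c))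
    (hbn : Cc.IsDeg (m + 1) (Cc.val D.b)) (hen : Cc.IsDeg m (Cc.val D.e)) {β : Cc (SN r)}
    (hβ : Vn (SN.base r) β) (hgb : Cc.pull g (Cc.val D.b) = sC r + Cc.d β) :
    (Cc.rel (ends X.ss r)).Coh ((relC (X := X) g hg).f D.val)
      (Cc.mkRel _ (TJ.sn r (Cc.pull (lb hn) (tln T.lab n (r - (i + 1))))) (Vn_sn r _)) := by
  obtain ⟨D1, h1, h2, h3, h4⟩ := (𝓕.strict hZ hZi).exists_FSqD (PB X ∞)
    (fun u hu => 𝓕.pb_sm hP hZi u hu) (fun u hu => 𝓕.pb_M hP u hu)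
    (fun u hu => 𝓕.pb_a0 hP u hu) D hb hc hbn hen
  obtain ⟨D2, hb2, hc2, he2, hv2⟩ : ∃ D2 : CupC.FSqD (Cc.relHom 𝓕.aX1 (PB X ∞)
      (Gam.base T.lab (ptS (∞ : OnePoint Y))) fun u hu => 𝓕.pb_a1 hP u hu) i,
      D2.b = D1.b ∧ D2.c = D1.c ∧ Cc.IsDeg m (Cc.val D2.e) ∧
        (Cc.rel (PB X (∞ : OnePoint Y))).Coh D1.val D2.val :=
    CupC.FSqD.htpy_deg 𝓕.hX (A := PB X ∞)
      (B := Gam.base T.lab (ptS (∞ : OnePoint Y))) (fun u hu => 𝓕.pb_hX hP u hu) (n := m) D1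
      (by rw [h1]; exact isDeg_hat hbn) h3
  have hz : ∀ {y : Cc (G2.sing (OnePoint Y))}, Vn (ptS ∞) y →
      Cc.pull 𝓕.aX1 (hat T.lab (ptS (∞ : OnePoint Y)) y) = 0 :=
    fun hy => aX1_hat hf hn he hy
  obtain ⟨F, hF⟩ : ∃ F, F = relC (X := X) g hg := ⟨_, rfl⟩
  have hFval : ∀ u, Cc.val (F.f u) = Cc.pull (idp X.ss g) (Cc.val u) := by
    intro u
    rw [hF]
    rfl
  rw [← hF]
  have h5 : (Cc.rel (ends X.ss r)).Coh (F.f D.val) (F.f D2.val) := (h4.trans hv2).map F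
  have h6 : (Cc.rel (ends X.ss r)).d (F.f D2.e) = 0 := by
    rw [← F.f_d, D2.d_e]
    have e1 : Cc.pull 𝓕.aX1 (Cc.val D2.b) = 0 := by rw [hb2, h1, hz (Cc.vn_val D.b)]
    refine Cc.rel_ext ((hFval _).trans ?_)
    exact (congrArg (Cc.pull (idp X.ss g)) e1).trans (pull_zero _)
  have h7 : Cc.IsDeg m (Cc.val (F.f D2.e)) := by
    rw [hFval]
    exact he2.pull _
  obtain ⟨w, hw⟩ := CupC.Gr.Van.exists (G := Cc.relGr (ends X.ss r))
    (van_ends (X := X.ss) (show m < r by omega)) (z := F.f D2.e) h7 h6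
  have h8 : F.f D2.val = (Cc.rel (ends X.ss r)).q i (F.f D2.e) +
      F.f ((Cc.relHom 𝓕.aX1 (PB X ∞) (Gam.base T.lab (ptS (∞ : OnePoint Y)))
        fun u hu => 𝓕.pb_a1 hP u hu).f D2.c) := by
    show F.f ((Cc.rel (PB X (∞ : OnePoint Y))).q i D2.e + _) = _
    rw [map_add, F.f_q]
  have h9 : (Cc.rel (ends X.ss r)).Coh (F.f D2.val)
      (F.f ((Cc.relHom 𝓕.aX1 (PB X ∞) (Gam.base T.lab (ptS (∞ : OnePoint Y)))
        fun u hu => 𝓕.pb_a1 hP u hu).f D2.c)) := by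
    rw [h8, hw]
    have := (q_coh_zero (Cc.rel (ends X.ss r)) i w).add_right
      (F.f ((Cc.relHom 𝓕.aX1 (PB X ∞) (Gam.base T.lab (ptS (∞ : OnePoint Y)))
        fun u hu => 𝓕.pb_a1 hP u hu).f D2.c))
    rwa [zero_add] at this
  refine (h5.trans h9).trans ?_
  obtain ⟨γ, hγ, hγ'⟩ := asmn_KK_sphere (l := T.lab) (n := n) he (r := r) (j := i + 1) hi hβ
  have hbA : Vn (ptS (∞ : OnePoint Y)) (Cc.val D.b) := Cc.vn_val D.b
  have h10 : Cc.val (F.f ((Cc.relHom 𝓕.aX1 (PB X ∞)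
      (Gam.base T.lab (ptS (∞ : OnePoint Y))) fun u hu => 𝓕.pb_a1 hP u hu).f D2.c)) =
      Cc.pull (timesN (lb hn) r) (Cc.pull (asmn T.lab (SN.base r) n)
        (KK T.lab (SN.base r) (i + 1) 0 (sC r + Cc.d β))) := by
    rw [hFval, ← hgb, ← asmn_KK_nat' (l := T.lab) n g (A := SN.base r)
      (A' := ptS (∞ : OnePoint Y)) (fun _ x h => hg x h) (i + 1) 0 hbA]
    have e2 : Cc.pull 𝓕.aX1 (Cc.val D2.c) =
        Cc.pull ((asmn T.lab (ptS (∞ : OnePoint Y)) n).comp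
          (pid (lb hn) (G2.sing (OnePoint Y)))) (KK T.lab (ptS ∞) (i + 1) 0 (Cc.val D.b)) := by
      rw [hc2, h2, pull_add, hz (Cc.vn_val D.c), zero_add, aX1_eq hf hn]
      rfl
    exact congrArg (Cc.pull (idp X.ss g)) e2
  have h12 : Cc.pull (asmn T.lab (SN.base r) n)
      (KK T.lab (SN.base r) (i + 1) 0 (sC r + Cc.d β)) =
        TJ.sn r (tln T.lab n (r - (i + 1))) + Cc.d γ := by
    rw [← hγ', add_comm (TJ.sn r _), add_assoc, cc_add_self, add_zero]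
  rw [h12] at h10
  have h13 : Vn (ends X.ss r) (Cc.pull (timesN (lb hn) r) γ) := fun p x hx => hγ p _ hx
  refine ⟨Cc.mkRel _ (Cc.pull (timesN (lb hn) r) γ) h13, Cc.rel_ext ?_⟩
  show Cc.val (F.f _) + TJ.sn r (Cc.pull (lb hn) (tln T.lab n (r - (i + 1)))) =
    Cc.d (Cc.pull (timesN (lb hn) r) γ)
  rw [h10, pull_add, pull_d]
  have h14 : Cc.pull (timesN (lb hn) r) (TJ.sn r (tln T.lab n (r - (i + 1)))) =
    TJ.sn r (Cc.pull (lb hn) (tln T.lab n (r - (i + 1)))) := pull_cup _ _ _ _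
  rw [h14, add_comm, ← add_assoc, cc_add_self, zero_add]

include hf hn he in
/-- **existence of data** -/
theorem exists_FSqD {Z : Set (OnePoint Y)} (hZ : IsClosed Z) (hZi : (∞ : OnePoint Y) ∉ Z) {m : ℕ}
    {b c : (Cc.rel (ptS (∞ : OnePoint Y))).C} (hb : Vn (missZ Z) (Cc.val b))
    (db : (Cc.rel (ptS (∞ : OnePoint Y))).d b = 0)
    (dc : (Cc.rel (ptS (∞ : OnePoint Y))).cup (i + 1) b b =
      (Cc.rel (ptS (∞ : OnePoint Y))).d c) (hbn : Cc.IsDeg (m + 1) (Cc.val b)) :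
    ∃ D : CupC.FSqD (relM (X := X) hP) i, D.b = b ∧ D.c = c ∧ Cc.IsDeg m (Cc.val D.e) := by
  have db' : Cc.d (Cc.val b) = 0 := congrArg Cc.val db
  have hbA : Vn (ptS (∞ : OnePoint Y)) (Cc.val b) := Cc.vn_val b
  obtain ⟨η, h1, h2, -⟩ := (𝓕.strict hZ hZi).exists_eta hbA hb db' hbn
  have h3 : Vn (PB X (∞ : OnePoint Y)) η := h2.mono fun u hu => 𝓕.pb_sm hP hZi u hu
  let y : (Cc.rel (Gam.base T.lab (ptS (∞ : OnePoint Y)))).C :=
    Cc.mkRel _ (hat T.lab (ptS ∞) (Cc.val b)) (Gam.hat_vn _)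
  have hy : (Cc.rel (Gam.base T.lab (ptS (∞ : OnePoint Y)))).d y = 0 := Cc.rel_ext (by
    show Cc.d (hat T.lab (ptS ∞) (Cc.val b)) = 0
    rw [d_hat hbA, db', hat_zero])
  obtain ⟨w, hw⟩ := Cc.rel_coh_of_htpy 𝓕.hX (A := PB X ∞)
    (B := Gam.base T.lab (ptS (∞ : OnePoint Y))) (fun u hu => 𝓕.pb_hX hP u hu) hy
  have h4 : Cc.pull 𝓕.aX0 (hat T.lab (ptS ∞) (Cc.val b)) +
      Cc.pull 𝓕.aX1 (hat T.lab (ptS ∞) (Cc.val b)) = Cc.d (Cc.val w) := congrArg Cc.val hw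
  rw [aX1_hat hf hn he hbA, add_zero] at h4
  have h5 : Cc.pull 𝓕.MX (Cc.val b) = Cc.d (η + Cc.val w) := by
    rw [d_add, h1, h4, add_comm (Cc.d (Cc.val w)), add_assoc, cc_add_self, add_zero]
  have h6 : Vn (PB X (∞ : OnePoint Y)) (Cc.comp m (η + Cc.val w)) :=
    Cc.vn_comp (h3.add (Cc.vn_val w)) m
  refine ⟨⟨b, Cc.mkRel _ (Cc.comp m (η + Cc.val w)) h6, c, db, Cc.rel_ext ?_, dc⟩, rfl, rfl,
    Cc.isDeg_comp m _⟩
  show Cc.d (Cc.comp m (η + Cc.val w)) = Cc.pull 𝓕.MX (Cc.val b)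
  rw [← Cc.comp_d, ← h5]
  exact Cc.comp_eq (hbn.pull _)

end val

end PFam

end Vale.Agent.P263.KJ
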