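import Vale.Agent.P251.G.PowLC
import Vale.Agent.P251.G.Gauge

/-!
# P263, block KJ: gluing on closed pieces, descent along open maps

* `glue`: two morphisms `X ⟶ Y` of `LC` agreeing on `φ = 0` glue along `φ ≤ 0`, `0 ≤ φ`;
* `desc`: a morphism `E ⟶ C` constant on the fibres of an open map `q : E → B` descends to
  a morphism `B ⟶ C` (with value `∞` off the image of `q`);
* `homotopic_ofL`: homotopies as morphisms of `II ⊗ X`.
-/

open CategoryTheory MonoidalCategory Filter Topology OnePoint

namespace Vale.Agent.P263.KJ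

open Vale.Agent.P251.G Vale.Agent.P251.G.LC

section glue

variable {X Y : LC}

theorem tendsto_app (f : X ⟶ Y) : Tendsto (fun x : X => app f (x : OnePoint X)) (cocompact X)
    (𝓝 ∞) := by
  have h1 : Tendsto (app f) (𝓝 ∞) (𝓝 ∞) := by
    have h := (continuous_app f).tendsto ∞
    rwa [app_infty] at h
  have h2 : Tendsto (fun x : X => (x : OnePoint X)) (cocompact X) (𝓝 ∞) := by
    rw [← coclosedCompact_eq_cocompact]
    exact (OnePoint.tendsto_coe_infty (X := X))
  exact h1.comp h2

/-- Gluing of two morphisms along the closed subsets `φ ≤ 0` and `0 ≤ φ`. -/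
noncomputable def glue (f g : X ⟶ Y) (φ : X → ℝ) (hφ : Continuous φ)
    (h : ∀ x : X, φ x = 0 → app f (x : OnePoint X) = app g (x : OnePoint X)) : X ⟶ Y :=
  mk' (fun x => if φ x ≤ 0 then app f (x : OnePoint X) else app g (x : OnePoint X))
    (Continuous.if_le ((continuous_app f).comp OnePoint.continuous_coe)
      ((continuous_app g).comp OnePoint.continuous_coe) hφ continuous_const h)
    (by
      refine Tendsto.if' (p := fun x => φ x ≤ 0) ?_ ?_
      · exact tendsto_app f
      · exact tendsto_app g)

theorem app_glue_of_le {f g : X ⟶ Y} {φ : X → ℝ} {hφ : Continuous φ}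
    {h : ∀ x : X, φ x = 0 → app f (x : OnePoint X) = app g (x : OnePoint X)} {x : X}
    (hx : φ x ≤ 0) : app (glue f g φ hφ h) (x : OnePoint X) = app f (x : OnePoint X) := by
  change (if φ x ≤ 0 then _ else _) = _
  rw [if_pos hx]

theorem app_glue_of_ge {f g : X ⟶ Y} {φ : X → ℝ} {hφ : Continuous φ}
    {h : ∀ x : X, φ x = 0 → app f (x : OnePoint X) = app g (x : OnePoint X)} {x : X}
    (hx : 0 ≤ φ x) : app (glue f g φ hφ h) (x : OnePoint X) = app g (x : OnePoint X) := by
  change (if φ x ≤ 0 then _ else _) = _
  split_ifs with h'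
  · exact h x (le_antisymm h' hx)
  · rfl

end glue

section desc

variable {E B C : LC}

open scoped Classical in
/-- the function underlying `desc` -/
noncomputable def descFun (q : E → B) (f : E ⟶ C) (x : OnePoint B) : OnePoint C :=
  if h : ∃ e : E, ((q e : B) : OnePoint B) = x then app f (h.choose : OnePoint E) else ∞

theorem descFun_coe {q : E → B} {f : E ⟶ C}
    (h : ∀ e e' : E, q e = q e' → app f (e : OnePoint E) = app f (e' : OnePoint E)) (e : E) :
    descFun q f ((q e : B) : OnePoint B) = app f (e : OnePoint E) := by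
  unfold descFun
  have h1 : ∃ e' : E, ((q e' : B) : OnePoint B) = ((q e : B) : OnePoint B) := ⟨e, rfl⟩
  rw [dif_pos h1]
  exact h _ _ (OnePoint.coe_injective h1.choose_spec)

theorem descFun_of_notMem {q : E → B} {f : E ⟶ C} {b : B} (h : b ∉ Set.range q) :
    descFun q f (b : OnePoint B) = ∞ := by
  unfold descFun
  rw [dif_neg]
  rintro ⟨u, hu⟩
  exact h ⟨u, OnePoint.coe_injective hu⟩

theorem descFun_infty (q : E → B) (f : E ⟶ C) : descFun q f (∞ : OnePoint B) = ∞ := by
  unfold descFun
  rw [dif_neg]
  rintro ⟨u, hu⟩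
  exact OnePoint.coe_ne_infty _ hu

theorem continuous_descFun {q : E → B} (hq : Continuous q) (ho : IsOpenMap q) {f : E ⟶ C}
    (h : ∀ e e' : E, q e = q e' → app f (e : OnePoint E) = app f (e' : OnePoint E)) :
    Continuous (descFun q f) := by
  have key : ∀ K : Set C, (descFun q f) ⁻¹' ((↑) '' K) =
      (fun e => ((q e : B) : OnePoint B)) '' ((fun e : E => app f (e : OnePoint E)) ⁻¹'
        ((↑) '' K)) := by
    intro K
    ext x
    constructor
    · rintro ⟨u, hu, hx⟩
      by_cases h' : ∃ e : E, ((q e : B) : OnePoint B) = x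
      · obtain ⟨e, rfl⟩ := h'
        rw [descFun_coe h] at hx
        exact ⟨e, ⟨u, hu, hx⟩, rfl⟩
      · exfalso
        unfold descFun at hx
        rw [dif_neg h'] at hx
        exact OnePoint.coe_ne_infty _ hx
    · rintro ⟨e, ⟨u, hu, hx⟩, rfl⟩
      exact ⟨u, hu, by rw [descFun_coe h]; exact hx⟩
  have hc : Continuous (fun e : E => app f (e : OnePoint E)) :=
    (continuous_app f).comp OnePoint.continuous_coe
  refine continuous_def.mpr fun V hV => ?_
  by_cases hm : (∞ : OnePoint C) ∈ V
  · rw [OnePoint.isOpen_iff_of_mem hm] at hV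
    obtain ⟨hcl, hK⟩ := hV
    have h1 : V = ((↑) '' (((↑) : C → OnePoint C) ⁻¹' V)ᶜ)ᶜ := by
      ext y
      induction y using OnePoint.rec with
      | infty => simp [hm]
      | coe y => simp
    rw [h1, Set.preimage_compl, key]
    have h2 : IsCompact ((fun e : E => app f (e : OnePoint E)) ⁻¹'
        ((↑) '' (((↑) : C → OnePoint C) ⁻¹' V)ᶜ)) := by
      set K := (((↑) : C → OnePoint C) ⁻¹' V)ᶜ with hKdef
      have hKc : IsCompact ((↑) '' K : Set (OnePoint C)) := hK.image OnePoint.continuous_coe
      have h3 : IsClosed (app f ⁻¹' ((↑) '' K)) := hKc.isClosed.preimage (continuous_app f)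
      have h4 : IsCompact (app f ⁻¹' ((↑) '' K)) := h3.isCompact
      have h5 : app f ⁻¹' ((↑) '' K) ⊆ Set.range ((↑) : E → OnePoint E) := by
        intro x hx
        induction x using OnePoint.rec with
        | infty =>
          obtain ⟨u, -, hu⟩ := hx
          rw [app_infty] at hu
          exact absurd hu (OnePoint.coe_ne_infty _)
        | coe x => exact ⟨x, rfl⟩
      exact (OnePoint.isOpenEmbedding_coe.isInducing.isCompact_preimage_iff h5).2 h4
    exact (h2.image (OnePoint.continuous_coe.comp hq)).isClosed.isOpen_compl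
  · have h1 : V = (↑) '' (((↑) : C → OnePoint C) ⁻¹' V) := by
      ext y
      induction y using OnePoint.rec with
      | infty => simp [hm]
      | coe y => simp
    rw [h1, key, ← h1]
    exact (OnePoint.isOpenEmbedding_coe.isOpenMap.comp ho) _ (hV.preimage hc)

/-- Descent along an open map (the value is `∞` off the image). -/
noncomputable def desc (q : E → B) (hq : Continuous q) (ho : IsOpenMap q) (f : E ⟶ C)
    (h : ∀ e e' : E, q e = q e' → app f (e : OnePoint E) = app f (e' : OnePoint E)) : B ⟶ C :=
  ⟨⟨descFun q f, continuous_descFun hq ho h⟩, descFun_infty q f⟩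

@[simp] theorem app_desc_coe (q : E → B) (hq : Continuous q) (ho : IsOpenMap q) (f : E ⟶ C)
    (h : ∀ e e' : E, q e = q e' → app f (e : OnePoint E) = app f (e' : OnePoint E)) (e : E) :
    app (desc q hq ho f h) ((q e : B) : OnePoint B) = app f (e : OnePoint E) :=
  descFun_coe h e

theorem app_desc_of_notMem (q : E → B) (hq : Continuous q) (ho : IsOpenMap q) (f : E ⟶ C)
    (h : ∀ e e' : E, q e = q e' → app f (e : OnePoint E) = app f (e' : OnePoint E)) {b : B}
    (hb : b ∉ Set.range q) : app (desc q hq ho f h) (b : OnePoint B) = ∞ :=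
  descFun_of_notMem hb

end desc

section homotopy

variable {X Y : LC}

/-- the inclusion at time `t`, interval in front -/
def incL (t : unitInterval) (X : LC) : X ⟶ II ⊗ X := incl t X ≫ (β_ X II).hom

theorem app_incL (t : unitInterval) (X : LC) (x : OnePoint X) :
    app (incL t X) x = smash (t : OnePoint unitInterval) x := by
  rw [incL, app_comp, app_incl, app_braiding_smash]

/-- Homotopies with the interval in front. -/
theorem homotopic_ofL {f g : X ⟶ Y} (H : II ⊗ X ⟶ Y)
    (h0 : ∀ x : X, app H (smash ((0 : unitInterval) : OnePoint unitInterval) (x : OnePoint X)) =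
      app f (x : OnePoint X))
    (h1 : ∀ x : X, app H (smash ((1 : unitInterval) : OnePoint unitInterval) (x : OnePoint X)) =
      app g (x : OnePoint X)) : Homotopic f g := by
  refine ⟨(β_ X II).hom ≫ H, ?_, ?_⟩
  · ext x
    rw [app_comp, app_comp, app_incl, app_braiding_smash, h0]
  · ext x
    rw [app_comp, app_comp, app_incl, app_braiding_smash, h1]

end homotopy

end Vale.Agent.P263.KJ
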