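import Vale.Agent.P251.G.Homotopy
import Mathlib.Analysis.Normed.Module.FiniteDimension
import Mathlib.Analysis.Normed.Group.Continuity
import Mathlib.Topology.Maps.Proper.CompactlyGenerated

/-!
# P263, literal `J`: the outer half of the polar map is everything

`E`, `V` normed spaces, `F : (E × V)⁺ → V⁺`, `e ≠ 0` in `E`.  `D F : ((E × V) × V)⁺ → (V × V)⁺` is
`(y, b) ↦ (F y, (1 - 1/|b|) b)` for `|b| ≥ 1`, and (half sum, half difference) of
`F (y + (0, v))`, `F (y - (0, v))`, `v = (1/|b| - 1) b/|b|`, for `|b| ≤ 1` (`∞` for `b = 0`).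
Result: `D F` is homotopic to `F ⊗ id`.
-/

open CategoryTheory MonoidalCategory Filter Topology OnePoint
open Vale.Agent.P251.G Vale.Agent.P251.G.LC

namespace Vale.Agent.P263.KJ

set_option linter.unusedSectionVars false

section glue

variable {X Y Z : LC}

/-- A homotopy of maps out of a tensor product from a function on
`OnePoint X × OnePoint Y × [0,1]`. -/
theorem homotopic_of {f g : LC.of (X × Y) ⟶ Z}
    (H : OnePoint X × OnePoint Y × unitInterval → OnePoint Z) (hH : Continuous H)
    (h1 : ∀ b t, H (∞, b, t) = ∞) (h2 : ∀ a t, H (a, ∞, t) = ∞)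
    (hf : ∀ (x : X) (y : Y), H ((x : OnePoint X), (y : OnePoint Y), 0) =
      app f (((x, y) : X × Y) : OnePoint (X × Y)))
    (hg : ∀ (x : X) (y : Y), H ((x : OnePoint X), (y : OnePoint Y), 1) =
      app g (((x, y) : X × Y) : OnePoint (X × Y))) : Homotopic f g := by
  let J : (X × Y) × unitInterval → OnePoint X × OnePoint Y × unitInterval :=
    fun p => ((p.1.1 : OnePoint X), (p.1.2 : OnePoint Y), p.2)
  have hJ : IsOpenEmbedding J :=
    (OnePoint.isOpenEmbedding_coe.prodMap
      (OnePoint.isOpenEmbedding_coe.prodMap IsOpenEmbedding.id)).comp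
        (Homeomorph.prodAssoc X Y unitInterval).isOpenEmbedding
  refine ⟨ofCompactification (X := LC.of ((X × Y) × unitInterval)) J hJ H hH ?_, ?_, ?_⟩
  · rintro ⟨a, b, t⟩ hk
    induction a using OnePoint.rec with
    | infty => exact h1 _ _
    | coe a =>
      induction b using OnePoint.rec with
      | infty => exact h2 _ _
      | coe b => exact absurd ⟨((a, b), t), rfl⟩ hk
  · apply hom_ext
    rintro ⟨x, y⟩
    exact hf x y
  · apply hom_ext
    rintro ⟨x, y⟩
    exact hg x y

end glue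

section maps

variable {V : Type} [NormedAddCommGroup V] [NormedSpace ℝ V] [ProperSpace V]
variable {W : Type} [NormedAddCommGroup W] [NormedSpace ℝ W] [ProperSpace W]

theorem tendsto_family {f : V × unitInterval → W} {c : ℝ} (hc : 0 < c) (C : ℝ)
    (hf : ∀ p, c * ‖p.1‖ - C ≤ ‖f p‖) :
    Tendsto f (cocompact (V × unitInterval)) (cocompact W) := by
  have h1 : Tendsto (Prod.fst : V × unitInterval → V) (cocompact (V × unitInterval))
      (cocompact V) := (isProperMap_iff_tendsto_cocompact.mp isProperMap_fst_of_compactSpace).2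
  have h2 : Tendsto (fun p : V × unitInterval => ‖p.1‖) (cocompact (V × unitInterval)) atTop := by
    rw [← Metric.cobounded_eq_cocompact (α := V)] at h1
    exact tendsto_norm_cobounded_atTop.comp h1
  rw [← Metric.cobounded_eq_cocompact (α := W), ← tendsto_norm_atTop_iff_cobounded]
  refine tendsto_atTop_mono hf ?_
  exact tendsto_atTop_add_const_right _ (-C) (h2.const_mul_atTop hc)

open scoped Classical in
/-- the inversion of the one-point compactification of a normed space -/
noncomputable def inv (x : OnePoint V) : OnePoint V :=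
  x.elim ((0 : V) : OnePoint V) (fun b => if b = 0 then ∞ else (((‖b‖ ^ 2)⁻¹ • b : V) : OnePoint V))

@[simp] theorem inv_infty : inv (∞ : OnePoint V) = ((0 : V) : OnePoint V) := rfl

@[simp] theorem inv_zero : inv ((0 : V) : OnePoint V) = ∞ := if_pos rfl

theorem inv_coe {b : V} (hb : b ≠ 0) :
    inv (b : OnePoint V) = (((‖b‖ ^ 2)⁻¹ • b : V) : OnePoint V) := if_neg hb

omit [ProperSpace V] in
theorem norm_inv_vec {b : V} (hb : b ≠ 0) : ‖(‖b‖ ^ 2)⁻¹ • b‖ = ‖b‖⁻¹ := by
  have h : ‖b‖ ≠ 0 := norm_ne_zero_iff.mpr hb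
  rw [norm_smul, norm_inv, norm_pow, norm_norm]
  field_simp

theorem continuous_inv : Continuous (inv : OnePoint V → OnePoint V) := by
  rw [OnePoint.continuous_iff, coclosedCompact_eq_cocompact]
  have hz : ∀ᶠ b : V in cocompact V, b ≠ 0 := by
    rw [← Metric.cobounded_eq_cocompact]
    have := (tendsto_norm_cobounded_atTop (E := V)).eventually (eventually_gt_atTop 0)
    exact this.mono fun b hb => norm_pos_iff.mp hb
  constructor
  · have h1 : Tendsto (fun b : V => (‖b‖ ^ 2)⁻¹ • b) (cocompact V) (𝓝 0) := by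
      rw [tendsto_zero_iff_norm_tendsto_zero, ← Metric.cobounded_eq_cocompact]
      refine (tendsto_inv_atTop_zero.comp (tendsto_norm_cobounded_atTop (E := V))).congr' ?_
      rw [Metric.cobounded_eq_cocompact]
      exact hz.mono fun b hb => (norm_inv_vec hb).symm
    refine ((OnePoint.continuous_coe.tendsto (0 : V)).comp h1).congr' ?_
    exact hz.mono fun b hb => (inv_coe hb).symm
  · refine continuous_iff_continuousAt.mpr fun b => ?_
    by_cases hb : b = 0
    · subst hb
      change Tendsto (fun b : V => inv (b : OnePoint V)) (𝓝 0) (𝓝 (inv ((0 : V) : OnePoint V)))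
      rw [inv_zero, ← nhdsNE_sup_pure, tendsto_sup]
      refine ⟨?_, ?_⟩
      · have h1 : Tendsto (fun b : V => (‖b‖ ^ 2)⁻¹ • b) (𝓝[≠] 0) (cocompact V) := by
          rw [← Metric.cobounded_eq_cocompact, ← tendsto_norm_atTop_iff_cobounded]
          have h2 : Tendsto (fun b : V => ‖b‖⁻¹) (𝓝[≠] 0) atTop :=
            tendsto_inv_nhdsGT_zero.comp tendsto_norm_nhdsNE_zero
          refine h2.congr' ?_
          filter_upwards [self_mem_nhdsWithin] with b hb
          exact (norm_inv_vec hb).symm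
        have h3 : Tendsto (fun b : V => (((‖b‖ ^ 2)⁻¹ • b : V) : OnePoint V)) (𝓝[≠] 0) (𝓝 ∞) := by
          have := tendsto_coe_infty (X := V)
          rw [coclosedCompact_eq_cocompact] at this
          exact this.comp h1
        refine h3.congr' ?_
        filter_upwards [self_mem_nhdsWithin] with b hb
        exact (inv_coe hb).symm
      · rw [tendsto_pure_left]
        intro s hs
        rw [inv_zero]
        exact mem_of_mem_nhds hs
    · have h1 : ContinuousAt (fun b : V => (((‖b‖ ^ 2)⁻¹ • b : V) : OnePoint V)) b := by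
        refine OnePoint.continuous_coe.continuousAt.comp ?_
        refine ContinuousAt.smul (ContinuousAt.inv₀ (by fun_prop) ?_) continuousAt_id
        exact pow_ne_zero _ (norm_ne_zero_iff.mpr hb)
      refine h1.congr ?_
      filter_upwards [isOpen_ne.mem_nhds hb] with c hc
      exact (inv_coe hc).symm

/-- the family of radial contractions from the identity to the soft threshold -/
noncomputable def outF : LC.of (V × unitInterval) ⟶ LC.of V :=
  ofProper (X := LC.of (V × unitInterval)) (Y := LC.of V)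
    (fun p : V × unitInterval => ((1 : ℝ) - (p.2 : ℝ) * (max 1 ‖p.1‖)⁻¹) • p.1)
    (by
      refine Continuous.smul (continuous_const.sub ((continuous_subtype_val.comp
        continuous_snd).mul (Continuous.inv₀ (by fun_prop) fun p => ?_))) continuous_fst
      exact ne_of_gt (lt_of_lt_of_le one_pos (le_max_left _ _)))
    (by
      refine tendsto_family one_pos 1 fun p => ?_
      have h1 : 0 ≤ (p.2 : ℝ) := p.2.2.1
      have h2 : (p.2 : ℝ) ≤ 1 := p.2.2.2
      have h3 : 0 < max 1 ‖p.1‖ := lt_of_lt_of_le one_pos (le_max_left _ _)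
      have h4 : (max 1 ‖p.1‖)⁻¹ ≤ 1 := inv_le_one_of_one_le₀ (le_max_left _ _)
      have h5 : 0 < (max 1 ‖p.1‖)⁻¹ := inv_pos.mpr h3
      have h6 : (max 1 ‖p.1‖)⁻¹ * ‖p.1‖ ≤ 1 := by
        rw [inv_mul_le_iff₀ h3, mul_one]; exact le_max_right _ _
      have h7 : 0 ≤ (1 : ℝ) - (p.2 : ℝ) * (max 1 ‖p.1‖)⁻¹ := by nlinarith
      rw [norm_smul, Real.norm_of_nonneg h7]
      nlinarith [norm_nonneg p.1])

/-- the soft threshold `b ↦ (1 - 1/|b|)⁺ b` -/
noncomputable def out : LC.of V ⟶ LC.of V := incl 1 (LC.of V) ≫ outF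

theorem homotopic_out : Homotopic (out : LC.of V ⟶ LC.of V) (𝟙 (LC.of V)) := by
  refine Homotopic.symm ⟨outF, ?_, rfl⟩
  apply hom_ext
  intro b
  rw [app_comp, app_incl]
  change ((((1 : ℝ) - ((0 : unitInterval) : ℝ) * (max 1 ‖b‖)⁻¹) • b : V) : OnePoint V) =
    (b : OnePoint V)
  simp

theorem app_out_coe (b : V) :
    app (out : LC.of V ⟶ LC.of V) (b : OnePoint V) =
      ((((1 : ℝ) - (max 1 ‖b‖)⁻¹) • b : V) : OnePoint V) := by
  unfold out
  rw [app_comp, app_incl]
  change ((((1 : ℝ) - ((1 : unitInterval) : ℝ) * (max 1 ‖b‖)⁻¹) • b : V) : OnePoint V) = _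
  simp

theorem app_out_of_le {b : V} (hb : ‖b‖ ≤ 1) :
    app (out : LC.of V ⟶ LC.of V) (b : OnePoint V) = ((0 : V) : OnePoint V) := by
  rw [app_out_coe, max_eq_left hb]
  simp

theorem app_out_of_ge {b : V} (hb : 1 ≤ ‖b‖) :
    app (out : LC.of V ⟶ LC.of V) (b : OnePoint V) =
      ((((1 : ℝ) - ‖b‖⁻¹) • b : V) : OnePoint V) := by
  rw [app_out_coe, max_eq_right hb]

/-- the truncated norm -/
noncomputable def nrm (x : OnePoint V) : ℝ := x.elim 2 (fun b => min ‖b‖ 2)

@[simp] theorem nrm_infty : nrm (∞ : OnePoint V) = 2 := rfl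
@[simp] theorem nrm_coe (b : V) : nrm (b : OnePoint V) = min ‖b‖ 2 := rfl

theorem continuous_nrm : Continuous (nrm : OnePoint V → ℝ) := by
  rw [OnePoint.continuous_iff, coclosedCompact_eq_cocompact]
  refine ⟨?_, ?_⟩
  · refine tendsto_const_nhds.congr' ?_
    rw [← Metric.cobounded_eq_cocompact]
    have := (tendsto_norm_cobounded_atTop (E := V)).eventually (eventually_ge_atTop 2)
    exact this.mono fun b hb => (min_eq_right hb).symm
  · exact continuous_norm.min continuous_const

theorem nrm_nonneg (x : OnePoint V) : 0 ≤ nrm x := by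
  induction x using OnePoint.rec with
  | infty => simp
  | coe b => simp [norm_nonneg]

theorem nrm_eq_one {b : V} : nrm (b : OnePoint V) = 1 ↔ ‖b‖ = 1 := by
  rw [nrm_coe]
  constructor
  · intro h
    rcases min_choice ‖b‖ 2 with h' | h' <;> linarith
  · intro h
    rw [h]; norm_num

theorem nrm_le_one {b : V} : nrm (b : OnePoint V) ≤ 1 ↔ ‖b‖ ≤ 1 := by
  rw [nrm_coe, min_le_iff]
  constructor
  · rintro (h | h)
    · exact h
    · norm_num at h
  · exact Or.inl

end maps

section main

variable {E : Type} [NormedAddCommGroup E] [NormedSpace ℝ E] [ProperSpace E]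
variable {V : Type} [NormedAddCommGroup V] [NormedSpace ℝ V] [ProperSpace V]

/-- `(y, g) ↦ (y + g, y - g)` -/
noncomputable def addSub (Y : Type) [NormedAddCommGroup Y] [NormedSpace ℝ Y] : (Y × Y) ≃ₜ (Y × Y) where
  toFun p := (p.1 + p.2, p.1 - p.2)
  invFun p := ((2 : ℝ)⁻¹ • (p.1 + p.2), (2 : ℝ)⁻¹ • (p.1 - p.2))
  left_inv p := by
    ext <;> simp only [add_add_sub_cancel, add_sub_sub_cancel, ← two_smul ℝ, smul_smul]
    · rw [inv_mul_cancel₀ two_ne_zero, one_smul]
    · rw [inv_mul_cancel₀ two_ne_zero, one_smul]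
  right_inv p := by
    ext <;> simp only [← smul_add, ← smul_sub, add_add_sub_cancel, add_sub_sub_cancel,
      ← two_smul ℝ, smul_smul]
    · rw [inv_mul_cancel₀ two_ne_zero, one_smul]
    · rw [inv_mul_cancel₀ two_ne_zero, one_smul]
  continuous_toFun := by fun_prop
  continuous_invFun := by fun_prop

@[simp] theorem addSub_apply (Y : Type) [NormedAddCommGroup Y] [NormedSpace ℝ Y] (p : Y × Y) :
    addSub Y p = (p.1 + p.2, p.1 - p.2) := rfl

@[simp] theorem addSub_symm_apply (Y : Type) [NormedAddCommGroup Y] [NormedSpace ℝ Y] (p : Y × Y) :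
    (addSub Y).symm p = ((2 : ℝ)⁻¹ • (p.1 + p.2), (2 : ℝ)⁻¹ • (p.1 - p.2)) := rfl

/-- `(y, g) ↦` (half sum, half difference) of `F (y + g)`, `F (y - g)` -/
noncomputable def two {Y : Type} [NormedAddCommGroup Y] [NormedSpace ℝ Y] [ProperSpace Y]
    (F : LC.of Y ⟶ LC.of V) : LC.of (Y × Y) ⟶ LC.of (V × V) :=
  (ofHomeo (X := LC.of (Y × Y)) (Y := LC.of (Y × Y)) (addSub Y)).hom ≫ tensorHom' F F ≫
    (ofHomeo (X := LC.of (V × V)) (Y := LC.of (V × V)) (addSub V).symm).hom

theorem app_two_coe {Y : Type} [NormedAddCommGroup Y] [NormedSpace ℝ Y] [ProperSpace Y]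
    (F : LC.of Y ⟶ LC.of V) (y g : Y) :
    app (two F) (((y, g) : Y × Y) : OnePoint (Y × Y)) =
      OnePoint.map (addSub V).symm
        (smash (app F ((y + g : Y) : OnePoint Y)) (app F ((y - g : Y) : OnePoint Y))) := rfl

theorem app_two_zero {Y : Type} [NormedAddCommGroup Y] [NormedSpace ℝ Y] [ProperSpace Y]
    (F : LC.of Y ⟶ LC.of V) (y : OnePoint Y) :
    app (two F) (smash y ((0 : Y) : OnePoint Y)) =
      smash (app F y) ((0 : V) : OnePoint V) := by
  induction y using OnePoint.rec with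
  | infty => rw [smash_infty_left, app_infty, app_infty, smash_infty_left]
  | coe y =>
    rw [smash_coe_coe, app_two_coe, add_zero, sub_zero]
    generalize app F ((y : Y) : OnePoint Y) = w
    induction w using OnePoint.rec with
    | infty => simp
    | coe w =>
      simp only [smash_coe_coe, OnePoint.map_some, addSub_symm_apply, sub_self, smul_zero]
      rw [← two_smul ℝ, smul_smul, inv_mul_cancel₀ two_ne_zero, one_smul]

/-- the proper family `v ↦ (θ |v| e, (1 - θ) v)` -/
noncomputable def turn (e : E) (he : e ≠ 0) : LC.of (V × unitInterval) ⟶ LC.of (E × V) :=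
  ofProper (X := LC.of (V × unitInterval)) (Y := LC.of (E × V))
    (fun p : V × unitInterval => (((p.2 : ℝ) * ‖p.1‖) • e, ((1 : ℝ) - (p.2 : ℝ)) • p.1))
    (by fun_prop)
    (by
      have he' : 0 < ‖e‖ := norm_pos_iff.mpr he
      refine tendsto_family (W := E × V) (c := 2⁻¹ * min ‖e‖ 1)
        (mul_pos (by norm_num) (lt_min he' one_pos)) 0 fun p => ?_
      have h1 : 0 ≤ (p.2 : ℝ) := p.2.2.1
      have h2 : (p.2 : ℝ) ≤ 1 := p.2.2.2
      have h0 := norm_nonneg p.1
      rw [sub_zero, Prod.norm_mk, norm_smul, norm_smul, Real.norm_of_nonneg (mul_nonneg h1 h0),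
        Real.norm_of_nonneg (sub_nonneg.mpr h2)]
      have hm0 : 0 ≤ min ‖e‖ 1 := le_min he'.le zero_le_one
      rcases le_total (2⁻¹ : ℝ) (p.2 : ℝ) with h | h
      · refine le_trans ?_ (le_max_left _ _)
        calc 2⁻¹ * min ‖e‖ 1 * ‖p.1‖ = (2⁻¹ * ‖p.1‖) * min ‖e‖ 1 := by ring
          _ ≤ ((p.2 : ℝ) * ‖p.1‖) * ‖e‖ :=
            mul_le_mul (mul_le_mul_of_nonneg_right h h0) (min_le_left _ _) hm0
              (mul_nonneg h1 h0)
      · refine le_trans ?_ (le_max_right _ _)
        calc 2⁻¹ * min ‖e‖ 1 * ‖p.1‖ = (2⁻¹ * min ‖e‖ 1) * ‖p.1‖ := by ring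
          _ ≤ (1 - (p.2 : ℝ)) * ‖p.1‖ := by
            refine mul_le_mul_of_nonneg_right ?_ h0
            have := min_le_right ‖e‖ (1 : ℝ)
            nlinarith)

/-- the function `(b, θ) ↦ (θ ρ e, (1 - θ) ρ b/|b|)`, `ρ = (1/|b| - 1)⁺`, on the one-point
compactification -/
noncomputable def arm (e : E) (he : e ≠ 0) (p : OnePoint V × unitInterval) : OnePoint (E × V) :=
  app (turn e he) (smash (app (out : LC.of V ⟶ LC.of V) (inv p.1)) (p.2 : OnePoint unitInterval))

theorem continuous_arm (e : E) (he : e ≠ 0) :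
    Continuous (arm e he : OnePoint V × unitInterval → OnePoint (E × V)) :=
  (continuous_app _).comp (continuous_smash.comp
    (((continuous_app _).comp (continuous_inv.comp continuous_fst)).prodMk
      (OnePoint.continuous_coe.comp continuous_snd)))

theorem arm_zero (e : E) (he : e ≠ 0) (t : unitInterval) :
    arm e he (((0 : V) : OnePoint V), t) = ∞ := by
  unfold arm
  rw [inv_zero, app_infty, smash_infty_left, app_infty]

theorem out_inv {b : V} (hb : b ≠ 0) (h1 : ‖b‖ ≤ 1) :
    app (out : LC.of V ⟶ LC.of V) (inv (b : OnePoint V)) =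
      ((((‖b‖⁻¹ - 1) * ‖b‖⁻¹) • b : V) : OnePoint V) := by
  have h : 0 < ‖b‖ := norm_pos_iff.mpr hb
  rw [inv_coe hb, app_out_of_ge (by rw [norm_inv_vec hb]; exact (one_le_inv₀ h).mpr h1),
    norm_inv_vec hb, smul_smul, inv_inv]
  congr 2
  field_simp

theorem arm_coe (e : E) (he : e ≠ 0) {b : V} (hb : b ≠ 0) (h1 : ‖b‖ ≤ 1) (t : unitInterval) :
    arm e he ((b : OnePoint V), t) =
      ((((t : ℝ) * (‖b‖⁻¹ - 1)) • e, ((1 : ℝ) - t) • ((‖b‖⁻¹ - 1) * ‖b‖⁻¹) • b) : E × V) := by
  have h : 0 < ‖b‖ := norm_pos_iff.mpr hb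
  have h2 : 0 ≤ ‖b‖⁻¹ - 1 := sub_nonneg.mpr ((one_le_inv₀ h).mpr h1)
  unfold arm
  rw [out_inv hb h1, smash_coe_coe]
  change ((((((t : ℝ) * ‖((‖b‖⁻¹ - 1) * ‖b‖⁻¹) • b‖) • e,
    ((1 : ℝ) - t) • ((‖b‖⁻¹ - 1) * ‖b‖⁻¹) • b) : E × V)) : OnePoint (E × V)) = _
  congr 3
  rw [norm_smul, Real.norm_of_nonneg (mul_nonneg h2 (inv_nonneg.mpr h.le)), mul_assoc,
    inv_mul_cancel₀ h.ne', mul_one]

theorem arm_of_norm_eq_one (e : E) (he : e ≠ 0) {b : V} (h1 : ‖b‖ = 1) (t : unitInterval) :
    arm e he ((b : OnePoint V), t) = ((0 : E × V) : OnePoint (E × V)) := by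
  have hb : b ≠ 0 := by
    rintro rfl
    simp at h1
  rw [arm_coe e he hb h1.le, h1]
  simp

open scoped Classical in
/-- the first homotopy -/
noncomputable def hom1 (F : LC.of (E × V) ⟶ LC.of V) (e : E) (he : e ≠ 0)
    (p : OnePoint (E × V) × OnePoint V × unitInterval) : OnePoint (V × V) :=
  if nrm p.2.1 ≤ 1 then app (two F) (smash p.1 (arm e he (p.2.1, p.2.2)))
  else smash (app F p.1) (app (out : LC.of V ⟶ LC.of V) p.2.1)

theorem nrm_eq_one' {x : OnePoint V} (h : nrm x = 1) : ∃ b : V, x = b ∧ ‖b‖ = 1 := by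
  induction x using OnePoint.rec with
  | infty => norm_num at h
  | coe b => exact ⟨b, rfl, nrm_eq_one.mp h⟩

theorem continuous_hom1 (F : LC.of (E × V) ⟶ LC.of V) (e : E) (he : e ≠ 0) :
    Continuous (hom1 F e he) := by
  classical
  refine Continuous.if_le ?_ ?_ (f := fun p : OnePoint (E × V) × OnePoint V × unitInterval => nrm p.2.1)
    (g := fun _ => (1 : ℝ)) (continuous_nrm.comp (continuous_fst.comp continuous_snd))
    continuous_const ?_
  · exact (continuous_app (two F)).comp (continuous_smash.comp (continuous_fst.prodMk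
      ((continuous_arm e he).comp continuous_snd)))
  · exact continuous_smash.comp (((continuous_app F).comp continuous_fst).prodMk
      ((continuous_app (out : LC.of V ⟶ LC.of V)).comp (continuous_fst.comp continuous_snd)))
  · rintro ⟨y, x, t⟩ h
    obtain ⟨b, rfl, hb⟩ := nrm_eq_one' h
    change app (two F) (smash y (arm e he ((b : OnePoint V), t))) =
      smash (app F y) (app (out : LC.of V ⟶ LC.of V) (b : OnePoint V))
    rw [arm_of_norm_eq_one e he hb, app_two_zero, app_out_of_le hb.le]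

theorem hom1_infty_left (F : LC.of (E × V) ⟶ LC.of V) (e : E) (he : e ≠ 0)
    (b : OnePoint V) (t : unitInterval) : hom1 F e he (∞, b, t) = ∞ := by
  unfold hom1
  split_ifs
  · rw [smash_infty_left, app_infty]
  · rw [app_infty, smash_infty_left]

theorem hom1_infty_right (F : LC.of (E × V) ⟶ LC.of V) (e : E) (he : e ≠ 0)
    (y : OnePoint (E × V)) (t : unitInterval) : hom1 F e he (y, ∞, t) = ∞ := by
  unfold hom1
  rw [if_neg (by norm_num), app_infty, smash_infty_right]

/-- THE POLAR MAP of `F` -/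
noncomputable def D (F : LC.of (E × V) ⟶ LC.of V) (e : E) (he : e ≠ 0) :
    LC.of ((E × V) × V) ⟶ LC.of (V × V) :=
  lift₂ (X := LC.of (E × V)) (Y := LC.of V) (Z := LC.of (V × V))
    (fun p => hom1 F e he (p.1, p.2, 0))
    (Continuous.comp (g := hom1 F e he)
      (f := fun p : OnePoint (E × V) × OnePoint V => (p.1, p.2, (0 : unitInterval)))
      (continuous_hom1 F e he) (by fun_prop)) (fun _ => hom1_infty_left F e he _ _)
    (fun _ => hom1_infty_right F e he _ _)

open scoped Classical in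
/-- `r ↦ 1/r - 1`, `0 ↦ ∞` -/
noncomputable def kap (r : ℝ) : OnePoint ℝ := if r = 0 then ∞ else ((r⁻¹ - 1 : ℝ) : OnePoint ℝ)

@[simp] theorem kap_zero : kap 0 = ∞ := if_pos rfl

theorem kap_coe {r : ℝ} (h : r ≠ 0) : kap r = ((r⁻¹ - 1 : ℝ) : OnePoint ℝ) := if_neg h

theorem continuous_kap : Continuous kap := by
  have h : kap = (fun x : OnePoint ℝ => OnePoint.map (fun y : ℝ => y - 1) x) ∘ inv ∘
      (fun r : ℝ => (r : OnePoint ℝ)) := by
    funext r
    by_cases hr : r = 0
    · subst hr
      simp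
    · rw [kap_coe hr]
      simp only [Function.comp_apply]
      rw [inv_coe hr, OnePoint.map_some]
      congr 2
      rw [Real.norm_eq_abs, sq_abs, smul_eq_mul]
      field_simp
  rw [h]
  refine Continuous.comp ?_ (continuous_inv.comp OnePoint.continuous_coe)
  exact OnePoint.continuous_map (by fun_prop) (by
    rw [coclosedCompact_eq_cocompact]
    exact (Homeomorph.subRight (1 : ℝ)).isClosedEmbedding.tendsto_cocompact)

/-- the line through `e` -/
noncomputable def lineE (V : Type) [NormedAddCommGroup V] [NormedSpace ℝ V] [ProperSpace V]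
    (e : E) (he : e ≠ 0) : LC.of ℝ ⟶ LC.of (E × V) :=
  ofProper (X := LC.of ℝ) (Y := LC.of (E × V)) (fun r : ℝ => (r • e, (0 : V))) (by fun_prop)
    (by
      have he' : 0 < ‖e‖ := norm_pos_iff.mpr he
      rw [← Metric.cobounded_eq_cocompact, ← Metric.cobounded_eq_cocompact,
        ← tendsto_norm_atTop_iff_cobounded]
      have h : (fun r : ℝ => ‖((r • e, (0 : V)) : E × V)‖) = fun r => ‖r‖ * ‖e‖ := by
        funext r
        rw [Prod.norm_mk, norm_zero, norm_smul, max_eq_left (mul_nonneg (norm_nonneg _) he'.le)]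
      rw [h]
      exact tendsto_norm_cobounded_atTop.atTop_mul_const he')

/-- the whisker -/
noncomputable def whi (e : E) (he : e ≠ 0) (p : OnePoint V × unitInterval) : OnePoint (E × V) :=
  app (lineE V e he) (kap ((1 - (p.2 : ℝ)) * min (nrm p.1) 1 + p.2))

theorem continuous_whi (e : E) (he : e ≠ 0) :
    Continuous (whi e he : OnePoint V × unitInterval → OnePoint (E × V)) := by
  refine (continuous_app _).comp (continuous_kap.comp ?_)
  have h1 : Continuous (fun p : OnePoint V × unitInterval => nrm p.1) :=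
    continuous_nrm.comp continuous_fst
  have h2 : Continuous (fun p : OnePoint V × unitInterval => (p.2 : ℝ)) := by fun_prop
  exact ((continuous_const.sub h2).mul (h1.min continuous_const)).add h2

theorem app_lineE_coe (e : E) (he : e ≠ 0) (r : ℝ) :
    app (lineE V e he) (r : OnePoint ℝ) = ((r • e, (0 : V)) : E × V) := rfl

theorem whi_of_ge (e : E) (he : e ≠ 0) {x : OnePoint V} (hx : 1 ≤ nrm x) (t : unitInterval) :
    whi e he (x, t) = ((0 : E × V) : OnePoint (E × V)) := by
  unfold whi
  rw [min_eq_right hx]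
  simp only [mul_one, sub_add_cancel]
  rw [kap_coe one_ne_zero, inv_one, sub_self, app_lineE_coe, zero_smul]
  rfl

theorem whi_one (e : E) (he : e ≠ 0) (x : OnePoint V) :
    whi e he (x, 1) = ((0 : E × V) : OnePoint (E × V)) := by
  unfold whi
  simp only [Set.Icc.coe_one, sub_self, zero_mul, zero_add]
  rw [kap_coe one_ne_zero, inv_one, sub_self, app_lineE_coe, zero_smul]
  rfl

theorem whi_zero (e : E) (he : e ≠ 0) {b : V} (hb : ‖b‖ ≤ 1) :
    whi e he ((b : OnePoint V), 0) = arm e he ((b : OnePoint V), 1) := by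
  unfold whi
  have h1 : min (nrm (b : OnePoint V)) 1 = ‖b‖ := by
    rw [nrm_coe, min_eq_left (hb.trans one_le_two), min_eq_left hb]
  simp only [Set.Icc.coe_zero, sub_zero, one_mul, add_zero, h1]
  by_cases h0 : b = 0
  · subst h0
    rw [norm_zero, kap_zero, app_infty, arm_zero]
  · rw [kap_coe (norm_ne_zero_iff.mpr h0), app_lineE_coe, arm_coe e he h0 hb]
    simp

open scoped Classical in
/-- the second homotopy -/
noncomputable def hom2 (F : LC.of (E × V) ⟶ LC.of V) (e : E) (he : e ≠ 0)
    (p : OnePoint (E × V) × OnePoint V × unitInterval) : OnePoint (V × V) :=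
  if nrm p.2.1 ≤ 1 then app (two F) (smash p.1 (whi e he (p.2.1, p.2.2)))
  else smash (app F p.1) (app (out : LC.of V ⟶ LC.of V) p.2.1)

theorem continuous_hom2 (F : LC.of (E × V) ⟶ LC.of V) (e : E) (he : e ≠ 0) :
    Continuous (hom2 F e he) := by
  classical
  refine Continuous.if_le ?_ ?_ (f := fun p : OnePoint (E × V) × OnePoint V × unitInterval => nrm p.2.1)
    (g := fun _ => (1 : ℝ)) (continuous_nrm.comp (continuous_fst.comp continuous_snd))
    continuous_const ?_
  · exact (continuous_app (two F)).comp (continuous_smash.comp (continuous_fst.prodMk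
      ((continuous_whi e he).comp continuous_snd)))
  · exact continuous_smash.comp (((continuous_app F).comp continuous_fst).prodMk
      ((continuous_app (out : LC.of V ⟶ LC.of V)).comp (continuous_fst.comp continuous_snd)))
  · rintro ⟨y, x, t⟩ h
    change app (two F) (smash y (whi e he (x, t))) =
      smash (app F y) (app (out : LC.of V ⟶ LC.of V) x)
    rw [whi_of_ge e he (le_of_eq (Eq.symm h)), app_two_zero]
    obtain ⟨b, rfl, hb⟩ := nrm_eq_one' h
    rw [app_out_of_le hb.le]

theorem hom2_infty_left (F : LC.of (E × V) ⟶ LC.of V) (e : E) (he : e ≠ 0)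
    (b : OnePoint V) (t : unitInterval) : hom2 F e he (∞, b, t) = ∞ := by
  unfold hom2
  split_ifs
  · rw [smash_infty_left, app_infty]
  · rw [app_infty, smash_infty_left]

theorem hom2_infty_right (F : LC.of (E × V) ⟶ LC.of V) (e : E) (he : e ≠ 0)
    (y : OnePoint (E × V)) (t : unitInterval) : hom2 F e he (y, ∞, t) = ∞ := by
  unfold hom2
  rw [if_neg (by norm_num), app_infty, smash_infty_right]

theorem hom2_zero (F : LC.of (E × V) ⟶ LC.of V) (e : E) (he : e ≠ 0)
    (y : OnePoint (E × V)) (x : OnePoint V) : hom2 F e he (y, x, 0) = hom1 F e he (y, x, 1) := by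
  unfold hom1 hom2
  by_cases h : nrm x ≤ 1
  · rw [if_pos h, if_pos h]
    induction x using OnePoint.rec with
    | infty => norm_num at h
    | coe b => exact congrArg (fun z => app (two F) (smash y z)) (whi_zero e he (nrm_le_one.mp h))
  · rw [if_neg h, if_neg h]

theorem hom2_one (F : LC.of (E × V) ⟶ LC.of V) (e : E) (he : e ≠ 0)
    (y : OnePoint (E × V)) (x : OnePoint V) :
    hom2 F e he (y, x, 1) = smash (app F y) (app (out : LC.of V ⟶ LC.of V) x) := by
  unfold hom2
  by_cases h : nrm x ≤ 1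
  · rw [if_pos h]
    change app (two F) (smash y (whi e he (x, 1))) = _
    rw [whi_one, app_two_zero]
    induction x using OnePoint.rec with
    | infty => norm_num at h
    | coe b => rw [app_out_of_le (nrm_le_one.mp h)]
  · rw [if_neg h]

theorem D_homotopic (F : LC.of (E × V) ⟶ LC.of V) (e : E) (he : e ≠ 0) :
    Homotopic (D F e he) (tensorHom' F (𝟙 (LC.of V))) := by
  let M : LC.of ((E × V) × V) ⟶ LC.of (V × V) :=
    lift₂ (X := LC.of (E × V)) (Y := LC.of V) (Z := LC.of (V × V))
      (fun p => hom1 F e he (p.1, p.2, 1))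
      (Continuous.comp (g := hom1 F e he)
        (f := fun p : OnePoint (E × V) × OnePoint V => (p.1, p.2, (1 : unitInterval)))
        (continuous_hom1 F e he) (by fun_prop)) (fun _ => hom1_infty_left F e he _ _)
      (fun _ => hom1_infty_right F e he _ _)
  have h1 : Homotopic (D F e he) M :=
    homotopic_of (X := LC.of (E × V)) (Y := LC.of V) (Z := LC.of (V × V)) (hom1 F e he)
      (continuous_hom1 F e he) (hom1_infty_left F e he) (hom1_infty_right F e he)
      (fun _ _ => rfl) (fun _ _ => rfl)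
  have h2 : Homotopic M (tensorHom' F (out : LC.of V ⟶ LC.of V)) :=
    homotopic_of (X := LC.of (E × V)) (Y := LC.of V) (Z := LC.of (V × V)) (hom2 F e he)
      (continuous_hom2 F e he) (hom2_infty_left F e he) (hom2_infty_right F e he)
      (fun _ _ => hom2_zero F e he _ _) (fun _ _ => hom2_one F e he _ _)
  have h3 : Homotopic (tensorHom' F (out : LC.of V ⟶ LC.of V)) (tensorHom' F (𝟙 (LC.of V))) :=
    Homotopic.tensor (Homotopic.refl F) homotopic_out
  exact h1.trans (h2.trans h3)

/-- the formula for `D` outside the unit ball -/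
theorem app_D_of_ge (F : LC.of (E × V) ⟶ LC.of V) (e : E) (he : e ≠ 0) (y : E × V) {b : V}
    (hb : 1 ≤ ‖b‖) :
    app (D F e he) (((y, b) : (E × V) × V) : OnePoint ((E × V) × V)) =
      smash (app F (y : OnePoint (E × V))) ((((1 : ℝ) - ‖b‖⁻¹) • b : V) : OnePoint V) := by
  change hom1 F e he (_, _, 0) = _
  unfold hom1
  by_cases h : nrm (b : OnePoint V) ≤ 1
  · have hb' : ‖b‖ = 1 := le_antisymm (nrm_le_one.mp h) hb
    rw [if_pos h]
    change app (two F) (smash _ (arm e he ((b : OnePoint V), 0))) = _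
    rw [arm_of_norm_eq_one e he hb', app_two_zero, hb']
    simp
  · rw [if_neg h]
    change smash _ (app (out : LC.of V ⟶ LC.of V) (b : OnePoint V)) = _
    rw [app_out_of_ge hb]

/-- the formula for `D` inside the unit ball -/
theorem app_D_of_le (F : LC.of (E × V) ⟶ LC.of V) (e : E) (he : e ≠ 0) (x : E) (s : V) {b : V}
    (h0 : b ≠ 0) (hb : ‖b‖ ≤ 1) :
    app (D F e he) ((((x, s), b) : (E × V) × V) : OnePoint ((E × V) × V)) =
      OnePoint.map (addSub V).symm
        (smash (app F (((x, s + ((‖b‖⁻¹ - 1) * ‖b‖⁻¹) • b) : E × V) : OnePoint (E × V)))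
          (app F (((x, s - ((‖b‖⁻¹ - 1) * ‖b‖⁻¹) • b) : E × V) : OnePoint (E × V)))) := by
  change hom1 F e he (_, _, 0) = _
  unfold hom1
  rw [if_pos (nrm_le_one.mpr hb)]
  change app (two F) (smash _ (arm e he ((b : OnePoint V), 0))) = _
  rw [arm_coe e he h0 hb, smash_coe_coe, app_two_coe]
  simp

theorem app_D_zero (F : LC.of (E × V) ⟶ LC.of V) (e : E) (he : e ≠ 0) (y : E × V) :
    app (D F e he) (((y, 0) : (E × V) × V) : OnePoint ((E × V) × V)) = ∞ := by
  change hom1 F e he (_, _, 0) = _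
  unfold hom1
  rw [if_pos (nrm_le_one.mpr (by simp))]
  change app (two F) (smash _ (arm e he (((0 : V) : OnePoint V), 0))) = _
  rw [arm_zero, smash_infty_right, app_infty]

end main

end Vale.Agent.P263.KJ
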