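import Vale.Agent.P263.KJ.Dpol
import Vale.Agent.P263.KJ.Rot

/-!
# P263, block KJ: the literal `J`

`D : (Y × (ℝ × SV V))⁺ → (Z × V)⁺` equivariant.  `J D : (Y × W)⁺ → (Z × (W × PV V))⁺`,
`W = V →L[ℝ] V`: for `A = k (ten u u) + (k/4) sq N`, `k = Kr r`, `‖u‖ = 1`, `N u = 0`,
`J D (y, A) = (m, (ten w u + N, ten u u))` with `(m, w) = D (y, (r, u))`; `∞` for the other `A`.
-/

open CategoryTheory MonoidalCategory Filter Topology OnePoint
open Vale.Agent.P251.G Vale.Agent.P251.G.LC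

namespace Vale.Agent.P263.KJ

variable {V : Type} [NormedAddCommGroup V] [InnerProductSpace ℝ V] [FiniteDimensional ℝ V]
variable {Y Z : LC}

section hP

/-- the antipode on `EN V` -/
def negEN (e : EN V) : EN V := ⟨(-e.1.1, e.1.2), by
  change e.1.2 ((-e.1.1 : SV V) : V) = 0
  rw [coe_neg_sphere, map_neg, e.2, neg_zero]⟩

/-- `(y, (r, e)) ↦ ((y, (r, u)), e)` -/
noncomputable def a1 (Y : LC) (V : Type) [NormedAddCommGroup V] [InnerProductSpace ℝ V]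
    [FiniteDimensional ℝ V] :
    LC.of (Y × (ℝ × EN V)) ⟶ LC.of ((Y × (ℝ × SV V)) × EN V) :=
  ofClosed (X := LC.of (Y × (ℝ × EN V))) (Y := LC.of ((Y × (ℝ × SV V)) × EN V))
    (fun p : Y × (ℝ × EN V) => ((p.1, (p.2.1, p.2.2.1.1)), p.2.2))
    (Function.LeftInverse.isClosedEmbedding
      (f := fun q : (Y × (ℝ × SV V)) × EN V => (q.1.1, (q.1.2.1, q.2)))
      (fun _ => rfl) (by fun_prop) (by fun_prop))

/-- `((m, w), e) ↦ (m, (ten w u + N, u))` -/
noncomputable def a3 (Z : LC) (V : Type) [NormedAddCommGroup V] [InnerProductSpace ℝ V]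
    [FiniteDimensional ℝ V] :
    LC.of ((Z × V) × EN V) ⟶ LC.of (Z × ((V →L[ℝ] V) × SV V)) :=
  ofClosed (X := LC.of ((Z × V) × EN V)) (Y := LC.of (Z × ((V →L[ℝ] V) × SV V)))
    (fun p : (Z × V) × EN V => (p.1.1, (ten p.1.2 (p.2.1.1 : V) + p.2.1.2, p.2.1.1)))
    (Function.LeftInverse.isClosedEmbedding
      (f := fun q : Z × ((V →L[ℝ] V) × SV V) =>
        (((q.1, q.2.1 (q.2.2 : V)), ⟨(q.2.2, q.2.1 - ten (q.2.1 (q.2.2 : V)) (q.2.2 : V)), by
          change (q.2.1 - ten (q.2.1 (q.2.2 : V)) (q.2.2 : V)) (q.2.2 : V) = 0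
          rw [_root_.sub_apply, ten_self (norm_SV q.2.2), sub_self]⟩) :
          (Z × V) × EN V))
      (by
        rintro ⟨⟨m, w⟩, ⟨⟨u, N⟩, hN⟩⟩
        change N (u : V) = 0 at hN
        have h1 : (ten w (u : V) + N) (u : V) = w := by
          rw [_root_.add_apply, ten_self (norm_SV u), hN, add_zero]
        apply Prod.ext
        · exact Prod.ext rfl h1
        · apply Subtype.ext
          refine Prod.ext rfl ?_
          change ten w (u : V) + N - ten ((ten w (u : V) + N) (u : V)) (u : V) = N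
          rw [h1, add_sub_cancel_left])
      (by
        refine Continuous.prodMk (by fun_prop) (Continuous.subtype_mk ?_ _)
        have h : Continuous fun q : Z × ((V →L[ℝ] V) × SV V) =>
            ten (q.2.1 (q.2.2 : V)) (q.2.2 : V) := Continuous.ten (by fun_prop) (by fun_prop)
        exact Continuous.prodMk (by fun_prop) (Continuous.sub (by fun_prop) h))
      (by
        have h : Continuous fun p : (Z × V) × EN V => ten p.1.2 (p.2.1.1 : V) :=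
          Continuous.ten (by fun_prop) (by fun_prop)
        exact Continuous.prodMk (by fun_prop) (Continuous.prodMk (h.add (by fun_prop))
          (by fun_prop))))

/-- `J` upstairs -/
noncomputable def hP (D : LC.of (Y × (ℝ × SV V)) ⟶ LC.of (Z × V)) :
    LC.of (Y × (ℝ × EN V)) ⟶ LC.of (Z × ((V →L[ℝ] V) × PV V)) :=
  a1 Y V ≫ tensorHom' D (𝟙 (LC.of (EN V))) ≫ a3 Z V ≫
    tensorHom' (𝟙 Z) (tensorHom' (𝟙 (LC.of (V →L[ℝ] V))) (piPm V))

/-- the last step of `J` -/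
noncomputable def finP (Z : LC) (e : EN V) :
    OnePoint (Z × V) → OnePoint (Z × ((V →L[ℝ] V) × PV V)) :=
  OnePoint.map fun p => (p.1, (ten p.2 (e.1.1 : V) + e.1.2, piP V e.1.1))

theorem app_hP (D : LC.of (Y × (ℝ × SV V)) ⟶ LC.of (Z × V)) (y : Y) (r : ℝ) (e : EN V) :
    app (hP D) (((y, (r, e)) : Y × (ℝ × EN V)) : OnePoint (Y × (ℝ × EN V))) =
      finP Z e (app D (((y, (r, e.1.1)) : Y × (ℝ × SV V)) : OnePoint (Y × (ℝ × SV V)))) := by
  change app (tensorHom' (𝟙 Z) (tensorHom' (𝟙 (LC.of (V →L[ℝ] V))) (piPm V)))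
    (app (a3 Z V) (smash (app D (((y, (r, e.1.1)) : Y × (ℝ × SV V)) :
      OnePoint (Y × (ℝ × SV V)))) (e : OnePoint (EN V)))) = _
  generalize app D _ = d
  induction d using OnePoint.rec with
  | infty => rw [smash_infty_left, app_infty, app_infty]; rfl
  | coe d => rfl

omit [FiniteDimensional ℝ V] in
theorem finP_neg (e : EN V) (d : OnePoint (Z × V)) :
    finP Z (negEN e) (OnePoint.map (fun p : Z × V => (p.1, -p.2)) d) = finP Z e d := by
  induction d using OnePoint.rec with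
  | infty => rfl
  | coe d =>
    change ((((d.1, (ten (-d.2) ((-e.1.1 : SV V) : V) + e.1.2, piP V (-e.1.1))) :
      Z × ((V →L[ℝ] V) × PV V))) : OnePoint (Z × ((V →L[ℝ] V) × PV V))) =
      (((d.1, (ten d.2 (e.1.1 : V) + e.1.2, piP V e.1.1)) : Z × ((V →L[ℝ] V) × PV V)) :
        OnePoint (Z × ((V →L[ℝ] V) × PV V)))
    rw [coe_neg_sphere, ten_neg_neg, piP_neg]

/-- the tube of `J` -/
noncomputable def qP (Y : LC) (p : Y × (ℝ × EN V)) : Y × (V →L[ℝ] V) :=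
  (p.1, Kr p.2.1 • ten (p.2.2.1.1 : V) (p.2.2.1.1 : V) + (Kr p.2.1 / 4) • sq p.2.2.1.2)

omit [FiniteDimensional ℝ V] in
theorem continuous_qP : Continuous (qP (V := V) Y) := by
  unfold qP
  have h1 : Continuous fun p : Y × (ℝ × EN V) => ten (p.2.2.1.1 : V) (p.2.2.1.1 : V) :=
    Continuous.ten (by fun_prop) (by fun_prop)
  have h2 : Continuous fun p : Y × (ℝ × EN V) => sq p.2.2.1.2 := continuous_sq.comp (by fun_prop)
  have h3 : Continuous fun p : Y × (ℝ × EN V) => Kr p.2.1 := continuous_Kr.comp (by fun_prop)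
  exact Continuous.prodMk (by fun_prop) ((h3.smul h1).add ((h3.div_const _).smul h2))

section mkEN

/-- an element of `EN V` from arbitrary data -/
noncomputable def mkEN (u₀ : SV V) (u : V) (M : V →L[ℝ] V) : EN V :=
  ⟨(nz u₀ u, M - ten (M (nz u₀ u : V)) (nz u₀ u : V)), by
    change (M - ten (M (nz u₀ u : V)) (nz u₀ u : V)) (nz u₀ u : V) = 0
    rw [_root_.sub_apply, ten_self (norm_SV _), sub_self]⟩

omit [FiniteDimensional ℝ V] in
theorem mkEN_of (u₀ u : SV V) {M : V →L[ℝ] V} (h : M (u : V) = 0) :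
    mkEN u₀ (u : V) M = ⟨(u, M), h⟩ := by
  apply Subtype.ext
  change (nz u₀ (u : V), M - ten (M (nz u₀ (u : V) : V)) (nz u₀ (u : V) : V)) = (u, M)
  rw [nz_self, h, ten_zero, sub_zero]

omit [FiniteDimensional ℝ V] in
theorem continuousAt_mkEN {α : Type*} [TopologicalSpace α] (u₀ : SV V) {f : α → V}
    {g : α → V →L[ℝ] V} {a : α} (hf : ContinuousAt f a) (hg : ContinuousAt g a)
    (h : f a ≠ 0) : ContinuousAt (fun a => mkEN u₀ (f a) (g a)) a := by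
  refine Topology.IsInducing.subtypeVal.continuousAt_iff.2 ?_
  have h1 : ContinuousAt (fun a => nz u₀ (f a)) a := ContinuousAt.comp (continuousAt_nz u₀ h) hf
  have h2 : ContinuousAt (fun a => (nz u₀ (f a) : V)) a :=
    continuous_subtype_val.continuousAt.comp h1
  have h3 : ContinuousAt (fun a => g a (nz u₀ (f a) : V)) a := hg.clm_apply h2
  have h4 : ContinuousAt (fun a => ten (g a (nz u₀ (f a) : V)) (nz u₀ (f a) : V)) a := by
    have hc : Continuous fun p : V × V => ten p.1 p.2 :=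
      Continuous.ten continuous_fst continuous_snd
    exact ContinuousAt.comp (g := fun p : V × V => ten p.1 p.2) hc.continuousAt (h3.prodMk h2)
  exact h1.prodMk (hg.sub h4)

end mkEN

omit [FiniteDimensional ℝ V] in
theorem norm_tube (k : ℝ) (hk : 0 < k) (N : V →L[ℝ] V) : ‖(k / 4) • sq N‖ < k / 4 := by
  rw [norm_smul, Real.norm_of_nonneg (by positivity)]
  have := norm_sq_lt N
  nlinarith

theorem isOpenMap_qP : IsOpenMap (qP (V := V) Y) := by
  refine IsOpenMap.of_nhds_le ?_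
  rintro ⟨y₀, r₀, e₀⟩ U hU
  have hU' : qP Y ⁻¹' U ∈ 𝓝 (y₀, (r₀, e₀)) := hU
  obtain ⟨⟨u₀, N₀⟩, hN₀⟩ := e₀
  change N₀ (u₀ : V) = 0 at hN₀
  set k₀ := Kr r₀ with hk₀
  have hk₀p : 0 < k₀ := Kr_pos r₀
  set N₁ : V →L[ℝ] V := (k₀ / 4) • sq N₀ with hN₁
  have hN₁u : N₁ (u₀ : V) = 0 := by
    rw [hN₁, sq, _root_.smul_apply, _root_.smul_apply, hN₀, smul_zero, smul_zero]
  have hu₀ : (u₀ : V) ≠ 0 := by
    rw [← norm_pos_iff, norm_SV]; exact one_pos
  let G : Y × (ℝ × V × (V →L[ℝ] V) × V) → Y × (ℝ × EN V) := fun a =>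
    (a.1, (Ki a.2.1, mkEN u₀ a.2.2.1 (usq ((4 / a.2.1) • a.2.2.2.1))))
  have hval : (4 / k₀) • N₁ = sq N₀ := by
    rw [hN₁, smul_smul]
    have : 4 / k₀ * (k₀ / 4) = 1 := by field_simp
    rw [this, one_smul]
  have hG0 : G (y₀, (k₀, (u₀ : V), N₁, 0)) = (y₀, (r₀, ⟨(u₀, N₀), hN₀⟩)) := by
    change (y₀, (Ki k₀, mkEN u₀ (u₀ : V) (usq ((4 / k₀) • N₁)))) = _
    rw [hval, usq_sq, mkEN_of u₀ u₀ hN₀, hk₀, Ki_Kr]
  have hGc : ContinuousAt G (y₀, (k₀, (u₀ : V), N₁, 0)) := by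
    have c1 : ContinuousAt (fun a : Y × (ℝ × V × (V →L[ℝ] V) × V) => Ki a.2.1)
        (y₀, (k₀, (u₀ : V), N₁, 0)) :=
      ContinuousAt.comp (g := Ki) (continuousAt_Ki hk₀p.ne') (by fun_prop)
    have c2a : ContinuousAt (fun a : Y × (ℝ × V × (V →L[ℝ] V) × V) => 4 / a.2.1)
        (y₀, (k₀, (u₀ : V), N₁, 0)) := by
      refine ContinuousAt.div continuousAt_const (by fun_prop) ?_
      exact hk₀p.ne'
    have c2 : ContinuousAt (fun a : Y × (ℝ × V × (V →L[ℝ] V) × V) =>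
        (4 / a.2.1) • a.2.2.2.1) (y₀, (k₀, (u₀ : V), N₁, 0)) := c2a.smul (by fun_prop)
    have c3 : ContinuousAt (fun a : Y × (ℝ × V × (V →L[ℝ] V) × V) =>
        usq ((4 / a.2.1) • a.2.2.2.1)) (y₀, (k₀, (u₀ : V), N₁, 0)) := by
      refine ContinuousAt.comp (g := usq) ?_ c2
      change ContinuousAt usq ((4 / k₀) • N₁)
      rw [hval]
      exact continuousAt_usq (norm_sq_lt N₀)
    exact ContinuousAt.prodMk (by fun_prop) (c1.prodMk
      (continuousAt_mkEN u₀ (by fun_prop) c3 hu₀))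
  have h1 : G ⁻¹' (qP Y ⁻¹' U) ∈ 𝓝 (y₀, (k₀, (u₀ : V), N₁, 0)) := by
    apply hGc
    rw [hG0]
    exact hU'
  rw [nhds_prod_eq, mem_prod_iff] at h1
  obtain ⟨T, hT, S, hS, hTS⟩ := h1
  have hS' : S ∩ {a : ℝ × V × (V →L[ℝ] V) × V | ‖a.2.2.1‖ < a.1 / 4} ∈
      𝓝 (k₀, (u₀ : V), N₁, (0 : V)) := by
    refine inter_mem hS (IsOpen.mem_nhds (isOpen_lt (by fun_prop) (by fun_prop)) ?_)
    exact norm_tube k₀ hk₀p N₀
  have h2 := rot_surj (t₀ := 0) (x₀ := 0) le_rfl zero_le_one hk₀p (norm_SV u₀) hN₁u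
    (by simpa using norm_tube k₀ hk₀p N₀) hS'
  have h3 : Tendsto (fun A : V →L[ℝ] V => ((0 : ℝ), A, tz 0 k₀ (u₀ : V) 0))
      (𝓝 (tA 0 k₀ (u₀ : V) 0 N₁)) (𝓝 (0, tA 0 k₀ (u₀ : V) 0 N₁, tz 0 k₀ (u₀ : V) 0)) := by
    refine Continuous.tendsto' (by fun_prop) _ _ rfl
  have h4 := h3.eventually h2
  have h5 : tA 0 k₀ (u₀ : V) 0 N₁ = (qP Y (y₀, (r₀, ⟨(u₀, N₀), hN₀⟩))).2 := by
    change _ = Kr r₀ • ten (u₀ : V) (u₀ : V) + (Kr r₀ / 4) • sq N₀
    simp [tA, hN₁, hk₀]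
  rw [h5] at h4
  have h6 : ∀ᶠ b : Y × (V →L[ℝ] V) in 𝓝 (qP Y (y₀, (r₀, ⟨(u₀, N₀), hN₀⟩))),
      b.1 ∈ T ∧ (0 ≤ (0 : ℝ) → (0 : ℝ) ≤ 1 → ∃ k u N x,
        (k, u, N, x) ∈ S ∩ {a : ℝ × V × (V →L[ℝ] V) × V | ‖a.2.2.1‖ < a.1 / 4} ∧ 0 < k ∧
        ‖u‖ = 1 ∧ N u = 0 ∧ b.2 = tA 0 k u x N ∧ tz 0 k₀ (u₀ : V) 0 = tz 0 k u x) := by
    refine Filter.Eventually.and ?_ ?_
    · exact continuous_fst.continuousAt.eventually hT
    · exact continuous_snd.continuousAt.eventually h4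
  filter_upwards [h6] with b hb
  obtain ⟨hbT, hb2⟩ := hb
  obtain ⟨k, u, N, x, ⟨hmem, hlt⟩, hk, hu, hNu, hA, -⟩ := hb2 le_rfl zero_le_one
  have h7 : (b.1, (k, u, N, x)) ∈ G ⁻¹' (qP Y ⁻¹' U) := hTS ⟨hbT, hmem⟩
  have h8 : qP Y (G (b.1, (k, u, N, x))) ∈ U := h7
  have h9 : qP Y (G (b.1, (k, u, N, x))) = b := by
    have hM : ((usq ((4 / k) • N) : V →L[ℝ] V)) u = 0 := by
      rw [usq, _root_.smul_apply, _root_.smul_apply, hNu, smul_zero, smul_zero]
    have e1 : mkEN u₀ u (usq ((4 / k) • N)) = ⟨(⟨u, by simpa using hu⟩, usq ((4 / k) • N)), hM⟩ :=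
      mkEN_of u₀ ⟨u, by simpa using hu⟩ hM
    have hlt' : ‖(4 / k) • N‖ < 1 := by
      change ‖N‖ < k / 4 at hlt
      rw [norm_smul, Real.norm_of_nonneg (by positivity), div_mul_eq_mul_div, div_lt_one hk]
      linarith
    apply Prod.ext
    · rfl
    · change Kr (Ki k) • ten ((mkEN u₀ u (usq ((4 / k) • N))).1.1 : V)
        ((mkEN u₀ u (usq ((4 / k) • N))).1.1 : V) +
        (Kr (Ki k) / 4) • sq (mkEN u₀ u (usq ((4 / k) • N))).1.2 = b.2
      rw [e1, Kr_Ki hk]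
      change k • ten u u + (k / 4) • sq (usq ((4 / k) • N)) = b.2
      rw [sq_usq hlt', smul_smul, hA]
      have : k / 4 * (4 / k) = 1 := by field_simp
      rw [this, one_smul]
      simp [tA]
  rwa [h9] at h8

omit [FiniteDimensional ℝ V] in
theorem qP_eq {p p' : Y × (ℝ × EN V)} (h : qP Y p = qP Y p') :
    p' = p ∨ p' = (p.1, (p.2.1, negEN p.2.2)) := by
  obtain ⟨y, r, ⟨⟨u, N⟩, hN⟩⟩ := p
  obtain ⟨y', r', ⟨⟨u', N'⟩, hN'⟩⟩ := p'
  change N (u : V) = 0 at hN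
  change N' (u' : V) = 0 at hN'
  have hy : y = y' := congrArg Prod.fst h
  have hA : Kr r • ten (u : V) (u : V) + (Kr r / 4) • sq N =
    Kr r' • ten (u' : V) (u' : V) + (Kr r' / 4) • sq N' := congrArg Prod.snd h
  obtain ⟨h1, h2, h3⟩ := tube_inj (Kr_pos r) (norm_SV u)
    (by rw [sq, _root_.smul_apply, _root_.smul_apply, hN, smul_zero, smul_zero])
    (norm_tube _ (Kr_pos r) N) (Kr_pos r') (norm_SV u')
    (by rw [sq, _root_.smul_apply, _root_.smul_apply, hN', smul_zero, smul_zero])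
    (norm_tube _ (Kr_pos r') N') hA
  have hr : r' = r := by
    have := congrArg Ki h2
    rw [Ki_Kr, Ki_Kr] at this
    exact this.symm
  subst hr
  have h4 : N' = N := by
    have hk := Kr_pos r'
    have h5 : sq N = sq N' := smul_right_injective _ (by positivity : Kr r' / 4 ≠ 0) h3
    have := congrArg usq h5
    rw [usq_sq, usq_sq] at this
    exact this.symm
  subst h4
  subst hy
  rcases h1 with h1 | h1
  · left
    have : u' = u := Subtype.ext h1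
    subst this
    rfl
  · right
    have : u' = -u := Subtype.ext (by rw [h1, coe_neg_sphere])
    subst this
    rfl

theorem hP_const {D : LC.of (Y × (ℝ × SV V)) ⟶ LC.of (Z × V)} (hD : Equi D)
    (p p' : Y × (ℝ × EN V)) (h : qP Y p = qP Y p') :
    app (hP D) (p : OnePoint (Y × (ℝ × EN V))) = app (hP D) (p' : OnePoint (Y × (ℝ × EN V))) := by
  rcases qP_eq h with h | h
  · rw [h]
  · rw [h]
    obtain ⟨y, r, e⟩ := p
    change app (hP D) (((y, (r, e)) : Y × (ℝ × EN V)) : OnePoint (Y × (ℝ × EN V))) =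
      app (hP D) (((y, (r, negEN e)) : Y × (ℝ × EN V)) : OnePoint (Y × (ℝ × EN V)))
    rw [app_hP, app_hP]
    change _ = finP Z (negEN e) (app D (((y, (r, -e.1.1)) : Y × (ℝ × SV V)) :
      OnePoint (Y × (ℝ × SV V))))
    rw [hD, finP_neg]

/-- THE LITERAL `J` -/
noncomputable def J (D : LC.of (Y × (ℝ × SV V)) ⟶ LC.of (Z × V)) (hD : Equi D) :
    LC.of (Y × (V →L[ℝ] V)) ⟶ LC.of (Z × ((V →L[ℝ] V) × PV V)) :=
  desc (E := LC.of (Y × (ℝ × EN V))) (B := LC.of (Y × (V →L[ℝ] V)))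
    (C := LC.of (Z × ((V →L[ℝ] V) × PV V))) (qP Y) continuous_qP isOpenMap_qP (hP D) (hP_const hD)

theorem app_J {D : LC.of (Y × (ℝ × SV V)) ⟶ LC.of (Z × V)} (hD : Equi D) (y : Y) (r : ℝ)
    (e : EN V) :
    app (J D hD) ((qP Y (y, (r, e)) : Y × (V →L[ℝ] V)) : OnePoint (Y × (V →L[ℝ] V))) =
      finP Z e (app D (((y, (r, e.1.1)) : Y × (ℝ × SV V)) : OnePoint (Y × (ℝ × SV V)))) := by
  rw [← app_hP]
  exact app_desc_coe (E := LC.of (Y × (ℝ × EN V))) (B := LC.of (Y × (V →L[ℝ] V)))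
    (C := LC.of (Z × ((V →L[ℝ] V) × PV V))) (qP Y) continuous_qP isOpenMap_qP (hP D)
    (hP_const hD) (y, (r, e))

theorem app_J_of_notMem {D : LC.of (Y × (ℝ × SV V)) ⟶ LC.of (Z × V)} (hD : Equi D)
    {b : Y × (V →L[ℝ] V)} (h : b ∉ Set.range (qP (V := V) Y)) :
    app (J D hD) (b : OnePoint (Y × (V →L[ℝ] V))) = ∞ :=
  app_desc_of_notMem (E := LC.of (Y × (ℝ × EN V))) (B := LC.of (Y × (V →L[ℝ] V)))
    (C := LC.of (Z × ((V →L[ℝ] V) × PV V))) (qP Y) continuous_qP isOpenMap_qP (hP D)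
    (hP_const hD) h

end hP

end Vale.Agent.P263.KJ
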