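import Vale.Agent.P263.KJ.JFam
import Vale.Agent.P263.G2.CollDeg
import Vale.Agent.P263.GB.Plus

/-!
# P263, block KJ: the loops of boxes, with a fixed loop in the right half

* `collOm r b : Om r` : the collapse onto `b`; `Loops.box r` : labels `some c ↦` the collapse, `none ↦`
  the constant loop; `jn_box` : the join of the sheets over a configuration is `J (alphaOm S)`;
* `sqz c b` : the box squeezed into the part `(0, c)` of the coordinate `0`;
* `Loops.boxR c R` : `some b ↦` the collapse onto `sqz c b`, `none ↦ R` in the part `(c, 1)`;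
  `jn_boxR` : the join of the sheets over a configuration and `none` is
  `J (plus c R (alphaOm S))`.
-/

open Filter Topology OnePoint
open Vale.Agent.P263.S Vale.Agent.P263.E Vale.Agent.P263.TJ
open Vale.Agent.P263.G2

namespace Vale.Agent.P263.KJ

set_option linter.unusedSectionVars false

/-! ### joins -/

theorem join_eq_of_mem {Y : Type} {A : Set (OnePoint Y)} (hA : G2.Sub A) {y : OnePoint Y}
    (h1 : y ≠ ∞ → y ∈ A) (h2 : y = ∞ → ∀ z ∈ A, z = ∞) : G2.join A = y := by
  by_cases h : y = ∞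
  · rw [h]
    exact join_of_forall (h2 h)
  · exact join_of_mem hA (h1 h) h

theorem join_cases {Y : Type} {A : Set (OnePoint Y)} (hA : G2.Sub A) :
    (G2.join A = ∞ ∧ ∀ z ∈ A, z = ∞) ∨ G2.join A ∈ A := by
  by_cases h : ∀ z ∈ A, z = ∞
  · exact Or.inl ⟨join_of_forall h, h⟩
  · push Not at h
    obtain ⟨z, hz, h⟩ := h
    right
    rw [join_of_mem hA hz h]
    exact hz

/-! ### boxes -/

variable {r p : ℕ}

/-- the collapse onto a box -/
noncomputable def collOm (r : ℕ) (b : Bx) : T0.Om r :=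
  ⟨⟨collB r b, (continuous_collB r).comp (continuous_const.prodMk continuous_id)⟩, rfl⟩

theorem collOm_apply (r : ℕ) (b : Bx) (x : T0.Sph r) : collOm r b x = collB r b x := rfl

theorem continuous_collOm (r : ℕ) : Continuous (collOm r) :=
  Continuous.subtype_mk (ContinuousMap.continuous_of_continuous_uncurry _ (continuous_collB r)) _

/-- the collapse onto a family of boxes -/
noncomputable def collC {p : ℕ} (r : ℕ) (c : C(G2.Dl p, Bx)) : C(G2.Dl p, T0.Om r) :=
  ⟨fun t => collOm r (c t), (continuous_collOm r).comp c.continuous⟩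

/-- the loops of the boxes, `none` is the constant loop -/
noncomputable def Loops.box (r : ℕ) : Loops r where
  lp {p} a := a.elim (ContinuousMap.const _ (T0.Om.const r)) (collC r)
  lp_pull f a := by cases a <;> rfl
  disj {p a b} hab hst t v := by
    cases a with
    | none => exact Or.inl rfl
    | some a =>
      cases b with
      | none => exact Or.inr rfl
      | some b => exact collB_disj (hst a (Or.inl rfl) t) (hst b (Or.inr rfl) t) (hab t) v

@[simp] theorem Loops.box_some {p : ℕ} (c : C(G2.Dl p, Bx)) (t : G2.Dl p) (v : T0.Sph r) :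
    (Loops.box r).lp (Option.some c) t v = collB r (c t) v := rfl

theorem sub_bsS (S : Conf Unit (G2.Dl p)) (hS : S.IsSt r) (t : G2.Dl p) (v : T0.Sph r) :
    G2.Sub ((fun x : C(G2.Dl p, Bx) × Unit => collB r (x.1 t) v) '' (S.pts : Set _)) := by
  rintro _ ⟨x, hx, rfl⟩ _ ⟨y, hy, rfl⟩ h1 h2
  by_cases hxy : x = y
  · rw [hxy]
  · rcases collB_disj (hS x hx t) (hS y hy t) (S.disj x hx y hy hxy t) v with h | h
    · exact absurd h h1
    · exact absurd h h2

theorem image_bsS (S : Conf Unit (G2.Dl p)) (t : G2.Dl p) (v : T0.Sph r) :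
    (fun a => (Loops.box r).lp a t v) '' (bsS S : Set (OB p)) =
      (fun x : C(G2.Dl p, Bx) × Unit => collB r (x.1 t) v) '' (S.pts : Set _) := by
  ext y
  constructor
  · rintro ⟨a, ha, rfl⟩
    cases a with
    | none => exact absurd ha (none_notMem_bsS S)
    | some c => exact ⟨(c, ()), some_mem_bsS.1 (Finset.mem_coe.1 ha), rfl⟩
  · rintro ⟨x, hx, rfl⟩
    exact ⟨Option.some x.1, Finset.mem_coe.2 (some_mem_bsS.2 hx), rfl⟩

/-- the union of the boxes -/
theorem alphaOm_box {S : Conf Unit (G2.Dl p)} (hS : S.IsSt r) (t : G2.Dl p) (v : T0.Sph r) :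
    alphaOm r S hS t v = G2.join ((fun a => (Loops.box r).lp a t v) '' (bsS S : Set (OB p))) := by
  rw [image_bsS]
  exact alphaOm_eq_join r S hS t v

theorem omV_join {p : ℕ} {ℓ : Loops r} {B : Finset (OB p)} (hB : PD B)
    (hst : ∀ c : C(G2.Dl p, Bx), Option.some c ∈ B → ∀ t, Bx.St r (c t)) {t : G2.Dl p} {g : T0.Om r}
    (h : ∀ v, g v = G2.join ((fun a => ℓ.lp a t v) '' (B : Set (OB p)))) (v : OnePoint (VE r)) :
    omV g v = G2.join ((fun a => omV (ℓ.lp a t) v) '' (B : Set (OB p))) := by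
  have hs : G2.Sub ((fun a => ℓ.lp a t (OnePoint.map (eVH r) v)) '' (B : Set (OB p))) := by
    rintro _ ⟨a, ha, rfl⟩ _ ⟨b, hb, rfl⟩ h1 h2
    by_cases hab : a = b
    · rw [hab]
    · rcases ℓ.disj (hB a ha b hb hab) (fun c hc => by
        rcases hc with hc | hc
        · exact hst c (hc ▸ ha)
        · exact hst c (hc ▸ hb)) t (OnePoint.map (eVH r) v) with h | h
      · exact absurd h h1
      · exact absurd h h2
  unfold omV
  rw [h, ← join_image hs (OnePoint.map (eVH r).symm) (OnePoint.map_infty _), Set.image_image]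

/-- **The join of the sheets over a configuration.** -/
theorem jn_box {S : Shts (lab2 r).L (VE r × WE r) (VE r × (WE r × PV (VE r)))}
    (hS : (Loops.box r).Start S) {n p : ℕ} (x : (FT r n).obj p) (t : G2.Dl p)
    (z : OnePoint (VE r × WE r)) :
    (BIdx.bS r n).idx.jn S x t z = jj (alphaOm r x.1 x.2.1 t) z :=
  (BIdx.bS r n).jn_eq (Loops.box r) hS
    (omV_join ((BIdx.bS r n).pd x) ((BIdx.bS r n).st x) (alphaOm_box x.2.1 t)) z

/-! ### squeezed boxes -/

/-- the interval squeezed into `(0, c)` -/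
noncomputable def sqI (c : GB.Cut) (i : Iv) : Iv :=
  ⟨(c.1 * i.lo, c.1 * i.hi), mul_nonneg c.2.1.le i.lo_nonneg,
    mul_lt_mul_of_pos_left i.lo_lt_hi c.2.1,
    (mul_le_mul_of_nonneg_left i.hi_le_one c.2.1.le).trans (by
      rw [mul_one]; exact c.2.2.le)⟩

@[simp] theorem sqI_lo (c : GB.Cut) (i : Iv) : (sqI c i).lo = c.1 * i.lo := rfl

@[simp] theorem sqI_hi (c : GB.Cut) (i : Iv) : (sqI c i).hi = c.1 * i.hi := rfl

theorem continuous_sqI (c : GB.Cut) : Continuous (sqI c) := by
  rw [Iv.continuous_iff]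
  exact ⟨continuous_const.mul Iv.continuous_lo, continuous_const.mul Iv.continuous_hi⟩

/-- the box squeezed into the part `(0, c)` of the coordinate `0` -/
noncomputable def sqz (c : GB.Cut) (b : Bx) : Bx := Function.update b 0 (sqI c (b 0))

theorem sqz_zero (c : GB.Cut) (b : Bx) : sqz c b 0 = sqI c (b 0) := Function.update_self _ _ _

theorem sqz_of_ne (c : GB.Cut) (b : Bx) {i : ℕ} (hi : i ≠ 0) : sqz c b i = b i :=
  Function.update_of_ne hi _ _

theorem continuous_sqz (c : GB.Cut) : Continuous (sqz c) :=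
  continuous_id.update 0 ((continuous_sqI c).comp (continuous_apply 0))

theorem St.sqz {c : GB.Cut} {b : Bx} (h : Bx.St (r + 1) b) : Bx.St (r + 1) (sqz c b) := by
  intro i hi
  rw [sqz_of_ne c b (by omega)]
  exact h i hi

theorem Disj.sqz {c : GB.Cut} {b b' : Bx} (h : Bx.Disj b b') : Bx.Disj (sqz c b) (sqz c b') := by
  obtain ⟨i, hi⟩ := h
  refine ⟨i, ?_⟩
  by_cases h0 : i = 0
  · subst h0
    rw [sqz_zero, sqz_zero, sqI_lo, sqI_lo, sqI_hi, sqI_hi]
    exact hi.imp (fun h => mul_le_mul_of_nonneg_left h c.2.1.le)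
      fun h => mul_le_mul_of_nonneg_left h c.2.1.le
  · rw [sqz_of_ne c b h0, sqz_of_ne c b' h0]
    exact hi

/-- the collapse onto a squeezed box -/
theorem collB_sqz (c : GB.Cut) (b : Bx) (x : T0.Sph (r + 1)) :
    collB (r + 1) (sqz c b) x = collB (r + 1) b (GB.act (GB.rho 0 c.1) x) := by
  obtain ⟨v, rfl⟩ := tup_surjective x
  rw [GB.act_tup (GB.rho_infty _ _), collB, collB, coll_tup, coll_tup]
  congr 1
  funext i
  by_cases hi : i = 0
  · subst hi
    rw [Function.update_self]
    have h0 : ((0 : Fin (r + 1)) : ℕ) = 0 := rfl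
    rw [h0, sqz_zero, sqI_lo, sqI_hi, GB.rho_rho (b 0).lo_nonneg (b 0).lo_lt_hi (b 0).hi_le_one
      le_rfl c.2.1 c.2.2.le]
    simp only [sub_zero, zero_add]
  · rw [Function.update_of_ne hi]
    have h0 : (i : ℕ) ≠ 0 := fun h => hi (Fin.ext h)
    rw [sqz_of_ne c b h0]

/-- the squeezed family -/
noncomputable def sqzC (c : GB.Cut) {p : ℕ} (b : C(G2.Dl p, Bx)) : C(G2.Dl p, Bx) :=
  ⟨fun t => sqz c (b t), (continuous_sqz c).comp b.continuous⟩

/-- the loops of the squeezed boxes, `none` is the loop `R` in the part `(c, 1)` -/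
noncomputable def Loops.boxR (c : GB.Cut) (R : T0.Om (r + 1)) : Loops (r + 1) where
  lp {p} a := a.elim (ContinuousMap.const _ (GB.plus c R (T0.Om.const (r + 1))))
    fun b => collC (r + 1) (sqzC c b)
  lp_pull f a := by cases a <;> rfl
  disj {p a b} hab hst t v := by
    have key : ∀ b : C(G2.Dl p, Bx), collB (r + 1) (sqz c (b t)) v = ∞ ∨
        GB.plus c R (T0.Om.const (r + 1)) v = ∞ := by
      intro b
      have h1 : GB.plus c R (T0.Om.const (r + 1)) v =
          R (GB.act (GB.rho c.1 1) v) := by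
        refine (GB.plus_apply c R (T0.Om.const (r + 1)) v).trans ?_
        exact GB.ws_infty_left _
      rw [h1, collB_sqz]
      rcases (GB.dj_cut c).act v with h | h
      · left; rw [h]; rfl
      · right; rw [h]; exact R.2
    cases a with
    | none =>
      cases b with
      | none => exact absurd hab id
      | some b => exact (key b).symm
    | some a =>
      cases b with
      | none => exact key a
      | some b =>
        exact collB_disj (St.sqz (hst a (Or.inl rfl) t)) (St.sqz (hst b (Or.inr rfl) t))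
          (Disj.sqz (hab t)) v

theorem Loops.boxR_some {c : GB.Cut} {R : T0.Om (r + 1)} {p : ℕ} (b : C(G2.Dl p, Bx))
    (t : G2.Dl p) : (Loops.boxR c R).lp (Option.some b) t = collOm (r + 1) (sqz c (b t)) := rfl

theorem Loops.boxR_none {c : GB.Cut} {R : T0.Om (r + 1)} {p : ℕ} (t : G2.Dl p) :
    (Loops.boxR c R).lp (none : OB p) t = GB.plus c R (T0.Om.const (r + 1)) := rfl

/-- the union of the squeezed boxes and of `R` -/
theorem plus_boxR (c : GB.Cut) (R : T0.Om (r + 1)) {S : Conf Unit (G2.Dl p)}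
    (hS : S.IsSt (r + 1)) (t : G2.Dl p) (v : T0.Sph (r + 1)) :
    GB.plus c R (alphaOm (r + 1) S hS t) v =
      G2.join ((fun a => (Loops.boxR c R).lp a t v) '' (bsR S : Set (OB p))) := by
  have hst : ∀ b : C(G2.Dl p, Bx), Option.some b ∈ bsR S → ∀ t, Bx.St (r + 1) (b t) :=
    fun b hb => hS _ (some_mem_bsR.1 hb)
  have hs : G2.Sub ((fun a => (Loops.boxR c R).lp a t v) '' (bsR S : Set (OB p))) := by
    rintro _ ⟨a, ha, rfl⟩ _ ⟨b, hb, rfl⟩ h1 h2
    by_cases hab : a = b
    · rw [hab]
    · rcases (Loops.boxR c R).disj (pd_bsR S a ha b hb hab) (fun c hc => by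
        rcases hc with hc | hc
        · exact hst c (hc ▸ ha)
        · exact hst c (hc ▸ hb)) t v with h | h
      · exact absurd h h1
      · exact absurd h h2
  have e1 : GB.plus c R (alphaOm (r + 1) S hS t) v =
      GB.ws (alphaOm (r + 1) S hS t (GB.act (GB.rho 0 c.1) v)) (R (GB.act (GB.rho c.1 1) v)) := rfl
  have e2 : (Loops.boxR c R).lp (none : OB p) t v = R (GB.act (GB.rho c.1 1) v) :=
    GB.ws_infty_left _
  have e3 : ∀ b : C(G2.Dl p, Bx), (Loops.boxR c R).lp (Option.some b) t v =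
      collB (r + 1) (b t) (GB.act (GB.rho 0 c.1) v) := fun b => collB_sqz c (b t) v
  symm
  rw [e1]
  by_cases hA : alphaOm (r + 1) S hS t (GB.act (GB.rho 0 c.1) v) = ∞
  · rw [hA, GB.ws_infty_left]
    refine join_eq_of_mem hs (fun _ => ⟨none, Finset.mem_coe.2 (mem_bsR.2 (Or.inl rfl)), e2⟩)
      fun hR => ?_
    rintro _ ⟨a, ha, rfl⟩
    cases a with
    | none => exact e2.trans hR
    | some b =>
      by_contra hc
      have hc' : collB (r + 1) (b t) (GB.act (GB.rho 0 c.1) v) ≠ ∞ := by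
        rw [← e3]; exact hc
      have h1 := alphaOm_of_mem hS (some_mem_bsR.1 (Finset.mem_coe.1 ha)) hc'
      exact hc' (h1.symm.trans hA)
  · have hR : R (GB.act (GB.rho c.1 1) v) = ∞ := by
      rcases (GB.dj_cut c).act v with h | h
      · exact absurd (by rw [h]; exact (alphaOm (r + 1) S hS t).2) hA
      · rw [h]; exact R.2
    rw [hR, GB.ws_infty_right]
    refine join_eq_of_mem hs (fun _ => ?_) fun h => absurd h hA
    by_contra hc
    refine hA (alphaOm_of_forall hS fun x hx => ?_)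
    by_contra hx'
    refine hc ⟨Option.some x.1, Finset.mem_coe.2 (some_mem_bsR.2 hx), ?_⟩
    exact (e3 x.1).trans (alphaOm_of_mem hS (k := ()) hx hx').symm

/-- **The join of the sheets over a configuration and `none`.** -/
theorem jn_boxR {c : GB.Cut} {R : T0.Om (r + 1)}
    {S : Shts (lab2 (r + 1)).L (VE (r + 1) × WE (r + 1))
      (VE (r + 1) × (WE (r + 1) × PV (VE (r + 1))))}
    (hS : (Loops.boxR c R).Start S) {n p : ℕ} (x : (FT (r + 1) n).obj p) (t : G2.Dl p)
    (z : OnePoint (VE (r + 1) × WE (r + 1))) :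
    (BIdx.bR (r + 1) n).idx.jn S x t z = jj (GB.plus c R (alphaOm (r + 1) x.1 x.2.1 t)) z :=
  (BIdx.bR (r + 1) n).jn_eq (Loops.boxR c R) hS
    (omV_join ((BIdx.bR (r + 1) n).pd x) ((BIdx.bR (r + 1) n).st x) (plus_boxR c R x.2.1 t)) z

end Vale.Agent.P263.KJ
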