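import Vale.Agent.P263.KJ.Fam
import Vale.Agent.P251.G.Homotopy

/-!
# P263, block KJ: systems of sheets given pointwise

* `Shts L A Y` : natural homotopies of sheets, given by continuous maps
  `Δᵖ × (A⁺ × I) → Y⁺` for every label; `Shts.sm E`, `Shts.map eA eY` : the product with the
  identity of `E⁺`, the change of coordinates;
* `Idx X T` : the finite sets of labels over `X`;
* `Idx.fam` : the family of partial sheets `PFam`, `Idx.jn` : the join of the sheets, pointwise.
-/

open CategoryTheory MonoidalCategory Filter Topology OnePoint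
open Vale.Agent.P251.G Vale.Agent.P251.G.LC
open Vale.Agent.P263.S Vale.Agent.P263.E Vale.Agent.P263.TJ
open Vale.Agent.P263.G2 (join_of_mem join_of_forall join_image)

namespace Vale.Agent.P263.KJ

set_option linter.unusedSectionVars false

/-! ### maps over a compact parameter space -/

section param

theorem map_homeo_eq_infty {X Y : Type} [TopologicalSpace X] [TopologicalSpace Y] (e : X ≃ₜ Y)
    {x : OnePoint X} : OnePoint.map e x = ∞ ↔ x = ∞ := by
  induction x using OnePoint.rec with
  | infty => simp
  | coe x => simp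

theorem continuous_map_homeo {X Y : Type} [TopologicalSpace X] [TopologicalSpace Y]
    (e : X ≃ₜ Y) : Continuous (OnePoint.map e) :=
  OnePoint.continuous_map e.continuous e.map_coclosedCompact.le

variable {T : Type} [TopologicalSpace T] [CompactSpace T] [T2Space T]

/-- a pointed family of maps as a morphism -/
noncomputable def famLC {A Y : Type} [TopologicalSpace A] [LocallyCompactSpace A] [T2Space A]
    [TopologicalSpace Y] [LocallyCompactSpace Y] [T2Space Y] (F : C(T × OnePoint A, OnePoint Y))
    (h : ∀ t, F (t, ∞) = ∞) : LC.of (T × A) ⟶ LC.of Y :=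
  ofCompactification (X := LC.of (T × A)) (Y := LC.of Y) (K := T × OnePoint A)
    (fun p => (p.1, (p.2 : OnePoint A)))
    (IsOpenEmbedding.id.prodMap OnePoint.isOpenEmbedding_coe) (fun p => F p) F.continuous
    (by
      rintro ⟨t, v⟩ h'
      induction v using OnePoint.rec with
      | infty => exact h t
      | coe v => exact absurd ⟨(t, v), rfl⟩ h')

theorem app_famLC {A Y : Type} [TopologicalSpace A] [LocallyCompactSpace A] [T2Space A]
    [TopologicalSpace Y] [LocallyCompactSpace Y] [T2Space Y] (F : C(T × OnePoint A, OnePoint Y))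
    (h : ∀ t, F (t, ∞) = ∞) (t : T) (a : A) :
    app (famLC F h) (((t, a) : T × A) : OnePoint (T × A)) = F (t, a) := rfl

/-- evaluation of a morphism over a parameter space -/
theorem continuous_eval {V W : Type} [TopologicalSpace V] [TopologicalSpace W]
    [LocallyCompactSpace V] [T2Space V] [LocallyCompactSpace W] [T2Space W] {Y : LC}
    (G : LC.of ((T × V) × W) ⟶ Y) (f : T → OnePoint (V × W) → OnePoint Y)
    (hf : ∀ t, f t ∞ = ∞)
    (hf' : ∀ t v w, f t (((v, w) : V × W) : OnePoint (V × W)) =
      app G ((((t, v), w) : (T × V) × W) : OnePoint ((T × V) × W))) :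
    Continuous fun p : T × OnePoint (V × W) => f p.1 p.2 := by
  let G' : LC.of (T × (V × W)) ⟶ Y :=
    (ofHomeo (X := LC.of (T × (V × W))) (Y := LC.of ((T × V) × W))
      (Homeomorph.prodAssoc T V W).symm).hom ≫ G
  have h : (fun p : T × OnePoint (V × W) => f p.1 p.2) =
      fun p : T × OnePoint (V × W) => app G' (smash (p.1 : OnePoint T) p.2) := by
    funext p
    obtain ⟨t, z⟩ := p
    induction z using OnePoint.rec with
    | infty => rw [hf, smash_infty_right, app_infty]
    | coe z => exact hf' t z.1 z.2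
  rw [h]
  exact (continuous_app G').comp (continuous_smash.comp
    ((OnePoint.continuous_coe.comp continuous_fst).prodMk continuous_snd))

end param

/-! ### systems of sheets -/

/-- Natural homotopies of pointed sheets. -/
structure Shts (L : TSet) (A Y : Type) [TopologicalSpace A] [TopologicalSpace Y] where
  /-- the homotopy of the sheets -/
  v : ∀ {p : ℕ}, L.obj p → C(G2.Dl p × (OnePoint A × unitInterval), OnePoint Y)
  v_pull : ∀ {p q : ℕ} (f : C(G2.Dl p, G2.Dl q)) (s : L.obj q) (t : G2.Dl p)
    (z : OnePoint A × unitInterval), v (L.pull f s) (t, z) = v s (f t, z)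
  v_infty : ∀ {p : ℕ} (s : L.obj p) (t : G2.Dl p) (χ : unitInterval), v s (t, (∞, χ)) = ∞

namespace Shts

variable {L : TSet} {A Y : Type} [TopologicalSpace A] [TopologicalSpace Y]

/-- the sheet on simplices -/
noncomputable def val (S : Shts L A Y) {p : ℕ} (s : L.obj p) (τ : C(G2.Dl p, OnePoint A))
    (χ : C(G2.Dl p, unitInterval)) : C(G2.Dl p, OnePoint Y) :=
  ⟨fun t => S.v s (t, (τ t, χ t)), (S.v s).continuous.comp
    (continuous_id.prodMk (τ.continuous.prodMk χ.continuous))⟩

theorem val_apply (S : Shts L A Y) {p : ℕ} (s : L.obj p) (τ : C(G2.Dl p, OnePoint A))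
    (χ : C(G2.Dl p, unitInterval)) (t : G2.Dl p) : S.val s τ χ t = S.v s (t, (τ t, χ t)) := rfl

theorem val_pull (S : Shts L A Y) {p q : ℕ} (f : C(G2.Dl p, G2.Dl q)) (s : L.obj q)
    (τ : C(G2.Dl q, OnePoint A)) (χ : C(G2.Dl q, unitInterval)) :
    S.val (L.pull f s) (τ.comp f) (χ.comp f) = (S.val s τ χ).comp f :=
  ContinuousMap.ext fun t => S.v_pull f s t _

/-- the change of coordinates -/
noncomputable def map {A' Y' : Type} [TopologicalSpace A'] [TopologicalSpace Y'] (S : Shts L A Y)
    (eA : A' ≃ₜ A) (eY : Y ≃ₜ Y') : Shts L A' Y' where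
  v s := ⟨fun z => OnePoint.map eY (S.v s (z.1, (OnePoint.map eA z.2.1, z.2.2))),
    (continuous_map_homeo eY).comp ((S.v s).continuous.comp (continuous_fst.prodMk
      (((continuous_map_homeo eA).comp (continuous_fst.comp continuous_snd)).prodMk
        (continuous_snd.comp continuous_snd))))⟩
  v_pull f s t z := congrArg (OnePoint.map eY) (S.v_pull f s t _)
  v_infty s t χ := by
    show OnePoint.map eY (S.v s (t, (OnePoint.map eA ∞, χ))) = ∞
    rw [OnePoint.map_infty, S.v_infty, OnePoint.map_infty]

theorem map_v {A' Y' : Type} [TopologicalSpace A'] [TopologicalSpace Y'] (S : Shts L A Y)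
    (eA : A' ≃ₜ A) (eY : Y ≃ₜ Y') {p : ℕ} (s : L.obj p) (t : G2.Dl p) (z : OnePoint A')
    (χ : unitInterval) : (S.map eA eY).v s (t, (z, χ)) =
      OnePoint.map eY (S.v s (t, (OnePoint.map eA z, χ))) := rfl

/-- the product with the identity of a space, pointwise -/
noncomputable def smv {E : Type} (f : OnePoint A → OnePoint Y) (z : OnePoint (A × E)) :
    OnePoint (Y × E) := z.elim ∞ fun z => smash (f (z.1 : OnePoint A)) (z.2 : OnePoint E)

@[simp] theorem smv_infty {E : Type} (f : OnePoint A → OnePoint Y) :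
    smv f (∞ : OnePoint (A × E)) = ∞ := rfl

theorem smv_smash {E : Type} {f : OnePoint A → OnePoint Y} (hf : f ∞ = ∞) (a : OnePoint A)
    (e : OnePoint E) : smv f (smash a e) = smash (f a) e := by
  induction a using OnePoint.rec with
  | infty => rw [smash_infty_left, smv_infty, hf, smash_infty_left]
  | coe a =>
    induction e using OnePoint.rec with
    | infty => rw [smash_infty_right, smv_infty, smash_infty_right]
    | coe e => rfl

variable [LocallyCompactSpace A] [T2Space A] [LocallyCompactSpace Y] [T2Space Y]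

/-- the product with the identity of a space -/
noncomputable def sm (S : Shts L A Y) (E : Type) [TopologicalSpace E] [LocallyCompactSpace E]
    [T2Space E] : Shts L (A × E) (Y × E) where
  v {p} s := ⟨fun z => smv (fun a => S.v s (z.1, (a, z.2.2))) z.2.1, by
    let F : C((G2.Dl p × unitInterval) × OnePoint A, OnePoint Y) :=
      ⟨fun z => S.v s (z.1.1, (z.2, z.1.2)), (S.v s).continuous.comp
        ((continuous_fst.comp continuous_fst).prodMk
          (continuous_snd.prodMk (continuous_snd.comp continuous_fst)))⟩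
    have hF : ∀ t, F (t, ∞) = ∞ := fun t => S.v_infty s t.1 t.2
    have h := continuous_eval (T := G2.Dl p × unitInterval) (V := A) (W := E)
      (Y := LC.of (Y × E)) (famLC F hF ▷ LC.of E)
      (fun t z => smv (fun a => S.v s (t.1, (a, t.2))) z) (fun _ => rfl) (fun t v w => by
        have h1 := app_whiskerRight_smash (famLC F hF) (LC.of E)
          (((t, v) : (G2.Dl p × unitInterval) × A) : OnePoint ((G2.Dl p × unitInterval) × A))
          (w : OnePoint E)
        rw [app_famLC] at h1
        exact h1.symm)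
    exact h.comp (((continuous_fst.prodMk (continuous_snd.comp continuous_snd))).prodMk
      (continuous_fst.comp continuous_snd))⟩
  v_pull f s t z := by
    have e : (fun a => S.v (L.pull f s) (t, (a, z.2))) = fun a => S.v s (f t, (a, z.2)) :=
      funext fun a => S.v_pull f s t _
    exact congrArg (fun F => smv F z.1) e
  v_infty s t χ := rfl

theorem sm_v (S : Shts L A Y) (E : Type) [TopologicalSpace E] [LocallyCompactSpace E]
    [T2Space E] {p : ℕ} (s : L.obj p) (t : G2.Dl p) (z : OnePoint (A × E)) (χ : unitInterval) :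
    (S.sm E).v s (t, (z, χ)) = smv (fun a => S.v s (t, (a, χ))) z := rfl

end Shts

/-! ### index families -/

/-- The finite sets of labels over the families of a `TSet`. -/
structure Idx (X : TSet) (T : TLab) where
  /-- the labels over a family -/
  idx : ∀ {p : ℕ}, X.obj p → Finset (T.L.obj p)
  mem_pull : ∀ {p q : ℕ} (f : C(G2.Dl p, G2.Dl q)) (x : X.obj q) (s : T.L.obj p),
    s ∈ idx (X.pull f x) ↔ ∃ s' ∈ idx x, T.L.pull f s' = s
  good : ∀ {p : ℕ} (x : X.ss.obj p), T.Good (p := p) (idx (p := p) x : Set (T.L.obj p))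

namespace Idx

variable {X : TSet} {T : TLab} {A Y : Type} [TopologicalSpace A] [TopologicalSpace Y]

/-- at time zero different sheets over the same family are not both finite -/
def Dj (I : Idx X T) (S : Shts T.L A Y) : Prop :=
  ∀ {p : ℕ} (x : X.obj p), ∀ s ∈ I.idx x, ∀ s' ∈ I.idx x, s ≠ s' →
    ∀ (t : G2.Dl p) (z : OnePoint A), S.v s (t, (z, 0)) = ∞ ∨ S.v s' (t, (z, 0)) = ∞

/-- **The family of partial sheets.** -/
noncomputable def fam (I : Idx X T) (S : Shts T.L A Y) (h : I.Dj S) :
    PFam X T (OnePoint A) Y where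
  idx := I.idx
  mem_pull := I.mem_pull
  good := I.good
  val := S.val
  val_pull := S.val_pull
  disj x s hs s' hs' hne τ t := h x s hs s' hs' hne t (τ t)

theorem fam_pointed (I : Idx X T) (S : Shts T.L A Y) (h : I.Dj S) :
    (I.fam S h).Pointed (∞ : OnePoint A) := by
  intro p s τ χ t ht
  show S.v s (t, (τ t, χ t)) = ∞
  rw [ht, S.v_infty]

/-- the join of the sheets at time zero, pointwise -/
noncomputable def jn (I : Idx X T) (S : Shts T.L A Y) {p : ℕ} (x : X.obj p) (t : G2.Dl p)
    (z : OnePoint A) : OnePoint Y :=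
  G2.join ((fun s : T.L.obj p => S.v s (t, (z, 0))) '' (I.idx x : Set _))

theorem sub_jn {I : Idx X T} {S : Shts T.L A Y} (h : I.Dj S) {p : ℕ} (x : X.obj p) (t : G2.Dl p)
    (z : OnePoint A) :
    G2.Sub ((fun s : T.L.obj p => S.v s (t, (z, 0))) '' (I.idx x : Set _)) := by
  rintro _ ⟨s, hs, rfl⟩ _ ⟨s', hs', rfl⟩ h1 h2
  by_contra hne
  have hss : s ≠ s' := fun h => hne (by rw [h])
  rcases h x s hs s' hs' hss t z with h | h
  · exact h1 h
  · exact h2 h

theorem mval_eq (I : Idx X T) (S : Shts T.L A Y) (h : I.Dj S) {p : ℕ} (x : X.obj p)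
    (τ : C(G2.Dl p, OnePoint A)) (t : G2.Dl p) : (I.fam S h).mval x τ t = I.jn S x t (τ t) := rfl

theorem jn_map {A' Y' : Type} [TopologicalSpace A'] [TopologicalSpace Y'] {I : Idx X T}
    {S : Shts T.L A Y} (h : I.Dj S) (eA : A' ≃ₜ A) (eY : Y ≃ₜ Y') {p : ℕ} (x : X.obj p)
    (t : G2.Dl p) (z : OnePoint A') :
    I.jn (S.map eA eY) x t z = OnePoint.map eY (I.jn S x t (OnePoint.map eA z)) := by
  unfold jn
  rw [← join_image (sub_jn h x t _) (OnePoint.map eY) (OnePoint.map_infty _), Set.image_image]
  rfl

theorem dj_map {A' Y' : Type} [TopologicalSpace A'] [TopologicalSpace Y'] {I : Idx X T}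
    {S : Shts T.L A Y} (h : I.Dj S) (eA : A' ≃ₜ A) (eY : Y ≃ₜ Y') : I.Dj (S.map eA eY) := by
  intro p x s hs s' hs' hne t z
  rcases h x s hs s' hs' hne t (OnePoint.map eA z) with h | h
  · left
    rw [Shts.map_v, h, OnePoint.map_infty]
  · right
    rw [Shts.map_v, h, OnePoint.map_infty]

variable [LocallyCompactSpace A] [T2Space A] [LocallyCompactSpace Y] [T2Space Y]

theorem dj_smash {I : Idx X T} {S : Shts T.L A Y} (h : I.Dj S) (E : Type) [TopologicalSpace E]
    [LocallyCompactSpace E] [T2Space E] : I.Dj (S.sm E) := by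
  intro p x s hs s' hs' hne t z
  induction z using OnePoint.rec with
  | infty => exact Or.inl rfl
  | coe z =>
    rcases h x s hs s' hs' hne t (z.1 : OnePoint A) with h | h
    · left
      show smash (S.v s (t, ((z.1 : OnePoint A), 0))) (z.2 : OnePoint E) = ∞
      rw [h, smash_infty_left]
    · right
      show smash (S.v s' (t, ((z.1 : OnePoint A), 0))) (z.2 : OnePoint E) = ∞
      rw [h, smash_infty_left]

theorem jn_smash {I : Idx X T} {S : Shts T.L A Y} (h : I.Dj S) (E : Type) [TopologicalSpace E]
    [LocallyCompactSpace E] [T2Space E] {p : ℕ} (x : X.obj p) (t : G2.Dl p)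
    (z : OnePoint (A × E)) : I.jn (S.sm E) x t z = Shts.smv (I.jn S x t) z := by
  induction z using OnePoint.rec with
  | infty =>
    refine join_of_forall ?_
    rintro _ ⟨s, -, rfl⟩
    rfl
  | coe z =>
    show G2.join _ = smash (G2.join _) (z.2 : OnePoint E)
    rw [← join_image (sub_jn h x t _) (fun y => smash y (z.2 : OnePoint E))
      (smash_infty_left _), Set.image_image]
    rfl

end Idx

end Vale.Agent.P263.KJ
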