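import Vale.Agent.P263.KJ.Sheets
import Vale.Agent.P263.KJ.QFam
import Vale.Agent.P263.KJ.Lab2
import Vale.Agent.P263.T0.Adj
import Mathlib.Analysis.InnerProductSpace.PiL2

/-!
# P263, block KJ: `J` on the simplices of `Ωʳ Sʳ` and its sheets over configurations

`V = VE r` Euclidean space, `W = WE r` its operators.

* `JZ r : Sing (Ωʳ Sʳ) × Sing (V × W)⁺ → Sing (V × (W × P))⁺`, `(A, τ) ↦ (t ↦ J(A t)(τ t))`;
* `Loops r` : natural interpretation of the labels `OB p` (boxes or `none`) as families of loops with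
  disjoint supports; `Loops.shts` : the sheets of `J` (constant in time);
* `BIdx X r` : families of disjoint boxes over `X`, `BIdx.idx` the labels; `BIdx.bS`, `BIdx.bR` :
  configurations, without and with `none`;
* `BIdx.dj` : disjointness of the sheets; `jn_eq` : the join of the sheets is `J` of the union.
-/

open CategoryTheory MonoidalCategory Filter Topology OnePoint
open Vale.Agent.P251.G Vale.Agent.P251.G.LC
open Vale.Agent.P263.S Vale.Agent.P263.E Vale.Agent.P263.TJ
open Vale.Agent.P263.G2 (join_of_mem join_of_forall Bx Conf ofC toC)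

namespace Vale.Agent.P263.KJ

set_option linter.unusedSectionVars false

/-- Euclidean space -/
abbrev VE (r : ℕ) : Type := EuclideanSpace ℝ (Fin r)

/-- operators -/
abbrev WE (r : ℕ) : Type := VE r →L[ℝ] VE r

/-- coordinates -/
noncomputable def eVH (r : ℕ) : VE r ≃ₜ (Fin r → ℝ) := (EuclideanSpace.equiv (Fin r) ℝ).toHomeomorph

/-- a loop as a self-map of the one-point compactification of Euclidean space -/
noncomputable def omV {r : ℕ} (g : T0.Om r) (v : OnePoint (VE r)) : OnePoint (VE r) :=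
  OnePoint.map (eVH r).symm (g (OnePoint.map (eVH r) v))

theorem omV_infty {r : ℕ} (g : T0.Om r) : omV g ∞ = ∞ := by
  unfold omV
  rw [OnePoint.map_infty, T0.Om.map_infty, OnePoint.map_infty]

theorem omV_eq_infty {r : ℕ} {g : T0.Om r} {v : OnePoint (VE r)} :
    omV g v = ∞ ↔ g (OnePoint.map (eVH r) v) = ∞ := map_homeo_eq_infty _

section family

variable {r : ℕ} {T : Type} [TopologicalSpace T] [CompactSpace T] [T2Space T]

theorem continuous_omV {T' : Type} [TopologicalSpace T'] {A : T' → T0.Om r} (hA : Continuous A)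
    {v : T' → OnePoint (VE r)} (hv : Continuous v) : Continuous fun t => omV (A t) (v t) := by
  have h1 : Continuous fun t => (A t) (OnePoint.map (eVH r) (v t)) :=
    ContinuousEval.continuous_eval.comp
      ((continuous_subtype_val.comp hA).prodMk ((continuous_map_homeo (eVH r)).comp hv))
  exact (continuous_map_homeo (eVH r).symm).comp h1

/-- a family of loops as a morphism -/
noncomputable def omLC (A : C(T, T0.Om r)) : LC.of (T × VE r) ⟶ LC.of (VE r) :=
  famLC ⟨fun p : T × OnePoint (VE r) => omV (A p.1) p.2,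
    continuous_omV (A.continuous.comp continuous_fst) continuous_snd⟩ fun _ => omV_infty _

theorem sl_omLC (A : C(T, T0.Om r)) (t : T) :
    sl (X := LC.of T) (omLC A) t = omV (A t) := by
  funext v
  induction v using OnePoint.rec with
  | infty => rw [sl_infty, omV_infty]
  | coe v => rfl

/-- the literal `J` of a loop -/
noncomputable def jj (g : T0.Om r) (z : OnePoint (VE r × WE r)) :
    OnePoint (VE r × (WE r × PV (VE r))) := jT (Z := LC.of (VE r)) (dd (omV g)) z

@[simp] theorem jj_infty (g : T0.Om r) : jj g ∞ = ∞ := rfl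

theorem continuous_jj (A : C(T, T0.Om r)) :
    Continuous fun p : T × OnePoint (VE r × WE r) => jj (A p.1) p.2 := by
  refine continuous_eval (T := T) (V := VE r) (W := WE r)
    (J (Y := LC.of (T × VE r)) (Z := LC.of (VE r)) (DD (X := LC.of T) (omLC A))
      (equi_DD (X := LC.of T) (omLC A))) (fun t z => jj (A t) z) (fun _ => rfl) fun t v w => ?_
  rw [app_J_DD (X := LC.of T) (omLC A) t v w, sl_omLC]
  rfl

/-- `J` of a family of loops is the literal `J` of the morphism -/
theorem app_J_omLC (A : C(T, T0.Om r)) (t : T) (v : VE r) (w : WE r) :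
    app (J (Y := LC.of (T × VE r)) (Z := LC.of (VE r)) (DD (X := LC.of T) (omLC A))
      (equi_DD (X := LC.of T) (omLC A)))
      ((((t, v), w) : (T × VE r) × WE r) : OnePoint ((T × VE r) × WE r)) =
      jj (A t) (((v, w) : VE r × WE r) : OnePoint (VE r × WE r)) := by
  rw [app_J_DD (X := LC.of T) (omLC A) t v w, sl_omLC]
  rfl

/-- a sheet of `J` of a family of loops -/
noncomputable def jK {ι : Type*} [DecidableEq ι] (g : ι → T0.Om r) (K : Finset ι)
    (z : OnePoint (VE r × WE r)) : OnePoint (VE r × (WE r × PV (VE r))) :=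
  jT (Z := LC.of (VE r)) (dK (fun i => omV (g i)) K) z

@[simp] theorem jK_infty {ι : Type*} [DecidableEq ι] (g : ι → T0.Om r) (K : Finset ι) :
    jK g K ∞ = ∞ := rfl

theorem continuous_jK {ι : Type*} [DecidableEq ι] (A : ι → C(T, T0.Om r)) (K : Finset ι)
    (h : ∀ t : T, Disj (K : Set ι) fun i => omV (A i t)) :
    Continuous fun p : T × OnePoint (VE r × WE r) => jK (fun i => A i p.1) K p.2 := by
  have e : ∀ t : LC.of T, (fun i => sl (X := LC.of T) (omLC (A i)) t) = fun i => omV (A i t) :=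
    fun t => funext fun i => sl_omLC (A i) t
  have h' : ∀ t : LC.of T, Disj (K : Set ι) fun i => sl (X := LC.of T) (omLC (A i)) t := by
    intro t
    rw [e t]
    exact h t
  refine continuous_eval (T := T) (V := VE r) (W := WE r)
    (JK (X := LC.of T) (fun i => omLC (A i)) K h') (fun t z => jK (fun i => A i t) K z)
    (fun _ => rfl) fun t v w => ?_
  rw [app_JK (X := LC.of T) (fun i => omLC (A i)) K h' t v w, e t]
  rfl

/-- the union -/
theorem jj_join {ι : Type*} [DecidableEq ι] {S : Finset ι} {g : ι → T0.Om r} {g₀ : T0.Om r}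
    (h : Disj (S : Set ι) fun i => omV (g i))
    (h₀ : ∀ v, omV g₀ v = G2.join ((fun i => omV (g i) v) '' (S : Set ι)))
    {𝓚 : Set (Finset ι)} (h𝓚 : ∀ K : Finset ι, K ∈ 𝓚 ↔ K ⊆ S ∧ (K.card = 1 ∨ K.card = 2))
    (z : OnePoint (VE r × WE r)) : jj g₀ z = G2.join ((fun K => jK g K z) '' 𝓚) := by
  have e : omV g₀ = fun v => G2.join ((fun i => omV (g i) v) '' (S : Set ι)) := funext h₀
  unfold jj
  rw [e]
  refine jT_dd_join h (fun K => ?_) z
  rw [h𝓚, Finset.coe_subset]
  refine and_congr Iff.rfl ?_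
  rw [← Finset.card_pos]
  omega

end family

/-! ### reindexing -/

section reindex

variable {V : Type} [NormedAddCommGroup V] [InnerProductSpace ℝ V] [FiniteDimensional ℝ V]

theorem pair_image {ι κ : Type*} [DecidableEq ι] [DecidableEq κ] {e : ι → κ} {K : Finset ι}
    (he : Set.InjOn e (K : Set ι)) {x y : κ} (h : ({x, y} : Finset κ) = K.image e) :
    ∃ a b, ({a, b} : Finset ι) = K ∧ e a = x ∧ e b = y := by
  have hx : x ∈ K.image e := h ▸ by simp
  have hy : y ∈ K.image e := h ▸ by simp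
  obtain ⟨a, ha, rfl⟩ := Finset.mem_image.1 hx
  obtain ⟨b, hb, rfl⟩ := Finset.mem_image.1 hy
  refine ⟨a, b, ?_, rfl, rfl⟩
  ext c
  simp only [Finset.mem_insert, Finset.mem_singleton]
  constructor
  · rintro (rfl | rfl)
    · exact ha
    · exact hb
  · intro hc
    have h1 : e c ∈ ({e a, e b} : Finset κ) := h ▸ Finset.mem_image_of_mem e hc
    simp only [Finset.mem_insert, Finset.mem_singleton] at h1
    rcases h1 with h1 | h1
    · exact Or.inl (he hc ha h1)
    · exact Or.inr (he hc hb h1)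

theorem dK_image {ι κ : Type*} [DecidableEq ι] [DecidableEq κ] {e : ι → κ} {K : Finset ι}
    (he : Set.InjOn e (K : Set ι)) (φ : κ → OnePoint V → OnePoint V) :
    dK φ (K.image e) = dK (fun i => φ (e i)) K := by
  funext s r u
  unfold dK
  split_ifs with hr
  · congr 1
    ext y
    constructor
    · rintro ⟨p, hp, rfl⟩
      obtain ⟨a, b, hab, h1, h2⟩ := pair_image he hp
      refine ⟨(a, b), hab, ?_⟩
      show hs (φ (e a) _) (φ (e b) _) = hs (φ p.1 _) (φ p.2 _)
      rw [h1, h2]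
    · rintro ⟨p, hp, rfl⟩
      refine ⟨(e p.1, e p.2), ?_, rfl⟩
      show ({e p.1, e p.2} : Finset κ) = K.image e
      rw [← show ({p.1, p.2} : Finset ι) = K from hp, Finset.image_insert, Finset.image_singleton]
  · congr 1
    ext y
    constructor
    · rintro ⟨x, hx, rfl⟩
      have hx' : ({x, x} : Finset κ) = K.image e := by
        rw [Finset.pair_eq_singleton]
        exact hx
      obtain ⟨a, b, hab, h1, h2⟩ := pair_image he hx'
      have hab2 : a = b :=
        he (hab ▸ by simp) (hab ▸ by simp) (h1.trans h2.symm)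
      refine ⟨a, ?_, by rw [← h1]⟩
      show ({a} : Finset ι) = K
      rw [← hab, ← hab2, Finset.pair_eq_singleton]
    · rintro ⟨a, ha, rfl⟩
      refine ⟨e a, ?_, rfl⟩
      show ({e a} : Finset κ) = K.image e
      rw [← show ({a} : Finset ι) = K from ha, Finset.image_singleton]

end reindex

/-! ### `J` on simplices -/

/-- `J` on simplices -/
noncomputable def jjC {r p : ℕ} (A : C(G2.Dl p, T0.Om r)) (τ : C(G2.Dl p, OnePoint (VE r × WE r))) :
    C(G2.Dl p, OnePoint (VE r × (WE r × PV (VE r)))) :=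
  ⟨fun t => jj (A t) (τ t), (continuous_jj A).comp (continuous_id.prodMk τ.continuous)⟩

theorem jjC_comp {r p q : ℕ} (f : C(G2.Dl p, G2.Dl q)) (A : C(G2.Dl q, T0.Om r))
    (τ : C(G2.Dl q, OnePoint (VE r × WE r))) :
    jjC (A.comp f) (τ.comp f) = (jjC A τ).comp f := rfl

/-- **`J` on simplices, as a map of simplicial sets.** -/
noncomputable def JZ (r : ℕ) : SS.Map ((G2.sing (T0.Om r)).prod (G2.sing (OnePoint (VE r × WE r))))
    (G2.sing (OnePoint (VE r × (WE r × PV (VE r))))) :=
  ⟨fun {p} u => ofC (jjC (toC (p := p) u.1) (toC (p := p) u.2)), fun _ _ => rfl⟩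

/-! ### loops attached to boxes -/

/-- Loops attached to the boxes and to `none`, with disjoint supports. -/
structure Loops (r : ℕ) where
  /-- the loops -/
  lp : ∀ {p : ℕ}, OB p → C(G2.Dl p, T0.Om r)
  lp_pull : ∀ {p q : ℕ} (f : C(G2.Dl p, G2.Dl q)) (a : OB q), lp (pO f a) = (lp a).comp f
  disj : ∀ {p : ℕ} {a b : OB p}, DisO a b →
    (∀ c : C(G2.Dl p, Bx), Option.some c = a ∨ Option.some c = b → ∀ t, Bx.St r (c t)) →
    ∀ (t : G2.Dl p) (v : T0.Sph r), lp a t v = ∞ ∨ lp b t v = ∞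

namespace Loops

variable {r : ℕ} (ℓ : Loops r)

theorem disjV {p : ℕ} {B : Finset (OB p)} (hB : PD B)
    (hst : ∀ c : C(G2.Dl p, Bx), Option.some c ∈ B → ∀ t, Bx.St r (c t)) (t : G2.Dl p) :
    Disj (B : Set (OB p)) fun a => omV (ℓ.lp a t) := by
  intro a ha b hb hab v
  have h := ℓ.disj (hB a ha b hb hab) (fun c hc => by
    rcases hc with hc | hc
    · exact hst c (hc ▸ ha)
    · exact hst c (hc ▸ hb)) t (OnePoint.map (eVH r) v)
  exact h.imp omV_eq_infty.2 omV_eq_infty.2

theorem disjL {p : ℕ} (K : (L2 r).obj p) (t : G2.Dl p) :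
    Disj (K.1 : Set (OB p)) fun a => omV (ℓ.lp a t) := ℓ.disjV K.2.dis K.2.st t

open Classical in
/-- the sheet of a label, pointwise -/
noncomputable def sheet {p : ℕ} (K : (L2 r).obj p) (t : G2.Dl p) (z : OnePoint (VE r × WE r)) :
    OnePoint (VE r × (WE r × PV (VE r))) := jK (fun a => ℓ.lp a t) K.1 z

@[simp] theorem sheet_infty {p : ℕ} (K : (L2 r).obj p) (t : G2.Dl p) : ℓ.sheet K t ∞ = ∞ := rfl

theorem continuous_sheet {p : ℕ} (K : (L2 r).obj p) :
    Continuous fun z : G2.Dl p × OnePoint (VE r × WE r) => ℓ.sheet K z.1 z.2 := by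
  classical
  exact continuous_jK (T := G2.Dl p) (fun a => ℓ.lp a) K.1 (ℓ.disjL K)

theorem sheet_pull {p q : ℕ} (f : C(G2.Dl p, G2.Dl q)) (K : (L2 r).obj q) (t : G2.Dl p)
    (z : OnePoint (VE r × WE r)) : ℓ.sheet ((L2 r).pull f K) t z = ℓ.sheet K (f t) z := by
  classical
  have h1 : dK (fun a => omV (ℓ.lp a t)) (pF f K.1) =
      dK (fun a => omV (ℓ.lp (pO f a) t)) K.1 := by
    rw [pF]
    exact dK_image (PD.injOn K.2.dis f) fun a => omV (ℓ.lp a t)
  have h2 : (fun a : OB q => omV (ℓ.lp (pO f a) t)) = fun a => omV (ℓ.lp a (f t)) := by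
    funext a
    rw [ℓ.lp_pull]
    rfl
  unfold sheet jK
  show jT (Z := LC.of (VE r)) (dK (fun a => omV (ℓ.lp a t)) (pF f K.1)) z = _
  rw [h1, h2]

/-- **The sheets of `J`**, constant in time. -/
noncomputable def shts : Shts (lab2 r).L (VE r × WE r) (VE r × (WE r × PV (VE r))) where
  v K := ⟨fun z => ℓ.sheet K z.1 z.2.1, (ℓ.continuous_sheet K).comp
    (continuous_fst.prodMk (continuous_fst.comp continuous_snd))⟩
  v_pull f K t z := ℓ.sheet_pull f K t z.1
  v_infty _ _ _ := rfl

theorem shts_v {p : ℕ} (K : (L2 r).obj p) (t : G2.Dl p) (z : OnePoint (VE r × WE r))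
    (χ : unitInterval) : ℓ.shts.v K (t, (z, χ)) = ℓ.sheet K t z := rfl

/-- a system of sheets which starts with the sheets of `J` -/
def Start (S : Shts (lab2 r).L (VE r × WE r) (VE r × (WE r × PV (VE r)))) : Prop :=
  ∀ {p : ℕ} (K : (L2 r).obj p) (t : G2.Dl p) (z : OnePoint (VE r × WE r)),
    S.v K (t, (z, 0)) = ℓ.sheet K t z

theorem start_shts : ℓ.Start ℓ.shts := fun _ _ _ => rfl

end Loops

/-! ### families of boxes -/

/-- Families of disjoint boxes over a `TSet`. -/
structure BIdx (X : TSet) (r : ℕ) where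
  /-- the boxes -/
  B : ∀ {p : ℕ}, X.obj p → Finset (OB p)
  B_pull : ∀ {p q : ℕ} (f : C(G2.Dl p, G2.Dl q)) (x : X.obj q), B (X.pull f x) = pF f (B x)
  pd : ∀ {p : ℕ} (x : X.obj p), PD (B x)
  st : ∀ {p : ℕ} (x : X.obj p) (c : C(G2.Dl p, Bx)), Option.some c ∈ B x → ∀ t, Bx.St r (c t)

namespace BIdx

variable {X : TSet} {r : ℕ}

/-- the labels of a family of boxes -/
noncomputable def idx (b : BIdx X r) : Idx X (lab2 r) where
  idx x := idx2 r (b.B x)
  mem_pull f x s := by
    rw [b.B_pull]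
    exact mem_idx2_pull (b.pd x) (b.st x) f s
  good x := good_idx2 (b.pd x)

theorem mem_idx {b : BIdx X r} {p : ℕ} {x : X.obj p} {K : (L2 r).obj p} :
    K ∈ b.idx.idx x ↔ K.1 ⊆ b.B x := mem_idx2

/-- **The sheets over a family of boxes are disjoint at time zero.** -/
theorem dj (b : BIdx X r) (ℓ : Loops r)
    {S : Shts (lab2 r).L (VE r × WE r) (VE r × (WE r × PV (VE r)))} (hS : ℓ.Start S) :
    b.idx.Dj S := by
  classical
  intro p x K hK K' hK' hne t z
  have e1 : S.v K (t, (z, 0)) = ℓ.sheet K t z := hS K t z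
  have e2 : S.v K' (t, (z, 0)) = ℓ.sheet K' t z := hS K' t z
  rw [e1, e2]
  have h := ℓ.disjV (b.pd x) (b.st x) t
  have hne' : K.1 ≠ K'.1 := fun h => hne (Subtype.ext h)
  exact jT_dK_disj h (Finset.coe_subset.2 (mem_idx.1 hK)) (Finset.coe_subset.2 (mem_idx.1 hK'))
    hne' z

/-- **The join of the sheets is `J` of the union of the loops.** -/
theorem jn_eq (b : BIdx X r) (ℓ : Loops r)
    {S : Shts (lab2 r).L (VE r × WE r) (VE r × (WE r × PV (VE r)))} (hS : ℓ.Start S) {p : ℕ}
    {x : X.obj p} {t : G2.Dl p} {g : T0.Om r}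
    (hg : ∀ v, omV g v = G2.join ((fun a => omV (ℓ.lp a t) v) '' (b.B x : Set (OB p))))
    (z : OnePoint (VE r × WE r)) : b.idx.jn S x t z = jj g z := by
  classical
  rw [jj_join (ℓ.disjV (b.pd x) (b.st x) t) hg
    (𝓚 := {K | K ⊆ b.B x ∧ (K.card = 1 ∨ K.card = 2)}) (fun K => Iff.rfl) z]
  unfold Idx.jn
  congr 1
  ext y
  constructor
  · rintro ⟨K, hK, rfl⟩
    exact ⟨K.1, ⟨mem_idx.1 (Finset.mem_coe.1 hK), K.2.card⟩, (hS K t z).symm⟩
  · rintro ⟨K, hK, rfl⟩
    have hK2 : Ok2 r K := ⟨hK.2, (b.pd x).mono hK.1, fun c hc => b.st x c (hK.1 hc)⟩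
    exact ⟨⟨K, hK2⟩, Finset.mem_coe.2 (mem_idx.2 hK.1), hS ⟨K, hK2⟩ t z⟩

/-- the boxes of a configuration -/
noncomputable def bS (r n : ℕ) : BIdx (FT r n) r where
  B x := bsS x.1
  B_pull f x := bsS_pull f x.1
  pd x := pd_bsS x.1
  st x _ hc := x.2.1 _ (some_mem_bsS.1 hc)

/-- the boxes of a configuration and `none` -/
noncomputable def bR (r n : ℕ) : BIdx (FT r n) r where
  B x := bsR x.1
  B_pull f x := bsR_pull f x.1
  pd x := pd_bsR x.1
  st x _ hc := x.2.1 _ (some_mem_bsR.1 hc)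

end BIdx

end Vale.Agent.P263.KJ
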