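import Vale.Agent.P263.KJ.LamJ
import Vale.Agent.P263.KJ.EndLC

/-!
# P263, block KJ: KAHN-PRIDDY SURJECTIVITY, literally

`F : (E × V)⁺ → V⁺`, `E` a normed space with a non-zero vector, `W = V →L[ℝ] V`.  Then
`lam ∘ J (DD F) : ((E × V) × W) × V)⁺ → (V × (W × V))⁺` is homotopic to `F ⊗ id`.
-/

open CategoryTheory MonoidalCategory Filter Topology OnePoint
open Vale.Agent.P251.G Vale.Agent.P251.G.LC

namespace Vale.Agent.P263.KJ

variable {V : Type} [NormedAddCommGroup V] [InnerProductSpace ℝ V]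
variable {Y Z : LC}

section Q3

/-- the end tube with a parameter space -/
noncomputable def Q3 (Y : LC) (p : unitInterval × (Y × (ℝ × (EN V × V)))) :
    unitInterval × ((Y × (V →L[ℝ] V)) × V) :=
  ((qE (p.1, p.2.2)).1, ((p.2.1, (qE (p.1, p.2.2)).2.1), (qE (p.1, p.2.2)).2.2))

/-- permutation of the factors -/
def permH (A B C D : Type*) [TopologicalSpace A] [TopologicalSpace B] [TopologicalSpace C]
    [TopologicalSpace D] : (B × (A × (C × D))) ≃ₜ A × ((B × C) × D) where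
  toFun p := (p.2.1, ((p.1, p.2.2.1), p.2.2.2))
  invFun q := (q.2.1.1, (q.1, (q.2.1.2, q.2.2)))
  left_inv _ := rfl
  right_inv _ := rfl
  continuous_toFun := by fun_prop
  continuous_invFun := by fun_prop

theorem Q3_eq : Q3 (V := V) Y =
    (permH unitInterval Y (V →L[ℝ] V) V) ∘ (Prod.map id qE) ∘
      (fun p : unitInterval × (Y × (ℝ × (EN V × V))) => (p.2.1, (p.1, p.2.2))) := rfl

theorem continuous_Q3 : Continuous (Q3 (V := V) Y) := by
  rw [Q3_eq]
  exact (permH unitInterval Y (V →L[ℝ] V) V).continuous.comp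
    ((continuous_id.prodMap continuous_qE).comp (by fun_prop))

/-- exchange of two factors -/
def exchH (A B C : Type*) [TopologicalSpace A] [TopologicalSpace B] [TopologicalSpace C] :
    (A × (B × C)) ≃ₜ B × (A × C) where
  toFun p := (p.2.1, (p.1, p.2.2))
  invFun q := (q.2.1, (q.1, q.2.2))
  left_inv _ := rfl
  right_inv _ := rfl
  continuous_toFun := by fun_prop
  continuous_invFun := by fun_prop

theorem isOpenMap_Q3 : IsOpenMap (Q3 (V := V) Y) := by
  rw [Q3_eq]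
  exact (permH unitInterval Y (V →L[ℝ] V) V).isOpenMap.comp
    ((IsOpenMap.id.prodMap isOpenMap_qE).comp (exchH unitInterval Y (ℝ × (EN V × V))).isOpenMap)

theorem Q3_injective : Function.Injective (Q3 (V := V) Y) := by
  rw [Q3_eq]
  exact (permH unitInterval Y (V →L[ℝ] V) V).injective.comp
    ((Function.injective_id.prodMap qE_injective).comp
      (exchH unitInterval Y (ℝ × (EN V × V))).injective)

theorem Q3_zero (p : Y × (ℝ × (EN V × V))) :
    Q3 Y ((0 : unitInterval), p) = ((0 : unitInterval), (Q2 Y ((1 : unitInterval), p)).2) := by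
  unfold Q3 Q2 qE tA tz
  have h : es (0 : ℝ) p.2.2.1.1.2 = (1 / 4 : ℝ) • sq p.2.2.1.1.2 := es_zero _
  have h' : es (0 : ℝ) p.2.2.2 = (1 / 4 : ℝ) • sq p.2.2.2 := es_zero _
  simp only [Set.Icc.coe_zero, Set.Icc.coe_one, sub_zero, one_smul, sub_self, zero_mul,
    zero_add, one_mul, zero_smul, add_zero, h, h']

theorem Q2_one_fst (p : Y × (ℝ × (EN V × V))) : (Q2 Y ((1 : unitInterval), p)).1 = 1 := rfl

theorem Q3_one (y : Y) (r : ℝ) (e : EN V) (x : V) :
    Q3 Y ((1 : unitInterval), (y, (r, (e, x)))) =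
      ((1 : unitInterval), ((y, e.1.2 - ten x (e.1.1 : V)), Kr r • (e.1.1 : V))) := by
  unfold Q3
  rw [qE_one]

end Q3

variable [FiniteDimensional ℝ V]

section turn2

/-- the second homotopy -/
noncomputable def turn2 (D : LC.of (Y × (ℝ × SV V)) ⟶ LC.of (Z × V)) :
    LC.of (unitInterval × ((Y × (V →L[ℝ] V)) × V)) ⟶ LC.of (Z × ((V →L[ℝ] V) × V)) :=
  desc (E := LC.of (unitInterval × (Y × (ℝ × (EN V × V)))))
    (B := LC.of (unitInterval × ((Y × (V →L[ℝ] V)) × V)))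
    (C := LC.of (Z × ((V →L[ℝ] V) × V))) (Q3 Y) continuous_Q3 isOpenMap_Q3
    (sndC (LC.of unitInterval) (LC.of (Y × (ℝ × (EN V × V)))) ≫
      incL 1 (LC.of (Y × (ℝ × (EN V × V)))) ≫ hR D)
    (fun _ _ h => by rw [Q3_injective h])

theorem app_turn2 (D : LC.of (Y × (ℝ × SV V)) ⟶ LC.of (Z × V))
    (p : unitInterval × (Y × (ℝ × (EN V × V)))) :
    app (turn2 D) ((Q3 Y p : unitInterval × ((Y × (V →L[ℝ] V)) × V)) :
      OnePoint (unitInterval × ((Y × (V →L[ℝ] V)) × V))) =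
      finR Z 1 p.2.2.2.1 p.2.2.2.2
        (app D (((p.2.1, (p.2.2.1, p.2.2.2.1.1.1)) : Y × (ℝ × SV V)) :
          OnePoint (Y × (ℝ × SV V)))) := by
  refine (app_desc_coe (E := LC.of (unitInterval × (Y × (ℝ × (EN V × V)))))
    (B := LC.of (unitInterval × ((Y × (V →L[ℝ] V)) × V)))
    (C := LC.of (Z × ((V →L[ℝ] V) × V))) (Q3 Y) continuous_Q3 isOpenMap_Q3
    (sndC (LC.of unitInterval) (LC.of (Y × (ℝ × (EN V × V)))) ≫
      incL 1 (LC.of (Y × (ℝ × (EN V × V)))) ≫ hR D)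
    (fun _ _ h => by rw [Q3_injective h]) p).trans ?_
  obtain ⟨s, y, r, e, x⟩ := p
  have h1 := app_hR D 1 y r e x
  rw [Set.Icc.coe_one] at h1
  rw [← h1]
  rfl

theorem app_turn2_of_notMem (D : LC.of (Y × (ℝ × SV V)) ⟶ LC.of (Z × V))
    {b : unitInterval × ((Y × (V →L[ℝ] V)) × V)} (h : b ∉ Set.range (Q3 (V := V) Y)) :
    app (turn2 D) (b : OnePoint (unitInterval × ((Y × (V →L[ℝ] V)) × V))) = ∞ :=
  app_desc_of_notMem (E := LC.of (unitInterval × (Y × (ℝ × (EN V × V)))))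
    (B := LC.of (unitInterval × ((Y × (V →L[ℝ] V)) × V)))
    (C := LC.of (Z × ((V →L[ℝ] V) × V))) (Q3 Y) continuous_Q3 isOpenMap_Q3
    (sndC (LC.of unitInterval) (LC.of (Y × (ℝ × (EN V × V)))) ≫
      incL 1 (LC.of (Y × (ℝ × (EN V × V)))) ≫ hR D)
    (fun _ _ h => by rw [Q3_injective h]) h

theorem turn2_zero (D : LC.of (Y × (ℝ × SV V)) ⟶ LC.of (Z × V))
    (b : (Y × (V →L[ℝ] V)) × V) :
    app (turn2 D) ((((0 : unitInterval), b) : unitInterval × ((Y × (V →L[ℝ] V)) × V)) :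
      OnePoint (unitInterval × ((Y × (V →L[ℝ] V)) × V))) =
    app (turn1 D) ((((1 : unitInterval), b) : unitInterval × ((Y × (V →L[ℝ] V)) × V)) :
      OnePoint (unitInterval × ((Y × (V →L[ℝ] V)) × V))) := by
  by_cases hb : ((0 : unitInterval), b) ∈ Set.range (Q3 (V := V) Y)
  · obtain ⟨⟨s, p⟩, hp⟩ := hb
    have hs : s = 0 := congrArg Prod.fst hp
    subst hs
    have h1 : Q2 Y ((1 : unitInterval), p) = ((1 : unitInterval), b) := by
      have h2 := congrArg Prod.snd ((Q3_zero p).symm.trans hp)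
      exact Prod.ext rfl h2
    rw [← hp, ← h1, app_turn1, app_turn2, Set.Icc.coe_one]
  · rw [app_turn2_of_notMem D hb, app_turn1_of_notMem D]
    rintro ⟨⟨s, p⟩, hp⟩
    apply hb
    have hs : s = 1 := congrArg Prod.fst hp
    subst hs
    refine ⟨((0 : unitInterval), p), ?_⟩
    rw [Q3_zero, hp]

/-- `((y, A), z) ↦ ((y, z), A)` -/
noncomputable def pre (Y : LC) (V : Type) [NormedAddCommGroup V] [InnerProductSpace ℝ V]
    [FiniteDimensional ℝ V] :
    LC.of ((Y × (V →L[ℝ] V)) × V) ⟶ LC.of ((Y × V) × (V →L[ℝ] V)) :=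
  ofClosed (X := LC.of ((Y × (V →L[ℝ] V)) × V)) (Y := LC.of ((Y × V) × (V →L[ℝ] V)))
    (fun p : (Y × (V →L[ℝ] V)) × V => ((p.1.1, p.2), p.1.2))
    (Function.LeftInverse.isClosedEmbedding
      (f := fun q : (Y × V) × (V →L[ℝ] V) => ((q.1.1, q.2), q.1.2))
      (fun _ => rfl) (by fun_prop) (by fun_prop))

/-- `((m, w), A) ↦ (m, (A, w))` -/
noncomputable def pos (Z : LC) (V : Type) [NormedAddCommGroup V] [InnerProductSpace ℝ V]
    [FiniteDimensional ℝ V] :
    LC.of ((Z × V) × (V →L[ℝ] V)) ⟶ LC.of (Z × ((V →L[ℝ] V) × V)) :=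
  ofClosed (X := LC.of ((Z × V) × (V →L[ℝ] V))) (Y := LC.of (Z × ((V →L[ℝ] V) × V)))
    (fun p : (Z × V) × (V →L[ℝ] V) => (p.1.1, (p.2, p.1.2)))
    (Function.LeftInverse.isClosedEmbedding
      (f := fun q : Z × ((V →L[ℝ] V) × V) => ((q.1, q.2.2), q.2.1))
      (fun _ => rfl) (by fun_prop) (by fun_prop))

/-- the untwisted map -/
noncomputable def flat (G : LC.of (Y × V) ⟶ LC.of (Z × V)) :
    LC.of ((Y × (V →L[ℝ] V)) × V) ⟶ LC.of (Z × ((V →L[ℝ] V) × V)) :=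
  pre Y V ≫ tensorHom' G (𝟙 (LC.of (V →L[ℝ] V))) ≫ pos Z V

theorem app_flat (G : LC.of (Y × V) ⟶ LC.of (Z × V)) (y : Y) (A : V →L[ℝ] V) (z : V) :
    app (flat G) ((((y, A), z) : (Y × (V →L[ℝ] V)) × V) : OnePoint ((Y × (V →L[ℝ] V)) × V)) =
      OnePoint.map (fun p : Z × V => (p.1, (A, p.2)))
        (app G (((y, z) : Y × V) : OnePoint (Y × V))) := by
  change app (pos Z V) (smash (app G (((y, z) : Y × V) : OnePoint (Y × V)))
    (A : OnePoint (V →L[ℝ] V))) = _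
  generalize app G _ = d
  induction d using OnePoint.rec with
  | infty => rw [smash_infty_left, app_infty]; rfl
  | coe d => rfl

theorem turn2_one (D : LC.of (Y × (ℝ × SV V)) ⟶ LC.of (Z × V)) (G : LC.of (Y × V) ⟶ LC.of (Z × V))
    (hG : ∀ (y : Y) (r : ℝ) (u : SV V), app G (((y, Kr r • (u : V)) : Y × V) : OnePoint (Y × V)) =
      app D (((y, (r, u)) : Y × (ℝ × SV V)) : OnePoint (Y × (ℝ × SV V))))
    (hG0 : ∀ y : Y, app G (((y, 0) : Y × V) : OnePoint (Y × V)) = ∞)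
    (b : (Y × (V →L[ℝ] V)) × V) :
    app (turn2 D) ((((1 : unitInterval), b) : unitInterval × ((Y × (V →L[ℝ] V)) × V)) :
      OnePoint (unitInterval × ((Y × (V →L[ℝ] V)) × V))) =
    app (flat G) (b : OnePoint ((Y × (V →L[ℝ] V)) × V)) := by
  obtain ⟨⟨y, A⟩, z⟩ := b
  rw [app_flat]
  by_cases hz : z = 0
  · subst hz
    rw [hG0, app_turn2_of_notMem]
    · rfl
    · rintro ⟨⟨s, y', r, e, x⟩, hp⟩
      have h1 : Kr r • (e.1.1 : V) = 0 := congrArg (fun q => q.2.2) hp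
      have h2 : (e.1.1 : V) ≠ 0 := by
        rw [← norm_pos_iff, norm_SV]; exact one_pos
      exact (smul_ne_zero (Kr_pos r).ne' h2) h1
  · have hzn : 0 < ‖z‖ := norm_pos_iff.mpr hz
    let u : SV V := ⟨‖z‖⁻¹ • z, by
      rw [mem_sphere_zero_iff_norm, norm_smul, norm_inv, norm_norm, inv_mul_cancel₀ hzn.ne']⟩
    have hu : ‖z‖ • (u : V) = z := by
      change ‖z‖ • (‖z‖⁻¹ • z) = z
      rw [smul_smul, mul_inv_cancel₀ hzn.ne', one_smul]
    have hr : Kr (Ki ‖z‖) • (u : V) = z := by rw [Kr_Ki hzn, hu]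
    have hN : (A - ten (A (u : V)) (u : V)) (u : V) = 0 := by
      rw [_root_.sub_apply, ten_self (norm_SV u), sub_self]
    let e : EN V := ⟨(u, A - ten (A (u : V)) (u : V)), hN⟩
    have hq : Q3 Y ((1 : unitInterval), (y, (Ki ‖z‖, (e, -(A (u : V)))))) =
        ((1 : unitInterval), ((y, A), z)) := by
      rw [Q3_one]
      change ((1 : unitInterval), ((y, A - ten (A (u : V)) (u : V) - ten (-(A (u : V))) (u : V)),
        Kr (Ki ‖z‖) • (u : V))) = _
      rw [hr, ten_neg, sub_neg_eq_add, sub_add_cancel]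
    rw [← hq, app_turn2]
    change finR Z 1 e (-(A (u : V))) (app D (((y, (Ki ‖z‖, u)) : Y × (ℝ × SV V)) :
      OnePoint (Y × (ℝ × SV V)))) = _
    rw [← hG, hr]
    generalize app G _ = d
    induction d using OnePoint.rec with
    | infty => rfl
    | coe d =>
      change (((d.1, (ten ((1 - (1 : ℝ)) • d.2 - (1 : ℝ) • (-(A (u : V)))) (u : V) +
        (A - ten (A (u : V)) (u : V)), (1 : ℝ) • d.2 + (1 - (1 : ℝ)) • (-(A (u : V))))) :
          Z × ((V →L[ℝ] V) × V)) : OnePoint (Z × ((V →L[ℝ] V) × V))) =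
        (((d.1, (A, d.2)) : Z × ((V →L[ℝ] V) × V)) : OnePoint (Z × ((V →L[ℝ] V) × V)))
      simp

/-- `lam ∘ J D` is homotopic to the polar form of `D`, for every equivariant `D` -/
theorem lamJ_homotopic (D : LC.of (Y × (ℝ × SV V)) ⟶ LC.of (Z × V)) (hD : Equi D)
    (G : LC.of (Y × V) ⟶ LC.of (Z × V))
    (hG : ∀ (y : Y) (r : ℝ) (u : SV V), app G (((y, Kr r • (u : V)) : Y × V) : OnePoint (Y × V)) =
      app D (((y, (r, u)) : Y × (ℝ × SV V)) : OnePoint (Y × (ℝ × SV V))))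
    (hG0 : ∀ y : Y, app G (((y, 0) : Y × V) : OnePoint (Y × V)) = ∞) :
    Homotopic (lamJ D hD) (flat G) := by
  let M : LC.of ((Y × (V →L[ℝ] V)) × V) ⟶ LC.of (Z × ((V →L[ℝ] V) × V)) :=
    incL 1 (LC.of ((Y × (V →L[ℝ] V)) × V)) ≫ turn1 D
  have h1 : Homotopic (lamJ D hD) M :=
    homotopic_ofL (X := LC.of ((Y × (V →L[ℝ] V)) × V)) (Y := LC.of (Z × ((V →L[ℝ] V) × V)))
      (turn1 D) (fun b => turn1_zero hD b) (fun b => rfl)
  have h2 : Homotopic M (flat G) :=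
    homotopic_ofL (X := LC.of ((Y × (V →L[ℝ] V)) × V)) (Y := LC.of (Z × ((V →L[ℝ] V) × V)))
      (turn2 D) (fun b => turn2_zero D b) (fun b => turn2_one D G hG hG0 b)
  exact h1.trans h2

end turn2

section final

variable {E : Type} [NormedAddCommGroup E] [NormedSpace ℝ E] [ProperSpace E]

/-- the literal `J` of a map `F : (X × V)⁺ → V⁺`, `X` any object of `LC` -/
noncomputable def JJ {X : LC} (F : LC.of (X × V) ⟶ LC.of V) :
    LC.of ((X × V) × (V →L[ℝ] V)) ⟶ LC.of (V × ((V →L[ℝ] V) × PV V)) :=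
  J (Y := LC.of (X × V)) (Z := LC.of V) (DD F) (equi_DD F)

/-- `((y, A), z) ↦ (y, (A, z))` -/
noncomputable def ass (Y : LC) (V : Type) [NormedAddCommGroup V] [InnerProductSpace ℝ V]
    [FiniteDimensional ℝ V] :
    LC.of ((Y × (V →L[ℝ] V)) × V) ⟶ LC.of (Y × ((V →L[ℝ] V) × V)) :=
  (ofHomeo (X := LC.of ((Y × (V →L[ℝ] V)) × V)) (Y := LC.of (Y × ((V →L[ℝ] V) × V)))
    (Homeomorph.prodAssoc Y (V →L[ℝ] V) V)).hom

theorem flat_tensor (Y : LC) (F : Y ⟶ LC.of V) :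
    flat (V := V) (Y := Y) (Z := LC.of V) (tensorHom' F (𝟙 (LC.of V))) =
      ass Y V ≫ tensorHom' F (𝟙 (LC.of ((V →L[ℝ] V) × V))) := by
  apply hom_ext
  rintro ⟨⟨y, A⟩, z⟩
  have h1 := app_flat (V := V) (Y := Y) (Z := LC.of V) (tensorHom' F (𝟙 (LC.of V))) y A z
  have h2 : app (tensorHom' F (𝟙 (LC.of V))) (((y, z) : Y × V) : OnePoint (Y × V)) =
      smash (app F (y : OnePoint Y)) (z : OnePoint V) := rfl
  have h3 : app (ass Y V ≫ tensorHom' F (𝟙 (LC.of ((V →L[ℝ] V) × V))))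
      ((((y, A), z) : (Y × (V →L[ℝ] V)) × V) : OnePoint ((Y × (V →L[ℝ] V)) × V)) =
      smash (app F (y : OnePoint Y)) (((A, z) : (V →L[ℝ] V) × V) :
        OnePoint ((V →L[ℝ] V) × V)) := rfl
  refine h1.trans (Eq.trans ?_ h3.symm)
  rw [h2]
  generalize app F (y : OnePoint Y) = d
  induction d using OnePoint.rec with
  | infty => rfl
  | coe d => rfl

/-- **KAHN-PRIDDY SURJECTIVITY, LITERALLY**: for every pointed map `F : (E × V)⁺ → V⁺`, `E` a
normed space with a non-zero vector `e`, the composite of the literal `J` of `F` with the literal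
Kahn-Priddy map `lam` is homotopic to `F ⊗ id`. -/
theorem kahnPriddy (F : LC.of (E × V) ⟶ LC.of V) (e : E) (he : e ≠ 0) :
    Homotopic (tensorHom' (JJ (X := LC.of E) F) (𝟙 (LC.of V)) ≫ lamW (LC.of V) V)
      (ass (LC.of (E × V)) V ≫ tensorHom' F (𝟙 (LC.of ((V →L[ℝ] V) × V)))) := by
  have h1 : Homotopic (tensorHom' (JJ (X := LC.of E) F) (𝟙 (LC.of V)) ≫ lamW (LC.of V) V)
      (flat (Y := LC.of (E × V)) (Z := LC.of V) (KJ.D F e he)) :=
    lamJ_homotopic (Y := LC.of (E × V)) (Z := LC.of V) (DD (X := LC.of E) F)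
      (equi_DD (X := LC.of E) F) (KJ.D F e he) (fun y r u => D_pol F e he y r u)
      (fun y => app_D_zero F e he y)
  have h2 : Homotopic (flat (Y := LC.of (E × V)) (Z := LC.of V) (KJ.D F e he))
      (flat (Y := LC.of (E × V)) (Z := LC.of V) (tensorHom' F (𝟙 (LC.of V)))) := by
    unfold flat
    exact Homotopic.comp_left _ (Homotopic.comp_right
      (Homotopic.tensor (D_homotopic F e he) (Homotopic.refl (𝟙 (LC.of (V →L[ℝ] V))))) _)
  rw [flat_tensor (LC.of (E × V)) F] at h2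
  exact h1.trans h2

end final

end Vale.Agent.P263.KJ
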