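import Vale.Agent.P263.TJ.ThetaX
import Vale.Agent.P263.TJ.L1Asm

/-!
# P263, block KJ: the abstract core of level L2(b)

`l2_core` : `jz : O × cube → T`, a family `a : S → O` whose adjoint is `γ : U → T`, and a family
`g : X → O`.  If the value of the generalised functional square of `jz` on the cycle `g_* ξ` is not
zero and `g_* ξ` is homologous to `a_* fc`, then no functional square of `γ` on the given data is
null.
-/

namespace Vale.Agent.P263.KJ

open Vale.Agent.P263.S Vale.Agent.P263.E Vale.Agent.P263.H83 Vale.Agent.P263.G2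
  Vale.Agent.P263.TJ

theorem evc_eq_of_isBd {X : SS} {u : Cc X} (hu : Cc.d u = 0) {p : ℕ} {z z' : Chn (ZMod 2) X p}
    (h : IsBd (z - z')) : evc u z = evc u z' := by
  obtain ⟨w, hw⟩ := h
  have h1 : evc (Cc.d u) w = 0 := by rw [hu, evc_zero]
  rw [evc_d, hw, map_sub] at h1
  exact sub_eq_zero.1 h1

theorem evc_eq_zero_of_coh {X : SS} {u : Cc X} (h : (Cc.cupC X).Coh u 0) {p : ℕ}
    {z : Chn (ZMod 2) X p} (hz : IsCyc p z) : evc u z = 0 := by
  rw [evc_coh h hz]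
  exact evc_zero z

section core

variable {T O S U X : SS} {T₀ : Sb T} {U₀ : Sb U} {i d : ℕ} (D : SqD T₀ (i + 1))
  {jz : SS.Map (O.prod (SN (i + 1))) T}
  {hj : ∀ {p : ℕ} (x : (O.prod (SN (i + 1))).obj p), (bdX O (i + 1)).mem x → T₀.mem (jz.app x)}
  (a : SS.Map S O) (g : SS.Map X O) (γ : SS.Map U T)
  (hγ : ∀ {p : ℕ} (x : U.obj p), U₀.mem x → T₀.mem (γ.app x))
  (m3 : SS.Map (S.prod (SN (i + 1))) U)
  (hm3 : ∀ {p : ℕ} (x : (S.prod (SN (i + 1))).obj p), (bdX S (i + 1)).mem x →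
    U₀.mem (m3.app x))

include hm3 in
/-- the generalised functional square of the family `a` from a functional square of `γ` -/
theorem theta_of_fsq (hc : γ.comp m3 = jz.comp (timesN a (i + 1)))
    (E : CupC.FSqD (Cc.relHom γ U₀ T₀ hγ) i) (hEb : Cc.val E.b = D.b) (hEc : Cc.val E.c = D.c) :
    (Cc.cupC S).Coh (Cc.pull a (theta D jz hj)) (DstN (i + 1) (Cc.pull m3 (Cc.val E.val))) := by
  have hm : ∀ {p : ℕ} (x : (S.prod (SN (i + 1))).obj p), (bdX S (i + 1)).mem x →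
      T₀.mem ((γ.comp m3).app x) := fun x hx => hγ _ (hm3 x hx)
  have h1 := theta_pull D (m := jz) (hm := hj) a (m' := γ.comp m3) (hm' := hm) hc
  obtain ⟨E', hE'⟩ : ∃ E' : CupC.FSqD (Cc.relHom (γ.comp m3) (bdX S (i + 1)) T₀ hm) i,
      E' = E.map ⟨AddMonoidHom.id _, fun _ => rfl, fun _ _ _ => rfl⟩
        (Cc.relHom m3 (bdX S (i + 1)) U₀ hm3) (fun x => rfl) := ⟨_, rfl⟩
  have hv : E'.val = (Cc.relHom m3 (bdX S (i + 1)) U₀ hm3).f E.val := by
    rw [hE']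
    exact E.val_map _ _ _
  have h2 := theta_eq D (CupC.ThD.ofFSqD E' (narX S (i + 1))) (by rw [hE']; exact hEb)
    (by rw [hE']; exact hEc)
  rw [CupC.ThD.val_ofFSqD, hv, Cc.val_relHom] at h2
  exact h1.symm.trans h2

include hm3 in
/-- **The core of L2(b).** -/
theorem l2_core (hc : γ.comp m3 = jz.comp (timesN a (i + 1)))
    {fc : Chn (ZMod 2) S d} {ξ : Chn (ZMod 2) X d} (hfc : IsCyc d fc)
    (hbd : IsBd (push (ZMod 2) g d ξ - push (ZMod 2) a d fc))
    (hbox : evc (Cc.pull g (theta D jz hj)) ξ ≠ 0)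
    (E : CupC.FSqD (Cc.relHom γ U₀ T₀ hγ) i) (hEb : Cc.val E.b = D.b) (hEc : Cc.val E.c = D.c) :
    ¬ (Cc.rel U₀).Coh E.val 0 := by
  intro h0
  have h1 := theta_of_fsq D (hj := hj) a γ hγ m3 hm3 hc E hEb hEc
  have h2 : (Cc.cupC S).Coh (DstN (i + 1) (Cc.pull m3 (Cc.val E.val))) 0 := by
    obtain ⟨w, hw⟩ := h0
    rw [add_zero] at hw
    have hw' : Cc.val E.val = Cc.d (Cc.val w) := congrArg Cc.val hw
    refine ⟨DstN (i + 1) (Cc.pull m3 (Cc.val w)), ?_⟩
    show DstN (i + 1) (Cc.pull m3 (Cc.val E.val)) + 0 = Cc.d (DstN (i + 1) (Cc.pull m3 (Cc.val w)))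
    rw [add_zero, hw', pull_d, DstN_d]
    exact ((Cc.vn_val w).pull m3).mono fun x hx => hm3 x hx
  apply hbox
  rw [evc_pull, evc_eq_of_isBd (d_theta D jz hj) hbd, ← evc_pull]
  exact evc_eq_zero_of_coh (h1.trans h2) hfc

end core

end Vale.Agent.P263.KJ
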