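import Vale.Agent.P263.KJ.LamSq
import Vale.Agent.P263.K.HSI
import Vale.Agent.P263.K.AF3Stage

/-!
# P263, block KJ: the functional squares of the literal Kahn-Priddy map on its source

The data of the functional squares of `(ℝᴷ × P(V))⁺ → Sᴷ` on any given generator of the sphere
exist (half-smash isomorphism), and their classes are the classes of the powers of the generator
of the cohomology of `P(V)`: the fields `lam_zero`, `v`, `fs` of the Adams filtration lemma.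
-/

noncomputable section

open OnePoint Topology

namespace Vale.Agent.P263.KJ

open Vale.Agent.P263.S Vale.Agent.P263.E Vale.Agent.P263.TJ Vale.Agent.P263.G2
  Vale.Agent.P263.T0 Vale.Agent.P263.Cof

variable {V : Type} [NormedAddCommGroup V] [InnerProductSpace ℝ V] [FiniteDimensional ℝ V]
  {W : Type} [NormedAddCommGroup W] [NormedSpace ℝ W]

section base

variable {m : ℕ} {φ : (V × W) ≃L[ℝ] (Fin (m + 1) → ℝ)}
  {Lf : C(OnePoint ((Fin (m + 1) → ℝ) × PV V), T0.Sph (m + 1))}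

theorem cc_eq_of_add {X : SS} {u v w : Cc X} (h : u + v = w) : u = v + w := by
  rw [← h, add_comm u v, ← add_assoc, K.cc_self, zero_add]

/-- not null, in the two languages -/
theorem rel_ne {X : SS} {A : Sb X} {z : (Cc.rel A).C}
    (h : ¬ ∃ a : Cc X, Vn A a ∧ Cc.d a = Cc.val z) : ¬ (Cc.rel A).Coh z 0 := by
  rintro ⟨w, hw⟩
  rw [add_zero] at hw
  exact h ⟨Cc.val w, Cc.vn_val w, (congrArg Cc.val hw).symm⟩

/-- the literal map is zero on the generator -/
theorem lam_null (h : IsLam φ Lf) {b : (Cc.rel (bs (m + 1))).C}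
    (hb : Cc.IsDeg (m + 1) (Cc.val b)) (hd : (Cc.rel (bs (m + 1))).d b = 0) :
    ∃ e ∈ (Cc.relGr (bsT (m + 1) (PV V))).deg m,
      (Cc.rel (bsT (m + 1) (PV V))).d e = (relL Lf h.inf).f b := by
  have hK : 0 < m + 1 := Nat.succ_pos m
  -- the image in the cube is null
  have h1 : (Cc.rel (ends (sing (PV V)) (m + 1))).Coh
      (((relMu (m + 1) (PV V)).comp (relL Lf h.inf)).f b) 0 := by
    by_cases h0 : (Cc.rel (bs (m + 1))).Coh b 0
    · have := h0.map ((relMu (m + 1) (PV V)).comp (relL Lf h.inf))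
      rwa [map_zero] at this
    · obtain ⟨D, hD, hne, -⟩ := exists_fsq h (i := m) (j := 0) (by omega)
      refine ((SphCc.rel_coh_of_ne hK hb hd hD.b_mem D.d_b h0 hne).map
        ((relMu (m + 1) (PV V)).comp (relL Lf h.inf))).trans ?_
      rw [← D.d_e]
      exact CupC.coh_d _ _
  obtain ⟨a, ha⟩ := h1
  rw [add_zero] at ha
  -- the half-smash isomorphism
  obtain ⟨e, he, hde⟩ := (K.relIso_muT (m + 1) (PV V)).inj
    (Cc.val ((relL Lf h.inf).f b)) (Cc.vn_val _)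
    (congrArg Cc.val (show (Cc.rel (bsT (m + 1) (PV V))).d ((relL Lf h.inf).f b) = 0 by
      rw [← CupC.Hom.f_d, hd, map_zero]))
    ⟨Cc.val a, Cc.vn_val a, (congrArg Cc.val ha).symm⟩
  obtain ⟨e', he', hde'⟩ := (Cc.relGr (bsT (m + 1) (PV V))).exists_of_d
    (x := (relL Lf h.inf).f b) (w := Cc.mkRel _ e he)
    (Cc.IsDeg.pull (u := Cc.val b) hb _) (Cc.rel_ext hde.symm)
  exact ⟨e', he', hde'.symm⟩

/-- **Existence of the data** on any given generator -/
theorem exists_FSqD (h : IsLam φ Lf) {i j : ℕ} (hij : i + j = m) {b : (Cc.rel (bs (m + 1))).C}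
    (hb : Cc.IsDeg (m + 1) (Cc.val b)) (hd : (Cc.rel (bs (m + 1))).d b = 0) :
    ∃ D : CupC.FSqD (relL Lf h.inf) i, D.b = b ∧
      D.Homog (Cc.relGr _) (Cc.relGr _) m (m + 1 + j) := by
  have hK : 0 < m + 1 := Nat.succ_pos m
  obtain ⟨e, he, hde⟩ := lam_null h hb hd
  have hcd : (Cc.rel (bs (m + 1))).d ((Cc.rel (bs (m + 1))).cup (i + 1) b b) = 0 := by
    rw [CupC.d_cup_self, hd, map_zero, AddMonoidHom.zero_apply, map_zero, add_zero]
  have hmem : (Cc.rel (bs (m + 1))).cup (i + 1) b b ∈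
      (Cc.relGr (bs (m + 1))).deg (m + 1 + j + 1) :=
    (Cc.relGr (bs (m + 1))).cup_mem_zero hb hb (i + 1) (by omega)
  obtain ⟨c0, hc0⟩ := (SphCc.rel_van hK (n := m + 1 + j + 1) (by omega)).exists
    (G := Cc.relGr (bs (m + 1))) hmem hcd
  obtain ⟨c, hc, hdc⟩ := (Cc.relGr (bs (m + 1))).exists_of_d hmem hc0
  exact ⟨{ b := b, e := e, c := c, d_b := hd, d_e := hde, d_c := hdc }, rfl,
    hb, he, hc, by omega⟩

/-- the value on any given generator -/
theorem exists_val (h : IsLam φ Lf) {i j : ℕ} (hij : i + j = m) {b : Cc (sing (T0.Sph (m + 1)))}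
    (hb : Cc.IsDeg (m + 1) b) (hv : Vn (bs (m + 1)) b) (hd : Cc.d b = 0)
    (hne : ¬ ∃ a : Cc (sing (T0.Sph (m + 1))), Vn (bs (m + 1)) a ∧ Cc.d a = b) :
    ∃ D : CupC.FSqD (K.lamQ Lf h.inf).hom i, Cc.val D.b = b ∧ Cc.IsDeg m (Cc.val D.e) ∧
      Cc.IsDeg (m + 1 + j) (Cc.val D.val) ∧
      ∃ a : Cc ((sing (PV V)).prod (SN (m + 1))), Vn (bdX (sing (PV V)) (m + 1)) a ∧
        Cc.pull (muT (m + 1) (PV V)) (Cc.val D.val) =
          TJ.sn (m + 1) (Cc.pw (wP V) j) + Cc.d a := by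
  obtain ⟨D, hDb, hD⟩ := exists_FSqD h hij (b := Cc.mkRel (bs (m + 1)) b hv) hb (Cc.rel_ext hd)
  have hne' : ¬ (Cc.rel (bs (m + 1))).Coh D.b 0 := by
    rw [hDb]
    exact rel_ne hne
  obtain ⟨a, ha⟩ := fsq_lam h hij D hD hne'
  refine ⟨D, congrArg Cc.val hDb, hD.e_mem, CupC.FSqD.val_mem hD
    (fun x hx => Cc.IsDeg.pull (u := Cc.val x) hx _), Cc.val a, Cc.vn_val a, ?_⟩
  exact cc_eq_of_add (congrArg Cc.val ha)

end base

/-! ### the input of the Adams filtration lemma -/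

/-- the literal map is zero on the reduced cohomology of the sphere -/
theorem lam_zero {m : ℕ} {φ : (V × W) ≃L[ℝ] (Fin (m + 1) → ℝ)}
    {Lf : C(OnePoint ((Fin (m + 1) → ℝ) × PV V), T0.Sph (m + 1))} (h : IsLam φ Lf)
    (x : (relF (bs (m + 1))).H (m + 1)) : (K.lamQ Lf h.inf).pull.H (m + 1) x = 0 := by
  refine K.pull_zero_of (K.lamQ Lf h.inf) (fun w hw hd hm => ?_) x
  obtain ⟨e, -, he⟩ := lam_null h (b := Cc.mkRel (bs (m + 1)) w hw) hm (Cc.rel_ext hd)
  exact ⟨Cc.val e, Cc.vn_val e, congrArg Cc.val he⟩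

/-- **The functional squares of the literal Kahn-Priddy map**, in the form of the Adams filtration
lemma: on a generator `b` of the sphere they are the classes `s_K wⁱ`. -/
theorem fsok_lam {N r : ℕ} (hr : r + 1 = N) {φ : (V × W) ≃L[ℝ] (Fin N → ℝ)}
    {Lf : C(OnePoint ((Fin N → ℝ) × PV V), T0.Sph N)} (h : IsLam φ Lf) :
    K.FSOK N (PV V) (fun i => Cc.pw (wP V) i) (K.lamQ Lf h.inf) r := by
  subst hr
  have hK : 0 < r + 1 := Nat.succ_pos r
  obtain ⟨B, hB1, hB2, hB3⟩ := SphCc.rel_exists_fund hK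
  have hne : ¬ ∃ a : Cc (sing (T0.Sph (r + 1))), Vn (bs (r + 1)) a ∧ Cc.d a = Cc.val B := by
    rintro ⟨a, ha, hda⟩
    have h1 : (Cc.rel (bs (r + 1))).Coh B 0 := ⟨Cc.mkRel _ a ha, by
      rw [add_zero]; exact Cc.rel_ext hda.symm⟩
    rw [SphCc.rel_coh_iff hK hB1 hB2, hB3] at h1
    exact one_ne_zero h1
  refine ⟨Cc.val B, Cc.vn_val B, congrArg Cc.val hB2, hB1, lam_zero h, fun j hj => ?_⟩
  obtain ⟨D, h1, h2, -, h4⟩ := exists_val h (i := r - j) (j := j) (by omega) hB1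
    (Cc.vn_val B) (congrArg Cc.val hB2) hne
  exact ⟨D, h1, h2, h4⟩

end Vale.Agent.P263.KJ
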