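import Vale.Agent.P263.KJ.Turn

/-!
# P263, block KJ: `lam ∘ J` is the rotating family at time `0`
-/

open CategoryTheory MonoidalCategory Filter Topology OnePoint
open Vale.Agent.P251.G Vale.Agent.P251.G.LC

namespace Vale.Agent.P263.KJ

variable {V : Type} [NormedAddCommGroup V] [InnerProductSpace ℝ V] [FiniteDimensional ℝ V]
variable {Y Z : LC}

/-- reassociation -/
noncomputable def asc (Z : LC) (V : Type) [NormedAddCommGroup V] [InnerProductSpace ℝ V]
    [FiniteDimensional ℝ V] :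
    LC.of ((Z × ((V →L[ℝ] V) × PV V)) × V) ⟶ LC.of (Z × ((V →L[ℝ] V) × (PV V × V))) :=
  ofClosed (X := LC.of ((Z × ((V →L[ℝ] V) × PV V)) × V))
    (Y := LC.of (Z × ((V →L[ℝ] V) × (PV V × V))))
    (fun p : (Z × ((V →L[ℝ] V) × PV V)) × V => (p.1.1, (p.1.2.1, (p.1.2.2, p.2))))
    (Function.LeftInverse.isClosedEmbedding
      (f := fun q : Z × ((V →L[ℝ] V) × (PV V × V)) => ((q.1, (q.2.1, q.2.2.1)), q.2.2.2))
      (fun _ => rfl) (by fun_prop) (by fun_prop))

/-- `id ⊗ lam` -/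
noncomputable def lamW (Z : LC) (V : Type) [NormedAddCommGroup V] [InnerProductSpace ℝ V]
    [FiniteDimensional ℝ V] :
    LC.of ((Z × ((V →L[ℝ] V) × PV V)) × V) ⟶ LC.of (Z × ((V →L[ℝ] V) × V)) :=
  asc Z V ≫ tensorHom' (𝟙 Z) (tensorHom' (𝟙 (LC.of (V →L[ℝ] V))) (lam V))

theorem app_lamW (m : Z) (B : V →L[ℝ] V) (p : PV V) (z : V) :
    app (lamW Z V) ((((m, (B, p)), z) : (Z × ((V →L[ℝ] V) × PV V)) × V) :
      OnePoint ((Z × ((V →L[ℝ] V) × PV V)) × V)) =
      smash (m : OnePoint Z) (smash (B : OnePoint (V →L[ℝ] V))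
        (app (lam V) (((p, z) : PV V × V) : OnePoint (PV V × V)))) := rfl

/-- `lam ∘ J` -/
noncomputable def lamJ (D : LC.of (Y × (ℝ × SV V)) ⟶ LC.of (Z × V)) (hD : Equi D) :
    LC.of ((Y × (V →L[ℝ] V)) × V) ⟶ LC.of (Z × ((V →L[ℝ] V) × V)) :=
  tensorHom' (J D hD) (𝟙 (LC.of V)) ≫ lamW Z V

theorem app_lamJ {D : LC.of (Y × (ℝ × SV V)) ⟶ LC.of (Z × V)} (hD : Equi D) (y : Y)
    (A : V →L[ℝ] V) (z : V) :
    app (lamJ D hD) ((((y, A), z) : (Y × (V →L[ℝ] V)) × V) : OnePoint ((Y × (V →L[ℝ] V)) × V)) =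
      app (lamW Z V) (smash (app (J D hD) (((y, A) : Y × (V →L[ℝ] V)) :
        OnePoint (Y × (V →L[ℝ] V)))) (z : OnePoint V)) := rfl

/-- the value of `lam ∘ J` on the tube of `J` -/
theorem app_lamJ_qP {D : LC.of (Y × (ℝ × SV V)) ⟶ LC.of (Z × V)} (hD : Equi D) (y : Y) (r : ℝ)
    (e : EN V) (z : V) :
    app (lamJ D hD) (((qP Y (y, (r, e)), z) : (Y × (V →L[ℝ] V)) × V) :
      OnePoint ((Y × (V →L[ℝ] V)) × V)) =
      (app D (((y, (r, e.1.1)) : Y × (ℝ × SV V)) : OnePoint (Y × (ℝ × SV V)))).elim ∞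
        (fun p : Z × V => smash (p.1 : OnePoint Z)
          (smash ((ten p.2 (e.1.1 : V) + e.1.2 : V →L[ℝ] V) : OnePoint (V →L[ℝ] V))
            (app (lam V) (((piP V e.1.1, z) : PV V × V) : OnePoint (PV V × V))))) := by
  change app (lamW Z V) (smash (app (J D hD) ((qP Y (y, (r, e)) : Y × (V →L[ℝ] V)) :
        OnePoint (Y × (V →L[ℝ] V)))) (z : OnePoint V)) = _
  rw [app_J]
  generalize app D _ = d
  induction d using OnePoint.rec with
  | infty =>
    change app (lamW Z V) (smash ∞ (z : OnePoint V)) = ∞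
    rw [smash_infty_left, app_infty]
  | coe d => rfl

omit [FiniteDimensional ℝ V] in
theorem Q2_zero (y : Y) (r : ℝ) (e : EN V) (x : V) :
    Q2 Y ((0 : unitInterval), (y, (r, (e, x)))) =
      ((0 : unitInterval), (qP Y (y, (r, e)), (e.1.1 : V) + (1 / 4 : ℝ) • sq x)) := by
  unfold Q2 qP tA tz
  simp

theorem turn1_zero {D : LC.of (Y × (ℝ × SV V)) ⟶ LC.of (Z × V)} (hD : Equi D)
    (b : (Y × (V →L[ℝ] V)) × V) :
    app (turn1 D) ((((0 : unitInterval), b) : unitInterval × ((Y × (V →L[ℝ] V)) × V)) :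
      OnePoint (unitInterval × ((Y × (V →L[ℝ] V)) × V))) =
      app (lamJ D hD) (b : OnePoint ((Y × (V →L[ℝ] V)) × V)) := by
  by_cases hb : ((0 : unitInterval), b) ∈ Set.range (Q2 (V := V) Y)
  · obtain ⟨⟨t, y, r, e, x⟩, hp⟩ := hb
    have ht : t = 0 := congrArg Prod.fst hp
    subst ht
    rw [← hp, app_turn1]
    rw [Q2_zero] at hp
    have hb' : b = (qP Y (y, (r, e)), (e.1.1 : V) + (1 / 4 : ℝ) • sq x) :=
      (congrArg Prod.snd hp).symm
    rw [hb', app_lamJ_qP]
    have h1 : app (lam V) (((piP V e.1.1, (e.1.1 : V) + (1 / 4 : ℝ) • sq x) : PV V × V) :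
        OnePoint (PV V × V)) = (x : OnePoint V) := app_lam_qL e.1.1 x
    rw [h1]
    generalize app D _ = d
    induction d using OnePoint.rec with
    | infty => rfl
    | coe d =>
      change (((d.1, (ten ((1 - ((0 : unitInterval) : ℝ)) • d.2 - ((0 : unitInterval) : ℝ) • x)
        (e.1.1 : V) + e.1.2, ((0 : unitInterval) : ℝ) • d.2 +
          (1 - ((0 : unitInterval) : ℝ)) • x)) : Z × ((V →L[ℝ] V) × V)) :
            OnePoint (Z × ((V →L[ℝ] V) × V))) =
        (((d.1, (ten d.2 (e.1.1 : V) + e.1.2, x)) : Z × ((V →L[ℝ] V) × V)) :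
            OnePoint (Z × ((V →L[ℝ] V) × V)))
      simp
  · rw [app_turn1_of_notMem D hb]
    obtain ⟨⟨y, A⟩, z⟩ := b
    by_cases hA : ((y, A) : Y × (V →L[ℝ] V)) ∈ Set.range (qP (V := V) Y)
    · obtain ⟨⟨y', r, e⟩, hq⟩ := hA
      rw [← hq, app_lamJ_qP]
      have h1 : app (lam V) (((piP V e.1.1, z) : PV V × V) : OnePoint (PV V × V)) = ∞ := by
        by_contra hne
        have hmem : (piP V e.1.1, z) ∈ Set.range (qL (V := V)) := by
          by_contra h
          exact hne (app_lam_of_notMem h)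
        obtain ⟨⟨u', x⟩, hux⟩ := hmem
        have h2 : piP V e.1.1 = piP V u' := (congrArg Prod.fst hux).symm
        have h3 : (u' : V) + (1 / 4 : ℝ) • sq x = z := congrArg Prod.snd hux
        rcases piP_eq h2 with h4 | h4
        · apply hb
          refine ⟨((0 : unitInterval), (y', (r, (e, x)))), ?_⟩
          rw [Q2_zero, hq, ← h4, h3]
        · apply hb
          refine ⟨((0 : unitInterval), (y', (r, (negEN e, x)))), ?_⟩
          have h5 : qP Y (y', (r, negEN e)) = qP Y (y', (r, e)) := by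
            unfold qP negEN
            dsimp only
            rw [coe_neg_sphere, ten_neg_neg]
          have h6 : ((negEN e).1.1 : V) = u' := by
            rw [h4]
            exact coe_neg_sphere _
          rw [Q2_zero, h5, hq, h6, h3]
      rw [h1]
      generalize app D _ = d
      induction d using OnePoint.rec with
      | infty => rfl
      | coe d =>
        change ∞ = smash (d.1 : OnePoint Z)
          (smash ((ten d.2 (e.1.1 : V) + e.1.2 : V →L[ℝ] V) : OnePoint (V →L[ℝ] V)) ∞)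
        rw [smash_infty_right, smash_infty_right]
    · rw [app_lamJ, app_J_of_notMem hD hA, smash_infty_left, app_infty]

end Vale.Agent.P263.KJ
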