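import Vale.Agent.P263.KJ.FamSq
import Vale.Agent.P263.KJ.CL3

/-!
# P263, block KJ: the two sheets of the literal Kahn-Priddy map and their homotopy to the identity

`stV s u x = (1-s) u + ((1-s)/4 + s) / (1 + (1-s)|x|) x` : open embedding of `V`, a ball of radius
`1/4` around `u` for `s = 0`, the identity for `s = 1`.  `gK φ` : the collapse, in the coordinates
`φ : V × W ≃ ℝᴷ`.  `lamF φ : PFam (sing PV) svLab Sᴷ ℝᴷ` : the two sheets over the projective space.
-/

open CategoryTheory MonoidalCategory Filter Topology OnePoint Finset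
open scoped InnerProductSpace RealInnerProductSpace
open Vale.Agent.P251.G Vale.Agent.P251.G.LC

namespace Vale.Agent.P263.KJ

variable {V : Type} [NormedAddCommGroup V] [InnerProductSpace ℝ V] [FiniteDimensional ℝ V]

/-! ### the stretching -/

/-- the radius -/
noncomputable def rho (s : unitInterval) : ℝ := (1 - s.1) / 4 + s.1

theorem rho_pos (s : unitInterval) : 0 < rho s := by
  have h0 := s.2.1
  have h1 := s.2.2
  unfold rho
  rcases h0.lt_or_eq with h | h
  · have : 0 ≤ (1 - s.1) / 4 := by linarith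
    linarith
  · rw [← h]; norm_num

theorem sig_nonneg (s : unitInterval) : 0 ≤ 1 - s.1 := by
  have h1 := s.2.2
  linarith

omit [InnerProductSpace ℝ V] [FiniteDimensional ℝ V] in
theorem denS_pos (s : unitInterval) (x : V) : 0 < 1 + (1 - s.1) * ‖x‖ := by
  have h1 := mul_nonneg (sig_nonneg s) (norm_nonneg x)
  linarith

/-- the open embedding -/
noncomputable def stV (s : unitInterval) (u : V) (x : V) : V :=
  (1 - s.1) • u + (rho s / (1 + (1 - s.1) * ‖x‖)) • x

/-- its inverse -/
noncomputable def stI (s : unitInterval) (u : V) (z : V) : V :=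
  (rho s - (1 - s.1) * ‖z - (1 - s.1) • u‖)⁻¹ • (z - (1 - s.1) • u)

omit [FiniteDimensional ℝ V] in
theorem stV_sub (s : unitInterval) (u x : V) :
    stV s u x - (1 - s.1) • u = (rho s / (1 + (1 - s.1) * ‖x‖)) • x := by
  rw [stV, add_sub_cancel_left]

omit [FiniteDimensional ℝ V] in
theorem rho_stV (s : unitInterval) (u x : V) :
    rho s - (1 - s.1) * ‖stV s u x - (1 - s.1) • u‖ = rho s / (1 + (1 - s.1) * ‖x‖) := by
  have h1 := denS_pos s x
  rw [stV_sub, norm_smul, Real.norm_of_nonneg (div_pos (rho_pos s) h1).le]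
  field_simp
  ring

omit [FiniteDimensional ℝ V] in
theorem rho_stV_pos (s : unitInterval) (u x : V) :
    0 < rho s - (1 - s.1) * ‖stV s u x - (1 - s.1) • u‖ := by
  rw [rho_stV]
  exact div_pos (rho_pos s) (denS_pos s x)

omit [FiniteDimensional ℝ V] in
theorem stI_stV (s : unitInterval) (u x : V) : stI s u (stV s u x) = x := by
  rw [stI, rho_stV, stV_sub, smul_smul, inv_mul_cancel₀, one_smul]
  exact (div_pos (rho_pos s) (denS_pos s x)).ne'

omit [FiniteDimensional ℝ V] in
theorem stV_stI (s : unitInterval) (u z : V)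
    (h : 0 < rho s - (1 - s.1) * ‖z - (1 - s.1) • u‖) : stV s u (stI s u z) = z := by
  have h1 : ‖stI s u z‖ = (rho s - (1 - s.1) * ‖z - (1 - s.1) • u‖)⁻¹ *
      ‖z - (1 - s.1) • u‖ := by
    rw [stI, norm_smul, Real.norm_of_nonneg (inv_pos.2 h).le]
  have h2 : 1 + (1 - s.1) * ‖stI s u z‖ =
      rho s * (rho s - (1 - s.1) * ‖z - (1 - s.1) • u‖)⁻¹ := by
    rw [h1]
    field_simp
    ring
  have h3 : (rho s / (1 + (1 - s.1) * ‖stI s u z‖)) * (rho s - (1 - s.1) *
      ‖z - (1 - s.1) • u‖)⁻¹ = 1 := by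
    rw [h2]
    have := (rho_pos s).ne'
    have h' := h.ne'
    field_simp
  rw [stV, stI, smul_smul]
  rw [stI] at h3
  rw [h3, one_smul, add_sub_cancel]

omit [FiniteDimensional ℝ V] in
theorem continuous_rho : Continuous rho := by
  unfold rho
  fun_prop

omit [FiniteDimensional ℝ V] in
theorem continuous_stV : Continuous fun p : (unitInterval × V) × V => stV p.1.1 p.1.2 p.2 := by
  unfold stV
  have h1 : Continuous fun p : (unitInterval × V) × V => rho p.1.1 :=
    continuous_rho.comp (by fun_prop)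
  have h2 : Continuous fun p : (unitInterval × V) × V => 1 + (1 - p.1.1.1) * ‖p.2‖ := by
    fun_prop
  have h3 : Continuous fun p : (unitInterval × V) × V =>
      rho p.1.1 / (1 + (1 - p.1.1.1) * ‖p.2‖) := h1.div h2 fun p => (denS_pos p.1.1 p.2).ne'
  refine Continuous.add (by fun_prop) (h3.smul continuous_snd)

omit [FiniteDimensional ℝ V] in
theorem continuous_posf : Continuous fun p : (unitInterval × V) × V =>
    rho p.1.1 - (1 - p.1.1.1) * ‖p.2 - (1 - p.1.1.1) • p.1.2‖ := by
  have h1 : Continuous fun p : (unitInterval × V) × V => rho p.1.1 :=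
    continuous_rho.comp (by fun_prop)
  exact h1.sub (by fun_prop)

omit [FiniteDimensional ℝ V] in
theorem continuousAt_stI {p : (unitInterval × V) × V}
    (h : 0 < rho p.1.1 - (1 - p.1.1.1) * ‖p.2 - (1 - p.1.1.1) • p.1.2‖) :
    ContinuousAt (fun p : (unitInterval × V) × V => stI p.1.1 p.1.2 p.2) p := by
  unfold stI
  refine ContinuousAt.smul (ContinuousAt.inv₀ continuous_posf.continuousAt h.ne') ?_
  fun_prop

/-! ### the collapse in coordinates -/

section coll

variable {W : Type} [NormedAddCommGroup W] [NormedSpace ℝ W] {K : ℕ}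
  (φ : (V × W) ≃L[ℝ] (Fin K → ℝ))

/-- the open embedding in coordinates -/
noncomputable def qK (e : (unitInterval × SV V) × (Fin K → ℝ)) :
    (unitInterval × SV V) × (Fin K → ℝ) :=
  (e.1, φ (stV e.1.1 (e.1.2 : V) (φ.symm e.2).1, (φ.symm e.2).2))

/-- the data of a point -/
noncomputable def trF (e : (unitInterval × SV V) × (Fin K → ℝ)) : (unitInterval × V) × V :=
  ((e.1.1, (e.1.2 : V)), (φ.symm e.2).1)

omit [FiniteDimensional ℝ V] in
theorem continuous_trF : Continuous (trF φ) :=
  ((continuous_fst.comp continuous_fst).prodMk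
    (continuous_subtype_val.comp (continuous_snd.comp continuous_fst))).prodMk
    (continuous_fst.comp (φ.symm.continuous.comp continuous_snd))

omit [FiniteDimensional ℝ V] in
theorem continuous_qK : Continuous (qK φ) := by
  unfold qK
  have h1 : Continuous fun e : (unitInterval × SV V) × (Fin K → ℝ) =>
      stV e.1.1 (e.1.2 : V) (φ.symm e.2).1 := continuous_stV.comp (continuous_trF φ)
  exact continuous_fst.prodMk (φ.continuous.comp (h1.prodMk
    (continuous_snd.comp (φ.symm.continuous.comp continuous_snd))))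

/-- the section -/
noncomputable def qKs (b : (unitInterval × SV V) × (Fin K → ℝ)) :
    (unitInterval × SV V) × (Fin K → ℝ) :=
  (b.1, φ (stI b.1.1 (b.1.2 : V) (φ.symm b.2).1, (φ.symm b.2).2))

/-- the domain of the section -/
noncomputable def posK (b : (unitInterval × SV V) × (Fin K → ℝ)) : ℝ :=
  rho b.1.1 - (1 - b.1.1.1) * ‖(φ.symm b.2).1 - (1 - b.1.1.1) • (b.1.2 : V)‖

omit [FiniteDimensional ℝ V] in
theorem continuous_posK : Continuous (posK φ) := continuous_posf.comp (continuous_trF φ)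

omit [FiniteDimensional ℝ V] in
theorem qKs_qK (e : (unitInterval × SV V) × (Fin K → ℝ)) : qKs φ (qK φ e) = e := by
  unfold qKs qK
  dsimp only
  rw [ContinuousLinearEquiv.symm_apply_apply, stI_stV]
  exact Prod.ext rfl (φ.apply_symm_apply e.2)

omit [FiniteDimensional ℝ V] in
theorem qK_qKs {b : (unitInterval × SV V) × (Fin K → ℝ)} (h : 0 < posK φ b) :
    qK φ (qKs φ b) = b := by
  unfold qKs qK
  dsimp only
  rw [ContinuousLinearEquiv.symm_apply_apply, stV_stI _ _ _ h]
  exact Prod.ext rfl (φ.apply_symm_apply b.2)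

omit [FiniteDimensional ℝ V] in
theorem posK_qK (e : (unitInterval × SV V) × (Fin K → ℝ)) : 0 < posK φ (qK φ e) := by
  unfold posK qK
  dsimp only
  rw [ContinuousLinearEquiv.symm_apply_apply]
  exact rho_stV_pos _ _ _

omit [FiniteDimensional ℝ V] in
theorem isOpenMap_qK : IsOpenMap (qK φ) := by
  refine isOpenMap_of_section fun e => ⟨qKs φ, ?_, qKs_qK φ e, ?_⟩
  · unfold qKs
    have h0 : ContinuousAt (fun p : (unitInterval × V) × V => stI p.1.1 p.1.2 p.2)
        (trF φ (qK φ e)) := continuousAt_stI (p := trF φ (qK φ e)) (posK_qK φ e)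
    have h3 : ContinuousAt (fun e : (unitInterval × SV V) × (Fin K → ℝ) =>
        stI e.1.1 (e.1.2 : V) (φ.symm e.2).1) (qK φ e) :=
      ContinuousAt.comp (f := trF φ) h0 (continuous_trF φ).continuousAt
    have h4 : Continuous fun e : (unitInterval × SV V) × (Fin K → ℝ) => (φ.symm e.2).2 :=
      continuous_snd.comp (φ.symm.continuous.comp continuous_snd)
    have h5 : ContinuousAt (fun e : (unitInterval × SV V) × (Fin K → ℝ) =>
        ((stI e.1.1 (e.1.2 : V) (φ.symm e.2).1, (φ.symm e.2).2) : V × W)) (qK φ e) :=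
      h3.prodMk h4.continuousAt
    have h6 : ContinuousAt (fun e : (unitInterval × SV V) × (Fin K → ℝ) =>
        φ (stI e.1.1 (e.1.2 : V) (φ.symm e.2).1, (φ.symm e.2).2)) (qK φ e) :=
      ContinuousAt.comp (g := fun x : V × W => φ x) φ.continuous.continuousAt h5
    have h7 : ContinuousAt (fun e : (unitInterval × SV V) × (Fin K → ℝ) => e.1) (qK φ e) :=
      continuous_fst.continuousAt
    exact h7.prodMk h6
  · filter_upwards [continuous_posK φ |>.continuousAt.eventually_const_lt (posK_qK φ e)] with b hb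
    exact qK_qKs φ hb

/-- **the collapse** -/
noncomputable def gK : LC.of ((unitInterval × SV V) × (Fin K → ℝ)) ⟶ LC.of (Fin K → ℝ) :=
  desc (E := LC.of ((unitInterval × SV V) × (Fin K → ℝ)))
    (B := LC.of ((unitInterval × SV V) × (Fin K → ℝ))) (C := LC.of (Fin K → ℝ)) (qK φ)
    (continuous_qK φ) (isOpenMap_qK φ) (sndC (LC.of (unitInterval × SV V)) (LC.of (Fin K → ℝ)))
    (fun e e' h => by rw [← qKs_qK φ e, h, qKs_qK])

theorem app_gK_of_pos {b : (unitInterval × SV V) × (Fin K → ℝ)} (h : 0 < posK φ b) :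
    app (gK φ) ((b : (unitInterval × SV V) × (Fin K → ℝ)) :
      OnePoint ((unitInterval × SV V) × (Fin K → ℝ))) = ((qKs φ b).2 : OnePoint (Fin K → ℝ)) := by
  obtain ⟨e, rfl⟩ : ∃ e, b = qK φ e := ⟨_, (qK_qKs φ h).symm⟩
  rw [qKs_qK]
  exact app_desc_coe (E := LC.of ((unitInterval × SV V) × (Fin K → ℝ)))
    (B := LC.of ((unitInterval × SV V) × (Fin K → ℝ))) (C := LC.of (Fin K → ℝ)) (qK φ)
    (continuous_qK φ) (isOpenMap_qK φ) (sndC (LC.of (unitInterval × SV V)) (LC.of (Fin K → ℝ)))
    (fun e e' h => by rw [← qKs_qK φ e, h, qKs_qK]) e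

theorem app_gK_of_le {b : (unitInterval × SV V) × (Fin K → ℝ)} (h : posK φ b ≤ 0) :
    app (gK φ) ((b : (unitInterval × SV V) × (Fin K → ℝ)) :
      OnePoint ((unitInterval × SV V) × (Fin K → ℝ))) = ∞ := by
  refine app_desc_of_notMem (E := LC.of ((unitInterval × SV V) × (Fin K → ℝ)))
    (B := LC.of ((unitInterval × SV V) × (Fin K → ℝ))) (C := LC.of (Fin K → ℝ)) (qK φ)
    (continuous_qK φ) (isOpenMap_qK φ) (sndC (LC.of (unitInterval × SV V)) (LC.of (Fin K → ℝ)))
    (fun e e' h => by rw [← qKs_qK φ e, h, qKs_qK]) ?_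
  rintro ⟨e, rfl⟩
  exact absurd (posK_qK φ e) (not_lt.2 h)

/-- the value of a sheet -/
noncomputable def shv (k : unitInterval × SV V) (y : T0.Sph K) : T0.Sph K :=
  app (gK φ) (smash (k : OnePoint (unitInterval × SV V)) y)

theorem continuous_shv : Continuous fun p : (unitInterval × SV V) × T0.Sph K =>
    shv φ p.1 p.2 :=
  (continuous_app (gK φ)).comp (continuous_smash.comp
    ((OnePoint.continuous_coe.comp continuous_fst).prodMk continuous_snd))

theorem shv_infty (k : unitInterval × SV V) : shv φ k ∞ = ∞ := by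
  unfold shv
  rw [smash_infty_right]
  exact app_infty _

theorem shv_of_pos {s : unitInterval} {u : SV V} {z : V} {w : W}
    (h : 0 < rho s - (1 - s.1) * ‖z - (1 - s.1) • (u : V)‖) :
    shv φ (s, u) ((φ (z, w) : Fin K → ℝ) : T0.Sph K) = ((φ (stI s u z, w) : Fin K → ℝ) : T0.Sph K) := by
  have h1 : 0 < posK φ ((s, u), φ (z, w)) := by
    unfold posK
    dsimp only
    rw [ContinuousLinearEquiv.symm_apply_apply]
    exact h
  refine (app_gK_of_pos φ h1).trans ?_
  unfold qKs
  dsimp only
  rw [ContinuousLinearEquiv.symm_apply_apply]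

theorem shv_of_le {s : unitInterval} {u : SV V} {z : V} {w : W}
    (h : rho s - (1 - s.1) * ‖z - (1 - s.1) • (u : V)‖ ≤ 0) :
    shv φ (s, u) ((φ (z, w) : Fin K → ℝ) : T0.Sph K) = ∞ := by
  refine app_gK_of_le φ (b := ((s, u), φ (z, w))) ?_
  unfold posK
  dsimp only
  rw [ContinuousLinearEquiv.symm_apply_apply]
  exact h

theorem shv_one (u : SV V) (y : T0.Sph K) : shv φ (1, u) y = y := by
  induction y using OnePoint.rec with
  | infty => exact shv_infty φ _
  | coe y =>
    obtain ⟨⟨z, w⟩, rfl⟩ := φ.surjective y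
    have h : rho 1 - (1 - (1 : unitInterval).1) * ‖z - (1 - (1 : unitInterval).1) • (u : V)‖ =
        1 := by
      unfold rho
      norm_num
    rw [shv_of_pos φ (by rw [h]; exact one_pos)]
    have h2 : stI 1 (u : V) z = z := by
      rw [stI, h]
      norm_num
    rw [h2]

end coll

end Vale.Agent.P263.KJ
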