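import Vale.Agent.P263.KJ.J
import Mathlib.Topology.Homotopy.Basic

/-!
# P263, block KJ: tools for the single sheet

* `fin3 k m B p = (m/k, (B/k, p))` (`∞` if `k = 0`), `continuousAt_fin3`;
* `continuousAt_of_bound` : continuity at a point with value `∞`;
* `descT q φ` : descent of `φ : T × E⁺ → Z` along an open map `q : E → B`, `T` arbitrary;
* `sym φ` : the join of `φ` and `φ ∘ ι`.
-/

open Filter Topology OnePoint Set

namespace Vale.Agent.P263.KJ.Sht

section fin3

variable {E F P : Type*} [NormedAddCommGroup E] [NormedSpace ℝ E] [ProperSpace E]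
  [NormedAddCommGroup F] [NormedSpace ℝ F] [ProperSpace F]
  [TopologicalSpace P] [CompactSpace P]

/-- continuity at a point with value `∞` -/
theorem continuousAt_of_bound {X : Type*} [TopologicalSpace X] {f : X → OnePoint (E × (F × P))}
    {x₀ : X} (h0 : f x₀ = ∞)
    (h : ∀ R : ℝ, ∀ᶠ x in 𝓝 x₀, ∀ m B p, f x = (((m, (B, p)) : E × (F × P)) :
      OnePoint (E × (F × P))) → R < max ‖m‖ ‖B‖) : ContinuousAt f x₀ := by
  unfold ContinuousAt
  rw [h0]
  intro U hU
  obtain ⟨K, ⟨hKc, hK⟩, hKU⟩ := (OnePoint.hasBasis_nhds_infty (X := E × (F × P))).mem_iff.1 hU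
  have hb1 : Bornology.IsBounded (Prod.fst '' K) := (hK.image continuous_fst).isBounded
  have hb2 : Bornology.IsBounded ((fun x : E × (F × P) => x.2.1) '' K) :=
    (hK.image (by fun_prop)).isBounded
  obtain ⟨R1, hR1⟩ := hb1.exists_norm_le
  obtain ⟨R2, hR2⟩ := hb2.exists_norm_le
  rw [mem_map]
  filter_upwards [h (max R1 R2)] with x hx
  apply hKU
  cases hfx : f x using OnePoint.rec with
  | infty => exact Or.inr rfl
  | coe y =>
    obtain ⟨m, B, p⟩ := y
    refine Or.inl ⟨(m, (B, p)), fun hy => ?_, rfl⟩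
    have h1 : ‖m‖ ≤ R1 := hR1 _ ⟨_, hy, rfl⟩
    have h2 : ‖B‖ ≤ R2 := hR2 _ ⟨_, hy, rfl⟩
    exact absurd (hx m B p hfx) (not_lt.2 (max_le_max h1 h2))

open scoped Classical in
/-- `(m/k, (B/k, p))`, or `∞` if `k = 0` -/
noncomputable def fin3 (k : ℝ) (m : E) (B : F) (p : P) : OnePoint (E × (F × P)) :=
  if k = 0 then ∞ else (((k⁻¹ • m, (k⁻¹ • B, p)) : E × (F × P)) : OnePoint (E × (F × P)))

omit [ProperSpace E] [ProperSpace F] [TopologicalSpace P] [CompactSpace P] in
@[simp] theorem fin3_zero (m : E) (B : F) (p : P) : fin3 0 m B p = ∞ := if_pos rfl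

omit [ProperSpace E] [ProperSpace F] [TopologicalSpace P] [CompactSpace P] in
theorem fin3_of_ne {k : ℝ} (hk : k ≠ 0) (m : E) (B : F) (p : P) :
    fin3 k m B p = (((k⁻¹ • m, (k⁻¹ • B, p)) : E × (F × P)) : OnePoint (E × (F × P))) := if_neg hk

omit [ProperSpace E] [ProperSpace F] [TopologicalSpace P] [CompactSpace P] in
@[simp] theorem fin3_one (m : E) (B : F) (p : P) :
    fin3 1 m B p = (((m, (B, p)) : E × (F × P)) : OnePoint (E × (F × P))) := by
  rw [fin3_of_ne one_ne_zero, inv_one, one_smul, one_smul]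

omit [ProperSpace E] [ProperSpace F] [TopologicalSpace P] [CompactSpace P] in
theorem fin3_eq_infty {k : ℝ} {m : E} {B : F} {p : P} : fin3 k m B p = ∞ ↔ k = 0 := by
  constructor
  · intro h
    by_contra hk
    rw [fin3_of_ne hk] at h
    exact OnePoint.coe_ne_infty _ h
  · rintro rfl; simp

theorem continuousAt_fin3 {X : Type*} [TopologicalSpace X] {k : X → ℝ} {m : X → E} {B : X → F}
    {p : X → P} {x₀ : X} (hk : ContinuousAt k x₀) (hm : ContinuousAt m x₀)
    (hB : ContinuousAt B x₀) (hp : ContinuousAt p x₀) (h : k x₀ ≠ 0 ∨ m x₀ ≠ 0 ∨ B x₀ ≠ 0) :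
    ContinuousAt (fun x => fin3 (k x) (m x) (B x) (p x)) x₀ := by
  by_cases h0 : k x₀ = 0
  · have hmB : 0 < max ‖m x₀‖ ‖B x₀‖ := by
      rcases h with h | h | h
      · exact absurd h0 h
      · exact lt_max_of_lt_left (norm_pos_iff.2 h)
      · exact lt_max_of_lt_right (norm_pos_iff.2 h)
    refine continuousAt_of_bound (by rw [h0, fin3_zero]) fun R => ?_
    have h1 : ContinuousAt (fun x => max ‖m x‖ ‖B x‖ - (|R| + 1) * |k x|) x₀ :=
      (hm.norm.max hB.norm).sub (continuousAt_const.mul hk.abs)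
    have h2 : 0 < max ‖m x₀‖ ‖B x₀‖ - (|R| + 1) * |k x₀| := by rw [h0]; simpa using hmB
    filter_upwards [h1.eventually (lt_mem_nhds h2)] with x hx
    intro m' B' p' he
    by_cases hkx : k x = 0
    · rw [hkx, fin3_zero] at he
      exact absurd he.symm (OnePoint.coe_ne_infty _)
    · rw [fin3_of_ne hkx, OnePoint.coe_eq_coe] at he
      obtain ⟨e1, e2⟩ := Prod.mk.inj he
      obtain ⟨e2, -⟩ := Prod.mk.inj e2
      rw [← e1, ← e2, norm_smul, norm_smul, norm_inv, Real.norm_eq_abs,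
        ← mul_max_of_nonneg _ _ (inv_nonneg.2 (abs_nonneg _))]
      have hpos : 0 < |k x| := abs_pos.2 hkx
      have h3 : (|R| + 1) * |k x| < max ‖m x‖ ‖B x‖ := by linarith
      calc R < |R| + 1 := by linarith [le_abs_self R]
        _ < |k x|⁻¹ * max ‖m x‖ ‖B x‖ := by
          rw [← div_eq_inv_mul, lt_div_iff₀ hpos]; exact h3
  · have h1 : ContinuousAt (fun x => (((((k x)⁻¹ • m x, ((k x)⁻¹ • B x, p x)) : E × (F × P))) :
        OnePoint (E × (F × P)))) x₀ := by
      refine OnePoint.continuous_coe.continuousAt.comp ?_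
      exact ((hk.inv₀ h0).smul hm).prodMk (((hk.inv₀ h0).smul hB).prodMk hp)
    refine h1.congr ?_
    filter_upwards [hk.eventually_ne h0] with x hx
    exact (fin3_of_ne hx _ _ _).symm

end fin3

section descT

variable {T E B Z : Type*} [TopologicalSpace T] [TopologicalSpace E] [TopologicalSpace B]
  [T2Space B] [TopologicalSpace Z]

open scoped Classical in
/-- descent of `φ` along `q`, with value `z₀` off the image -/
noncomputable def descT (q : E → B) (φ : T × OnePoint E → Z) (z₀ : Z) (x : T × OnePoint B) : Z :=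
  if h : ∃ e : E, ((q e : B) : OnePoint B) = x.2 then φ (x.1, (h.choose : OnePoint E)) else z₀

omit [TopologicalSpace T] [TopologicalSpace E] [TopologicalSpace B] [T2Space B]
  [TopologicalSpace Z] in
theorem descT_coe {q : E → B} {φ : T × OnePoint E → Z} {z₀ : Z}
    (h : ∀ t (e e' : E), q e = q e' → φ (t, (e : OnePoint E)) = φ (t, (e' : OnePoint E))) (t : T)
    (e : E) : descT q φ z₀ (t, ((q e : B) : OnePoint B)) = φ (t, (e : OnePoint E)) := by
  unfold descT
  have h1 : ∃ e' : E, ((q e' : B) : OnePoint B) = ((q e : B) : OnePoint B) := ⟨e, rfl⟩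
  dsimp only
  rw [dif_pos h1]
  exact h t _ _ (OnePoint.coe_injective h1.choose_spec)

omit [TopologicalSpace T] [TopologicalSpace E] [TopologicalSpace B] [T2Space B]
  [TopologicalSpace Z] in
theorem descT_of_notMem {q : E → B} {φ : T × OnePoint E → Z} {z₀ : Z} (t : T) {x : OnePoint B}
    (h : ∀ e, ((q e : B) : OnePoint B) ≠ x) : descT q φ z₀ (t, x) = z₀ := by
  unfold descT
  rw [dif_neg]
  rintro ⟨e, he⟩
  exact h e he

omit [TopologicalSpace T] [TopologicalSpace E] [TopologicalSpace B] [T2Space B]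
  [TopologicalSpace Z] in
@[simp] theorem descT_infty {q : E → B} {φ : T × OnePoint E → Z} {z₀ : Z} (t : T) :
    descT q φ z₀ (t, ∞) = z₀ := descT_of_notMem t fun _ => OnePoint.coe_ne_infty _

theorem continuous_descT {q : E → B} (hq : Continuous q) (ho : IsOpenMap q)
    {φ : T × OnePoint E → Z} {z₀ : Z} (hφ : Continuous φ) (h0 : ∀ t, φ (t, ∞) = z₀)
    (h : ∀ t (e e' : E), q e = q e' → φ (t, (e : OnePoint E)) = φ (t, (e' : OnePoint E))) :
    Continuous (descT q φ z₀) := by
  refine continuous_iff_continuousAt.2 ?_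
  rintro ⟨t₀, x₀⟩
  by_cases hx : ∃ e : E, ((q e : B) : OnePoint B) = x₀
  · obtain ⟨e₀, rfl⟩ := hx
    unfold ContinuousAt
    rw [descT_coe h]
    intro U hU
    have hop : IsOpenMap (fun p : T × E => (p.1, ((q p.2 : B) : OnePoint B))) :=
      IsOpenMap.id.prodMap (OnePoint.isOpenEmbedding_coe.isOpenMap.comp ho)
    have hc : Continuous (fun p : T × E => φ (p.1, (p.2 : OnePoint E))) :=
      hφ.comp (continuous_fst.prodMk (OnePoint.continuous_coe.comp continuous_snd))
    have h1 : (fun p : T × E => φ (p.1, (p.2 : OnePoint E))) ⁻¹' U ∈ 𝓝 (t₀, e₀) :=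
      hc.continuousAt hU
    have h2 := hop.image_mem_nhds h1
    rw [mem_map]
    filter_upwards [h2] with y hy
    obtain ⟨⟨t, e⟩, he, rfl⟩ := hy
    show descT q φ z₀ (t, ((q e : B) : OnePoint B)) ∈ U
    rw [descT_coe h]
    exact he
  · push Not at hx
    unfold ContinuousAt
    rw [descT_of_notMem t₀ hx]
    intro U hU
    have h1 : φ ⁻¹' U ∈ 𝓝 (t₀, (∞ : OnePoint E)) := by
      apply hφ.continuousAt
      rw [h0]
      exact hU
    rw [nhds_prod_eq, mem_prod_iff] at h1
    obtain ⟨T', hT', O, hO, hTO⟩ := h1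
    obtain ⟨K, ⟨hKc, hK⟩, hKO⟩ := (OnePoint.hasBasis_nhds_infty (X := E)).mem_iff.1 hO
    have h2 : IsClosed (((↑) : B → OnePoint B) '' (q '' K)) :=
      OnePoint.isClosed_image_coe.2 ⟨(hK.image hq).isClosed, hK.image hq⟩
    have h3 : ((((↑) : B → OnePoint B) '' (q '' K)))ᶜ ∈ 𝓝 x₀ := by
      refine h2.isOpen_compl.mem_nhds ?_
      rintro ⟨_, ⟨e, -, rfl⟩, he⟩
      exact hx e he
    rw [mem_map, nhds_prod_eq]
    filter_upwards [prod_mem_prod hT' h3] with y hy
    obtain ⟨t, x⟩ := y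
    obtain ⟨hy1, hy2⟩ := hy
    show descT q φ z₀ (t, x) ∈ U
    by_cases hx' : ∃ e : E, ((q e : B) : OnePoint B) = x
    · obtain ⟨e, rfl⟩ := hx'
      rw [descT_coe h]
      refine hTO ⟨hy1, hKO (Or.inl ⟨e, fun heK => ?_, rfl⟩)⟩
      exact hy2 ⟨q e, ⟨e, heK, rfl⟩, rfl⟩
    · push Not at hx'
      rw [descT_of_notMem t hx']
      exact mem_of_mem_nhds hU

end descT

section sym

variable {X C : Type*} [TopologicalSpace X] [TopologicalSpace C]

open scoped Classical in
/-- the join of `f` and `g` -/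
noncomputable def jn2 (f g : X → OnePoint C) (x : X) : OnePoint C :=
  if f x = ∞ then g x else f x

omit [TopologicalSpace X] [TopologicalSpace C] in
theorem jn2_of_ne {f g : X → OnePoint C} {x : X} (h : f x ≠ ∞) : jn2 f g x = f x := if_neg h

omit [TopologicalSpace X] [TopologicalSpace C] in
theorem jn2_of_eq {f g : X → OnePoint C} {x : X} (h : f x = ∞) : jn2 f g x = g x := if_pos h

omit [TopologicalSpace X] [TopologicalSpace C] in
theorem jn2_of_right {f g : X → OnePoint C} (h : ∀ x, f x = ∞ ∨ g x = ∞) {x : X}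
    (hg : g x ≠ ∞) : jn2 f g x = g x := by
  rcases h x with h | h
  · exact jn2_of_eq h
  · exact absurd h hg

omit [TopologicalSpace X] [TopologicalSpace C] in
theorem jn2_comm {f g : X → OnePoint C} (h : ∀ x, f x = ∞ ∨ g x = ∞) (x : X) :
    jn2 f g x = jn2 g f x := by
  by_cases hf : f x = ∞
  · by_cases hg : g x = ∞
    · rw [jn2_of_eq hf, jn2_of_eq hg, hf, hg]
    · rw [jn2_of_eq hf, jn2_of_ne hg]
  · have hg : g x = ∞ := (h x).resolve_left hf
    rw [jn2_of_ne hf, jn2_of_eq hg]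

theorem continuous_jn2 {f g : X → OnePoint C} (hf : Continuous f) (hg : Continuous g)
    (h : ∀ x, f x = ∞ ∨ g x = ∞) : Continuous (jn2 f g) := by
  refine continuous_iff_continuousAt.2 fun x₀ => ?_
  by_cases h1 : f x₀ = ∞
  · by_cases h2 : g x₀ = ∞
    · unfold ContinuousAt
      rw [jn2_of_eq h1, h2]
      intro U hU
      have h3 : f ⁻¹' U ∈ 𝓝 x₀ := hf.continuousAt (by rw [h1]; exact hU)
      have h4 : g ⁻¹' U ∈ 𝓝 x₀ := hg.continuousAt (by rw [h2]; exact hU)
      rw [mem_map]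
      filter_upwards [h3, h4] with x hx hx'
      show jn2 f g x ∈ U
      unfold jn2
      split_ifs
      · exact hx'
      · exact hx
    · refine hg.continuousAt.congr ?_
      have h3 : {x | g x ≠ ∞} ∈ 𝓝 x₀ :=
        (OnePoint.isClosed_infty.isOpen_compl.preimage hg).mem_nhds h2
      filter_upwards [h3] with x hx
      exact (jn2_of_right h hx).symm
  · refine hf.continuousAt.congr ?_
    have h3 : {x | f x ≠ ∞} ∈ 𝓝 x₀ :=
      (OnePoint.isClosed_infty.isOpen_compl.preimage hf).mem_nhds h1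
    filter_upwards [h3] with x hx
    exact (jn2_of_ne hx).symm

end sym

end Vale.Agent.P263.KJ.Sht
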