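import Vale.Agent.P263.KJ.Rot
import Vale.Agent.P263.KJ.Lam

/-!
# P263, literal `J`: the rotating tube as an open embedding

`qR (t, (r, (u, N), x)) = (t, (tA t k u x' N', tz t k u x'))` with `k = Kr r`, `x' = sq x / 4`,
`N' = ((1-t)k + t)/4 • sq N`: an open embedding of `[0,1] × (ℝ × EN V × V)` into
`[0,1] × ((V →L V) × V)`, with its collapse `cR`.
-/

open CategoryTheory MonoidalCategory Filter Topology OnePoint InnerProductSpace RealInnerProductSpace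

namespace Vale.Agent.P263.KJ

open Vale.Agent.P251.G Vale.Agent.P251.G.LC

variable (V : Type) [NormedAddCommGroup V] [InnerProductSpace ℝ V] [FiniteDimensional ℝ V]

/-- the total space of the tube of `J` times the tube of `lam` -/
abbrev XR : Type := ℝ × EN V × V

variable {V}

/-- the radius `(1-t) k + t` -/
noncomputable def ka (t r : ℝ) : ℝ := (1 - t) * Kr r + t

omit [FiniteDimensional ℝ V] in
theorem ka_pos {t : ℝ} (h0 : 0 ≤ t) (h1 : t ≤ 1) (r : ℝ) : 0 < ka t r := by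
  unfold ka
  have hk := Kr_pos r
  rcases h0.eq_or_lt with h | h
  · rw [← h]; linarith
  · have := mul_nonneg (sub_nonneg.mpr h1) hk.le; linarith

@[fun_prop]
theorem continuous_ka : Continuous fun p : ℝ × ℝ => ka p.1 p.2 := by
  unfold ka
  have := continuous_Kr
  fun_prop

/-- the squeezed `N` -/
noncomputable def sN (t r : ℝ) (N : V →L[ℝ] V) : V →L[ℝ] V := (ka t r / 4) • sq N

omit [FiniteDimensional ℝ V] in
theorem norm_sN_lt {t : ℝ} (h0 : 0 ≤ t) (h1 : t ≤ 1) (r : ℝ) (N : V →L[ℝ] V) :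
    ‖sN t r N‖ < ((1 - t) * Kr r + t) / 4 := by
  have hk := ka_pos h0 h1 r
  rw [sN, norm_smul, Real.norm_of_nonneg (by positivity)]
  have h2 := norm_sq_lt N
  have h3 : ka t r / 4 * ‖sq N‖ < ka t r / 4 * 1 := mul_lt_mul_of_pos_left h2 (by positivity)
  rwa [mul_one] at h3

omit [FiniteDimensional ℝ V] in
theorem sN_apply {t r : ℝ} {N : V →L[ℝ] V} {u : V} (h : N u = 0) : sN t r N u = 0 := by
  simp [sN, sq, h]

/-- the rotating tube -/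
noncomputable def qR (a : unitInterval × XR V) : unitInterval × ((V →L[ℝ] V) × V) :=
  (a.1, (tA (a.1 : ℝ) (Kr a.2.1) (a.2.2.1.1.1 : V) ((1 / 4 : ℝ) • sq a.2.2.2)
      (sN (a.1 : ℝ) a.2.1 a.2.2.1.1.2),
    tz (a.1 : ℝ) (Kr a.2.1) (a.2.2.1.1.1 : V) ((1 / 4 : ℝ) • sq a.2.2.2)))

omit [FiniteDimensional ℝ V] in
theorem continuous_qR : Continuous (qR (V := V)) := by
  unfold qR tA tz sN
  have h1 : Continuous fun a : unitInterval × XR V => ka (a.1 : ℝ) a.2.1 :=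
    continuous_ka.comp (by fun_prop : Continuous fun a : unitInterval × XR V =>
      ((a.1 : ℝ), a.2.1))
  have h2 : Continuous fun a : unitInterval × XR V => Kr a.2.1 := by fun_prop
  have h3 : Continuous fun a : unitInterval × XR V => sq a.2.2.2 := by fun_prop
  have h4 : Continuous fun a : unitInterval × XR V => sq a.2.2.1.1.2 := by fun_prop
  have h5 : Continuous fun a : unitInterval × XR V => (a.2.2.1.1.1 : V) := by fun_prop
  have h6 : Continuous fun a : unitInterval × XR V => ten (a.2.2.1.1.1 : V) (a.2.2.1.1.1 : V) :=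
    Continuous.ten h5 h5
  have h7 : Continuous fun a : unitInterval × XR V =>
      ten ((1 / 4 : ℝ) • sq a.2.2.2) (a.2.2.1.1.1 : V) := Continuous.ten (by fun_prop) h5
  fun_prop

omit [FiniteDimensional ℝ V] in
theorem qR_injective : Function.Injective (qR (V := V)) := by
  rintro ⟨t, r, ⟨⟨u, N⟩, hN⟩, x⟩ ⟨t', r', ⟨⟨u', N'⟩, hN'⟩, x'⟩ h
  have ht : t = t' := congrArg Prod.fst h
  subst ht
  have h0 : (0 : ℝ) ≤ t := t.2.1
  have h1 : (t : ℝ) ≤ 1 := t.2.2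
  have hA := congrArg (fun p => p.2.1) h
  have hz := congrArg (fun p => p.2.2) h
  obtain ⟨e1, e2, e3, e4⟩ := rot_inj h0 h1 (Kr_pos r) (norm_SV u) (sN_apply hN)
    (norm_sN_lt h0 h1 r N) (norm_quarter_sq x) (Kr_pos r') (norm_SV u') (sN_apply hN')
    (norm_quarter_sq x') hA hz
  have hr : r = r' := by rw [← Ki_Kr r, e1, Ki_Kr]
  subst hr
  have hu : u = u' := Subtype.ext e2
  subst hu
  have hx : x = x' := by
    have h5 : sq x = sq x' := by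
      have := congrArg (fun y : V => (4 : ℝ) • y) e4
      simpa [smul_smul] using this
    rw [← usq_sq x, h5, usq_sq]
  subst hx
  have hNN : N = N' := by
    have hk := ka_pos h0 h1 r
    have h5 : sq N = sq N' := smul_right_injective _ (by positivity : (ka (t : ℝ) r / 4) ≠ 0) e3
    rw [← usq_sq N, h5, usq_sq]
  subst hNN
  rfl

theorem isOpenMap_qR : IsOpenMap (qR (V := V)) := by
  refine IsOpenMap.of_nhds_le fun e U hU => ?_
  obtain ⟨t₀, r₀, ⟨⟨u₀, N₀⟩, hN₀⟩, x₀⟩ := e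
  rw [mem_map] at hU
  have h0 : (0 : ℝ) ≤ t₀ := t₀.2.1
  have h1 : (t₀ : ℝ) ≤ 1 := t₀.2.2
  -- the ambient space
  let i : unitInterval × XR V → ℝ × ℝ × V × (V →L[ℝ] V) × V := fun a =>
    ((a.1 : ℝ), a.2.1, (a.2.2.1.1.1 : V), a.2.2.1.1.2, a.2.2.2)
  have hi : IsInducing i := by
    have e1 : IsInducing fun a : EN V => ((a.1.1 : V), a.1.2) :=
      (IsInducing.subtypeVal.prodMap IsInducing.id).comp IsInducing.subtypeVal
    have e2 : IsInducing fun a : unitInterval × ℝ × EN V × V =>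
        ((a.1 : ℝ), a.2.1, ((a.2.2.1.1.1 : V), a.2.2.1.1.2), a.2.2.2) :=
      IsInducing.subtypeVal.prodMap (IsInducing.id.prodMap (e1.prodMap IsInducing.id))
    have e3 : IsInducing fun p : ℝ × ℝ × (V × (V →L[ℝ] V)) × V =>
        ((p.1, p.2.1, p.2.2.1.1, p.2.2.1.2, p.2.2.2) : ℝ × ℝ × V × (V →L[ℝ] V) × V) :=
      ((Homeomorph.refl ℝ).prodCongr ((Homeomorph.refl ℝ).prodCongr
        (Homeomorph.prodAssoc V (V →L[ℝ] V) V))).isInducing
    exact e3.comp e2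
  rw [hi.nhds_eq_comap, mem_comap] at hU
  obtain ⟨O, hO, hOU⟩ := hU
  let Ψ : ℝ × ℝ × V × (V →L[ℝ] V) × V → ℝ × ℝ × V × (V →L[ℝ] V) × V := fun p =>
    (p.1, Ki p.2.1, p.2.2.1, usq ((((1 - p.1) * p.2.1 + p.1) / 4)⁻¹ • p.2.2.2.1),
      usq ((4 : ℝ) • p.2.2.2.2))
  set k₀ := Kr r₀ with hk₀
  have hk : 0 < k₀ := Kr_pos r₀
  have hka := ka_pos h0 h1 r₀
  have hka' : (0 : ℝ) < (1 - t₀) * k₀ + t₀ := hka
  set N₁ := sN (t₀ : ℝ) r₀ N₀ with hN₁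
  set x₁ : V := (1 / 4 : ℝ) • sq x₀ with hx₁
  have eN : ((((1 - (t₀ : ℝ)) * k₀ + t₀) / 4)⁻¹ • N₁ : V →L[ℝ] V) = sq N₀ := by
    rw [hN₁, sN, smul_smul]
    change ((ka (t₀ : ℝ) r₀ / 4)⁻¹ * (ka (t₀ : ℝ) r₀ / 4)) • sq N₀ = sq N₀
    rw [inv_mul_cancel₀ (by positivity), one_smul]
  have ex : ((4 : ℝ) • x₁ : V) = sq x₀ := by
    rw [hx₁, smul_smul]; norm_num
  have hΨv : Ψ ((t₀ : ℝ), k₀, (u₀ : V), N₁, x₁) =
      i (t₀, r₀, ⟨⟨u₀, N₀⟩, hN₀⟩, x₀) := by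
    change ((t₀ : ℝ), Ki k₀, (u₀ : V), usq _, usq _) = ((t₀ : ℝ), r₀, (u₀ : V), N₀, x₀)
    rw [eN, ex, usq_sq, usq_sq, hk₀, Ki_Kr]
  have hg1 : ContinuousAt (fun p : ℝ × ℝ × V × (V →L[ℝ] V) × V => Ki p.2.1)
      ((t₀ : ℝ), k₀, (u₀ : V), N₁, x₁) := by
    have hf : ContinuousAt (fun p : ℝ × ℝ × V × (V →L[ℝ] V) × V => p.2.1)
      ((t₀ : ℝ), k₀, (u₀ : V), N₁, x₁) := by fun_prop
    exact ContinuousAt.comp (g := Ki) (continuousAt_Ki hk.ne') hf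
  have hg2 : ContinuousAt (fun p : ℝ × ℝ × V × (V →L[ℝ] V) × V =>
      usq ((((1 - p.1) * p.2.1 + p.1) / 4)⁻¹ • p.2.2.2.1))
      ((t₀ : ℝ), k₀, (u₀ : V), N₁, x₁) := by
    have h3 : ContinuousAt (fun p : ℝ × ℝ × V × (V →L[ℝ] V) × V =>
        (((1 - p.1) * p.2.1 + p.1) / 4)) ((t₀ : ℝ), k₀, (u₀ : V), N₁, x₁) := by fun_prop
    have h4 : ContinuousAt (fun p : ℝ × ℝ × V × (V →L[ℝ] V) × V => p.2.2.2.1)
        ((t₀ : ℝ), k₀, (u₀ : V), N₁, x₁) := by fun_prop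
    have h5 := (h3.inv₀ (by positivity : (0 : ℝ) < ((1 - t₀) * k₀ + t₀) / 4).ne').smul h4
    refine ContinuousAt.comp (g := usq) ?_ h5
    change ContinuousAt usq ((((1 - (t₀ : ℝ)) * k₀ + t₀) / 4)⁻¹ • N₁ : V →L[ℝ] V)
    rw [eN]; exact continuousAt_usq (norm_sq_lt N₀)
  have hg3 : ContinuousAt (fun p : ℝ × ℝ × V × (V →L[ℝ] V) × V => usq ((4 : ℝ) • p.2.2.2.2))
      ((t₀ : ℝ), k₀, (u₀ : V), N₁, x₁) := by
    have h5 : ContinuousAt (fun p : ℝ × ℝ × V × (V →L[ℝ] V) × V => (4 : ℝ) • p.2.2.2.2)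
      ((t₀ : ℝ), k₀, (u₀ : V), N₁, x₁) := by fun_prop
    refine ContinuousAt.comp (g := usq) ?_ h5
    change ContinuousAt usq ((4 : ℝ) • x₁ : V)
    rw [ex]; exact continuousAt_usq (norm_sq_lt x₀)
  have hΨc : ContinuousAt Ψ ((t₀ : ℝ), k₀, (u₀ : V), N₁, x₁) :=
    ContinuousAt.prodMk (by fun_prop) (hg1.prodMk (ContinuousAt.prodMk (by fun_prop)
      (hg2.prodMk hg3)))
  -- the open conditions
  have hcond : ∀ᶠ p : ℝ × ℝ × V × (V →L[ℝ] V) × V in 𝓝 ((t₀ : ℝ), k₀, (u₀ : V), N₁, x₁),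
      0 < ((1 - p.1) * p.2.1 + p.1) / 4 ∧ ‖p.2.2.2.1‖ < ((1 - p.1) * p.2.1 + p.1) / 4 ∧
        ‖p.2.2.2.2‖ < 1 / 4 := by
    refine Filter.Eventually.and ?_ (Filter.Eventually.and ?_ ?_)
    · have hc : Continuous fun p : ℝ × ℝ × V × (V →L[ℝ] V) × V =>
        ((1 - p.1) * p.2.1 + p.1) / 4 := by fun_prop
      exact (isOpen_lt continuous_const hc).mem_nhds
        (by change (0 : ℝ) < ((1 - t₀) * k₀ + t₀) / 4; positivity)
    · have hc : Continuous fun p : ℝ × ℝ × V × (V →L[ℝ] V) × V =>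
        ((1 - p.1) * p.2.1 + p.1) / 4 := by fun_prop
      have hc' : Continuous fun p : ℝ × ℝ × V × (V →L[ℝ] V) × V => ‖p.2.2.2.1‖ := by fun_prop
      exact (isOpen_lt hc' hc).mem_nhds (norm_sN_lt h0 h1 r₀ N₀)
    · have hc' : Continuous fun p : ℝ × ℝ × V × (V →L[ℝ] V) × V => ‖p.2.2.2.2‖ := by fun_prop
      exact (isOpen_lt hc' continuous_const).mem_nhds (norm_quarter_sq x₀)
  have hpre := (hΨc.tendsto.eventually (by rw [hΨv]; exact hO)).and hcond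
  rw [nhds_prod_eq] at hpre
  obtain ⟨pa, ha, pb, hb, hab⟩ := Filter.eventually_prod_iff.mp hpre
  have hsurj := rot_surj' (U := {q | pb q}) h0 h1 hk (norm_SV u₀) (sN_apply hN₀)
    (norm_sN_lt h0 h1 r₀ N₀) (x₀ := x₁) hb
  have hj : Tendsto (fun b : unitInterval × ((V →L[ℝ] V) × V) => ((b.1 : ℝ), b.2.1, b.2.2))
      (𝓝 (qR (t₀, r₀, ⟨⟨u₀, N₀⟩, hN₀⟩, x₀)))
      (𝓝 ((t₀ : ℝ), tA (t₀ : ℝ) k₀ (u₀ : V) x₁ N₁, tz (t₀ : ℝ) k₀ (u₀ : V) x₁)) := by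
    have : Continuous fun b : unitInterval × ((V →L[ℝ] V) × V) =>
      ((b.1 : ℝ), b.2.1, b.2.2) := by fun_prop
    exact this.tendsto _
  have hj1 : Tendsto (fun b : unitInterval × ((V →L[ℝ] V) × V) => (b.1 : ℝ))
      (𝓝 (qR (t₀, r₀, ⟨⟨u₀, N₀⟩, hN₀⟩, x₀))) (𝓝 (t₀ : ℝ)) := by
    have : Continuous fun b : unitInterval × ((V →L[ℝ] V) × V) => (b.1 : ℝ) := by fun_prop
    exact this.tendsto _
  filter_upwards [hj.eventually hsurj, hj1.eventually ha] with b hb1 hb2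
  obtain ⟨t, A, z⟩ := b
  obtain ⟨k, u, N, x, hq, hk', hu, hN, hA, hz⟩ := hb1
  obtain ⟨hO', hc1, hc2, hc3⟩ := hab hb2 hq
  simp only at hO' hc1 hc2 hc3 hA hz
  -- the preimage
  have hNu : (usq ((((1 - (t : ℝ)) * k + t) / 4)⁻¹ • N) : V →L[ℝ] V) u = 0 := by
    simp [usq, hN]
  let e' : unitInterval × XR V := (t, Ki k, ⟨⟨⟨u, by simpa using hu⟩,
    usq ((((1 - (t : ℝ)) * k + t) / 4)⁻¹ • N)⟩, hNu⟩, usq ((4 : ℝ) • x))
  have h2 : qR e' = (t, A, z) := by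
    have hkk : ka (t : ℝ) (Ki k) = (1 - (t : ℝ)) * k + t := by rw [ka, Kr_Ki hk']
    have hnorm : ‖((((1 - (t : ℝ)) * k + t) / 4)⁻¹ • N : V →L[ℝ] V)‖ < 1 := by
      rw [norm_smul, norm_inv, Real.norm_of_nonneg hc1.le, inv_mul_lt_iff₀ hc1, mul_one]
      exact hc2
    have hnx : ‖(4 : ℝ) • x‖ < 1 := by
      rw [norm_smul]; norm_num; linarith
    have f1 : sN (t : ℝ) (Ki k) (usq ((((1 - (t : ℝ)) * k + t) / 4)⁻¹ • N)) = N := by
      rw [sN, sq_usq hnorm, hkk, smul_smul, mul_inv_cancel₀ hc1.ne', one_smul]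
    have f2 : (1 / 4 : ℝ) • sq (usq ((4 : ℝ) • x)) = x := by
      rw [sq_usq hnx, smul_smul]; norm_num
    change (t, (tA (t : ℝ) (Kr (Ki k)) u ((1 / 4 : ℝ) • sq (usq ((4 : ℝ) • x)))
      (sN (t : ℝ) (Ki k) (usq ((((1 - (t : ℝ)) * k + t) / 4)⁻¹ • N))),
      tz (t : ℝ) (Kr (Ki k)) u ((1 / 4 : ℝ) • sq (usq ((4 : ℝ) • x))))) = (t, A, z)
    rw [f1, f2, Kr_Ki hk', ← hA, ← hz]
  have h3 : e' ∈ qR (V := V) ⁻¹' U := hOU hO'
  have h4 : qR e' ∈ U := h3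
  rwa [h2] at h4

theorem isOpenEmbedding_qR : IsOpenEmbedding (qR (V := V)) :=
  IsOpenEmbedding.of_continuous_injective_isOpenMap continuous_qR qR_injective isOpenMap_qR

variable (V)

/-- the collapse onto the rotating tube -/
noncomputable def cR : LC.of (unitInterval × ((V →L[ℝ] V) × V)) ⟶ LC.of (unitInterval × XR V) :=
  ofOpen (X := LC.of (unitInterval × ((V →L[ℝ] V) × V))) (Y := LC.of (unitInterval × XR V))
    qR isOpenEmbedding_qR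

end Vale.Agent.P263.KJ
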