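import Vale.Agent.P263.KJ.Quo

/-!
# P263, block KJ: the single sheet of the literal `J`

`𝓒 : Col T V` : a family `f` over a space `T` with involution `σ` of based maps `V⁺ → V⁺`, with a
centre `x₀ t` at which `f` is finite, `⟪f x, x - x₀⟫ ≥ 0`, and `f t`, `f (σ t)` have disjoint
supports.
-/

open Filter Topology OnePoint Set InnerProductSpace RealInnerProductSpace

namespace Vale.Agent.P263.KJ.Sht

open Vale.Agent.P251.G Vale.Agent.P251.G.LC Vale.Agent.P263.KJ

set_option linter.unusedSectionVars false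

section basic

variable {V : Type} [NormedAddCommGroup V]

/-- `1/(1+|y|)`, `0` at `∞` -/
noncomputable def kf (y : OnePoint V) : ℝ := y.elim 0 fun v => (1 + ‖v‖)⁻¹

/-- the finite value, `0` at `∞` -/
def vf (y : OnePoint V) : V := y.elim 0 id

@[simp] theorem kf_infty : kf (∞ : OnePoint V) = 0 := rfl

@[simp] theorem kf_coe (v : V) : kf (v : OnePoint V) = (1 + ‖v‖)⁻¹ := rfl

@[simp] theorem vf_coe (v : V) : vf (v : OnePoint V) = v := rfl

theorem kf_nonneg (y : OnePoint V) : 0 ≤ kf y := by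
  induction y using OnePoint.rec with
  | infty => exact le_rfl
  | coe v => rw [kf_coe]; positivity

theorem kf_le_one (y : OnePoint V) : kf y ≤ 1 := by
  induction y using OnePoint.rec with
  | infty => rw [kf_infty]; exact zero_le_one
  | coe v => rw [kf_coe]; exact inv_le_one_of_one_le₀ (by linarith [norm_nonneg v])

theorem kf_eq_zero {y : OnePoint V} : kf y = 0 ↔ y = ∞ := by
  induction y using OnePoint.rec with
  | infty => simp
  | coe v =>
    constructor
    · intro h
      have : (0 : ℝ) < (1 + ‖v‖)⁻¹ := by positivity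
      rw [kf_coe] at h
      exact absurd h this.ne'
    · intro h
      exact absurd h (OnePoint.coe_ne_infty v)

theorem kf_mul {y : OnePoint V} (h : y ≠ ∞) : kf y * (1 + ‖vf y‖) = 1 := by
  induction y using OnePoint.rec with
  | infty => exact absurd rfl h
  | coe v =>
    rw [kf_coe, vf_coe]
    exact inv_mul_cancel₀ (by positivity)

theorem coe_vf {y : OnePoint V} (h : y ≠ ∞) : ((vf y : V) : OnePoint V) = y := by
  induction y using OnePoint.rec with
  | infty => exact absurd rfl h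
  | coe v => rfl

theorem continuousAt_vf {y : OnePoint V} (h : y ≠ ∞) : ContinuousAt vf y := by
  induction y using OnePoint.rec with
  | infty => exact absurd rfl h
  | coe v =>
    rw [OnePoint.continuousAt_coe]
    exact continuousAt_id

variable [ProperSpace V]

theorem continuous_kf : Continuous (kf : OnePoint V → ℝ) := by
  rw [OnePoint.continuous_iff, coclosedCompact_eq_cocompact]
  refine ⟨?_, ?_⟩
  · rw [← Metric.cobounded_eq_cocompact]
    change Tendsto (fun v : V => (1 + ‖v‖)⁻¹) (Bornology.cobounded V) (𝓝 0)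
    exact tendsto_inv_atTop_zero.comp
      (tendsto_atTop_add_const_left _ 1 tendsto_norm_cobounded_atTop)
  · change Continuous fun v : V => (1 + ‖v‖)⁻¹
    exact Continuous.inv₀ (by fun_prop) fun v => by positivity

end basic

variable {V : Type} [NormedAddCommGroup V] [InnerProductSpace ℝ V] [FiniteDimensional ℝ V]

/-! ### the chart -/

variable (V) in
/-- the space of `(s, (r, (u, N)))` -/
abbrev XC : Type := V × (ℝ × EN V)

/-- `(s, (r, (u, N))) ↦ (s, k u uᵀ + (k/4) N/(1+|N|))`, `k = Kr r` -/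
noncomputable def qc (e : XC V) : V × (V →L[ℝ] V) := qP (LC.of V) e

/-- the antipode -/
def io (e : XC V) : XC V := (e.1, (e.2.1, negEN e.2.2))

/-- `s - r u` -/
def xa (e : XC V) : V := e.1 - e.2.1 • (e.2.2.1.1 : V)

/-- `s + r u` -/
def xb (e : XC V) : V := e.1 + e.2.1 • (e.2.2.1.1 : V)

omit [FiniteDimensional ℝ V] in
theorem xa_io (e : XC V) : xa (io e) = xb e := by
  unfold xa xb io negEN
  simp only [coe_neg_sphere, smul_neg, sub_neg_eq_add]

omit [FiniteDimensional ℝ V] in
theorem xb_io (e : XC V) : xb (io e) = xa e := by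
  unfold xa xb io negEN
  simp only [coe_neg_sphere, smul_neg, sub_eq_add_neg]

omit [FiniteDimensional ℝ V] in
theorem negEN_negEN (e : EN V) : negEN (negEN e) = e := by
  unfold negEN
  apply Subtype.ext
  apply Prod.ext
  · exact neg_neg _
  · rfl

omit [FiniteDimensional ℝ V] in
theorem io_io (e : XC V) : io (io e) = e := by
  unfold io
  rw [negEN_negEN]

theorem continuous_negEN : Continuous (negEN (V := V)) := by
  unfold negEN
  refine Continuous.subtype_mk ?_ _
  refine Continuous.prodMk ?_ (by fun_prop)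
  exact continuous_neg.comp (by fun_prop)

theorem continuous_io : Continuous (io (V := V)) := by
  unfold io
  exact continuous_fst.prodMk ((continuous_fst.comp continuous_snd).prodMk
    (continuous_negEN.comp (continuous_snd.comp continuous_snd)))

@[fun_prop]
theorem continuous_xa : Continuous (xa (V := V)) := by unfold xa; fun_prop

@[fun_prop]
theorem continuous_xb : Continuous (xb (V := V)) := by unfold xb; fun_prop

theorem continuous_qc : Continuous (qc (V := V)) := continuous_qP (Y := LC.of V)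

theorem isOpenMap_qc : IsOpenMap (qc (V := V)) := isOpenMap_qP (Y := LC.of V)

theorem qc_io (e : XC V) : qc (io e) = qc e := by
  unfold qc qP io negEN
  simp only [coe_neg_sphere, ten_neg_neg]

theorem qc_eq {e e' : XC V} (h : qc e = qc e') : e' = e ∨ e' = io e := qP_eq (Y := LC.of V) h

/-- the antipode on the one-point compactification -/
def ioP : OnePoint (XC V) → OnePoint (XC V) := OnePoint.map io

theorem continuous_ioP : Continuous (ioP (V := V)) := by
  let h : XC V ≃ₜ XC V :=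
    ⟨⟨io, io, io_io, io_io⟩, continuous_io, continuous_io⟩
  exact h.onePointCongr.continuous

theorem isClosed_bd (ρ : ℝ) :
    IsClosed {e : XC V | ‖xa e‖ ≤ ρ ∧ ‖xb e‖ ≤ ρ ∧ ‖e.2.2.1.2‖ ≤ ρ} := by
  have h1 : IsClosed {e : XC V | ‖xa e‖ ≤ ρ} := isClosed_le (by fun_prop) continuous_const
  have h2 : IsClosed {e : XC V | ‖xb e‖ ≤ ρ} := isClosed_le (by fun_prop) continuous_const
  have h3 : IsClosed {e : XC V | ‖e.2.2.1.2‖ ≤ ρ} := isClosed_le (by fun_prop) continuous_const
  exact h1.inter (h2.inter h3)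

/-- bounded sets of the chart are relatively compact -/
theorem isCompact_bd (ρ : ℝ) : IsCompact {e : XC V | ‖xa e‖ ≤ ρ ∧ ‖xb e‖ ≤ ρ ∧ ‖e.2.2.1.2‖ ≤ ρ} := by
  have h1 : IsCompact {n : EN V | ‖n.1.2‖ ≤ ρ} := by
    have h2 : IsCompact ((univ : Set (SV V)) ×ˢ Metric.closedBall (0 : V →L[ℝ] V) ρ) :=
      isCompact_univ.prod (isCompact_closedBall _ _)
    have h3 := (isClosed_EN V).isClosedEmbedding_subtypeVal.isCompact_preimage h2
    have h5 : IsClosed {n : EN V | ‖n.1.2‖ ≤ ρ} := isClosed_le (by fun_prop) continuous_const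
    refine h3.of_isClosed_subset h5 ?_
    · intro n hn
      refine ⟨mem_univ _, ?_⟩
      rw [mem_closedBall_zero_iff]
      exact hn
  have h4 : IsCompact (Metric.closedBall (0 : V) ρ ×ˢ (Metric.closedBall (0 : ℝ) ρ ×ˢ
      {n : EN V | ‖n.1.2‖ ≤ ρ})) :=
    (isCompact_closedBall _ _).prod ((isCompact_closedBall _ _).prod h1)
  refine h4.of_isClosed_subset (isClosed_bd ρ) ?_
  · rintro ⟨s, r, n⟩ ⟨ha, hb, hn⟩
    have e1 : s = (2 : ℝ)⁻¹ • (xa (s, (r, n)) + xb (s, (r, n))) := by
      unfold xa xb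
      simp only [sub_add_add_cancel, ← two_smul ℝ s, smul_smul]
      norm_num
    have e2 : r • (n.1.1 : V) = (2 : ℝ)⁻¹ • (xb (s, (r, n)) - xa (s, (r, n))) := by
      unfold xa xb
      simp only [add_sub_sub_cancel, ← two_smul ℝ (r • (n.1.1 : V)), smul_smul]
      congr 1
      ring
    refine ⟨?_, ?_, hn⟩
    · rw [mem_closedBall_zero_iff, e1, norm_smul]
      have := norm_add_le (xa (s, (r, n))) (xb (s, (r, n)))
      norm_num
      linarith
    · rw [mem_closedBall_zero_iff]
      have h5 : ‖r • (n.1.1 : V)‖ = ‖r‖ := by rw [norm_smul, norm_SV, mul_one]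
      rw [← h5, e2, norm_smul]
      have := norm_sub_le (xb (s, (r, n))) (xa (s, (r, n)))
      norm_num
      linarith

theorem ev_infty (ρ : ℝ) : ∀ᶠ y in 𝓝 (∞ : OnePoint (XC V)), ∀ e : XC V, y = (e : OnePoint (XC V)) →
    ρ < ‖xa e‖ ∨ ρ < ‖xb e‖ ∨ ρ < ‖e.2.2.1.2‖ := by
  have h1 := isCompact_bd (V := V) ρ
  have h2 := isClosed_bd (V := V) ρ
  have h3 : IsClosed (((↑) : XC V → OnePoint (XC V)) ''
      {e : XC V | ‖xa e‖ ≤ ρ ∧ ‖xb e‖ ≤ ρ ∧ ‖e.2.2.1.2‖ ≤ ρ}) :=
    OnePoint.isClosed_image_coe.2 ⟨h2, h1⟩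
  have h4 : (((↑) : XC V → OnePoint (XC V)) ''
      {e : XC V | ‖xa e‖ ≤ ρ ∧ ‖xb e‖ ≤ ρ ∧ ‖e.2.2.1.2‖ ≤ ρ})ᶜ ∈ 𝓝 (∞ : OnePoint (XC V)) := by
    refine h3.isOpen_compl.mem_nhds ?_
    rintro ⟨e, -, he⟩
    exact OnePoint.coe_ne_infty e he
  filter_upwards [h4] with y hy e he
  by_contra hcon
  push Not at hcon
  exact hy ⟨e, hcon, he.symm⟩

/-! ### descent of chart level maps -/

section shD

variable {C : Type} [TopologicalSpace C]

/-- extension by `∞` -/
def ex (ch : XC V → OnePoint C) (y : OnePoint (XC V)) : OnePoint C := y.elim ∞ ch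

@[simp] theorem ex_infty (ch : XC V → OnePoint C) : ex ch ∞ = ∞ := rfl

@[simp] theorem ex_coe (ch : XC V → OnePoint C) (e : XC V) :
    ex ch (e : OnePoint (XC V)) = ch e := rfl

theorem ex_io (ch : XC V → OnePoint C) (y : OnePoint (XC V)) :
    ex (fun e => ch (io e)) y = ex ch (ioP y) := by
  induction y using OnePoint.rec with
  | infty => rfl
  | coe e => rfl

/-- the symmetrised descent of a chart level map -/
noncomputable def shD (ch : XC V → OnePoint C) (z : OnePoint (V × (V →L[ℝ] V))) : OnePoint C :=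
  descT qc (fun p : Unit × OnePoint (XC V) => jn2 (ex ch) (ex fun e => ch (io e)) p.2) ∞ ((), z)

@[simp] theorem shD_infty (ch : XC V → OnePoint C) : shD ch ∞ = ∞ := descT_infty _

theorem shD_of_notMem (ch : XC V → OnePoint C) {z : OnePoint (V × (V →L[ℝ] V))}
    (h : ∀ e : XC V, ((qc e : V × (V →L[ℝ] V)) : OnePoint (V × (V →L[ℝ] V))) ≠ z) :
    shD ch z = ∞ := descT_of_notMem _ h

open scoped Classical in
/-- the join of `ch` and `ch ∘ io` -/
noncomputable def jc (ch : XC V → OnePoint C) (e : XC V) : OnePoint C :=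
  if ch e = ∞ then ch (io e) else ch e

theorem jc_of_ne {ch : XC V → OnePoint C} {e : XC V} (h : ch e ≠ ∞) : jc ch e = ch e := if_neg h

theorem jc_of_eq {ch : XC V → OnePoint C} {e : XC V} (h : ch e = ∞) : jc ch e = ch (io e) :=
  if_pos h

theorem jn2_ex (ch : XC V → OnePoint C) (e : XC V) :
    jn2 (ex ch) (ex fun e => ch (io e)) (e : OnePoint (XC V)) = jc ch e := rfl

theorem jc_io {ch : XC V → OnePoint C} (hd : ∀ e, ch e = ∞ ∨ ch (io e) = ∞) (e : XC V) :
    jc ch (io e) = jc ch e := by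
  by_cases h1 : ch e = ∞
  · by_cases h2 : ch (io e) = ∞
    · rw [jc_of_eq h1, jc_of_eq h2, io_io, h1, h2]
    · rw [jc_of_eq h1, jc_of_ne h2]
  · have h2 : ch (io e) = ∞ := (hd e).resolve_left h1
    rw [jc_of_ne h1, jc_of_eq h2, io_io]

theorem jc_const {ch : XC V → OnePoint C} (hd : ∀ e, ch e = ∞ ∨ ch (io e) = ∞) {e e' : XC V}
    (h : qc e = qc e') : jc ch e = jc ch e' := by
  rcases qc_eq h with h | h
  · rw [h]
  · rw [h, jc_io hd]

theorem shD_qc {ch : XC V → OnePoint C} (hd : ∀ e, ch e = ∞ ∨ ch (io e) = ∞) (e : XC V) :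
    shD ch ((qc e : V × (V →L[ℝ] V)) : OnePoint (V × (V →L[ℝ] V))) = jc ch e :=
  descT_coe (q := qc)
    (φ := fun p : Unit × OnePoint (XC V) => jn2 (ex ch) (ex fun e => ch (io e)) p.2)
    (fun _ _ _ h => jc_const hd h) () e

theorem shD_qc_of_ne {ch : XC V → OnePoint C} (hd : ∀ e, ch e = ∞ ∨ ch (io e) = ∞) {e : XC V}
    (h : ch e ≠ ∞) : shD ch ((qc e : V × (V →L[ℝ] V)) : OnePoint (V × (V →L[ℝ] V))) = ch e := by
  rw [shD_qc hd, jc_of_ne h]

theorem shD_qc_of_eq {ch : XC V → OnePoint C} (hd : ∀ e, ch e = ∞ ∨ ch (io e) = ∞) {e : XC V}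
    (h : ch e = ∞) : shD ch ((qc e : V × (V →L[ℝ] V)) : OnePoint (V × (V →L[ℝ] V))) =
      ch (io e) := by
  rw [shD_qc hd, jc_of_eq h]

/-- equality of symmetrised descents -/
theorem shD_congr {ch ch' : XC V → OnePoint C} (hd : ∀ e, ch e = ∞ ∨ ch (io e) = ∞)
    (hd' : ∀ e, ch' e = ∞ ∨ ch' (io e) = ∞) (h : ∀ e, jc ch e = jc ch' e) : shD ch = shD ch' := by
  funext z
  by_cases hz : ∃ e : XC V, ((qc e : V × (V →L[ℝ] V)) : OnePoint (V × (V →L[ℝ] V))) = z
  · obtain ⟨e, rfl⟩ := hz
    rw [shD_qc hd, shD_qc hd', h]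
  · push Not at hz
    rw [shD_of_notMem _ hz, shD_of_notMem _ hz]

theorem shD_swap {ch ch' : XC V → OnePoint C} (hd : ∀ e, ch e = ∞ ∨ ch (io e) = ∞)
    (h : ∀ e, ch' e = ch (io e)) : shD ch' = shD ch := by
  have hd' : ∀ e, ch' e = ∞ ∨ ch' (io e) = ∞ := by
    intro e
    rw [h, h, io_io]
    exact (hd e).symm
  refine shD_congr hd' hd fun e => ?_
  rw [← jc_io hd e]
  by_cases h1 : ch' e = ∞
  · have h2 : ch (io e) = ∞ := by rw [← h]; exact h1
    rw [jc_of_eq h1, jc_of_eq h2, h]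
  · have h2 : ch (io e) ≠ ∞ := by rw [← h]; exact h1
    rw [jc_of_ne h1, jc_of_ne h2, h]

variable {T : Type*} [TopologicalSpace T]

theorem continuous_shD {ch : T → XC V → OnePoint C}
    (hc : Continuous fun p : T × OnePoint (XC V) => ex (ch p.1) p.2)
    (hd : ∀ t e, ch t e = ∞ ∨ ch t (io e) = ∞) :
    Continuous fun p : T × OnePoint (V × (V →L[ℝ] V)) => shD (ch p.1) p.2 := by
  have h1 : Continuous fun p : T × OnePoint (XC V) => ex (fun e => ch p.1 (io e)) p.2 := by
    have h2 : Continuous fun p : T × OnePoint (XC V) => ex (ch p.1) (ioP p.2) :=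
      hc.comp (continuous_fst.prodMk (continuous_ioP.comp continuous_snd))
    refine h2.congr fun p => ?_
    exact (ex_io _ _).symm
  have h3 := continuous_jn2 hc h1 (fun p => by
    obtain ⟨t, y⟩ := p
    induction y using OnePoint.rec with
    | infty => exact Or.inl rfl
    | coe e => exact hd t e)
  exact continuous_descT continuous_qc isOpenMap_qc h3 (fun t => jn2_of_eq rfl)
    fun t e e' h => jc_const (hd t) h

end shD

section cex

variable {T : Type*} [TopologicalSpace T]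

/-- continuity of a family of chart level maps -/
theorem continuous_ex {ch : T → XC V → OnePoint (V × ((V →L[ℝ] V) × PV V))}
    (h1 : Continuous fun p : T × XC V => ch p.1 p.2)
    (h2 : ∀ (t₀ : T) (R : ℝ), ∃ ρ : ℝ, ∀ᶠ t in 𝓝 t₀, ∀ e : XC V,
      (ρ < ‖xa e‖ ∨ ρ < ‖xb e‖ ∨ ρ < ‖e.2.2.1.2‖) → ∀ m B q,
        ch t e = (((m, (B, q)) : V × ((V →L[ℝ] V) × PV V)) :
          OnePoint (V × ((V →L[ℝ] V) × PV V))) → R < max ‖m‖ ‖B‖) :
    Continuous fun p : T × OnePoint (XC V) => ex (ch p.1) p.2 := by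
  refine continuous_iff_continuousAt.2 ?_
  rintro ⟨t₀, y₀⟩
  induction y₀ using OnePoint.rec with
  | coe e =>
    have h3 : IsOpenEmbedding (fun p : T × XC V => (p.1, (p.2 : OnePoint (XC V)))) :=
      IsOpenEmbedding.id.prodMap OnePoint.isOpenEmbedding_coe
    exact (h3.continuousAt_iff (f := fun p : T × XC V => (p.1, (p.2 : OnePoint (XC V))))
      (g := fun p : T × OnePoint (XC V) => ex (ch p.1) p.2) (x := (t₀, e))).1 h1.continuousAt
  | infty =>
    refine continuousAt_of_bound rfl fun R => ?_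
    obtain ⟨ρ, hρ⟩ := h2 t₀ R
    rw [nhds_prod_eq]
    filter_upwards [hρ.prod_mk (ev_infty (V := V) ρ)] with p hp
    obtain ⟨hp1, hp2⟩ := hp
    obtain ⟨t, y⟩ := p
    intro m B q he
    induction y using OnePoint.rec with
    | infty => exact absurd he.symm (OnePoint.coe_ne_infty _)
    | coe e => exact hp1 e (hp2 e rfl) m B q he

end cex

end Vale.Agent.P263.KJ.Sht
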