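import Vale.Agent.P263.KJ.Sheet

/-!
# P263, block KJ: the single sheet, stage A

`Dat V` : two based maps `f g : V⁺ → V⁺` with disjoint supports and centres `x`, `y` at which they
are finite, `⟪f v, v - x⟫ ≥ 0`, `⟪g v, v - y⟫ ≥ 0`.  `Fm 𝒟` : continuity of a family of such data.
`chA D τ` : the first homotopy of the sheet, on the chart.
-/

open Filter Topology OnePoint Set InnerProductSpace RealInnerProductSpace

namespace Vale.Agent.P263.KJ.Sht

open Vale.Agent.P251.G Vale.Agent.P251.G.LC Vale.Agent.P263.KJ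

set_option linter.unusedSectionVars false

variable {V : Type} [NormedAddCommGroup V] [InnerProductSpace ℝ V] [FiniteDimensional ℝ V]

/-! ### large values -/

theorem norm_vf_lt {y : OnePoint V} {R : ℝ} (h : y ≠ ∞) (h1 : kf y < (1 + |R|)⁻¹) :
    R < ‖vf y‖ := by
  have h2 := kf_mul h
  have h3 : 0 < 1 + |R| := by positivity
  have h4 : 0 < 1 + ‖vf y‖ := by positivity
  have h5 : kf y = (1 + ‖vf y‖)⁻¹ := eq_inv_of_mul_eq_one_left h2
  rw [h5, inv_lt_inv₀ h4 h3] at h1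
  linarith [le_abs_self R]

theorem ev_large {X : Type*} [TopologicalSpace X] {F : X → OnePoint V} {x₀ : X}
    (hF : ContinuousAt F x₀) (h : F x₀ = ∞) (R : ℝ) :
    ∀ᶠ x in 𝓝 x₀, F x ≠ ∞ → R < ‖vf (F x)‖ := by
  have h1 : ContinuousAt (fun x => kf (F x)) x₀ :=
    ContinuousAt.comp (g := kf) continuous_kf.continuousAt hF
  have h2 : kf (F x₀) < (1 + |R|)⁻¹ := by
    rw [h, kf_infty]; positivity
  filter_upwards [h1.eventually (gt_mem_nhds h2)] with x hx hne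
  exact norm_vf_lt hne hx

theorem ev_infV {T : Type*} [TopologicalSpace T] {F : T → OnePoint V → OnePoint V}
    (hF : Continuous fun p : T × OnePoint V => F p.1 p.2) (hi : ∀ t, F t ∞ = ∞) (t₀ : T) (R : ℝ) :
    ∃ ρ : ℝ, ∀ᶠ t in 𝓝 t₀, ∀ v : V, ρ < ‖v‖ → F t (v : OnePoint V) ≠ ∞ →
      R < ‖vf (F t (v : OnePoint V))‖ := by
  have h1 := ev_large (x₀ := (t₀, (∞ : OnePoint V))) hF.continuousAt (hi t₀) R
  rw [nhds_prod_eq, eventually_iff, mem_prod_iff] at h1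
  obtain ⟨T', hT', U, hU, hTU⟩ := h1
  obtain ⟨K, ⟨-, hK⟩, hKU⟩ := (OnePoint.hasBasis_nhds_infty (X := V)).mem_iff.1 hU
  obtain ⟨ρ, hρ⟩ := hK.isBounded.exists_norm_le
  refine ⟨ρ, ?_⟩
  filter_upwards [hT'] with t ht v hv hne
  have h2 : (v : OnePoint V) ∈ U := by
    refine hKU (Or.inl ⟨v, fun hvK => ?_, rfl⟩)
    exact absurd (hρ v hvK) (not_le.2 hv)
  exact (hTU (Set.mk_mem_prod ht h2) : _) hne

/-! ### the data -/

variable (V) in
/-- two based maps with disjoint supports and centres -/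
structure Dat where
  /-- the first map -/
  f : OnePoint V → OnePoint V
  /-- the second map -/
  g : OnePoint V → OnePoint V
  /-- the first centre -/
  x : V
  /-- the second centre -/
  y : V
  f_inf : f ∞ = ∞
  g_inf : g ∞ = ∞
  fx : f (x : OnePoint V) ≠ ∞
  gy : g (y : OnePoint V) ≠ ∞
  fpos : ∀ v : V, 0 ≤ ⟪vf (f (v : OnePoint V)), v - x⟫_ℝ
  gpos : ∀ v : V, 0 ≤ ⟪vf (g (v : OnePoint V)), v - y⟫_ℝ
  disj : ∀ z, f z = ∞ ∨ g z = ∞

namespace Dat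

/-- exchange the two maps -/
def swap (D : Dat V) : Dat V where
  f := D.g
  g := D.f
  x := D.y
  y := D.x
  f_inf := D.g_inf
  g_inf := D.f_inf
  fx := D.gy
  gy := D.fx
  fpos := D.gpos
  gpos := D.fpos
  disj := fun z => (D.disj z).symm

variable (D : Dat V)

theorem ne : D.x ≠ D.y := by
  intro h
  rcases D.disj (D.x : OnePoint V) with h1 | h1
  · exact D.fx h1
  · rw [h] at h1
    exact D.gy h1

/-- the first value -/
noncomputable def a (e : XC V) : V := vf (D.f ((xa e : V) : OnePoint V))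

/-- the second value -/
noncomputable def b (e : XC V) : V := vf (D.g ((xb e : V) : OnePoint V))

/-- the product of the two scales -/
noncomputable def kp (e : XC V) : ℝ := kf (D.f ((xa e : V) : OnePoint V)) * kf (D.g ((xb e : V) : OnePoint V))

/-- the scale of the sheet -/
noncomputable def KK (e : XC V) : ℝ := if e.2.1 ≤ 0 then D.kp e else 0

/-- the first distance -/
noncomputable def d1 (e : XC V) : V := xa e - D.x

/-- the second distance -/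
noncomputable def d2 (e : XC V) : V := xb e - D.y

/-- the radius -/
noncomputable def rho : ℝ := ‖D.x - D.y‖ / 4

/-- the cut off function -/
noncomputable def chi (e : XC V) : ℝ :=
  max 0 (1 - ‖D.d1 e‖ / D.rho) * max 0 (1 - ‖D.d2 e‖ / D.rho) * max 0 (1 - ‖e.2.2.1.2‖)

theorem rho_pos : 0 < D.rho := by
  unfold rho
  have := norm_pos_iff.2 (sub_ne_zero.2 D.ne)
  positivity

theorem a_swap (e : XC V) : D.swap.a (io e) = D.b e := by
  unfold a b swap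
  rw [xa_io]

theorem b_swap (e : XC V) : D.swap.b (io e) = D.a e := by
  unfold a b swap
  rw [xb_io]

theorem kp_swap (e : XC V) : D.swap.kp (io e) = D.kp e := by
  unfold kp swap
  rw [xa_io, xb_io, mul_comm]

theorem KK_swap (e : XC V) : D.swap.KK (io e) = D.KK e := by
  unfold KK
  rw [kp_swap]
  rfl

theorem d1_swap (e : XC V) : D.swap.d1 (io e) = D.d2 e := by
  unfold d1 d2 swap
  rw [xa_io]

theorem d2_swap (e : XC V) : D.swap.d2 (io e) = D.d1 e := by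
  unfold d1 d2 swap
  rw [xb_io]

theorem rho_swap : D.swap.rho = D.rho := by
  unfold rho swap
  rw [norm_sub_rev]

theorem chi_swap (e : XC V) : D.swap.chi (io e) = D.chi e := by
  unfold chi
  rw [d1_swap, d2_swap, rho_swap, mul_comm (max 0 (1 - ‖D.d2 e‖ / D.rho))]
  rfl

theorem kp_nonneg (e : XC V) : 0 ≤ D.kp e := mul_nonneg (kf_nonneg _) (kf_nonneg _)

theorem kp_le_one (e : XC V) : D.kp e ≤ 1 :=
  mul_le_one₀ (kf_le_one _) (kf_nonneg _) (kf_le_one _)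

theorem KK_nonneg (e : XC V) : 0 ≤ D.KK e := by
  unfold KK
  split_ifs
  · exact D.kp_nonneg e
  · exact le_rfl

theorem KK_le_one (e : XC V) : D.KK e ≤ 1 := by
  unfold KK
  split_ifs
  · exact D.kp_le_one e
  · exact zero_le_one

theorem KK_ne {e : XC V} (h : D.KK e ≠ 0) : e.2.1 ≤ 0 ∧ D.KK e = D.kp e := by
  unfold KK at h ⊢
  split_ifs with h1
  · exact ⟨h1, rfl⟩
  · rw [if_neg h1] at h
    exact absurd rfl h

theorem kp_ne {e : XC V} : D.kp e ≠ 0 ↔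
    D.f ((xa e : V) : OnePoint V) ≠ ∞ ∧ D.g ((xb e : V) : OnePoint V) ≠ ∞ := by
  unfold kp
  rw [mul_ne_zero_iff, Ne, Ne, kf_eq_zero, kf_eq_zero]

theorem kp_mul_a (e : XC V) : D.kp e * ‖D.a e‖ ≤ 1 := by
  unfold kp a
  by_cases h : D.f ((xa e : V) : OnePoint V) = ∞
  · rw [h, kf_infty, zero_mul, zero_mul]; exact zero_le_one
  · have h1 := kf_mul h
    have h2 := kf_le_one (D.g ((xb e : V) : OnePoint V))
    have h3 := kf_nonneg (D.g ((xb e : V) : OnePoint V))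
    have h4 := kf_nonneg (D.f ((xa e : V) : OnePoint V))
    have h5 : kf (D.f ((xa e : V) : OnePoint V)) * ‖vf (D.f ((xa e : V) : OnePoint V))‖ ≤ 1 := by linarith
    have h6 : 0 ≤ kf (D.f ((xa e : V) : OnePoint V)) * ‖vf (D.f ((xa e : V) : OnePoint V))‖ := by positivity
    nlinarith

theorem kp_mul_b (e : XC V) : D.kp e * ‖D.b e‖ ≤ 1 := by
  have := D.swap.kp_mul_a (io e)
  rwa [kp_swap, a_swap] at this

theorem chi_nonneg (e : XC V) : 0 ≤ D.chi e := by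
  unfold chi
  positivity

theorem chi_le_one (e : XC V) : D.chi e ≤ 1 := by
  have hr := D.rho_pos
  unfold chi
  refine mul_le_one₀ (mul_le_one₀ ?_ (by positivity) ?_) (by positivity) ?_
  · exact max_le zero_le_one (by have : 0 ≤ ‖D.d1 e‖ / D.rho := by positivity
                                 linarith)
  · exact max_le zero_le_one (by have : 0 ≤ ‖D.d2 e‖ / D.rho := by positivity
                                 linarith)
  · exact max_le zero_le_one (by linarith [norm_nonneg e.2.2.1.2])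

theorem chi_ne {e : XC V} (h : D.chi e ≠ 0) :
    ‖D.d1 e‖ < D.rho ∧ ‖D.d2 e‖ < D.rho ∧ ‖e.2.2.1.2‖ < 1 := by
  have hr := D.rho_pos
  unfold chi at h
  refine ⟨?_, ?_, ?_⟩
  · by_contra hc
    push Not at hc
    have h1 : 1 ≤ ‖D.d1 e‖ / D.rho := by rw [le_div_iff₀ hr]; linarith
    apply h
    rw [max_eq_left (by linarith : 1 - ‖D.d1 e‖ / D.rho ≤ 0), zero_mul, zero_mul]
  · by_contra hc
    push Not at hc
    have h1 : 1 ≤ ‖D.d2 e‖ / D.rho := by rw [le_div_iff₀ hr]; linarith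
    apply h
    rw [max_eq_left (by linarith : 1 - ‖D.d2 e‖ / D.rho ≤ 0), mul_zero, zero_mul]
  · by_contra hc
    push Not at hc
    apply h
    rw [max_eq_left (by linarith : 1 - ‖e.2.2.1.2‖ ≤ 0), mul_zero]

theorem chi_eq_one {e : XC V} (h1 : D.d1 e = 0) (h2 : D.d2 e = 0) (h3 : e.2.2.1.2 = 0) :
    D.chi e = 1 := by
  unfold chi
  rw [h1, h2, h3]
  simp

theorem inner_a (e : XC V) : 0 ≤ ⟪D.a e, D.d1 e⟫_ℝ := D.fpos _

theorem inner_b (e : XC V) : 0 ≤ ⟪D.b e, D.d2 e⟫_ℝ := D.gpos _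

/-! ### the numerators of stage A -/

/-- the first numerator -/
noncomputable def al (τ : ℝ) (e : XC V) : V := ((1 - τ) * D.kp e) • D.a e + τ • D.d1 e

/-- the second numerator -/
noncomputable def be (τ : ℝ) (e : XC V) : V := ((1 - τ) * D.kp e) • D.b e + τ • D.d2 e

/-- the third numerator -/
noncomputable def nn (τ : ℝ) (e : XC V) : V →L[ℝ] V := ((1 - τ) * D.kp e + τ) • e.2.2.1.2

/-- the denominator -/
noncomputable def kA (τ : ℝ) (e : XC V) : ℝ := D.KK e * ((1 - τ) + τ * D.chi e)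

/-- stage A on the chart -/
noncomputable def chA (τ : ℝ) (e : XC V) : OnePoint (V × ((V →L[ℝ] V) × PV V)) :=
  fin3 (D.kA τ e) ((2 : ℝ)⁻¹ • (D.al τ e + D.be τ e))
    (ten ((2 : ℝ)⁻¹ • (D.al τ e - D.be τ e)) (e.2.2.1.1 : V) + D.nn τ e) (piP V e.2.2.1.1)

theorem al_swap (τ : ℝ) (e : XC V) : D.swap.al τ (io e) = D.be τ e := by
  unfold al be
  rw [kp_swap, a_swap, d1_swap]

theorem be_swap (τ : ℝ) (e : XC V) : D.swap.be τ (io e) = D.al τ e := by
  unfold al be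
  rw [kp_swap, b_swap, d2_swap]

theorem kA_swap (τ : ℝ) (e : XC V) : D.swap.kA τ (io e) = D.kA τ e := by
  unfold kA
  rw [KK_swap, chi_swap]

theorem nn_swap (τ : ℝ) (e : XC V) : D.swap.nn τ (io e) = D.nn τ e := by
  unfold nn
  rw [kp_swap]
  rfl

theorem chA_swap (τ : ℝ) (e : XC V) : D.swap.chA τ (io e) = D.chA τ e := by
  unfold chA
  rw [kA_swap, al_swap, be_swap, nn_swap, add_comm (D.be τ e)]
  have h1 : ((io e).2.2.1.1 : V) = -(e.2.2.1.1 : V) := coe_neg_sphere _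
  have h2 : piP V (io e).2.2.1.1 = piP V e.2.2.1.1 := piP_neg _
  rw [h1, h2, ← neg_sub (D.al τ e), smul_neg, ten_neg_neg]

/-- finiteness -/
theorem chA_ne {τ : ℝ} {e : XC V} (h : D.chA τ e ≠ ∞) : D.KK e ≠ 0 := by
  intro h1
  apply h
  unfold chA kA
  rw [h1, zero_mul, fin3_zero]

/-- the two halves of the sheet are disjoint -/
theorem KK_disj (e : XC V) : D.KK e = 0 ∨ D.KK (io e) = 0 := by
  by_contra hc
  push Not at hc
  obtain ⟨h1, h2⟩ := hc
  obtain ⟨-, h3⟩ := D.KK_ne h1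
  obtain ⟨-, h4⟩ := D.KK_ne h2
  rw [h3] at h1
  rw [h4] at h2
  obtain ⟨h5, -⟩ := D.kp_ne.1 h1
  obtain ⟨-, h6⟩ := D.kp_ne.1 h2
  rw [xb_io] at h6
  rcases D.disj ((xa e : V) : OnePoint V) with h7 | h7
  · exact h5 h7
  · exact h6 h7

theorem chA_disj (τ : ℝ) (e : XC V) : D.chA τ e = ∞ ∨ D.chA τ (io e) = ∞ := by
  rcases D.KK_disj e with h | h
  · left
    by_contra hc
    exact D.chA_ne hc h
  · right
    by_contra hc
    exact D.chA_ne hc h

end Dat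

/-! ### the estimate -/

theorem norm_le_of_inner {p q : V} (h : 0 ≤ ⟪p, q⟫_ℝ) : ‖p‖ ≤ ‖p + q‖ := by
  refine le_of_sq_le_sq ?_ (norm_nonneg _)
  rw [norm_add_sq_real]
  nlinarith [sq_nonneg ‖q‖]

/-- recover the two components -/
theorem bd3 {k : ℝ} {al be : V} {nn : V →L[ℝ] V} {u : SV V} {p q : PV V} {m : V} {B : V →L[ℝ] V}
    (hn : nn (u : V) = 0)
    (h : fin3 k ((2 : ℝ)⁻¹ • (al + be)) (ten ((2 : ℝ)⁻¹ • (al - be)) (u : V) + nn) p =
      (((m, (B, q)) : V × ((V →L[ℝ] V) × PV V)) : OnePoint (V × ((V →L[ℝ] V) × PV V)))) :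
    k ≠ 0 ∧ ‖k⁻¹ • al‖ ≤ 2 * max ‖m‖ ‖B‖ ∧ ‖k⁻¹ • be‖ ≤ 2 * max ‖m‖ ‖B‖ ∧
      ‖k⁻¹ • nn‖ ≤ 2 * max ‖m‖ ‖B‖ := by
  have hk : k ≠ 0 := by
    rintro rfl
    rw [fin3_zero] at h
    exact OnePoint.coe_ne_infty _ h.symm
  rw [fin3_of_ne hk, OnePoint.coe_eq_coe] at h
  obtain ⟨e1, e2⟩ := Prod.mk.inj h
  obtain ⟨e2, -⟩ := Prod.mk.inj e2
  have hu := norm_SV u
  have hBu : B (u : V) = k⁻¹ • ((2 : ℝ)⁻¹ • (al - be)) := by
    rw [← e2, _root_.smul_apply, _root_.add_apply, ten_self hu, hn, add_zero]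
  have hBn : ‖B (u : V)‖ ≤ ‖B‖ := by
    have := B.le_opNorm (u : V)
    rwa [hu, mul_one] at this
  have h1 : k⁻¹ • al = m + B (u : V) := by
    rw [hBu, ← e1, ← smul_add, ← smul_add]
    congr 1
    rw [add_add_sub_cancel, ← two_smul ℝ al, smul_smul, inv_mul_cancel₀ two_ne_zero, one_smul]
  have h2 : k⁻¹ • be = m - B (u : V) := by
    rw [hBu, ← e1, ← smul_sub, ← smul_sub]
    congr 1
    rw [add_sub_sub_cancel, ← two_smul ℝ be, smul_smul, inv_mul_cancel₀ two_ne_zero, one_smul]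
  have h3 : k⁻¹ • nn = B - ten (B (u : V)) (u : V) := by
    rw [hBu, ← e2, ten_smul k⁻¹, smul_add, add_sub_cancel_left]
  have hm := le_max_left ‖m‖ ‖B‖
  have hB := le_max_right ‖m‖ ‖B‖
  refine ⟨hk, ?_, ?_, ?_⟩
  · rw [h1]; linarith [norm_add_le m (B (u : V))]
  · rw [h2]; linarith [norm_sub_le m (B (u : V))]
  · rw [h3]
    have h4 := norm_sub_le B (ten (B (u : V)) (u : V))
    rw [norm_ten, hu, one_mul] at h4
    linarith

theorem Dat.nn_u (D : Dat V) (τ : ℝ) (e : XC V) : D.nn τ e (e.2.2.1.1 : V) = 0 := by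
  unfold Dat.nn
  rw [_root_.smul_apply, e.2.2.2, smul_zero]

theorem Dat.est_al (D : Dat V) {τ : ℝ} (h0 : 0 ≤ τ) (h1 : τ ≤ 1) {e : XC V} {c : ℝ} (hc : 0 < c)
    (hc1 : c ≤ 1) (hc2 : c ≤ ‖D.d1 e‖) : c * (D.kp e * ‖D.a e‖) ≤ 2 * ‖D.al τ e‖ := by
  have hk := D.kp_nonneg e
  have hi := D.inner_a e
  have e1 : ‖((1 - τ) * D.kp e) • D.a e‖ = (1 - τ) * (D.kp e * ‖D.a e‖) := by
    rw [norm_smul, Real.norm_of_nonneg (mul_nonneg (by linarith) hk)]; ring
  have e2 : ‖τ • D.d1 e‖ = τ * ‖D.d1 e‖ := by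
    rw [norm_smul, Real.norm_of_nonneg h0]
  have h2 : ‖((1 - τ) * D.kp e) • D.a e‖ ≤ ‖D.al τ e‖ := by
    refine norm_le_of_inner ?_
    rw [real_inner_smul_left, real_inner_smul_right]
    exact mul_nonneg (mul_nonneg (by linarith) hk) (mul_nonneg h0 hi)
  have h3 : ‖τ • D.d1 e‖ ≤ ‖D.al τ e‖ := by
    unfold Dat.al
    rw [add_comm]
    refine norm_le_of_inner ?_
    rw [real_inner_smul_left, real_inner_smul_right, real_inner_comm]
    exact mul_nonneg h0 (mul_nonneg (mul_nonneg (by linarith) hk) hi)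
  rw [e1] at h2
  rw [e2] at h3
  have h4 := D.kp_mul_a e
  have h5 : 0 ≤ D.kp e * ‖D.a e‖ := by positivity
  have h6 : τ * c * (D.kp e * ‖D.a e‖) ≤ τ * ‖D.d1 e‖ := by
    calc τ * c * (D.kp e * ‖D.a e‖) ≤ τ * c * 1 := by
          exact mul_le_mul_of_nonneg_left h4 (by positivity)
      _ ≤ τ * ‖D.d1 e‖ := by
          rw [mul_one]; exact mul_le_mul_of_nonneg_left hc2 h0
  have h7 : c * ((1 - τ) * (D.kp e * ‖D.a e‖)) ≤ 1 * ((1 - τ) * (D.kp e * ‖D.a e‖)) :=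
    mul_le_mul_of_nonneg_right hc1 (mul_nonneg (by linarith) h5)
  nlinarith

theorem Dat.est_be (D : Dat V) {τ : ℝ} (h0 : 0 ≤ τ) (h1 : τ ≤ 1) {e : XC V} {c : ℝ} (hc : 0 < c)
    (hc1 : c ≤ 1) (hc2 : c ≤ ‖D.d2 e‖) : c * (D.kp e * ‖D.b e‖) ≤ 2 * ‖D.be τ e‖ := by
  have := D.swap.est_al h0 h1 (e := io e) hc hc1 (by rw [Dat.d1_swap]; exact hc2)
  rwa [Dat.kp_swap, Dat.a_swap, Dat.al_swap] at this

theorem Dat.kA_le (D : Dat V) {τ : ℝ} (h0 : 0 ≤ τ) (h1 : τ ≤ 1) {e : XC V} (h : D.kA τ e ≠ 0) :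
    0 < D.kA τ e ∧ D.kA τ e ≤ D.kp e ∧ D.kA τ e ≤ (1 - τ) * D.kp e + τ ∧ D.KK e = D.kp e := by
  have hK : D.KK e ≠ 0 := by
    intro h2
    apply h
    unfold Dat.kA
    rw [h2, zero_mul]
  obtain ⟨-, h3⟩ := D.KK_ne hK
  have h4 := D.chi_nonneg e
  have h5 := D.chi_le_one e
  have h6 := D.kp_nonneg e
  have h7 := D.kp_le_one e
  have h8 : 0 ≤ (1 - τ) + τ * D.chi e := by nlinarith
  have h9 : (1 - τ) + τ * D.chi e ≤ 1 := by nlinarith
  have h10 : D.kA τ e = D.kp e * ((1 - τ) + τ * D.chi e) := by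
    unfold Dat.kA
    rw [h3]
  refine ⟨?_, ?_, ?_, h3⟩
  · rw [h10] at h ⊢
    exact lt_of_le_of_ne (mul_nonneg h6 h8) (Ne.symm h)
  · rw [h10]
    nlinarith
  · rw [h10]
    have h11 : D.kp e * (τ * D.chi e) ≤ τ := by
      have h12 : 0 ≤ τ * D.chi e := mul_nonneg h0 h4
      have h13 : τ * D.chi e ≤ τ := by nlinarith
      nlinarith
    nlinarith

/-- the estimate at infinity of stage A -/
theorem Dat.est_chA (D : Dat V) {τ : ℝ} (h0 : 0 ≤ τ) (h1 : τ ≤ 1) {e : XC V} {c R : ℝ}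
    (hc : 0 < c) (hc1 : c ≤ 1)
    (h : (c ≤ ‖D.d1 e‖ ∧ (D.f ((xa e : V) : OnePoint V) ≠ ∞ → 4 * R / c < ‖D.a e‖)) ∨
      (c ≤ ‖D.d2 e‖ ∧ (D.g ((xb e : V) : OnePoint V) ≠ ∞ → 4 * R / c < ‖D.b e‖)) ∨
      2 * R < ‖e.2.2.1.2‖) {m : V} {B : V →L[ℝ] V} {q : PV V}
    (he : D.chA τ e = (((m, (B, q)) : V × ((V →L[ℝ] V) × PV V)) :
      OnePoint (V × ((V →L[ℝ] V) × PV V)))) : R < max ‖m‖ ‖B‖ := by
  obtain ⟨hk, h2, h3, h4⟩ := bd3 (D.nn_u τ e) he
  obtain ⟨k0, k1, k2, k3⟩ := D.kA_le h0 h1 hk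
  have hkp : 0 < D.kp e := lt_of_lt_of_le k0 k1
  obtain ⟨hf, hg⟩ := D.kp_ne.1 hkp.ne'
  have key : ∀ (p v : V), c * (D.kp e * ‖v‖) ≤ 2 * ‖p‖ → 4 * R / c < ‖v‖ →
      ‖(D.kA τ e)⁻¹ • p‖ ≤ 2 * max ‖m‖ ‖B‖ → R < max ‖m‖ ‖B‖ := by
    intro p v h5 h6 h7
    rw [norm_smul, norm_inv, Real.norm_of_nonneg k0.le, ← div_eq_inv_mul, div_le_iff₀ k0] at h7
    rw [div_lt_iff₀ hc] at h6
    have h8 : 0 ≤ max ‖m‖ ‖B‖ := (norm_nonneg m).trans (le_max_left _ _)
    have h9 : D.kp e * (c * ‖v‖) ≤ 4 * (max ‖m‖ ‖B‖ * D.kp e) := by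
      have : max ‖m‖ ‖B‖ * D.kA τ e ≤ max ‖m‖ ‖B‖ * D.kp e := mul_le_mul_of_nonneg_left k1 h8
      linarith
    have h10 : c * ‖v‖ ≤ 4 * max ‖m‖ ‖B‖ := by
      by_contra hcon
      push Not at hcon
      have := mul_lt_mul_of_pos_left hcon hkp
      linarith
    linarith
  rcases h with ⟨h5, h6⟩ | ⟨h5, h6⟩ | h5
  · exact key _ _ (D.est_al h0 h1 hc hc1 h5) (h6 hf) h2
  · exact key _ _ (D.est_be h0 h1 hc hc1 h5) (h6 hg) h3
  · have h6 : ‖e.2.2.1.2‖ ≤ ‖(D.kA τ e)⁻¹ • D.nn τ e‖ := by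
      unfold Dat.nn
      rw [smul_smul, norm_smul, norm_mul, norm_inv, Real.norm_of_nonneg k0.le,
        Real.norm_of_nonneg (k0.le.trans k2), ← div_eq_inv_mul]
      have h7 : 1 ≤ ((1 - τ) * D.kp e + τ) / D.kA τ e := by
        rw [le_div_iff₀ k0]; linarith
      have := mul_le_mul_of_nonneg_right h7 (norm_nonneg e.2.2.1.2)
      linarith
    linarith

/-! ### families -/

/-- a continuous family of data -/
structure Fm {T : Type*} [TopologicalSpace T] (𝒟 : T → Dat V) : Prop where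
  cf : Continuous fun p : T × OnePoint V => (𝒟 p.1).f p.2
  cg : Continuous fun p : T × OnePoint V => (𝒟 p.1).g p.2
  cx : Continuous fun t => (𝒟 t).x
  cy : Continuous fun t => (𝒟 t).y

section family

variable {T : Type*} [TopologicalSpace T] {𝒟 : T → Dat V}

theorem Fm.swap (h : Fm 𝒟) : Fm fun t => (𝒟 t).swap := ⟨h.cg, h.cf, h.cy, h.cx⟩

theorem Fm.comp (h : Fm 𝒟) {T' : Type*} [TopologicalSpace T'] {φ : T' → T} (hφ : Continuous φ) :
    Fm fun t => 𝒟 (φ t) :=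
  ⟨h.cf.comp ((hφ.comp continuous_fst).prodMk continuous_snd),
    h.cg.comp ((hφ.comp continuous_fst).prodMk continuous_snd), h.cx.comp hφ, h.cy.comp hφ⟩

theorem Fm.cfa (h : Fm 𝒟) :
    Continuous fun p : T × XC V => (𝒟 p.1).f ((xa p.2 : V) : OnePoint V) :=
  h.cf.comp (continuous_fst.prodMk (OnePoint.continuous_coe.comp
    (continuous_xa.comp continuous_snd)))

theorem Fm.cgb (h : Fm 𝒟) :
    Continuous fun p : T × XC V => (𝒟 p.1).g ((xb p.2 : V) : OnePoint V) :=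
  h.cg.comp (continuous_fst.prodMk (OnePoint.continuous_coe.comp
    (continuous_xb.comp continuous_snd)))

theorem Fm.ckp (h : Fm 𝒟) : Continuous fun p : T × XC V => (𝒟 p.1).kp p.2 :=
  (continuous_kf.comp h.cfa).mul (continuous_kf.comp h.cgb)

theorem Fm.cd1 (h : Fm 𝒟) : Continuous fun p : T × XC V => (𝒟 p.1).d1 p.2 :=
  (continuous_xa.comp continuous_snd).sub (h.cx.comp continuous_fst)

theorem Fm.cd2 (h : Fm 𝒟) : Continuous fun p : T × XC V => (𝒟 p.1).d2 p.2 :=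
  (continuous_xb.comp continuous_snd).sub (h.cy.comp continuous_fst)

theorem Fm.crho (h : Fm 𝒟) : Continuous fun t => (𝒟 t).rho :=
  (h.cx.sub h.cy).norm.div_const _

theorem Fm.cchi (h : Fm 𝒟) : Continuous fun p : T × XC V => (𝒟 p.1).chi p.2 := by
  unfold Dat.chi
  have h1 : Continuous fun p : T × XC V => ‖(𝒟 p.1).d1 p.2‖ / (𝒟 p.1).rho :=
    h.cd1.norm.div (h.crho.comp continuous_fst) fun p => (𝒟 p.1).rho_pos.ne'
  have h2 : Continuous fun p : T × XC V => ‖(𝒟 p.1).d2 p.2‖ / (𝒟 p.1).rho :=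
    h.cd2.norm.div (h.crho.comp continuous_fst) fun p => (𝒟 p.1).rho_pos.ne'
  have h3 : Continuous fun p : T × XC V => ‖p.2.2.2.1.2‖ := by fun_prop
  exact ((continuous_const.max (continuous_const.sub h1)).mul
    (continuous_const.max (continuous_const.sub h2))).mul
    (continuous_const.max (continuous_const.sub h3))

theorem Dat.kp_zero (D : Dat V) {e : XC V} (h : e.2.1 = 0) : D.kp e = 0 := by
  by_contra hc
  obtain ⟨h1, h2⟩ := D.kp_ne.1 hc
  have e1 : xa e = e.1 := by unfold xa; rw [h, zero_smul, sub_zero]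
  have e2 : xb e = e.1 := by unfold xb; rw [h, zero_smul, add_zero]
  rw [e1] at h1
  rw [e2] at h2
  rcases D.disj (e.1 : OnePoint V) with h3 | h3
  · exact h1 h3
  · exact h2 h3

theorem Fm.cKK (h : Fm 𝒟) : Continuous fun p : T × XC V => (𝒟 p.1).KK p.2 := by
  unfold Dat.KK
  refine Continuous.if_le h.ckp continuous_const (by fun_prop) continuous_const ?_
  intro p hp
  exact (𝒟 p.1).kp_zero hp

theorem Dat.d1_ne (D : Dat V) {e : XC V} (h : D.f ((xa e : V) : OnePoint V) = ∞) :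
    D.d1 e ≠ 0 := by
  intro h1
  unfold Dat.d1 at h1
  rw [sub_eq_zero] at h1
  rw [h1] at h
  exact D.fx h

theorem Dat.d2_ne (D : Dat V) {e : XC V} (h : D.g ((xb e : V) : OnePoint V) = ∞) :
    D.d2 e ≠ 0 := by
  intro h1
  unfold Dat.d2 at h1
  rw [sub_eq_zero] at h1
  rw [h1] at h
  exact D.gy h

theorem Fm.ca (h : Fm 𝒟) {p : T × XC V} (hp : (𝒟 p.1).f ((xa p.2 : V) : OnePoint V) ≠ ∞) :
    ContinuousAt (fun p : T × XC V => (𝒟 p.1).a p.2) p :=
  ContinuousAt.comp (g := vf) (continuousAt_vf hp) h.cfa.continuousAt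

theorem Fm.cb (h : Fm 𝒟) {p : T × XC V} (hp : (𝒟 p.1).g ((xb p.2 : V) : OnePoint V) ≠ ∞) :
    ContinuousAt (fun p : T × XC V => (𝒟 p.1).b p.2) p :=
  ContinuousAt.comp (g := vf) (continuousAt_vf hp) h.cgb.continuousAt

variable {τ : T → ℝ}

theorem Fm.cal (h : Fm 𝒟) (hτ : Continuous τ) {p : T × XC V}
    (hp : (𝒟 p.1).f ((xa p.2 : V) : OnePoint V) ≠ ∞) :
    ContinuousAt (fun p : T × XC V => (𝒟 p.1).al (τ p.1) p.2) p := by
  have h1 : Continuous fun p : T × XC V => τ p.1 := hτ.comp continuous_fst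
  unfold Dat.al
  exact (((continuous_const.sub h1).mul h.ckp).continuousAt.smul (h.ca hp)).add
    (h1.smul h.cd1).continuousAt

theorem Fm.cbe (h : Fm 𝒟) (hτ : Continuous τ) {p : T × XC V}
    (hp : (𝒟 p.1).g ((xb p.2 : V) : OnePoint V) ≠ ∞) :
    ContinuousAt (fun p : T × XC V => (𝒟 p.1).be (τ p.1) p.2) p := by
  have h1 : Continuous fun p : T × XC V => τ p.1 := hτ.comp continuous_fst
  unfold Dat.be
  exact (((continuous_const.sub h1).mul h.ckp).continuousAt.smul (h.cb hp)).add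
    (h1.smul h.cd2).continuousAt

theorem Fm.cnn (h : Fm 𝒟) (hτ : Continuous τ) :
    Continuous fun p : T × XC V => (𝒟 p.1).nn (τ p.1) p.2 := by
  have h1 : Continuous fun p : T × XC V => τ p.1 := hτ.comp continuous_fst
  have h2 : Continuous fun p : T × XC V => p.2.2.2.1.2 := by fun_prop
  unfold Dat.nn
  exact (((continuous_const.sub h1).mul h.ckp).add h1).smul h2

theorem Fm.ckA (h : Fm 𝒟) (hτ : Continuous τ) :
    Continuous fun p : T × XC V => (𝒟 p.1).kA (τ p.1) p.2 := by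
  have h1 : Continuous fun p : T × XC V => τ p.1 := hτ.comp continuous_fst
  unfold Dat.kA
  exact h.cKK.mul ((continuous_const.sub h1).add (h1.mul h.cchi))

theorem cten {X : Type*} [TopologicalSpace X] {f g : X → V} {x : X} (hf : ContinuousAt f x)
    (hg : ContinuousAt g x) : ContinuousAt (fun x => ten (f x) (g x)) x := by
  have hc : Continuous fun p : V × V => ten p.1 p.2 :=
    Continuous.ten continuous_fst continuous_snd
  exact ContinuousAt.comp (g := fun p : V × V => ten p.1 p.2) hc.continuousAt (hf.prodMk hg)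

theorem Fm.continuous_chA (h : Fm 𝒟) (hτ : Continuous τ) (h0 : ∀ t, 0 ≤ τ t)
    (h1 : ∀ t, τ t ≤ 1) : Continuous fun p : T × XC V => (𝒟 p.1).chA (τ p.1) p.2 := by
  refine continuous_iff_continuousAt.2 ?_
  rintro ⟨t₀, e₀⟩
  rcases lt_or_ge 0 e₀.2.1 with hr | hr
  · -- outside
    have h2 : ∀ᶠ p : T × XC V in 𝓝 (t₀, e₀), 0 < p.2.2.1 := by
      have : Continuous fun p : T × XC V => p.2.2.1 := by fun_prop
      exact this.continuousAt.eventually (lt_mem_nhds hr)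
    refine (continuousAt_const (y := (∞ : OnePoint (V × ((V →L[ℝ] V) × PV V))))).congr ?_
    filter_upwards [h2] with p hp
    symm
    by_contra hc
    exact absurd ((𝒟 p.1).KK_ne ((𝒟 p.1).chA_ne hc)).1 (not_le.2 hp)
  by_cases hk : (𝒟 t₀).kp e₀ = 0
  · -- a pole
    refine continuousAt_of_bound ?_ fun R => ?_
    · by_contra hc
      have h2 := (𝒟 t₀).chA_ne hc
      exact h2 (((𝒟 t₀).KK_ne h2).2.trans hk)
    · have h2 : (𝒟 t₀).f ((xa e₀ : V) : OnePoint V) = ∞ ∨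
          (𝒟 t₀).g ((xb e₀ : V) : OnePoint V) = ∞ := by
        by_contra hc
        push Not at hc
        exact (𝒟 t₀).kp_ne.2 hc hk
      rcases h2 with h2 | h2
      · have h3 : 0 < ‖(𝒟 t₀).d1 e₀‖ := norm_pos_iff.2 ((𝒟 t₀).d1_ne h2)
        set c : ℝ := min 1 (‖(𝒟 t₀).d1 e₀‖ / 2) with hc
        have hc0 : 0 < c := lt_min one_pos (by positivity)
        have hc1 : c ≤ 1 := min_le_left _ _
        have hc2 : c < ‖(𝒟 t₀).d1 e₀‖ := lt_of_le_of_lt (min_le_right _ _) (by linarith)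
        have h4 : ∀ᶠ p : T × XC V in 𝓝 (t₀, e₀), c < ‖(𝒟 p.1).d1 p.2‖ :=
          h.cd1.norm.continuousAt.eventually (lt_mem_nhds hc2)
        filter_upwards [h4, ev_large h.cfa.continuousAt h2 (4 * R / c)] with p hp1 hp2
        intro m B q he
        exact (𝒟 p.1).est_chA (h0 _) (h1 _) hc0 hc1 (Or.inl ⟨hp1.le, hp2⟩) he
      · have h3 : 0 < ‖(𝒟 t₀).d2 e₀‖ := norm_pos_iff.2 ((𝒟 t₀).d2_ne h2)
        set c : ℝ := min 1 (‖(𝒟 t₀).d2 e₀‖ / 2) with hc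
        have hc0 : 0 < c := lt_min one_pos (by positivity)
        have hc1 : c ≤ 1 := min_le_left _ _
        have hc2 : c < ‖(𝒟 t₀).d2 e₀‖ := lt_of_le_of_lt (min_le_right _ _) (by linarith)
        have h4 : ∀ᶠ p : T × XC V in 𝓝 (t₀, e₀), c < ‖(𝒟 p.1).d2 p.2‖ :=
          h.cd2.norm.continuousAt.eventually (lt_mem_nhds hc2)
        filter_upwards [h4, ev_large h.cgb.continuousAt h2 (4 * R / c)] with p hp1 hp2
        intro m B q he
        exact (𝒟 p.1).est_chA (h0 _) (h1 _) hc0 hc1 (Or.inr (Or.inl ⟨hp1.le, hp2⟩)) he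
  · -- finite values
    obtain ⟨hf, hg⟩ := (𝒟 t₀).kp_ne.1 hk
    have ca := h.cal hτ (p := (t₀, e₀)) hf
    have cb := h.cbe hτ (p := (t₀, e₀)) hg
    have cu : ContinuousAt (fun p : T × XC V => (p.2.2.2.1.1 : V)) (t₀, e₀) := by fun_prop
    have cp : ContinuousAt (fun p : T × XC V => piP V p.2.2.2.1.1) (t₀, e₀) :=
      ((continuous_piP V).comp (by fun_prop)).continuousAt
    refine continuousAt_fin3 (h.ckA hτ).continuousAt ((ca.add cb).const_smul _)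
      ((cten ((ca.sub cb).const_smul _) cu).add (h.cnn hτ).continuousAt) cp ?_
    dsimp only
    by_contra hc
    push Not at hc
    obtain ⟨hc1, hc2, hc3⟩ := hc
    have hK : (𝒟 t₀).KK e₀ ≠ 0 := by
      unfold Dat.KK
      rw [if_pos hr]
      exact hk
    have h2 : (1 - τ t₀) + τ t₀ * (𝒟 t₀).chi e₀ = 0 := (mul_eq_zero.1 hc1).resolve_left hK
    have h3 : 0 ≤ τ t₀ * (𝒟 t₀).chi e₀ := mul_nonneg (h0 _) ((𝒟 t₀).chi_nonneg _)
    have h4 : τ t₀ = 1 := by linarith [h1 t₀]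
    have h5 : (𝒟 t₀).chi e₀ = 0 := by
      rw [h4] at h2
      linarith
    have hal : (𝒟 t₀).al (τ t₀) e₀ = (𝒟 t₀).d1 e₀ := by
      unfold Dat.al
      rw [h4, sub_self, zero_mul, zero_smul, zero_add, one_smul]
    have hbe : (𝒟 t₀).be (τ t₀) e₀ = (𝒟 t₀).d2 e₀ := by
      unfold Dat.be
      rw [h4, sub_self, zero_mul, zero_smul, zero_add, one_smul]
    have hnn : (𝒟 t₀).nn (τ t₀) e₀ = e₀.2.2.1.2 := by
      unfold Dat.nn
      rw [h4, sub_self, zero_mul, zero_add, one_smul]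
    have hu := norm_SV e₀.2.2.1.1
    have h6 : (𝒟 t₀).al (τ t₀) e₀ + (𝒟 t₀).be (τ t₀) e₀ = 0 := by
      rcases smul_eq_zero.1 hc2 with h7 | h7
      · norm_num at h7
      · exact h7
    have h7 : (2 : ℝ)⁻¹ • ((𝒟 t₀).al (τ t₀) e₀ - (𝒟 t₀).be (τ t₀) e₀) = 0 := by
      have h8 := congrArg (fun L : V →L[ℝ] V => L (e₀.2.2.1.1 : V)) hc3
      rwa [_root_.add_apply, ten_self hu, (𝒟 t₀).nn_u, add_zero, _root_.zero_apply] at h8
    rw [h7, ten_zero, zero_add, hnn] at hc3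
    have h8 : (𝒟 t₀).al (τ t₀) e₀ - (𝒟 t₀).be (τ t₀) e₀ = 0 := by
      rcases smul_eq_zero.1 h7 with h9 | h9
      · norm_num at h9
      · exact h9
    rw [sub_eq_zero] at h8
    rw [h8, ← two_smul ℝ, smul_eq_zero] at h6
    have h9 : (𝒟 t₀).be (τ t₀) e₀ = 0 := by
      rcases h6 with h6 | h6
      · norm_num at h6
      · exact h6
    rw [h9, hal] at h8
    rw [hbe] at h9
    rw [(𝒟 t₀).chi_eq_one h8 h9 hc3] at h5
    exact one_ne_zero h5

/-- stage A is continuous on the compactified chart -/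
theorem Fm.continuous_exA (h : Fm 𝒟) (hτ : Continuous τ) (h0 : ∀ t, 0 ≤ τ t)
    (h1 : ∀ t, τ t ≤ 1) :
    Continuous fun p : T × OnePoint (XC V) => ex ((𝒟 p.1).chA (τ p.1)) p.2 := by
  refine continuous_ex (ch := fun t => (𝒟 t).chA (τ t)) (h.continuous_chA hτ h0 h1) ?_
  intro t₀ R
  obtain ⟨ρ1, h2⟩ := ev_infV (F := fun t => (𝒟 t).f) h.cf (fun t => (𝒟 t).f_inf) t₀ (4 * R / 1)
  obtain ⟨ρ2, h3⟩ := ev_infV (F := fun t => (𝒟 t).g) h.cg (fun t => (𝒟 t).g_inf) t₀ (4 * R / 1)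
  have h4 : ∀ᶠ t in 𝓝 t₀, ‖(𝒟 t).x‖ < ‖(𝒟 t₀).x‖ + 1 :=
    h.cx.norm.continuousAt.eventually (gt_mem_nhds (by linarith))
  have h5 : ∀ᶠ t in 𝓝 t₀, ‖(𝒟 t).y‖ < ‖(𝒟 t₀).y‖ + 1 :=
    h.cy.norm.continuousAt.eventually (gt_mem_nhds (by linarith))
  refine ⟨max (max ρ1 ρ2) (max (max (‖(𝒟 t₀).x‖ + 2) (‖(𝒟 t₀).y‖ + 2)) (2 * R)), ?_⟩
  filter_upwards [h2, h3, h4, h5] with t ht2 ht3 ht4 ht5 e he m B q hm
  refine (𝒟 t).est_chA (h0 t) (h1 t) one_pos le_rfl ?_ hm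
  simp only [max_lt_iff] at he
  rcases he with ⟨⟨he1, he2⟩, ⟨he3, he4⟩, he5⟩ | ⟨⟨he1, he2⟩, ⟨he3, he4⟩, he5⟩ |
    ⟨⟨he1, he2⟩, ⟨he3, he4⟩, he5⟩
  · refine Or.inl ⟨?_, ht2 _ he1⟩
    have := norm_sub_norm_le (xa e) (𝒟 t).x
    unfold Dat.d1
    linarith
  · refine Or.inr (Or.inl ⟨?_, ht3 _ he2⟩)
    have := norm_sub_norm_le (xb e) (𝒟 t).y
    unfold Dat.d2
    linarith
  · exact Or.inr (Or.inr he5)

/-- stage A -/
noncomputable def Dat.stA (D : Dat V) (τ : ℝ) :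
    OnePoint (V × (V →L[ℝ] V)) → OnePoint (V × ((V →L[ℝ] V) × PV V)) := shD (D.chA τ)

theorem Dat.stA_swap (D : Dat V) (τ : ℝ) : D.swap.stA τ = D.stA τ := by
  refine shD_swap (D.chA_disj τ) fun e => ?_
  have := D.chA_swap τ (io e)
  rwa [io_io] at this

theorem Fm.continuous_stA (h : Fm 𝒟) (hτ : Continuous τ) (h0 : ∀ t, 0 ≤ τ t)
    (h1 : ∀ t, τ t ≤ 1) :
    Continuous fun p : T × OnePoint (V × (V →L[ℝ] V)) => (𝒟 p.1).stA (τ p.1) p.2 :=
  continuous_shD (ch := fun t => (𝒟 t).chA (τ t)) (h.continuous_exA hτ h0 h1)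
    fun t e => (𝒟 t).chA_disj _ e

end family

end Vale.Agent.P263.KJ.Sht
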