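import Vale.Agent.P263.KJ.SheetA

/-!
# P263, block KJ: the single sheet, stage B

On the tube `‖d1‖, ‖d2‖ ≤ rho`, `‖N‖ ≤ 1` the sheet is straightened to
`(s - sw, (Rf uw (A - Aw), [uw]))`.
-/

open Filter Topology OnePoint Set InnerProductSpace RealInnerProductSpace

namespace Vale.Agent.P263.KJ.Sht

open Vale.Agent.P251.G Vale.Agent.P251.G.LC Vale.Agent.P263.KJ

set_option linter.unusedSectionVars false

variable {V : Type} [NormedAddCommGroup V] [InnerProductSpace ℝ V] [FiniteDimensional ℝ V]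

/-! ### the reflection -/

/-- the reflection of operators in the direction of `ten u u` -/
noncomputable def Rf (u : V) (B : V →L[ℝ] V) : V →L[ℝ] V := B - (2 * ⟪B u, u⟫_ℝ) • ten u u

theorem Rf_neg_vec (u : V) (B : V →L[ℝ] V) : Rf (-u) B = Rf u B := by
  unfold Rf
  rw [map_neg, inner_neg_neg, ten_neg_neg]

theorem Rf_zero (u : V) : Rf u (0 : V →L[ℝ] V) = 0 := by
  unfold Rf
  simp

theorem Rf_smul (u : V) (a : ℝ) (B : V →L[ℝ] V) : Rf u (a • B) = a • Rf u B := by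
  unfold Rf
  rw [_root_.smul_apply, real_inner_smul_left, smul_sub, smul_smul]
  congr 2
  ring

theorem Rf_add (u : V) (A B : V →L[ℝ] V) : Rf u (A + B) = Rf u A + Rf u B := by
  unfold Rf
  rw [_root_.add_apply, inner_add_left, mul_add, add_smul]
  abel

theorem Rf_Rf {u : V} (hu : ‖u‖ = 1) (B : V →L[ℝ] V) : Rf u (Rf u B) = B := by
  unfold Rf
  rw [_root_.sub_apply, _root_.smul_apply, ten_self hu, inner_sub_left, real_inner_smul_left,
    real_inner_self_eq_norm_sq, hu]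
  have e : (2 * (⟪B u, u⟫_ℝ - 2 * ⟪B u, u⟫_ℝ * 1 ^ 2)) = -(2 * ⟪B u, u⟫_ℝ) := by ring
  rw [e, neg_smul, sub_neg_eq_add, sub_add_cancel]

theorem norm_Rf_le {u : V} (hu : ‖u‖ = 1) (B : V →L[ℝ] V) : ‖Rf u B‖ ≤ 3 * ‖B‖ := by
  unfold Rf
  have h1 : |⟪B u, u⟫_ℝ| ≤ ‖B‖ := by
    have h2 := abs_real_inner_le_norm (B u) u
    have h3 := B.le_opNorm u
    rw [hu, mul_one] at h2 h3
    linarith
  have h2 := norm_sub_le B ((2 * ⟪B u, u⟫_ℝ) • ten u u)
  rw [norm_smul, norm_ten, hu, Real.norm_eq_abs, abs_mul, abs_two, mul_one, mul_one] at h2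
  linarith

theorem norm_le_Rf {u : V} (hu : ‖u‖ = 1) (B : V →L[ℝ] V) : ‖B‖ ≤ 3 * ‖Rf u B‖ := by
  have := norm_Rf_le hu (Rf u B)
  rwa [Rf_Rf hu] at this

theorem Rf_eq_zero {u : V} (hu : ‖u‖ = 1) {B : V →L[ℝ] V} (h : Rf u B = 0) : B = 0 := by
  have := norm_le_Rf hu B
  rw [h, norm_zero, mul_zero] at this
  exact norm_le_zero_iff.1 this

@[fun_prop]
theorem Continuous.Rf {α : Type*} [TopologicalSpace α] {f : α → V} {g : α → V →L[ℝ] V}
    (hf : Continuous f) (hg : Continuous g) : Continuous fun a => Rf (f a) (g a) := by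
  unfold Sht.Rf
  have h1 : Continuous fun a => ten (f a) (f a) := Continuous.ten hf hf
  have h2 : Continuous fun a => g a (f a) := hg.clm_apply hf
  have h3 : Continuous fun a => ⟪g a (f a), f a⟫_ℝ := Continuous.inner h2 hf
  exact hg.sub ((continuous_const.mul h3).smul h1)

/-- **the straightened numerator vanishes only at the centre** -/
theorem H3 {u w : V} (hu : ‖u‖ = 1) (hw : ‖w‖ = 1) (hin : 0 < ⟪u, w⟫_ℝ) {N : V →L[ℝ] V}
    (hN : N u = 0) {p q : ℝ} (hp : 0 < p) (hq : 0 ≤ q) {τ : ℝ} (h0 : 0 ≤ τ) (h1 : τ ≤ 1)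
    (h : (1 - τ) • (ten (p • u - q • w) u + N) +
      τ • Rf w (((1 + p)⁻¹ • ten u u + ((1 + p)⁻¹ / 4) • sq N) - (1 + q)⁻¹ • ten w w) = 0) :
    u = w ∧ p = q ∧ N = 0 := by
  have hk : 0 < (1 + p)⁻¹ := by positivity
  have hkq : 0 < (1 + q)⁻¹ := by positivity
  have hsN : (sq N : V →L[ℝ] V) u = 0 := by
    rw [sq, _root_.smul_apply, hN, smul_zero]
  -- the direction
  have huw : u = w := by
    have h2 := congrArg (fun L : V →L[ℝ] V => L u) h
    simp only [_root_.add_apply, _root_.smul_apply, _root_.zero_apply, ten_self hu, hN, add_zero,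
      Rf, _root_.sub_apply, hsN, smul_zero, ten_apply w w u] at h2
    set c : ℝ := ⟪((1 + p)⁻¹ • ten u u) w + ((1 + p)⁻¹ / 4) • (sq N : V →L[ℝ] V) w -
      (1 + q)⁻¹ • ten w w w, w⟫_ℝ with hc
    have h3 : ((1 - τ) * p + τ * (1 + p)⁻¹) • u = ((1 - τ) * q + τ * ((1 + q)⁻¹ * ⟪w, u⟫_ℝ) +
        τ * (2 * c * ⟪w, u⟫_ℝ)) • w := by
      linear_combination (norm := module) h2
    have hα : 0 < (1 - τ) * p + τ * (1 + p)⁻¹ := by
      rcases lt_or_eq_of_le h0 with h4 | h4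
      · have h5 : 0 ≤ (1 - τ) * p := mul_nonneg (by linarith) hp.le
        have h6 : 0 < τ * (1 + p)⁻¹ := mul_pos h4 hk
        linarith
      · rw [← h4]; linarith
    set α : ℝ := (1 - τ) * p + τ * (1 + p)⁻¹ with hαd
    set β : ℝ := (1 - τ) * q + τ * ((1 + q)⁻¹ * ⟪w, u⟫_ℝ) + τ * (2 * c * ⟪w, u⟫_ℝ) with hβd
    have h4 : α * ⟪u, w⟫_ℝ = β := by
      have h5 := congrArg (fun v : V => ⟪v, w⟫_ℝ) h3
      simp only [real_inner_smul_left, real_inner_self_eq_norm_sq, hw] at h5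
      linarith
    have h5 : α = β := by
      have h6 := congrArg (fun v : V => ‖v‖) h3
      simp only [norm_smul, hu, hw, mul_one, Real.norm_eq_abs] at h6
      rwa [abs_of_pos hα, abs_of_pos (by rw [← h4]; exact mul_pos hα hin)] at h6
    rw [← h5] at h3
    exact smul_right_injective V hα.ne' h3
  subst huw
  have hpq : p = q := by
    have h2 := congrArg (fun L : V →L[ℝ] V => L u) h
    simp only [_root_.add_apply, _root_.smul_apply, _root_.zero_apply, ten_self hu, hN, add_zero,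
      Rf, _root_.sub_apply, hsN, smul_zero] at h2
    have hc : ⟪(1 + p)⁻¹ • u - (1 + q)⁻¹ • u, u⟫_ℝ = (1 + p)⁻¹ - (1 + q)⁻¹ := by
      rw [← sub_smul, real_inner_smul_left, real_inner_self_eq_norm_sq, hu]
      ring
    rw [hc] at h2
    have h3 : ((1 - τ) * (p - q) - τ * ((1 + p)⁻¹ - (1 + q)⁻¹)) • u = 0 := by
      linear_combination (norm := module) h2
    have hu0 : u ≠ 0 := by
      rintro rfl
      rw [norm_zero] at hu
      exact zero_ne_one hu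
    have h4 := (smul_eq_zero.1 h3).resolve_right hu0
    have h5 : (1 + p)⁻¹ - (1 + q)⁻¹ = (q - p) * ((1 + p)⁻¹ * (1 + q)⁻¹) := by
      field_simp
      ring
    rw [h5] at h4
    have h6 : (p - q) * ((1 - τ) + τ * ((1 + p)⁻¹ * (1 + q)⁻¹)) = 0 := by linarith
    have h7 : 0 < (1 - τ) + τ * ((1 + p)⁻¹ * (1 + q)⁻¹) := by
      have h8 : 0 < (1 + p)⁻¹ * (1 + q)⁻¹ := by positivity
      rcases lt_or_eq_of_le h0 with h9 | h9
      · have := mul_pos h9 h8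
        linarith
      · rw [← h9]; norm_num
    have h8 := (mul_eq_zero.1 h6).resolve_right h7.ne'
    linarith
  subst hpq
  refine ⟨rfl, rfl, ?_⟩
  have h2 : Rf u (((1 + p)⁻¹ • ten u u + ((1 + p)⁻¹ / 4) • sq N) - (1 + p)⁻¹ • ten u u) =
      ((1 + p)⁻¹ / 4) • sq N := by
    rw [add_sub_cancel_left, Rf_smul]
    unfold Rf
    rw [hsN, inner_zero_left, mul_zero, zero_smul, sub_zero]
  rw [h2, sub_self, ten_zero, zero_add, sq, smul_smul, smul_smul, ← add_smul] at h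
  refine (smul_eq_zero.1 h).resolve_left ?_
  have h3 : 0 < (1 + ‖N‖)⁻¹ := by positivity
  have h4 : 0 < (1 + p)⁻¹ / 4 * (1 + ‖N‖)⁻¹ := by positivity
  rcases lt_or_eq_of_le h0 with h9 | h9
  · have := mul_pos h9 h4
    linarith
  · rw [← h9]; norm_num

/-! ### stage B -/

theorem nz_neg (u₀ : SV V) (v : V) : nz (-u₀) (-v) = -nz u₀ v := by
  apply Subtype.ext
  by_cases h : v = 0
  · subst h
    unfold nz
    rw [dif_pos neg_zero, dif_pos rfl]
  · rw [coe_neg_sphere, nz_val _ h, nz_val _ (neg_ne_zero.2 h), norm_neg, smul_neg]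

theorem cnz {X : Type*} [TopologicalSpace X] {u : X → SV V} {f : X → V} {x : X}
    (hf : ContinuousAt f x) (h : f x ≠ 0) : ContinuousAt (fun x => nz (u x) (f x)) x := by
  rw [Topology.IsInducing.subtypeVal.continuousAt_iff]
  have h1 : ContinuousAt (fun x => ‖f x‖⁻¹ • f x) x :=
    ContinuousAt.smul (ContinuousAt.inv₀ hf.norm (norm_ne_zero_iff.mpr h)) hf
  refine h1.congr ?_
  filter_upwards [hf.eventually_ne h] with y hy
  exact (nz_val _ hy).symm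

namespace Dat

variable (D : Dat V)

/-- half the difference of the centres -/
noncomputable def vw : V := (2 : ℝ)⁻¹ • (D.x - D.y)

/-- the middle of the centres -/
noncomputable def sw : V := (2 : ℝ)⁻¹ • (D.x + D.y)

theorem vw_ne : D.vw ≠ 0 := smul_ne_zero (by norm_num) (sub_ne_zero.2 D.ne)

/-- the direction -/
noncomputable def uw : SV V := ⟨‖D.vw‖⁻¹ • D.vw, by
  rw [mem_sphere_zero_iff_norm, norm_smul, norm_inv, norm_norm,
    inv_mul_cancel₀ (norm_ne_zero_iff.mpr D.vw_ne)]⟩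

theorem uw_val : (D.uw : V) = ‖D.vw‖⁻¹ • D.vw := rfl

theorem norm_smul_uw : ‖D.vw‖ • (D.uw : V) = D.vw := by
  rw [uw_val, smul_smul, mul_inv_cancel₀ (norm_ne_zero_iff.mpr D.vw_ne), one_smul]

/-- the centre of the tube of the pair -/
noncomputable def Aw : V →L[ℝ] V := (1 + ‖D.vw‖)⁻¹ • ten (D.uw : V) (D.uw : V)

theorem vw_swap : D.swap.vw = -D.vw := by
  unfold vw swap
  rw [← smul_neg, neg_sub]

theorem sw_swap : D.swap.sw = D.sw := by
  unfold sw swap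
  rw [add_comm]

theorem uw_swap : D.swap.uw = -D.uw := by
  apply Subtype.ext
  rw [coe_neg_sphere, uw_val, uw_val, vw_swap, norm_neg, smul_neg]

theorem uw_swap' : (D.swap.uw : V) = -(D.uw : V) := by
  rw [uw_swap, coe_neg_sphere]

theorem Aw_swap : D.swap.Aw = D.Aw := by
  unfold Aw
  rw [uw_swap', vw_swap, norm_neg, ten_neg_neg]

theorem rho_eq : D.rho = ‖D.vw‖ / 2 := by
  unfold rho vw
  rw [norm_smul, norm_inv, Real.norm_two]
  ring

/-- the deviation of the half difference -/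
noncomputable def dv (e : XC V) : V := -(e.2.1 • (e.2.2.1.1 : V)) - D.vw

theorem dv_eq (e : XC V) : D.dv e = (2 : ℝ)⁻¹ • (D.d1 e - D.d2 e) := by
  unfold dv d1 d2 xa xb vw
  module

theorem sum_eq (e : XC V) : e.1 - D.sw = (2 : ℝ)⁻¹ • (D.d1 e + D.d2 e) := by
  unfold d1 d2 xa xb sw
  module

theorem dv_swap (e : XC V) : D.swap.dv (io e) = -D.dv e := by
  rw [dv_eq, dv_eq, d1_swap, d2_swap, ← smul_neg, neg_sub]

/-- the numerator of stage B -/
noncomputable def nB (τ : ℝ) (e : XC V) : V →L[ℝ] V :=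
  (1 - τ) • (ten (D.dv e) (e.2.2.1.1 : V) + e.2.2.1.2) +
    τ • Rf (D.uw : V) ((qc e).2 - D.Aw)

/-- the direction of stage B -/
noncomputable def uB (τ : ℝ) (e : XC V) : SV V :=
  nz D.uw ((1 - τ) • (e.2.2.1.1 : V) + τ • (D.uw : V))

/-- stage B on the chart -/
noncomputable def chB (τ : ℝ) (e : XC V) : OnePoint (V × ((V →L[ℝ] V) × PV V)) :=
  fin3 (D.KK e * D.chi e) (e.1 - D.sw) (D.nB τ e) (piP V (D.uB τ e))

theorem nB_swap (τ : ℝ) (e : XC V) : D.swap.nB τ (io e) = D.nB τ e := by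
  unfold nB
  have h1 : ((io e).2.2.1.1 : V) = -(e.2.2.1.1 : V) := coe_neg_sphere _
  rw [h1, dv_swap, ten_neg_neg, uw_swap', Rf_neg_vec, Aw_swap, qc_io]
  rfl

theorem uB_swap (τ : ℝ) (e : XC V) : D.swap.uB τ (io e) = -D.uB τ e := by
  unfold uB
  have h1 : ((io e).2.2.1.1 : V) = -(e.2.2.1.1 : V) := coe_neg_sphere _
  rw [h1, uw_swap', uw_swap, ← nz_neg, smul_neg, smul_neg, ← neg_add]

theorem chB_swap (τ : ℝ) (e : XC V) : D.swap.chB τ (io e) = D.chB τ e := by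
  unfold chB
  rw [KK_swap, chi_swap, sw_swap, nB_swap, uB_swap, piP_neg]
  rfl

theorem chB_ne {τ : ℝ} {e : XC V} (h : D.chB τ e ≠ ∞) : D.KK e ≠ 0 ∧ D.chi e ≠ 0 := by
  have h1 : D.KK e * D.chi e ≠ 0 := by
    intro h1
    apply h
    unfold chB
    rw [h1, fin3_zero]
  exact ⟨left_ne_zero_of_mul h1, right_ne_zero_of_mul h1⟩

theorem chB_disj (τ : ℝ) (e : XC V) : D.chB τ e = ∞ ∨ D.chB τ (io e) = ∞ := by
  rcases D.KK_disj e with h | h
  · left
    by_contra hc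
    exact (D.chB_ne hc).1 h
  · right
    by_contra hc
    exact (D.chB_ne hc).1 h

/-- the end of stage A is the beginning of stage B -/
theorem chA_one (e : XC V) : D.chA 1 e = D.chB 0 e := by
  by_cases h : D.KK e * D.chi e = 0
  · have h1 : D.kA 1 e = 0 := by
      unfold kA
      rw [sub_self, zero_add, one_mul, h]
    unfold chA chB
    rw [h1, h, fin3_zero, fin3_zero]
  · have h1 : D.kA 1 e = D.KK e * D.chi e := by
      unfold kA
      rw [sub_self, zero_add, one_mul]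
    have h2 : D.al 1 e = D.d1 e := by
      unfold al
      rw [sub_self, zero_mul, zero_smul, zero_add, one_smul]
    have h3 : D.be 1 e = D.d2 e := by
      unfold be
      rw [sub_self, zero_mul, zero_smul, zero_add, one_smul]
    have h4 : D.nn 1 e = e.2.2.1.2 := by
      unfold nn
      rw [sub_self, zero_mul, zero_add, one_smul]
    have h5 : D.nB 0 e = ten (D.dv e) (e.2.2.1.1 : V) + e.2.2.1.2 := by
      unfold nB
      rw [sub_zero, one_smul, zero_smul, add_zero]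
    have h6 : D.uB 0 e = e.2.2.1.1 := by
      unfold uB
      rw [sub_zero, one_smul, zero_smul, add_zero, nz_self]
    unfold chA chB
    rw [h1, h2, h3, h4, h5, h6, ← dv_eq, ← sum_eq]

/-! ### the closed tube -/

/-- in the closed tube the direction is close to the direction of the pair -/
theorem inner_tube {e : XC V} (h1 : ‖D.d1 e‖ ≤ D.rho) (h2 : ‖D.d2 e‖ ≤ D.rho) (hr : e.2.1 ≤ 0) :
    e.2.1 < 0 ∧ 0 < ⟪(e.2.2.1.1 : V), (D.uw : V)⟫_ℝ := by
  have hv : 0 < ‖D.vw‖ := norm_pos_iff.2 D.vw_ne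
  have h3 : ‖D.dv e‖ ≤ ‖D.vw‖ / 2 := by
    rw [dv_eq, norm_smul, norm_inv, Real.norm_two, ← rho_eq]
    have := norm_sub_le (D.d1 e) (D.d2 e)
    linarith
  have h4 : 0 < ⟪-(e.2.1 • (e.2.2.1.1 : V)), D.vw⟫_ℝ := by
    have h5 : -(e.2.1 • (e.2.2.1.1 : V)) = D.dv e + D.vw := by
      unfold dv
      rw [sub_add_cancel]
    rw [h5, inner_add_left, real_inner_self_eq_norm_sq]
    have h6 := abs_real_inner_le_norm (D.dv e) D.vw
    have h7 := neg_abs_le ⟪D.dv e, D.vw⟫_ℝ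
    nlinarith
  rw [← neg_smul, real_inner_smul_left, ← D.norm_smul_uw, real_inner_smul_right] at h4
  have hr' : e.2.1 ≠ 0 := by
    intro h5
    rw [h5, neg_zero, zero_mul] at h4
    exact lt_irrefl _ h4
  have hr2 : e.2.1 < 0 := lt_of_le_of_ne hr hr'
  refine ⟨hr2, ?_⟩
  by_contra hc
  push Not at hc
  have h5 : -e.2.1 * (‖D.vw‖ * ⟪(e.2.2.1.1 : V), (D.uw : V)⟫_ℝ) ≤ 0 := by
    have : 0 < -e.2.1 * ‖D.vw‖ := mul_pos (by linarith) hv
    nlinarith
  linarith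

theorem dir_ne {e : XC V} (h : 0 < ⟪(e.2.2.1.1 : V), (D.uw : V)⟫_ℝ) {τ : ℝ} (h0 : 0 ≤ τ)
    (h1 : τ ≤ 1) : (1 - τ) • (e.2.2.1.1 : V) + τ • (D.uw : V) ≠ 0 := by
  intro h2
  have h3 := congrArg (fun v : V => ⟪v, (D.uw : V)⟫_ℝ) h2
  simp only [inner_add_left, real_inner_smul_left, real_inner_self_eq_norm_sq, norm_SV,
    inner_zero_left] at h3
  rcases lt_or_eq_of_le h0 with h4 | h4
  · have : 0 ≤ (1 - τ) * ⟪(e.2.2.1.1 : V), (D.uw : V)⟫_ℝ := mul_nonneg (by linarith) h.le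
    nlinarith
  · rw [← h4] at h3
    linarith

/-- **the numerators of stage B vanish only at the centre** -/
theorem centre {e : XC V} (h1 : ‖D.d1 e‖ ≤ D.rho) (h2 : ‖D.d2 e‖ ≤ D.rho) (hr : e.2.1 ≤ 0)
    {τ : ℝ} (h0 : 0 ≤ τ) (h01 : τ ≤ 1) (hs : e.1 - D.sw = 0) (hB : D.nB τ e = 0) :
    D.d1 e = 0 ∧ D.d2 e = 0 ∧ e.2.2.1.2 = 0 := by
  obtain ⟨hr', hin⟩ := D.inner_tube h1 h2 hr
  have hv : 0 < ‖D.vw‖ := norm_pos_iff.2 D.vw_ne
  have hN := e.2.2.2
  have h3 : D.dv e = (-e.2.1) • (e.2.2.1.1 : V) - ‖D.vw‖ • (D.uw : V) := by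
    rw [D.norm_smul_uw, neg_smul]
    rfl
  have h4 : (qc e).2 = (1 + -e.2.1)⁻¹ • ten (e.2.2.1.1 : V) (e.2.2.1.1 : V) +
      ((1 + -e.2.1)⁻¹ / 4) • sq e.2.2.1.2 := by
    rw [← sub_eq_add_neg, ← Kr_of_nonpos hr]
    rfl
  unfold nB at hB
  rw [h3, h4] at hB
  obtain ⟨h5, h6, h7⟩ := H3 (norm_SV e.2.2.1.1) (norm_SV D.uw) hin hN (by linarith)
    (norm_nonneg _) h0 h01 hB
  have h8 : D.dv e = 0 := by
    rw [h3, h5, h6, sub_self]
  rw [sum_eq] at hs
  rw [dv_eq] at h8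
  have e1 : D.d1 e + D.d2 e = 0 := (smul_eq_zero.1 hs).resolve_left (by norm_num)
  have e2 : D.d1 e - D.d2 e = 0 := (smul_eq_zero.1 h8).resolve_left (by norm_num)
  have e3 : D.d1 e = D.d2 e := sub_eq_zero.1 e2
  rw [e3, ← two_smul ℝ] at e1
  have e4 : D.d2 e = 0 := (smul_eq_zero.1 e1).resolve_left (by norm_num)
  exact ⟨e3.trans e4, e4, h7⟩

end Dat

/-! ### continuity of stage B -/

section family

variable {T : Type*} [TopologicalSpace T] {𝒟 : T → Dat V}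

theorem Fm.cvw (h : Fm 𝒟) : Continuous fun t => (𝒟 t).vw := (h.cx.sub h.cy).const_smul _

theorem Fm.csw (h : Fm 𝒟) : Continuous fun t => (𝒟 t).sw := (h.cx.add h.cy).const_smul _

theorem Fm.cuw (h : Fm 𝒟) : Continuous fun t => (𝒟 t).uw := by
  unfold Dat.uw
  refine Continuous.subtype_mk ?_ _
  exact (h.cvw.norm.inv₀ fun t => norm_ne_zero_iff.mpr (𝒟 t).vw_ne).smul h.cvw

theorem Fm.cuw' (h : Fm 𝒟) : Continuous fun t => ((𝒟 t).uw : V) :=
  continuous_subtype_val.comp h.cuw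

theorem Fm.cAw (h : Fm 𝒟) : Continuous fun t => (𝒟 t).Aw := by
  unfold Dat.Aw
  have h1 : Continuous fun t => ten ((𝒟 t).uw : V) ((𝒟 t).uw : V) := Continuous.ten h.cuw' h.cuw'
  have h2 : Continuous fun t => (1 + ‖(𝒟 t).vw‖)⁻¹ := by
    refine (continuous_const.add h.cvw.norm).inv₀ fun t => ?_
    have : (0 : ℝ) < 1 + ‖(𝒟 t).vw‖ := by positivity
    exact this.ne'
  exact h2.smul h1

variable {τ : T → ℝ}

theorem Fm.cnB (h : Fm 𝒟) (hτ : Continuous τ) :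
    Continuous fun p : T × XC V => (𝒟 p.1).nB (τ p.1) p.2 := by
  have h1 : Continuous fun p : T × XC V => τ p.1 := hτ.comp continuous_fst
  have hu : Continuous fun p : T × XC V => (p.2.2.2.1.1 : V) := by fun_prop
  have hr : Continuous fun p : T × XC V => p.2.2.1 • (p.2.2.2.1.1 : V) := by fun_prop
  have hN : Continuous fun p : T × XC V => p.2.2.2.1.2 := by fun_prop
  have hdv : Continuous fun p : T × XC V => (𝒟 p.1).dv p.2 := by
    unfold Dat.dv
    exact hr.neg.sub (h.cvw.comp continuous_fst)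
  have h2 : Continuous fun p : T × XC V => ten ((𝒟 p.1).dv p.2) (p.2.2.2.1.1 : V) :=
    Continuous.ten hdv hu
  have h3 : Continuous fun p : T × XC V => (qc p.2).2 - (𝒟 p.1).Aw :=
    (continuous_snd.comp (continuous_qc.comp continuous_snd)).sub (h.cAw.comp continuous_fst)
  have h4 : Continuous fun p : T × XC V => Rf ((𝒟 p.1).uw : V) ((qc p.2).2 - (𝒟 p.1).Aw) :=
    Continuous.Rf (h.cuw'.comp continuous_fst) h3
  unfold Dat.nB
  exact ((continuous_const.sub h1).smul (h2.add hN)).add (h1.smul h4)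

theorem Fm.continuous_chB (h : Fm 𝒟) (hτ : Continuous τ) (h0 : ∀ t, 0 ≤ τ t)
    (h1 : ∀ t, τ t ≤ 1) : Continuous fun p : T × XC V => (𝒟 p.1).chB (τ p.1) p.2 := by
  refine continuous_iff_continuousAt.2 ?_
  rintro ⟨t₀, e₀⟩
  have cst : ∀ P : T × XC V → Prop, (∀ᶠ p in 𝓝 (t₀, e₀), P p) →
      (∀ p, P p → (𝒟 p.1).KK p.2 = 0 ∨ (𝒟 p.1).chi p.2 = 0) →
      ContinuousAt (fun p : T × XC V => (𝒟 p.1).chB (τ p.1) p.2) (t₀, e₀) := by
    intro P hP h2
    refine (continuousAt_const (y := (∞ : OnePoint (V × ((V →L[ℝ] V) × PV V))))).congr ?_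
    filter_upwards [hP] with p hp
    symm
    by_contra hc
    obtain ⟨h3, h4⟩ := (𝒟 p.1).chB_ne hc
    rcases h2 p hp with h5 | h5
    · exact h3 h5
    · exact h4 h5
  rcases lt_or_ge 0 e₀.2.1 with hr | hr
  · refine cst (fun p => 0 < p.2.2.1) ?_ fun p hp => ?_
    · have : Continuous fun p : T × XC V => p.2.2.1 := by fun_prop
      exact this.continuousAt.eventually (lt_mem_nhds hr)
    · left
      by_contra hc
      exact absurd ((𝒟 p.1).KK_ne hc).1 (not_le.2 hp)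
  rcases lt_or_ge (𝒟 t₀).rho ‖(𝒟 t₀).d1 e₀‖ with hd1 | hd1
  · refine cst (fun p => (𝒟 p.1).rho < ‖(𝒟 p.1).d1 p.2‖) ?_ fun p hp => ?_
    · have h2 : ContinuousAt (fun p : T × XC V => ‖(𝒟 p.1).d1 p.2‖ - (𝒟 p.1).rho) (t₀, e₀) :=
        (h.cd1.norm.sub (h.crho.comp continuous_fst)).continuousAt
      filter_upwards [h2.eventually (lt_mem_nhds (sub_pos.2 hd1))] with p hp
      exact sub_pos.1 hp
    · right
      by_contra hc
      exact absurd ((𝒟 p.1).chi_ne hc).1 (not_lt.2 (le_of_lt hp))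
  rcases lt_or_ge (𝒟 t₀).rho ‖(𝒟 t₀).d2 e₀‖ with hd2 | hd2
  · refine cst (fun p => (𝒟 p.1).rho < ‖(𝒟 p.1).d2 p.2‖) ?_ fun p hp => ?_
    · have h2 : ContinuousAt (fun p : T × XC V => ‖(𝒟 p.1).d2 p.2‖ - (𝒟 p.1).rho) (t₀, e₀) :=
        (h.cd2.norm.sub (h.crho.comp continuous_fst)).continuousAt
      filter_upwards [h2.eventually (lt_mem_nhds (sub_pos.2 hd2))] with p hp
      exact sub_pos.1 hp
    · right
      by_contra hc
      exact absurd ((𝒟 p.1).chi_ne hc).2.1 (not_lt.2 (le_of_lt hp))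
  -- the closed tube
  obtain ⟨hr', hin⟩ := (𝒟 t₀).inner_tube hd1 hd2 hr
  have c1 : Continuous fun p : T × XC V => (𝒟 p.1).KK p.2 * (𝒟 p.1).chi p.2 := h.cKK.mul h.cchi
  have c2 : Continuous fun p : T × XC V => p.2.1 - (𝒟 p.1).sw :=
    (by fun_prop : Continuous fun p : T × XC V => p.2.1).sub (h.csw.comp continuous_fst)
  have c3 := h.cnB hτ
  have hτ' : Continuous fun p : T × XC V => τ p.1 := hτ.comp continuous_fst
  have c4 : Continuous fun p : T × XC V =>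
      (1 - τ p.1) • (p.2.2.2.1.1 : V) + τ p.1 • ((𝒟 p.1).uw : V) := by
    have hu : Continuous fun p : T × XC V => (p.2.2.2.1.1 : V) := by fun_prop
    exact ((continuous_const.sub hτ').smul hu).add (hτ'.smul (h.cuw'.comp continuous_fst))
  have c5 : ContinuousAt (fun p : T × XC V => piP V ((𝒟 p.1).uB (τ p.1) p.2)) (t₀, e₀) := by
    refine ContinuousAt.comp (g := piP V) (continuous_piP V).continuousAt ?_
    exact cnz (u := fun p : T × XC V => (𝒟 p.1).uw) c4.continuousAt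
      ((𝒟 t₀).dir_ne hin (h0 t₀) (h1 t₀))
  refine continuousAt_fin3 c1.continuousAt c2.continuousAt c3.continuousAt c5 ?_
  by_contra hc
  push Not at hc
  obtain ⟨hc1, hc2, hc3⟩ := hc
  obtain ⟨h3, h4, h5⟩ := (𝒟 t₀).centre hd1 hd2 hr (h0 t₀) (h1 t₀) hc2 hc3
  rcases mul_eq_zero.1 hc1 with h6 | h6
  · have h7 : (𝒟 t₀).kp e₀ = 0 := by
      unfold Dat.KK at h6
      rwa [if_pos hr] at h6
    refine (𝒟 t₀).kp_ne.2 ⟨fun h8 => ?_, fun h8 => ?_⟩ h7
    · exact (𝒟 t₀).d1_ne h8 h3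
    · exact (𝒟 t₀).d2_ne h8 h4
  · have h7 : (𝒟 t₀).chi e₀ = 0 := h6
    rw [(𝒟 t₀).chi_eq_one h3 h4 h5] at h7
    exact one_ne_zero h7

/-- far away the cut off function vanishes -/
theorem Fm.ev_chi (h : Fm 𝒟) (t₀ : T) : ∃ ρ : ℝ, ∀ᶠ t in 𝓝 t₀, ∀ e : XC V,
    (ρ < ‖xa e‖ ∨ ρ < ‖xb e‖ ∨ ρ < ‖e.2.2.1.2‖) → (𝒟 t).chi e = 0 := by
  have h3 : ∀ᶠ t in 𝓝 t₀, (𝒟 t).rho < (𝒟 t₀).rho + 1 :=
    h.crho.continuousAt.eventually (gt_mem_nhds (by linarith))
  have h4 : ∀ᶠ t in 𝓝 t₀, ‖(𝒟 t).x‖ < ‖(𝒟 t₀).x‖ + 1 :=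
    h.cx.norm.continuousAt.eventually (gt_mem_nhds (by linarith))
  have h5 : ∀ᶠ t in 𝓝 t₀, ‖(𝒟 t).y‖ < ‖(𝒟 t₀).y‖ + 1 :=
    h.cy.norm.continuousAt.eventually (gt_mem_nhds (by linarith))
  refine ⟨max (max (‖(𝒟 t₀).x‖ + (𝒟 t₀).rho + 2) (‖(𝒟 t₀).y‖ + (𝒟 t₀).rho + 2)) 1, ?_⟩
  filter_upwards [h3, h4, h5] with t ht3 ht4 ht5 e he
  simp only [max_lt_iff] at he
  by_contra hc
  obtain ⟨h6, h7, h8⟩ := (𝒟 t).chi_ne hc
  rcases he with ⟨⟨he1, he2⟩, he3⟩ | ⟨⟨he1, he2⟩, he3⟩ | ⟨⟨he1, he2⟩, he3⟩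
  · have := norm_sub_norm_le (xa e) (𝒟 t).x
    unfold Dat.d1 at h6
    linarith
  · have := norm_sub_norm_le (xb e) (𝒟 t).y
    unfold Dat.d2 at h7
    linarith
  · linarith

theorem Fm.continuous_exB (h : Fm 𝒟) (hτ : Continuous τ) (h0 : ∀ t, 0 ≤ τ t)
    (h1 : ∀ t, τ t ≤ 1) :
    Continuous fun p : T × OnePoint (XC V) => ex ((𝒟 p.1).chB (τ p.1)) p.2 := by
  refine continuous_ex (ch := fun t => (𝒟 t).chB (τ t)) (h.continuous_chB hτ h0 h1) ?_
  intro t₀ R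
  obtain ⟨ρ, h2⟩ := h.ev_chi t₀
  refine ⟨ρ, ?_⟩
  filter_upwards [h2] with t ht e he m B q hm
  have h3 := ht e he
  exfalso
  refine ((𝒟 t).chB_ne (τ := τ t) (e := e) ?_).2 h3
  rw [hm]
  exact OnePoint.coe_ne_infty _

/-- stage B -/
noncomputable def Dat.stB (D : Dat V) (τ : ℝ) :
    OnePoint (V × (V →L[ℝ] V)) → OnePoint (V × ((V →L[ℝ] V) × PV V)) := shD (D.chB τ)

theorem Dat.stB_swap (D : Dat V) (τ : ℝ) : D.swap.stB τ = D.stB τ := by
  refine shD_swap (D.chB_disj τ) fun e => ?_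
  have := D.chB_swap τ (io e)
  rwa [io_io] at this

theorem Dat.stA_one (D : Dat V) : D.stA 1 = D.stB 0 := by
  unfold Dat.stA Dat.stB
  rw [show D.chA 1 = D.chB 0 from funext D.chA_one]

theorem Fm.continuous_stB (h : Fm 𝒟) (hτ : Continuous τ) (h0 : ∀ t, 0 ≤ τ t)
    (h1 : ∀ t, τ t ≤ 1) :
    Continuous fun p : T × OnePoint (V × (V →L[ℝ] V)) => (𝒟 p.1).stB (τ p.1) p.2 :=
  continuous_shD (ch := fun t => (𝒟 t).chB (τ t)) (h.continuous_exB hτ h0 h1)
    fun t e => (𝒟 t).chB_disj _ e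

end family

end Vale.Agent.P263.KJ.Sht
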