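import Vale.Agent.P263.KJ.SheetB
import Vale.Agent.P263.KJ.Sheets

/-!
# P263, block KJ: the single sheet, stage C, and the whole homotopy

`D.HH t z`, `t ∈ [0,1]`: from the sheet of the pair in the literal `J` (`HH_zero_eq`) to
`(s, A) ↦ (s, (Rf u A, [u]))`, `u` the direction of the pair (`HH_one`).
-/

open Filter Topology OnePoint Set InnerProductSpace RealInnerProductSpace

namespace Vale.Agent.P263.KJ.Sht

open Vale.Agent.P251.G Vale.Agent.P251.G.LC Vale.Agent.P263.KJ

set_option linter.unusedSectionVars false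

variable {V : Type} [NormedAddCommGroup V] [InnerProductSpace ℝ V] [FiniteDimensional ℝ V]

namespace Dat

variable (D : Dat V)

/-- the scale on the chart -/
noncomputable def kx (y : OnePoint (XC V)) : ℝ := y.elim 0 fun e => D.KK e * D.chi e

@[simp] theorem kx_infty : D.kx ∞ = 0 := rfl

@[simp] theorem kx_coe (e : XC V) : D.kx (e : OnePoint (XC V)) = D.KK e * D.chi e := rfl

/-- the scale downstairs -/
noncomputable def kC (z : OnePoint (V × (V →L[ℝ] V))) : ℝ :=
  descT qc (fun p : Unit × OnePoint (XC V) => D.kx p.2 + D.kx (ioP p.2)) 0 ((), z)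

theorem kx_const {e e' : XC V} (h : qc e = qc e') :
    D.kx (e : OnePoint (XC V)) + D.kx (ioP (e : OnePoint (XC V))) =
      D.kx (e' : OnePoint (XC V)) + D.kx (ioP (e' : OnePoint (XC V))) := by
  rcases qc_eq h with h | h
  · rw [h]
  · rw [h]
    change D.KK e * D.chi e + D.KK (io e) * D.chi (io e) =
      D.KK (io e) * D.chi (io e) + D.KK (io (io e)) * D.chi (io (io e))
    rw [io_io, add_comm]

theorem kC_qc (e : XC V) :
    D.kC ((qc e : V × (V →L[ℝ] V)) : OnePoint (V × (V →L[ℝ] V))) =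
      D.KK e * D.chi e + D.KK (io e) * D.chi (io e) :=
  descT_coe (q := qc) (φ := fun p : Unit × OnePoint (XC V) => D.kx p.2 + D.kx (ioP p.2))
    (fun _ _ _ h => D.kx_const h) () e

@[simp] theorem kC_infty : D.kC ∞ = 0 := descT_infty _

theorem kC_of_notMem {z : OnePoint (V × (V →L[ℝ] V))}
    (h : ∀ e : XC V, ((qc e : V × (V →L[ℝ] V)) : OnePoint (V × (V →L[ℝ] V))) ≠ z) :
    D.kC z = 0 := descT_of_notMem _ h

theorem kC_swap (z : OnePoint (V × (V →L[ℝ] V))) : D.swap.kC z = D.kC z := by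
  by_cases hz : ∃ e : XC V, ((qc e : V × (V →L[ℝ] V)) : OnePoint (V × (V →L[ℝ] V))) = z
  · obtain ⟨e, rfl⟩ := hz
    rw [kC_qc, kC_qc, KK_swap, chi_swap]
    have h1 := D.KK_swap (io e)
    have h2 := D.chi_swap (io e)
    rw [io_io] at h1 h2
    rw [h1, h2, add_comm]
  · push Not at hz
    rw [kC_of_notMem _ hz, kC_of_notMem _ hz]

theorem kC_nonneg (z : OnePoint (V × (V →L[ℝ] V))) : 0 ≤ D.kC z := by
  by_cases hz : ∃ e : XC V, ((qc e : V × (V →L[ℝ] V)) : OnePoint (V × (V →L[ℝ] V))) = z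
  · obtain ⟨e, rfl⟩ := hz
    rw [kC_qc]
    exact add_nonneg (mul_nonneg (D.KK_nonneg _) (D.chi_nonneg _))
      (mul_nonneg (D.KK_nonneg _) (D.chi_nonneg _))
  · push Not at hz
    rw [kC_of_notMem _ hz]

theorem kC_le_one (z : OnePoint (V × (V →L[ℝ] V))) : D.kC z ≤ 1 := by
  by_cases hz : ∃ e : XC V, ((qc e : V × (V →L[ℝ] V)) : OnePoint (V × (V →L[ℝ] V))) = z
  · obtain ⟨e, rfl⟩ := hz
    rw [kC_qc]
    rcases D.KK_disj e with h | h
    · rw [h, zero_mul, zero_add]
      exact mul_le_one₀ (D.KK_le_one _) (D.chi_nonneg _) (D.chi_le_one _)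
    · rw [h, zero_mul, add_zero]
      exact mul_le_one₀ (D.KK_le_one _) (D.chi_nonneg _) (D.chi_le_one _)
  · push Not at hz
    rw [kC_of_notMem _ hz]
    exact zero_le_one

/-- the centre of the tube in the chart -/
noncomputable def ew : XC V := (D.sw, (-‖D.vw‖, ⟨(D.uw, 0), by simp⟩))

theorem xa_ew : xa D.ew = D.x := by
  have h := D.norm_smul_uw
  change D.sw - (-‖D.vw‖) • (D.uw : V) = D.x
  rw [neg_smul, h, sub_neg_eq_add]
  unfold sw vw
  module

theorem xb_ew : xb D.ew = D.y := by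
  have h := D.norm_smul_uw
  change D.sw + (-‖D.vw‖) • (D.uw : V) = D.y
  rw [neg_smul, h, ← sub_eq_add_neg]
  unfold sw vw
  module

theorem qc_ew : qc D.ew = (D.sw, D.Aw) := by
  apply Prod.ext
  · rfl
  · change Kr (-‖D.vw‖) • ten (D.uw : V) (D.uw : V) +
      (Kr (-‖D.vw‖) / 4) • sq (0 : V →L[ℝ] V) = D.Aw
    rw [Kr_of_nonpos (by simp), sub_neg_eq_add, sq, smul_zero, smul_zero, add_zero]
    rfl

theorem kC_ew_pos : 0 < D.kC (((D.sw, D.Aw) : V × (V →L[ℝ] V)) :
    OnePoint (V × (V →L[ℝ] V))) := by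
  rw [← qc_ew, kC_qc]
  have h1 : D.d1 D.ew = 0 := by
    unfold d1
    rw [xa_ew, sub_self]
  have h2 : D.d2 D.ew = 0 := by
    unfold d2
    rw [xb_ew, sub_self]
  have h3 : D.chi D.ew = 1 := D.chi_eq_one h1 h2 rfl
  have h4 : D.KK D.ew = D.kp D.ew := by
    unfold KK
    rw [if_pos]
    change -‖D.vw‖ ≤ 0
    simp
  have h5 : D.kp D.ew ≠ 0 := by
    rw [kp_ne, xa_ew, xb_ew]
    exact ⟨D.fx, D.gy⟩
  have h6 : 0 < D.kp D.ew := lt_of_le_of_ne (D.kp_nonneg _) (Ne.symm h5)
  have h7 : 0 ≤ D.KK (io D.ew) * D.chi (io D.ew) :=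
    mul_nonneg (D.KK_nonneg _) (D.chi_nonneg _)
  rw [h3, h4, mul_one]
  linarith

/-- stage C -/
noncomputable def stC (τ : ℝ) (z : OnePoint (V × (V →L[ℝ] V))) :
    OnePoint (V × ((V →L[ℝ] V) × PV V)) :=
  z.elim ∞ fun w => fin3 ((1 - τ) * D.kC (w : OnePoint (V × (V →L[ℝ] V))) + τ)
    (w.1 - (1 - τ) • D.sw) (Rf (D.uw : V) (w.2 - (1 - τ) • D.Aw)) (piP V D.uw)

@[simp] theorem stC_infty (τ : ℝ) : D.stC τ ∞ = ∞ := rfl

theorem stC_coe (τ : ℝ) (w : V × (V →L[ℝ] V)) : D.stC τ (w : OnePoint (V × (V →L[ℝ] V))) =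
    fin3 ((1 - τ) * D.kC (w : OnePoint (V × (V →L[ℝ] V))) + τ)
    (w.1 - (1 - τ) • D.sw) (Rf (D.uw : V) (w.2 - (1 - τ) • D.Aw)) (piP V D.uw) := rfl

theorem stC_swap (τ : ℝ) (z : OnePoint (V × (V →L[ℝ] V))) : D.swap.stC τ z = D.stC τ z := by
  induction z using OnePoint.rec with
  | infty => rfl
  | coe w =>
    rw [stC_coe, stC_coe, kC_swap, sw_swap, Aw_swap, uw_swap', Rf_neg_vec, uw_swap, piP_neg]

theorem stC_one (w : V × (V →L[ℝ] V)) : D.stC 1 (w : OnePoint (V × (V →L[ℝ] V))) =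
    (((w.1, (Rf (D.uw : V) w.2, piP V D.uw)) : V × ((V →L[ℝ] V) × PV V)) :
      OnePoint (V × ((V →L[ℝ] V) × PV V))) := by
  rw [stC_coe, sub_self, zero_mul, zero_add, fin3_one, zero_smul, zero_smul, sub_zero, sub_zero]

/-- the end of stage B on the chart -/
theorem chB_one (e : XC V) : D.chB 1 e = fin3 (D.KK e * D.chi e) (e.1 - D.sw)
    (Rf (D.uw : V) ((qc e).2 - D.Aw)) (piP V D.uw) := by
  have h1 : D.nB 1 e = Rf (D.uw : V) ((qc e).2 - D.Aw) := by
    unfold nB
    rw [sub_self, zero_smul, zero_add, one_smul]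
  have h2 : D.uB 1 e = D.uw := by
    unfold uB
    rw [sub_self, zero_smul, zero_add, one_smul, nz_self]
  unfold chB
  rw [h1, h2]

/-- the end of stage B is the beginning of stage C -/
theorem stB_one (z : OnePoint (V × (V →L[ℝ] V))) : D.stB 1 z = D.stC 0 z := by
  induction z using OnePoint.rec with
  | infty => exact shD_infty _
  | coe w =>
    rw [stC_coe, sub_zero, one_mul, add_zero, one_smul, one_smul]
    by_cases hz : ∃ e : XC V, qc e = w
    · obtain ⟨e, rfl⟩ := hz
      unfold stB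
      rw [shD_qc (D.chB_disj 1), kC_qc]
      by_cases h : D.KK e * D.chi e = 0
      · have h1 : D.chB 1 e = ∞ := by rw [chB_one, h, fin3_zero]
        rw [jc_of_eq h1, chB_one, h, zero_add, qc_io]
        rfl
      · have h1 : D.chB 1 e ≠ ∞ := by
          rw [chB_one, Ne, fin3_eq_infty]
          exact h
        have h2 : D.KK (io e) = 0 := (D.KK_disj e).resolve_left (left_ne_zero_of_mul h)
        rw [jc_of_ne h1, chB_one, h2, zero_mul, add_zero]
        rfl
    · push Not at hz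
      have h1 : ∀ e : XC V, ((qc e : V × (V →L[ℝ] V)) : OnePoint (V × (V →L[ℝ] V))) ≠
          ((w : V × (V →L[ℝ] V)) : OnePoint (V × (V →L[ℝ] V))) := by
        intro e he
        exact hz e (OnePoint.coe_injective he)
      unfold stB
      rw [shD_of_notMem _ h1, kC_of_notMem _ h1, fin3_zero]

end Dat

/-! ### continuity of stage C -/

section family

variable {T : Type*} [TopologicalSpace T] {𝒟 : T → Dat V}

theorem Fm.ckx (h : Fm 𝒟) : Continuous fun p : T × OnePoint (XC V) => (𝒟 p.1).kx p.2 := by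
  refine continuous_iff_continuousAt.2 ?_
  rintro ⟨t₀, y₀⟩
  induction y₀ using OnePoint.rec with
  | coe e =>
    have h3 : IsOpenEmbedding (fun p : T × XC V => (p.1, (p.2 : OnePoint (XC V)))) :=
      IsOpenEmbedding.id.prodMap OnePoint.isOpenEmbedding_coe
    exact (h3.continuousAt_iff (f := fun p : T × XC V => (p.1, (p.2 : OnePoint (XC V))))
      (g := fun p : T × OnePoint (XC V) => (𝒟 p.1).kx p.2) (x := (t₀, e))).1
      (h.cKK.mul h.cchi).continuousAt
  | infty =>
    obtain ⟨ρ, hρ⟩ := h.ev_chi t₀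
    refine (continuousAt_const (y := (0 : ℝ))).congr ?_
    rw [nhds_prod_eq]
    filter_upwards [hρ.prod_mk (ev_infty (V := V) ρ)] with p hp
    obtain ⟨hp1, hp2⟩ := hp
    obtain ⟨t, y⟩ := p
    symm
    induction y using OnePoint.rec with
    | infty => rfl
    | coe e =>
      have h1 : (𝒟 t).chi e = 0 := hp1 e (hp2 e rfl)
      change (𝒟 t).KK e * (𝒟 t).chi e = 0
      rw [h1, mul_zero]

theorem Fm.ckC (h : Fm 𝒟) :
    Continuous fun p : T × OnePoint (V × (V →L[ℝ] V)) => (𝒟 p.1).kC p.2 := by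
  have h1 : Continuous fun p : T × OnePoint (XC V) =>
      (𝒟 p.1).kx p.2 + (𝒟 p.1).kx (ioP p.2) :=
    h.ckx.add (h.ckx.comp (continuous_fst.prodMk (continuous_ioP.comp continuous_snd)))
  exact continuous_descT continuous_qc isOpenMap_qc h1 (fun t => by
    change (𝒟 t).kx ∞ + (𝒟 t).kx ∞ = 0
    rw [Dat.kx_infty, add_zero]) fun t e e' h => (𝒟 t).kx_const h

/-- neighbourhoods of `∞` -/
theorem ev_inftyW (ρ : ℝ) : ∀ᶠ y in 𝓝 (∞ : OnePoint (V × (V →L[ℝ] V))),
    ∀ w : V × (V →L[ℝ] V), y = (w : OnePoint (V × (V →L[ℝ] V))) → ρ < ‖w.1‖ ∨ ρ < ‖w.2‖ := by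
  have h1 : IsCompact (Metric.closedBall (0 : V × (V →L[ℝ] V)) ρ) := isCompact_closedBall _ _
  have h3 : IsClosed (((↑) : V × (V →L[ℝ] V) → OnePoint (V × (V →L[ℝ] V))) ''
      Metric.closedBall (0 : V × (V →L[ℝ] V)) ρ) :=
    OnePoint.isClosed_image_coe.2 ⟨Metric.isClosed_closedBall, h1⟩
  have h4 := h3.isOpen_compl.mem_nhds (x := (∞ : OnePoint (V × (V →L[ℝ] V)))) (by
    rintro ⟨e, -, he⟩
    exact OnePoint.coe_ne_infty e he)
  filter_upwards [h4] with y hy w hw
  by_contra hcon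
  push Not at hcon
  refine hy ⟨w, ?_, hw.symm⟩
  rw [mem_closedBall_zero_iff]
  exact max_le hcon.1 hcon.2

variable {τ : T → ℝ}

theorem Fm.continuous_stC (h : Fm 𝒟) (hτ : Continuous τ) (h0 : ∀ t, 0 ≤ τ t)
    (h1 : ∀ t, τ t ≤ 1) :
    Continuous fun p : T × OnePoint (V × (V →L[ℝ] V)) => (𝒟 p.1).stC (τ p.1) p.2 := by
  refine continuous_iff_continuousAt.2 ?_
  rintro ⟨t₀, y₀⟩
  induction y₀ using OnePoint.rec with
  | coe w₀ =>
    have h3 : IsOpenEmbedding (fun p : T × (V × (V →L[ℝ] V)) =>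
        (p.1, (p.2 : OnePoint (V × (V →L[ℝ] V))))) :=
      IsOpenEmbedding.id.prodMap OnePoint.isOpenEmbedding_coe
    refine (h3.continuousAt_iff
      (f := fun p : T × (V × (V →L[ℝ] V)) => (p.1, (p.2 : OnePoint (V × (V →L[ℝ] V)))))
      (g := fun p : T × OnePoint (V × (V →L[ℝ] V)) => (𝒟 p.1).stC (τ p.1) p.2)
      (x := (t₀, w₀))).1 ?_
    have cτ : Continuous fun p : T × (V × (V →L[ℝ] V)) => τ p.1 := hτ.comp continuous_fst
    have ck : Continuous fun p : T × (V × (V →L[ℝ] V)) =>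
        (1 - τ p.1) * (𝒟 p.1).kC (p.2 : OnePoint (V × (V →L[ℝ] V))) + τ p.1 :=
      ((continuous_const.sub cτ).mul (h.ckC.comp (continuous_fst.prodMk
        (OnePoint.continuous_coe.comp continuous_snd)))).add cτ
    have cm : Continuous fun p : T × (V × (V →L[ℝ] V)) => p.2.1 - (1 - τ p.1) • (𝒟 p.1).sw :=
      (continuous_fst.comp continuous_snd).sub
        ((continuous_const.sub cτ).smul (h.csw.comp continuous_fst))
    have cB : Continuous fun p : T × (V × (V →L[ℝ] V)) =>
        Rf ((𝒟 p.1).uw : V) (p.2.2 - (1 - τ p.1) • (𝒟 p.1).Aw) :=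
      Continuous.Rf (h.cuw'.comp continuous_fst) ((continuous_snd.comp continuous_snd).sub
        ((continuous_const.sub cτ).smul (h.cAw.comp continuous_fst)))
    have cp : Continuous fun p : T × (V × (V →L[ℝ] V)) => piP V (𝒟 p.1).uw :=
      (continuous_piP V).comp (h.cuw.comp continuous_fst)
    refine continuousAt_fin3 ck.continuousAt cm.continuousAt cB.continuousAt cp.continuousAt ?_
    by_contra hc
    push Not at hc
    obtain ⟨hc1, hc2, hc3⟩ := hc
    dsimp only at hc1 hc2 hc3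
    have hk0 := (𝒟 t₀).kC_nonneg (w₀ : OnePoint (V × (V →L[ℝ] V)))
    have h4 : 0 ≤ (1 - τ t₀) * (𝒟 t₀).kC (w₀ : OnePoint (V × (V →L[ℝ] V))) :=
      mul_nonneg (by linarith [h1 t₀]) hk0
    have h5 : τ t₀ = 0 := by linarith [h0 t₀]
    rw [h5, sub_zero, one_mul, add_zero] at hc1
    rw [h5, sub_zero, one_smul, sub_eq_zero] at hc2
    rw [h5, sub_zero, one_smul] at hc3
    have h6 := sub_eq_zero.1 (Rf_eq_zero (norm_SV _) hc3)
    have h7 : w₀ = ((𝒟 t₀).sw, (𝒟 t₀).Aw) := Prod.ext hc2 h6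
    rw [h7] at hc1
    exact (𝒟 t₀).kC_ew_pos.ne' hc1
  | infty =>
    refine continuousAt_of_bound rfl fun R => ?_
    have h4 : ∀ᶠ t in 𝓝 t₀, ‖(𝒟 t).sw‖ < ‖(𝒟 t₀).sw‖ + 1 :=
      h.csw.norm.continuousAt.eventually (gt_mem_nhds (by linarith))
    have h5 : ∀ᶠ t in 𝓝 t₀, ‖(𝒟 t).Aw‖ < ‖(𝒟 t₀).Aw‖ + 1 :=
      h.cAw.norm.continuousAt.eventually (gt_mem_nhds (by linarith))
    rw [nhds_prod_eq]
    filter_upwards [(h4.and h5).prod_mk (ev_inftyW (V := V)
      (max (‖(𝒟 t₀).sw‖ + 1 + |R|) (‖(𝒟 t₀).Aw‖ + 1 + 3 * |R|)))] with p hp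
    obtain ⟨⟨hp1, hp2⟩, hp3⟩ := hp
    obtain ⟨t, y⟩ := p
    intro m B q he
    dsimp only at hp1 hp2 he
    induction y using OnePoint.rec with
    | infty => exact absurd he.symm (OnePoint.coe_ne_infty _)
    | coe w =>
      rw [Dat.stC_coe] at he
      set k : ℝ := (1 - τ t) * (𝒟 t).kC (w : OnePoint (V × (V →L[ℝ] V))) + τ t with hk
      have hk0 := (𝒟 t).kC_nonneg (w : OnePoint (V × (V →L[ℝ] V)))
      have hk1 := (𝒟 t).kC_le_one (w : OnePoint (V × (V →L[ℝ] V)))
      have hkn : 0 ≤ k := add_nonneg (mul_nonneg (by linarith [h1 t]) hk0) (h0 t)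
      have hkl : k ≤ 1 := by
        have : (1 - τ t) * (𝒟 t).kC (w : OnePoint (V × (V →L[ℝ] V))) ≤ (1 - τ t) * 1 :=
          mul_le_mul_of_nonneg_left hk1 (by linarith [h1 t])
        linarith
      have hkne : k ≠ 0 := by
        intro h6
        rw [h6, fin3_zero] at he
        exact OnePoint.coe_ne_infty _ he.symm
      have hkp : 0 < k := lt_of_le_of_ne hkn (Ne.symm hkne)
      rw [fin3_of_ne hkne, OnePoint.coe_eq_coe] at he
      obtain ⟨e1, e2⟩ := Prod.mk.inj he
      obtain ⟨e2, -⟩ := Prod.mk.inj e2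
      have hki : 1 ≤ k⁻¹ := (one_le_inv₀ hkp).2 hkl
      have hR := le_abs_self R
      have ht0 := h0 t
      have ht1 := h1 t
      rcases hp3 w rfl with h6 | h6
      · refine lt_max_of_lt_left ?_
        have h7 := (max_lt_iff.1 h6).1
        rw [← e1, norm_smul, norm_inv, Real.norm_of_nonneg hkn]
        have h8 := norm_sub_norm_le w.1 ((1 - τ t) • (𝒟 t).sw)
        have h9 : ‖(1 - τ t) • (𝒟 t).sw‖ ≤ ‖(𝒟 t).sw‖ := by
          rw [norm_smul, Real.norm_of_nonneg (by linarith)]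
          have := norm_nonneg (𝒟 t).sw
          nlinarith
        have h10 : |R| < ‖w.1 - (1 - τ t) • (𝒟 t).sw‖ := by linarith
        have h11 := norm_nonneg (w.1 - (1 - τ t) • (𝒟 t).sw)
        nlinarith
      · refine lt_max_of_lt_right ?_
        have h7 := (max_lt_iff.1 h6).2
        rw [← e2, norm_smul, norm_inv, Real.norm_of_nonneg hkn]
        have h8 := norm_sub_norm_le w.2 ((1 - τ t) • (𝒟 t).Aw)
        have h9 : ‖(1 - τ t) • (𝒟 t).Aw‖ ≤ ‖(𝒟 t).Aw‖ := by
          rw [norm_smul, Real.norm_of_nonneg (by linarith)]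
          have := norm_nonneg (𝒟 t).Aw
          nlinarith
        have h10 : 3 * |R| < ‖w.2 - (1 - τ t) • (𝒟 t).Aw‖ := by linarith
        have h11 := norm_le_Rf (norm_SV (𝒟 t).uw) (w.2 - (1 - τ t) • (𝒟 t).Aw)
        have h12 := norm_nonneg (Rf ((𝒟 t).uw : V) (w.2 - (1 - τ t) • (𝒟 t).Aw))
        nlinarith

end family

/-! ### the whole homotopy -/

/-- clamp to the unit interval -/
noncomputable def cl (x : ℝ) : ℝ := max 0 (min 1 x)

theorem continuous_cl : Continuous cl := by
  unfold cl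
  fun_prop

theorem cl_nonneg (x : ℝ) : 0 ≤ cl x := le_max_left _ _

theorem cl_le_one (x : ℝ) : cl x ≤ 1 := max_le zero_le_one (min_le_left _ _)

theorem cl_of_nonpos {x : ℝ} (h : x ≤ 0) : cl x = 0 := by
  unfold cl
  rw [min_eq_right (by linarith), max_eq_left h]

theorem cl_of_one_le {x : ℝ} (h : 1 ≤ x) : cl x = 1 := by
  unfold cl
  rw [min_eq_left h, max_eq_right zero_le_one]

/-- **the homotopy of the sheet of a pair** -/
noncomputable def Dat.HH (D : Dat V) (t : ℝ) (z : OnePoint (V × (V →L[ℝ] V))) :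
    OnePoint (V × ((V →L[ℝ] V) × PV V)) :=
  if t ≤ 1 / 3 then D.stA (cl (3 * t)) z
  else if t ≤ 2 / 3 then D.stB (cl (3 * t - 1)) z else D.stC (cl (3 * t - 2)) z

theorem Dat.HH_infty (D : Dat V) (t : ℝ) : D.HH t ∞ = ∞ := by
  unfold Dat.HH
  split_ifs
  · exact shD_infty _
  · exact shD_infty _
  · rfl

theorem Dat.HH_swap (D : Dat V) (t : ℝ) (z : OnePoint (V × (V →L[ℝ] V))) :
    D.swap.HH t z = D.HH t z := by
  unfold Dat.HH
  rw [D.stA_swap, D.stB_swap, D.stC_swap]

theorem Dat.HH_zero (D : Dat V) (z : OnePoint (V × (V →L[ℝ] V))) : D.HH 0 z = D.stA 0 z := by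
  unfold Dat.HH
  rw [if_pos (by norm_num), mul_zero, cl_of_nonpos le_rfl]

theorem Dat.HH_one (D : Dat V) (w : V × (V →L[ℝ] V)) :
    D.HH 1 (w : OnePoint (V × (V →L[ℝ] V))) =
      (((w.1, (Rf (D.uw : V) w.2, piP V D.uw)) : V × ((V →L[ℝ] V) × PV V)) :
        OnePoint (V × ((V →L[ℝ] V) × PV V))) := by
  unfold Dat.HH
  rw [if_neg (by norm_num), if_neg (by norm_num), cl_of_one_le (by norm_num), D.stC_one]

theorem Fm.continuous_HH {T : Type*} [TopologicalSpace T] {𝒟 : T → Dat V} (h : Fm 𝒟) {τ : T → ℝ}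
    (hτ : Continuous τ) :
    Continuous fun p : T × OnePoint (V × (V →L[ℝ] V)) => (𝒟 p.1).HH (τ p.1) p.2 := by
  have cτ : Continuous fun p : T × OnePoint (V × (V →L[ℝ] V)) => τ p.1 :=
    hτ.comp continuous_fst
  have h1 := h.continuous_stA (τ := fun t => cl (3 * τ t))
    (continuous_cl.comp (continuous_const.mul hτ)) (fun _ => cl_nonneg _) fun _ => cl_le_one _
  have h2 := h.continuous_stB (τ := fun t => cl (3 * τ t - 1))
    (continuous_cl.comp ((continuous_const.mul hτ).sub continuous_const))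
    (fun _ => cl_nonneg _) fun _ => cl_le_one _
  have h3 := h.continuous_stC (τ := fun t => cl (3 * τ t - 2))
    (continuous_cl.comp ((continuous_const.mul hτ).sub continuous_const))
    (fun _ => cl_nonneg _) fun _ => cl_le_one _
  unfold Dat.HH
  refine Continuous.if_le h1 (Continuous.if_le h2 h3 cτ continuous_const ?_) cτ
    continuous_const ?_
  · intro p hp
    rw [hp, cl_of_one_le (by norm_num), cl_of_nonpos (by norm_num)]
    exact (𝒟 p.1).stB_one p.2
  · intro p hp
    rw [hp, if_pos (by norm_num), cl_of_one_le (by norm_num), cl_of_nonpos (by norm_num),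
      (𝒟 p.1).stA_one]

/-- the homotopy in all variables -/
theorem Fm.continuous_HH' {T : Type*} [TopologicalSpace T] {𝒟 : T → Dat V} (h : Fm 𝒟)
    {X : Type*} [TopologicalSpace X] {t : X → T} {τ : X → ℝ}
    {z : X → OnePoint (V × (V →L[ℝ] V))} (ht : Continuous t) (hτ : Continuous τ)
    (hz : Continuous z) : Continuous fun x => (𝒟 (t x)).HH (τ x) (z x) := by
  have h1 : Fm fun p : X => 𝒟 (t p) := h.comp ht
  exact (h1.continuous_HH hτ).comp (continuous_id.prodMk hz)

/-! ### comparison with the sheets of the literal `J` -/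

theorem Dat.chA_zero (D : Dat V) (e : XC V) : D.chA 0 e =
    if e.2.1 ≤ 0 then finP (LC.of V) e.2.2
      (hs (D.f ((xa e : V) : OnePoint V)) (D.g ((xb e : V) : OnePoint V))) else ∞ := by
  have h1 : D.kA 0 e = D.KK e := by
    unfold Dat.kA
    rw [zero_mul, add_zero, sub_zero, mul_one]
  have h2 : D.al 0 e = D.kp e • D.a e := by
    unfold Dat.al
    rw [sub_zero, one_mul, zero_smul, add_zero]
  have h3 : D.be 0 e = D.kp e • D.b e := by
    unfold Dat.be
    rw [sub_zero, one_mul, zero_smul, add_zero]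
  have h4 : D.nn 0 e = D.kp e • e.2.2.1.2 := by
    unfold Dat.nn
    rw [sub_zero, one_mul, add_zero]
  unfold Dat.chA
  rw [h1, h2, h3, h4]
  unfold Dat.KK
  split_ifs with hr
  · by_cases hk : D.kp e = 0
    · rw [hk, fin3_zero]
      have h5 : D.f ((xa e : V) : OnePoint V) = ∞ ∨ D.g ((xb e : V) : OnePoint V) = ∞ := by
        by_contra hc
        push Not at hc
        exact D.kp_ne.2 hc hk
      rcases h5 with h5 | h5
      · rw [h5, hs_infty_left]; rfl
      · rw [h5, hs_infty_right]; rfl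
    · obtain ⟨hf, hg⟩ := D.kp_ne.1 hk
      have ea : D.f ((xa e : V) : OnePoint V) = ((D.a e : V) : OnePoint V) := (coe_vf hf).symm
      have eb : D.g ((xb e : V) : OnePoint V) = ((D.b e : V) : OnePoint V) := (coe_vf hg).symm
      rw [fin3_of_ne hk, ea, eb, hs_coe]
      have e1 : (D.kp e)⁻¹ • (2 : ℝ)⁻¹ • (D.kp e • D.a e + D.kp e • D.b e) =
          (2 : ℝ)⁻¹ • (D.a e + D.b e) := by
        rw [← smul_add, smul_comm (2 : ℝ)⁻¹, smul_smul, inv_mul_cancel₀ hk, one_smul]
      have e2 : (D.kp e)⁻¹ • (ten ((2 : ℝ)⁻¹ • (D.kp e • D.a e - D.kp e • D.b e))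
          (e.2.2.1.1 : V) + D.kp e • e.2.2.1.2) =
          ten ((2 : ℝ)⁻¹ • (D.a e - D.b e)) (e.2.2.1.1 : V) + e.2.2.1.2 := by
        rw [← smul_sub, smul_comm (2 : ℝ)⁻¹, ten_smul, ← smul_add, smul_smul,
          inv_mul_cancel₀ hk, one_smul]
      rw [e1, e2]
      rfl
  · rw [fin3_zero]

/-- **time zero is the sheet of the pair in the literal `J`** -/
theorem Dat.stA_zero {ι : Type*} [DecidableEq ι] (D : Dat V) {φ : ι → OnePoint V → OnePoint V}
    {i j : ι} (hij : i ≠ j) (hf : D.f = φ i) (hg : D.g = φ j)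
    (z : OnePoint (V × (V →L[ℝ] V))) :
    D.stA 0 z = jT (Z := LC.of V) (dK φ {i, j}) z := by
  have hd : Disj ((({i, j} : Finset ι)) : Set ι) φ := by
    intro a ha b hb hab v
    rw [Finset.coe_insert, Finset.coe_singleton] at ha hb
    have h1 := D.disj v
    rw [hf, hg] at h1
    rcases ha with rfl | ha
    · rcases hb with rfl | hb
      · exact absurd rfl hab
      · rw [Set.mem_singleton_iff.1 hb]; exact h1
    · rw [Set.mem_singleton_iff.1 ha]
      rcases hb with rfl | hb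
      · exact h1.symm
      · rw [Set.mem_singleton_iff.1 ha, Set.mem_singleton_iff.1 hb] at hab
        exact absurd rfl hab
  have hE : EquiF (Z := LC.of V) (dK φ {i, j}) := equiF_dK hd
  induction z using OnePoint.rec with
  | infty => exact shD_infty _
  | coe w =>
    by_cases hz : ∃ e : XC V, qc e = w
    · obtain ⟨e, rfl⟩ := hz
      have h1 : jT (Z := LC.of V) (dK φ {i, j}) ((qc e : V × (V →L[ℝ] V)) :
          OnePoint (V × (V →L[ℝ] V))) = finP (LC.of V) e.2.2 (dK φ {i, j} e.1 e.2.1 e.2.2.1.1) :=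
        jT_coe (Z := LC.of V) hE e.1 e.2
      unfold Dat.stA
      rw [shD_qc (D.chA_disj 0), h1]
      rcases lt_or_ge 0 e.2.1 with hr | hr
      · -- outside
        have e1 : D.chA 0 e = ∞ := by rw [D.chA_zero, if_neg (not_le.2 hr)]
        have e2 : D.chA 0 (io e) = ∞ := by
          rw [D.chA_zero, if_neg]
          exact not_le.2 hr
        rw [jc_of_eq e1, e2]
        have e3 : dK φ {i, j} e.1 e.2.1 e.2.2.1.1 = ∞ := by
          by_contra hc
          obtain ⟨k, hk, -⟩ := dK_ne_infty_of_pos hr hc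
          have hi : i ∈ ({k} : Finset ι) := by rw [hk]; simp
          have hj : j ∈ ({k} : Finset ι) := by rw [hk]; simp
          rw [Finset.mem_singleton] at hi hj
          exact hij (hi.trans hj.symm)
        rw [e3]
        rfl
      · have e1 : D.chA 0 e = finP (LC.of V) e.2.2
            (hs (φ i ((xa e : V) : OnePoint V)) (φ j ((xb e : V) : OnePoint V))) := by
          rw [D.chA_zero, if_pos hr, hf, hg]
        have e2 : D.chA 0 (io e) = finP (LC.of V) e.2.2
            (hs (φ j ((xa e : V) : OnePoint V)) (φ i ((xb e : V) : OnePoint V))) := by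
          rw [D.chA_zero, if_pos (by exact hr), hf, hg, xa_io, xb_io,
            hs_swap (φ j ((xa e : V) : OnePoint V)) (φ i ((xb e : V) : OnePoint V))]
          exact finP_neg (Z := LC.of V) e.2.2 _
        by_cases h2 : D.chA 0 e = ∞
        · rw [jc_of_eq h2, e2]
          by_cases h3 : hs (φ j ((xa e : V) : OnePoint V)) (φ i ((xb e : V) : OnePoint V)) = ∞
          · have e3 : dK φ {i, j} e.1 e.2.1 e.2.2.1.1 = ∞ := by
              by_contra hc
              obtain ⟨a, b, hab, ha, hb⟩ := dK_ne_infty_of_nonpos hr hc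
              have hne : hs (φ a ((xa e : V) : OnePoint V)) (φ b ((xb e : V) : OnePoint V)) ≠
                  ∞ := by
                obtain ⟨a', ha'⟩ := OnePoint.ne_infty_iff_exists.1 ha
                obtain ⟨b', hb'⟩ := OnePoint.ne_infty_iff_exists.1 hb
                change φ a ((xa e : V) : OnePoint V) ≠ ∞ at ha
                unfold xa xb
                rw [← ha', ← hb']
                exact OnePoint.coe_ne_infty _
              have ha2 : a = i ∨ a = j := by
                have : a ∈ ({i, j} : Finset ι) := by rw [← hab]; simp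
                simpa using this
              have hb2 : b = i ∨ b = j := by
                have : b ∈ ({i, j} : Finset ι) := by rw [← hab]; simp
                simpa using this
              rcases ha2 with rfl | rfl
              · rcases hb2 with rfl | rfl
                · have h7 : j ∈ ({b, b} : Finset ι) := by rw [hab]; simp
                  rw [Finset.mem_insert, Finset.mem_singleton, or_self] at h7
                  exact hij h7.symm
                · rw [e1] at h2
                  exact hne (finP_eq_infty.1 h2)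
              · rcases hb2 with rfl | rfl
                · exact hne h3
                · have h7 : i ∈ ({b, b} : Finset ι) := by rw [hab]; simp
                  rw [Finset.mem_insert, Finset.mem_singleton, or_self] at h7
                  exact hij h7
            rw [h3, e3]
          · obtain ⟨h4, h5⟩ := hs_ne_infty h3
            rw [dK_of_pair hd e.1 hr e.2.2.1.1 (i := j) (j := i) (Finset.pair_comm j i) h4 h5]
            rfl
        · rw [jc_of_ne h2, e1]
          have h3 : hs (φ i ((xa e : V) : OnePoint V)) (φ j ((xb e : V) : OnePoint V)) ≠ ∞ := by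
            intro h3
            rw [e1, h3] at h2
            exact h2 rfl
          obtain ⟨h4, h5⟩ := hs_ne_infty h3
          rw [dK_of_pair hd e.1 hr e.2.2.1.1 (i := i) (j := j) rfl h4 h5]
          rfl
    · push Not at hz
      have h1 : ∀ e : XC V, ((qc e : V × (V →L[ℝ] V)) : OnePoint (V × (V →L[ℝ] V))) ≠
          ((w : V × (V →L[ℝ] V)) : OnePoint (V × (V →L[ℝ] V))) := by
        intro e he
        exact hz e (OnePoint.coe_injective he)
      unfold Dat.stA
      rw [shD_of_notMem _ h1]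
      symm
      obtain ⟨s, B⟩ := w
      refine jT_of_notMem (Z := LC.of V) _ s ?_
      intro p hp
      refine hz (s, p) ?_
      rw [← hp]
      rfl

/-- **time zero is the sheet of the pair in the literal `J`** -/
theorem Dat.HH_zero_eq {ι : Type*} [DecidableEq ι] (D : Dat V)
    {φ : ι → OnePoint V → OnePoint V} {i j : ι} (hij : i ≠ j) (hf : D.f = φ i) (hg : D.g = φ j)
    (z : OnePoint (V × (V →L[ℝ] V))) :
    D.HH 0 z = jT (Z := LC.of V) (dK φ {i, j}) z := by
  rw [D.HH_zero, D.stA_zero hij hf hg]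

end Vale.Agent.P263.KJ.Sht
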