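import Vale.Agent.P263.KJ.SheetZero
import Vale.Agent.P263.KJ.PairInst

/-!
# P263, block KJ: concatenation of the stages of the homotopy of the sheet

* `Stage V` : a natural symmetric homotopy over the data of pairs; `Stage.trans`, `trans_zero`,
  `trans_one`; `stageA` : stage A;
* `SheetHt.of` : the homotopy of the sheet from a `Stage` with the right ends.
-/

open Filter Topology OnePoint
open Vale.Agent.P251.G Vale.Agent.P251.G.LC

namespace Vale.Agent.P263.KJ

set_option linter.unusedSectionVars false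

open Sht

variable {V : Type} [NormedAddCommGroup V] [InnerProductSpace ℝ V] [FiniteDimensional ℝ V]

variable (V) in
/-- A natural symmetric homotopy over the data of pairs. -/
structure Stage where
  /-- the homotopy -/
  S : Dat V → ℝ → OnePoint (V × (V →L[ℝ] V)) → OnePoint (V × ((V →L[ℝ] V) × PV V))
  inf : ∀ (D : Dat V) (τ : ℝ), S D τ ∞ = ∞
  swap : ∀ (D : Dat V) (τ : ℝ), S D.swap τ = S D τ
  cont : ∀ {T : Type} [TopologicalSpace T] {𝒟 : T → Dat V} {τ : T → ℝ}, Fm 𝒟 → Continuous τ →
    (∀ t, 0 ≤ τ t) → (∀ t, τ t ≤ 1) →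
    Continuous fun p : T × OnePoint (V × (V →L[ℝ] V)) => S (𝒟 p.1) (τ p.1) p.2

/-- the restriction to the unit interval -/
noncomputable def clm (t : ℝ) : ℝ := max 0 (min 1 t)

theorem clm_nonneg (t : ℝ) : 0 ≤ clm t := le_max_left _ _

theorem clm_le_one (t : ℝ) : clm t ≤ 1 := max_le zero_le_one (min_le_left _ _)

theorem continuous_clm : Continuous clm := by unfold clm; fun_prop

theorem clm_of_le {t : ℝ} (h : t ≤ 0) : clm t = 0 := by
  unfold clm
  rw [min_eq_right (by linarith), max_eq_left h]

theorem clm_of_ge {t : ℝ} (h : 1 ≤ t) : clm t = 1 := by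
  unfold clm
  rw [min_eq_left h, max_eq_right zero_le_one]

namespace Stage

/-- joint continuity with the time -/
theorem cont' (A : Stage V) {T : Type} [TopologicalSpace T] {𝒟 : T → Dat V} (h : Fm 𝒟)
    {Y : Type} [TopologicalSpace Y] {a : Y → T} (ha : Continuous a) {τ : Y → ℝ}
    (hτ : Continuous τ) (h0 : ∀ y, 0 ≤ τ y) (h1 : ∀ y, τ y ≤ 1)
    {z : Y → OnePoint (V × (V →L[ℝ] V))} (hz : Continuous z) :
    Continuous fun y => A.S (𝒟 (a y)) (τ y) (z y) :=
  (A.cont (T := Y) (𝒟 := fun y => 𝒟 (a y)) (τ := τ) (h.comp ha) hτ h0 h1).comp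
    (continuous_id.prodMk hz)

open scoped Classical in
/-- **concatenation** -/
noncomputable def trans (A B : Stage V) (h : ∀ D, A.S D 1 = B.S D 0) : Stage V where
  S D τ z := if τ ≤ 1 / 2 then A.S D (clm (2 * τ)) z else B.S D (clm (2 * τ - 1)) z
  inf D τ := by
    split_ifs
    · exact A.inf D _
    · exact B.inf D _
  swap D τ := by
    funext z
    rw [A.swap, B.swap]
  cont {T} _ {𝒟 τ} hD hτ h0 h1 := by
    refine Continuous.if_le (f := fun p : T × OnePoint (V × (V →L[ℝ] V)) => τ p.1)
      (g := fun _ => (1 / 2 : ℝ)) ?_ ?_ (hτ.comp continuous_fst) continuous_const ?_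
    · exact A.cont' hD continuous_fst (continuous_clm.comp
        (continuous_const.mul (hτ.comp continuous_fst))) (fun _ => clm_nonneg _)
        (fun _ => clm_le_one _) continuous_snd
    · exact B.cont' hD continuous_fst (continuous_clm.comp
        ((continuous_const.mul (hτ.comp continuous_fst)).sub continuous_const))
        (fun _ => clm_nonneg _) (fun _ => clm_le_one _) continuous_snd
    · intro p hp
      have e1 : clm (2 * τ p.1) = 1 := clm_of_ge (by rw [hp]; norm_num)
      have e2 : clm (2 * τ p.1 - 1) = 0 := clm_of_le (by rw [hp]; norm_num)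
      rw [e1, e2, h]

theorem trans_zero (A B : Stage V) (h : ∀ D, A.S D 1 = B.S D 0) (D : Dat V) :
    (A.trans B h).S D 0 = A.S D 0 := by
  funext z
  show (if (0 : ℝ) ≤ 1 / 2 then A.S D (clm (2 * 0)) z else B.S D (clm (2 * 0 - 1)) z) = _
  rw [if_pos (by norm_num), mul_zero, clm_of_le le_rfl]

theorem trans_one (A B : Stage V) (h : ∀ D, A.S D 1 = B.S D 0) (D : Dat V) :
    (A.trans B h).S D 1 = B.S D 1 := by
  funext z
  show (if (1 : ℝ) ≤ 1 / 2 then A.S D (clm (2 * 1)) z else B.S D (clm (2 * 1 - 1)) z) = _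
  rw [if_neg (by norm_num), clm_of_ge (by norm_num)]

end Stage

/-- stage A -/
noncomputable def stageA : Stage V where
  S D τ := D.stA τ
  inf _ _ := shD_infty _
  swap D τ := D.stA_swap τ
  cont h hτ h0 h1 := h.continuous_stA hτ h0 h1

theorem stageA_zero (D : Dat V) : stageA.S D 0 = jT (Z := LC.of V) (dP D.f D.g) :=
  funext D.stA_zero_jT

/-- **The homotopy of the sheet from a concatenated stage.** -/
noncomputable def SheetHt.of (A : Stage V)
    (h0 : ∀ D : Dat V, A.S D 0 = jT (Z := LC.of V) (dP D.f D.g))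
    (h1 : ∀ (D : Dat V) (z : OnePoint (V × (V →L[ℝ] V))),
      A.S D 1 z = OnePoint.map tauH (at3 z D.dirP)) : SheetHt V where
  HH D t := A.S D t
  inf D t := A.inf D t
  swap D := funext fun t => A.swap D t
  cont h := A.cont' h continuous_fst
    (continuous_subtype_val.comp (continuous_snd.comp continuous_snd)) (fun y => y.2.2.2.1)
    (fun y => y.2.2.2.2) (continuous_fst.comp continuous_snd)
  zero D z := congrFun (h0 D) z
  one D z := h1 D z

end Vale.Agent.P263.KJ
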