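import Vale.Agent.P263.KJ.JMX
import Vale.Agent.P263.TJ.SqMu
import Vale.Agent.P263.KJ.PairCov

/-!
# P263, block KJ: the system of sheets given by a homotopy of the sheets of the pairs of boxes

* `PairHt ℓ ell` : a natural homotopy of the sheets `{a, b}` (two boxes), symmetric in `a`, `b`, from
  the sheet of `J` to `tauH (z, [ell])`;
* `PairHt.shts` : the system of sheets: the homotopy on the pairs of boxes, constant on all other
  labels; `PairHt.start`, `PairHt.shts_pair`, `PairHt.shts_one`;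
* `tauH` : the self-homeomorphism `(s, A, p) ↦ (s, A - 2 p A p, p)` of `V × W × P`, `tauK e` : the
  same in coordinates; `PairHt.SMap_one` : the sheet of a pair at time one is
  `tauK e ∘ smP (z, ell)`.
-/

open Filter Topology OnePoint
open Vale.Agent.P251.G Vale.Agent.P251.G.LC
open Vale.Agent.P263.S Vale.Agent.P263.E Vale.Agent.P263.TJ
open Vale.Agent.P263.G2 (ofC toC dmap Bx FNr OFr Conf OConf)

namespace Vale.Agent.P263.KJ

set_option linter.unusedSectionVars false

/-! ### the twist -/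

section twist

variable {V : Type} [NormedAddCommGroup V] [InnerProductSpace ℝ V] [FiniteDimensional ℝ V]

theorem pv_sq (p : PV V) (x : V) : p.1 (p.1 x) = p.1 x := by
  obtain ⟨u, hu, hp⟩ := p.2
  rw [hp]
  have h1 : ∀ x, ten u u x = inner ℝ u x • u := fun x => by simp [ten_apply]
  rw [h1, h1, inner_smul_right, real_inner_self_eq_norm_sq, hu]
  simp

/-- `A ↦ A - 2 p A p` -/
noncomputable def tw (p : PV V) (A : V →L[ℝ] V) : V →L[ℝ] V := A - (2 : ℝ) • (p.1 ∘L A ∘L p.1)

theorem tw_tw (p : PV V) (A : V →L[ℝ] V) : tw p (tw p A) = A := by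
  ext x
  simp only [tw, sub_apply, smul_apply,
    ContinuousLinearMap.comp_apply, map_sub, _root_.map_smul, pv_sq]
  module

theorem continuous_tw : Continuous fun z : PV V × (V →L[ℝ] V) => tw z.1 z.2 := by
  unfold tw
  have h : Continuous fun z : PV V × (V →L[ℝ] V) => z.1.1 ∘L z.2 ∘L z.1.1 :=
    (continuous_subtype_val.comp continuous_fst).clm_comp
      (continuous_snd.clm_comp (continuous_subtype_val.comp continuous_fst))
  exact continuous_snd.sub (h.const_smul (2 : ℝ))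

/-- **the twist** `(s, A, p) ↦ (s, A - 2 p A p, p)` -/
noncomputable def tauH : V × ((V →L[ℝ] V) × PV V) ≃ₜ V × ((V →L[ℝ] V) × PV V) where
  toFun y := (y.1, (tw y.2.2 y.2.1, y.2.2))
  invFun y := (y.1, (tw y.2.2 y.2.1, y.2.2))
  left_inv y := by simp only [tw_tw]
  right_inv y := by simp only [tw_tw]
  continuous_toFun := continuous_fst.prodMk
    ((continuous_tw.comp ((continuous_snd.comp continuous_snd).prodMk
      (continuous_fst.comp continuous_snd))).prodMk (continuous_snd.comp continuous_snd))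
  continuous_invFun := continuous_fst.prodMk
    ((continuous_tw.comp ((continuous_snd.comp continuous_snd).prodMk
      (continuous_fst.comp continuous_snd))).prodMk (continuous_snd.comp continuous_snd))

theorem tauH_apply (s : V) (A : V →L[ℝ] V) (p : PV V) : tauH (s, (A, p)) = (s, (tw p A, p)) := rfl

/-- the point `(z, p)` -/
noncomputable def at3 (z : OnePoint (V × (V →L[ℝ] V))) (p : PV V) :
    OnePoint (V × ((V →L[ℝ] V) × PV V)) :=
  z.elim ∞ fun z => (((z.1, (z.2, p)) : V × ((V →L[ℝ] V) × PV V)) :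
    OnePoint (V × ((V →L[ℝ] V) × PV V)))

@[simp] theorem at3_infty (p : PV V) : at3 (∞ : OnePoint (V × (V →L[ℝ] V))) p = ∞ := rfl

theorem at3_coe (s : V) (A : V →L[ℝ] V) (p : PV V) :
    at3 (((s, A) : V × (V →L[ℝ] V)) : OnePoint (V × (V →L[ℝ] V))) p =
      ((s, (A, p)) : V × ((V →L[ℝ] V) × PV V)) := rfl

end twist

/-! ### the labels which are pairs of boxes -/

section pairs

variable {n p q : ℕ}

theorem isP2_iff {K : (L2 n).obj p} :
    IsP2 K ↔ ∃ a b : C(G2.Dl p, Bx), a ≠ b ∧ ∀ x, x ∈ K.1 ↔ x = Option.some a ∨ x = Option.some b := by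
  classical
  constructor
  · rintro ⟨h1, h2⟩
    have h3 : K.1.card = 2 := by
      rw [← bsS_cfg h1, card_bsS, h2]
    obtain ⟨x, y, hxy, hK⟩ := Finset.card_eq_two.1 h3
    have hx : x ∈ K.1 := by rw [hK]; simp
    have hy : y ∈ K.1 := by rw [hK]; simp
    cases x with
    | none => exact absurd hx h1
    | some a =>
      cases y with
      | none => exact absurd hy h1
      | some b =>
        refine ⟨a, b, fun h => hxy (by rw [h]), fun z => ?_⟩
        rw [hK]
        simp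
  · rintro ⟨a, b, hab, hK⟩
    have h1 : ¬ HasR K := by
      intro h
      rcases (hK none).1 h with h | h <;> exact absurd h (by simp)
    refine ⟨h1, ?_⟩
    have h3 : K.1 = {Option.some a, Option.some b} := by
      ext z
      rw [hK]
      simp
    have h4 : K.1.card = 2 := by
      rw [h3]
      exact Finset.card_pair (fun h => hab (Option.some_injective _ h))
    rw [← bsS_cfg h1, card_bsS] at h4
    exact h4

/-- the members of a pair of boxes -/
theorem pair_unique {a b a' b' : C(G2.Dl p, Bx)} {K : (L2 n).obj p} (hab : a ≠ b)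
    (h : ∀ x, x ∈ K.1 ↔ x = Option.some a ∨ x = Option.some b)
    (hab' : a' ≠ b') (h' : ∀ x, x ∈ K.1 ↔ x = Option.some a' ∨ x = Option.some b') :
    (a' = a ∧ b' = b) ∨ (a' = b ∧ b' = a) := by
  have h1 : Option.some a' = Option.some a ∨ Option.some a' = Option.some b :=
    (h _).1 ((h' _).2 (Or.inl rfl))
  have h2 : Option.some b' = Option.some a ∨ Option.some b' = Option.some b :=
    (h _).1 ((h' _).2 (Or.inr rfl))
  simp only [Option.some.injEq] at h1 h2
  rcases h1 with h1 | h1 <;> rcases h2 with h2 | h2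
  · exact absurd (h1.trans h2.symm) hab'
  · exact Or.inl ⟨h1, h2⟩
  · exact Or.inr ⟨h1, h2⟩
  · exact absurd (h1.trans h2.symm) hab'

/-- two disjoint families of boxes of stage `n` -/
structure Pr (n : ℕ) {p : ℕ} (a b : C(G2.Dl p, Bx)) : Prop where
  sta : ∀ t, Bx.St n (a t)
  stb : ∀ t, Bx.St n (b t)
  dis : ∀ t, Bx.Disj (a t) (b t)

theorem Pr.symm {a b : C(G2.Dl p, Bx)} (h : Pr n a b) : Pr n b a :=
  ⟨h.stb, h.sta, fun t => (h.dis t).symm⟩

theorem Pr.comp {a b : C(G2.Dl q, Bx)} (h : Pr n a b) (f : C(G2.Dl p, G2.Dl q)) :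
    Pr n (a.comp f) (b.comp f) := ⟨fun t => h.sta _, fun t => h.stb _, fun t => h.dis _⟩

theorem Pr.ne {a b : C(G2.Dl p, Bx)} (h : Pr n a b) : a ≠ b := by
  obtain ⟨t⟩ : Nonempty (G2.Dl p) := ⟨T0.Small.vx p 0⟩
  intro hab
  rw [hab] at h
  exact (h.dis t).ne rfl

theorem Pr.of_mem {K : (L2 n).obj p} {a b : C(G2.Dl p, Bx)} (hab : a ≠ b)
    (h : ∀ x, x ∈ K.1 ↔ x = Option.some a ∨ x = Option.some b) : Pr n a b where
  sta := K.2.st a ((h _).2 (Or.inl rfl))
  stb := K.2.st b ((h _).2 (Or.inr rfl))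
  dis := K.2.dis _ ((h _).2 (Or.inl rfl)) _ ((h _).2 (Or.inr rfl))
    (fun h => hab (Option.some_injective _ h))

/-- the pair as a label -/
noncomputable def prL {a b : C(G2.Dl p, Bx)} (h : Pr n a b) : (L2 n).obj p := by
  classical
  exact ⟨{Option.some a, Option.some b}, by
    refine ⟨Or.inr (Finset.card_pair fun h' => h.ne (Option.some_injective _ h')), ?_, ?_⟩
    · intro x hx y hy hxy
      simp only [Finset.mem_insert, Finset.mem_singleton] at hx hy
      rcases hx with rfl | rfl <;> rcases hy with rfl | rfl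
      · exact absurd rfl hxy
      · exact h.dis
      · exact h.symm.dis
      · exact absurd rfl hxy
    · intro c hc
      simp only [Finset.mem_insert, Finset.mem_singleton, Option.some.injEq] at hc
      rcases hc with rfl | rfl
      · exact h.sta
      · exact h.stb⟩

theorem mem_prL {a b : C(G2.Dl p, Bx)} (h : Pr n a b) (x : OB p) :
    x ∈ (prL h).1 ↔ x = Option.some a ∨ x = Option.some b := by
  classical
  show x ∈ ({Option.some a, Option.some b} : Finset (OB p)) ↔ _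
  rw [Finset.mem_insert, Finset.mem_singleton]

theorem prL_unique {K : (L2 n).obj p} {a b : C(G2.Dl p, Bx)} (h : Pr n a b)
    (hK : ∀ x, x ∈ K.1 ↔ x = Option.some a ∨ x = Option.some b) : K = prL h := by
  apply Subtype.ext
  ext x
  rw [hK, mem_prL]

/-- the ordered pair -/
def ordC {a b : C(G2.Dl p, Bx)} (h : Pr n a b) : (OFr n (Fin 2)).obj p :=
  ⟨{ box := ![a, b]
     stage := ⟨n, fun j => by
      fin_cases j
      · exact h.sta
      · exact h.stb⟩
     disj := fun j j' hj => by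
      fin_cases j <;> fin_cases j'
      · exact absurd rfl hj
      · exact h.dis
      · exact h.symm.dis
      · exact absurd rfl hj }, fun j => by
      fin_cases j
      · exact h.sta
      · exact h.stb⟩

theorem ordC_zero {a b : C(G2.Dl p, Bx)} (h : Pr n a b) : (ordC h).1.box 0 = a := rfl

theorem ordC_one {a b : C(G2.Dl p, Bx)} (h : Pr n a b) : (ordC h).1.box 1 = b := rfl

/-- the pair as a configuration -/
noncomputable def pairC {a b : C(G2.Dl p, Bx)} (h : Pr n a b) : (FNr n 2 Unit).obj p :=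
  (d2 n).pr.app (ordC h)

theorem mem_pairC {a b : C(G2.Dl p, Bx)} (h : Pr n a b) (x : C(G2.Dl p, Bx) × Unit) :
    x ∈ (pairC h).1.pts ↔ x.1 = a ∨ x.1 = b := by
  show x ∈ (OConf.toConf (fun _ => ()) (ordC h).1).pts ↔ _
  rw [OConf.mem_toConf]
  constructor
  · rintro ⟨j, rfl⟩
    fin_cases j
    · exact Or.inl rfl
    · exact Or.inr rfl
  · rintro (h1 | h1)
    · exact ⟨0, Prod.ext h1.symm rfl⟩
    · exact ⟨1, Prod.ext h1.symm rfl⟩

theorem pairL_pairC {a b : C(G2.Dl p, Bx)} (h : Pr n a b) : (pairL n).app (pairC h) = prL h := by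
  refine prL_unique h fun x => ?_
  show x ∈ bsS (pairC h).1 ↔ _
  cases x with
  | none =>
    constructor
    · intro h'
      exact absurd h' (none_notMem_bsS _)
    · rintro (h' | h') <;> cases h'
  | some x =>
    rw [some_mem_bsS, mem_pairC]
    simp only [Option.some.injEq]

theorem exists_pairC (S : (FNr n 2 Unit).obj p) :
    ∃ (a b : C(G2.Dl p, Bx)) (h : Pr n a b), S = pairC h := by
  obtain ⟨c, rfl⟩ := (d2 n).surj S
  have h : Pr n (c.1.box 0) (c.1.box 1) := ⟨c.2 0, c.2 1, c.1.disj 0 1 (by decide)⟩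
  refine ⟨_, _, h, ?_⟩
  have h1 : ordC h = c := by
    apply Subtype.ext
    apply OConf.ext
    intro j
    fin_cases j
    · rfl
    · rfl
  rw [pairC, h1]

end pairs

/-! ### the system of sheets -/

/-- **A natural homotopy of the sheets of the pairs of boxes**, from `J` to the twisted direction. -/
structure PairHt {n : ℕ} (ℓ : Loops n) where
  /-- the homotopy -/
  H : ∀ {p : ℕ} {a b : C(G2.Dl p, Bx)}, Pr n a b →
    C(G2.Dl p × (OnePoint (VE n × WE n) × unitInterval), OnePoint (VE n × (WE n × PV (VE n))))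
  /-- the direction -/
  ell : SS.Map (FNr n 2 Unit) (G2.sing (PV (VE n)))
  symm : ∀ {p : ℕ} {a b : C(G2.Dl p, Bx)} (h : Pr n a b), H h.symm = H h
  pull : ∀ {p q : ℕ} (f : C(G2.Dl p, G2.Dl q)) {a b : C(G2.Dl q, Bx)} (h : Pr n a b)
    (t : G2.Dl p) (z : OnePoint (VE n × WE n) × unitInterval), H (h.comp f) (t, z) = H h (f t, z)
  infty : ∀ {p : ℕ} {a b : C(G2.Dl p, Bx)} (h : Pr n a b) (t : G2.Dl p) (χ : unitInterval),
    H h (t, (∞, χ)) = ∞
  zero : ∀ {p : ℕ} {a b : C(G2.Dl p, Bx)} (h : Pr n a b) (t : G2.Dl p)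
    (z : OnePoint (VE n × WE n)), H h (t, (z, 0)) = ℓ.sheet (prL h) t z
  one : ∀ {p : ℕ} {a b : C(G2.Dl p, Bx)} (h : Pr n a b) (t : G2.Dl p)
    (z : OnePoint (VE n × WE n)), H h (t, (z, 1)) =
      OnePoint.map tauH (at3 z (toC (ell.app (pairC h)) t))

namespace PairHt

variable {n : ℕ} {ℓ : Loops n} (𝓗 : PairHt ℓ)

open Classical in
/-- the homotopy of a sheet -/
noncomputable def v {p : ℕ} (K : (L2 n).obj p) :
    C(G2.Dl p × (OnePoint (VE n × WE n) × unitInterval), OnePoint (VE n × (WE n × PV (VE n)))) :=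
  if h : ∃ a b : C(G2.Dl p, Bx), a ≠ b ∧ ∀ x, x ∈ K.1 ↔ x = Option.some a ∨ x = Option.some b then
    𝓗.H (Pr.of_mem h.choose_spec.choose_spec.1 h.choose_spec.choose_spec.2)
  else ℓ.shts.v K

theorem v_eq {p : ℕ} {K : (L2 n).obj p} {a b : C(G2.Dl p, Bx)} (h : Pr n a b)
    (hK : ∀ x, x ∈ K.1 ↔ x = Option.some a ∨ x = Option.some b) : 𝓗.v K = 𝓗.H h := by
  have h0 : ∃ a b : C(G2.Dl p, Bx), a ≠ b ∧ ∀ x, x ∈ K.1 ↔ x = Option.some a ∨ x = Option.some b :=
    ⟨a, b, h.ne, hK⟩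
  have h1 : 𝓗.v K = 𝓗.H (Pr.of_mem h0.choose_spec.choose_spec.1 h0.choose_spec.choose_spec.2) :=
    dif_pos h0
  rw [h1]
  have hs := h0.choose_spec.choose_spec
  generalize hp : Pr.of_mem h0.choose_spec.choose_spec.1 h0.choose_spec.choose_spec.2 = pr
  clear hp
  generalize h0.choose_spec.choose = b' at hs pr
  generalize h0.choose = a' at hs pr
  rcases pair_unique h.ne hK hs.1 hs.2 with ⟨rfl, rfl⟩ | ⟨rfl, rfl⟩
  · rfl
  · exact 𝓗.symm h

theorem v_eq_of_not {p : ℕ} {K : (L2 n).obj p} (h : ¬ IsP2 K) : 𝓗.v K = ℓ.shts.v K :=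
  dif_neg fun h' => h (isP2_iff.2 h')

/-- **The system of sheets.** -/
noncomputable def shts : Shts (lab2 n).L (VE n × WE n) (VE n × (WE n × PV (VE n))) where
  v {p} K := 𝓗.v (p := p) K
  v_pull {p q} f K t z := by
    show 𝓗.v ((L2 n).pull f K) (t, z) = 𝓗.v (p := q) K (f t, z)
    by_cases h : IsP2 (r := n) (p := q) K
    · obtain ⟨a, b, hab, hK⟩ := isP2_iff.1 h
      have hp : Pr n a b := Pr.of_mem hab hK
      rw [𝓗.v_eq hp hK, 𝓗.v_eq (hp.comp f) ?_]
      · exact 𝓗.pull f hp t z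
      · intro x
        refine (mem_pF).trans ?_
        constructor
        · rintro ⟨y, hy, rfl⟩
          rcases (hK y).1 hy with rfl | rfl
          · exact Or.inl rfl
          · exact Or.inr rfl
        · rintro (rfl | rfl)
          · exact ⟨_, (hK _).2 (Or.inl rfl), rfl⟩
          · exact ⟨_, (hK _).2 (Or.inr rfl), rfl⟩
    · rw [𝓗.v_eq_of_not h, 𝓗.v_eq_of_not fun h' => h ((isP2_pull f _).1 h')]
      exact ℓ.shts.v_pull f K t z
  v_infty {p} K t χ := by
    show 𝓗.v (p := p) K (t, (∞, χ)) = ∞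
    by_cases h : IsP2 (r := n) (p := p) K
    · obtain ⟨a, b, hab, hK⟩ := isP2_iff.1 h
      rw [𝓗.v_eq (Pr.of_mem hab hK) hK]
      exact 𝓗.infty _ t χ
    · rw [𝓗.v_eq_of_not h]
      exact ℓ.shts.v_infty K t χ

theorem start : ℓ.Start 𝓗.shts := by
  intro p K t z
  show 𝓗.v K (t, (z, 0)) = ℓ.sheet K t z
  by_cases h : IsP2 K
  · obtain ⟨a, b, hab, hK⟩ := isP2_iff.1 h
    rw [𝓗.v_eq (Pr.of_mem hab hK) hK, 𝓗.zero, ← prL_unique (Pr.of_mem hab hK) hK]
  · rw [𝓗.v_eq_of_not h]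
    rfl

theorem shts_pair {p : ℕ} {a b : C(G2.Dl p, Bx)} (h : Pr n a b) :
    𝓗.shts.v (p := p) (prL h) = 𝓗.H h := 𝓗.v_eq h (mem_prL h)

/-- the sheet of a pair at time one -/
theorem shts_one {p : ℕ} {a b : C(G2.Dl p, Bx)} (h : Pr n a b) (t : G2.Dl p)
    (z : OnePoint (VE n × WE n)) :
    𝓗.shts.v (p := p) (prL h) (t, (z, 1)) =
      OnePoint.map tauH (at3 z (toC (𝓗.ell.app (pairC h)) t)) := by
  rw [𝓗.shts_pair, 𝓗.one]

end PairHt

/-! ### the twist in coordinates -/

section coord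

variable {r K : ℕ}

/-- **the twist in coordinates** -/
noncomputable def tauK (e : (Fin K → ℝ) ≃ₜ (VE r × WE r) × VE r) :
    (Fin K → ℝ) × PV (VE r) ≃ₜ (Fin K → ℝ) × PV (VE r) :=
  ((eY e).symm.trans (tauH.prodCongr (Homeomorph.refl (VE r)))).trans (eY e)

theorem tauK_snd (e : (Fin K → ℝ) ≃ₜ (VE r × WE r) × VE r) (y : (Fin K → ℝ) × PV (VE r)) :
    (tauK e y).2 = y.2 := rfl

theorem tauK_eq (e : (Fin K → ℝ) ≃ₜ (VE r × WE r) × VE r) (s : VE r) (A : WE r) (z : VE r)
    (p : PV (VE r)) : tauK e (e.symm ((s, A), z), p) = (e.symm ((s, tw p A), z), p) := by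
  unfold tauK
  rw [Homeomorph.trans_apply, Homeomorph.trans_apply]
  have h1 : (eY e).symm (e.symm ((s, A), z), p) = ((s, (A, p)), z) := by
    rw [Homeomorph.symm_apply_eq]
    rfl
  rw [h1]
  rfl

theorem tauK_tauK (e : (Fin K → ℝ) ≃ₜ (VE r × WE r) × VE r) (y : (Fin K → ℝ) × PV (VE r)) :
    tauK e (tauK e y) = y := by
  obtain ⟨x, p⟩ := y
  obtain ⟨⟨⟨s, A⟩, z⟩, rfl⟩ := e.symm.surjective x
  rw [tauK_eq, tauK_eq, tw_tw]

/-- the sheet of a direction, in coordinates -/
theorem map_at3 (e : (Fin K → ℝ) ≃ₜ (VE r × WE r) × VE r) (p : PV (VE r)) (z : T0.Sph K) :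
    OnePoint.map (eY e) (Shts.smv (fun a => OnePoint.map tauH (at3 a p)) (OnePoint.map e z)) =
      OnePoint.map (tauK e) (smP K (PV (VE r)) (z, p)) := by
  induction z using OnePoint.rec with
  | infty => rfl
  | coe z =>
    rw [OnePoint.map_some, smP_coe]
    obtain ⟨⟨⟨s, A⟩, y⟩, rfl⟩ := e.symm.surjective z
    rw [Homeomorph.apply_symm_apply]
    show ((eY e ((s, (tw p A, p)), y) : (Fin K → ℝ) × PV (VE r)) :
        OnePoint ((Fin K → ℝ) × PV (VE r))) =
      ((tauK e (e.symm ((s, A), y), p) : (Fin K → ℝ) × PV (VE r)) :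
        OnePoint ((Fin K → ℝ) × PV (VE r)))
    rw [tauK_eq]
    rfl

/-- **The sheet of a pair at time one, in coordinates.** -/
theorem PairHt.SMap_one {ℓ : Loops r} (𝓗 : PairHt ℓ) (e : (Fin K → ℝ) ≃ₜ (VE r × WE r) × VE r)
    {p : ℕ} {a b : C(G2.Dl p, Bx)} (h : Pr r a b) (t : G2.Dl p) (z : T0.Sph K) :
    (SMap e 𝓗.shts).v (p := p) (prL h) (t, (z, 1)) =
      OnePoint.map (tauK e) (smP K (PV (VE r)) (z, toC (𝓗.ell.app (pairC h)) t)) := by
  have h1 : (fun a => 𝓗.shts.v (p := p) (prL h) (t, (a, 1))) =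
      fun a => OnePoint.map tauH (at3 a (toC (𝓗.ell.app (pairC h)) t)) := funext fun a => 𝓗.shts_one h t a
  refine Eq.trans ?_ (map_at3 e (toC (𝓗.ell.app (pairC h)) t) z)
  exact congrArg (fun F => OnePoint.map (eY e) (Shts.smv F (OnePoint.map e z))) h1

/-- the twist on the target -/
noncomputable def tauT (e : (Fin K → ℝ) ≃ₜ (VE r × WE r) × VE r) :
    C(OnePoint ((Fin K → ℝ) × PV (VE r)), OnePoint ((Fin K → ℝ) × PV (VE r))) :=
  ⟨OnePoint.map (tauK e), continuous_map_homeo (tauK e)⟩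

@[simp] theorem tauT_infty (e : (Fin K → ℝ) ≃ₜ (VE r × WE r) × VE r) : tauT e ∞ = ∞ := rfl

theorem tauT_tauT (e : (Fin K → ℝ) ≃ₜ (VE r × WE r) × VE r)
    (y : OnePoint ((Fin K → ℝ) × PV (VE r))) : tauT e (tauT e y) = y := by
  induction y using OnePoint.rec with
  | infty => rfl
  | coe y => exact congrArg _ (tauK_tauK e y)

theorem tauT_comp (e : (Fin K → ℝ) ≃ₜ (VE r × WE r) × VE r) :
    (tauT e).comp (tauT e) = ContinuousMap.id _ := ContinuousMap.ext (tauT_tauT e)

/-- **The universal sheet map on the pairs of boxes, at time one.** -/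
theorem uY1_pair {r n : ℕ} {c : GB.Cut} {R : T0.Om (r + 1)}
    (e : (Fin K → ℝ) ≃ₜ (VE (r + 1) × WE (r + 1)) × VE (r + 1)) (𝓗 : PairHt (loopsR c R)) :
    ((jfamR (n := n) e 𝓗.start).uY1 (cx K)).comp (timesN (pairL (r + 1)) K) =
      (G2.singMap (tauT e)).comp ((muT K (PV (VE (r + 1)))).comp (timesN 𝓗.ell K)) := by
  apply SS.Map.ext
  rintro p ⟨S, τ⟩
  obtain ⟨a, b, h, rfl⟩ := exists_pairC S
  have h1 : ((jfamR (n := n) e 𝓗.start).uY1 (cx K)).app (pm ((pairL (r + 1)).app (pairC h)) τ) =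
      ofC ((jfamR (n := n) e 𝓗.start).val ((pairL (r + 1)).app (pairC h)) (toC ((cx K).app τ))
        (oI p)) := PFam.uY1_app _ _ _ _
  refine h1.trans ?_
  apply ContinuousMap.ext
  intro t
  have h2 : ∀ L : (lab2 (r + 1)).L.obj p, L = prL h →
      (jfamR (n := n) e 𝓗.start).val L (toC ((cx K).app τ)) (oI p) t =
      OnePoint.map (tauK e) (smP K (PV (VE (r + 1))) (cxC τ t, toC (𝓗.ell.app (pairC h)) t)) := by
    rintro _ rfl
    exact 𝓗.SMap_one e h t (cxC τ t)
  exact h2 _ (pairL_pairC h)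

end coord

end Vale.Agent.P263.KJ
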