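import Vale.Agent.P263.KJ.SheetC
import Vale.Agent.P263.KJ.ShtsHH

/-!
# P263, block KJ: the end of the homotopy of the sheet of a pair is the twist

`Rf_tw` : the reflection `Rf u` is `tw (piP u)`; `Dat.HH_one_tw` : `HH 1 z = tauH (z, [uw])`.
-/

open Filter Topology OnePoint InnerProductSpace RealInnerProductSpace

namespace Vale.Agent.P263.KJ.Sht

open Vale.Agent.P263.KJ

set_option linter.unusedSectionVars false

variable {V : Type} [NormedAddCommGroup V] [InnerProductSpace ℝ V] [FiniteDimensional ℝ V]

theorem Rf_tw (u : SV V) (A : V →L[ℝ] V) : Rf (u : V) A = tw (piP V u) A := by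
  ext v
  have h1 : (piP V u).1 = ten (u : V) (u : V) := rfl
  unfold Rf tw
  rw [h1]
  simp only [_root_.sub_apply, _root_.smul_apply, ContinuousLinearMap.comp_apply, ten_apply,
    _root_.map_smul, real_inner_comm (A (u : V)) (u : V)]
  module

/-- **the end of the homotopy** -/
theorem Dat.HH_one_tw (D : Dat V) (z : OnePoint (V × (V →L[ℝ] V))) :
    D.HH 1 z = OnePoint.map tauH (at3 z (piP V D.uw)) := by
  induction z using OnePoint.rec with
  | infty => exact D.HH_infty 1
  | coe w =>
    rw [D.HH_one, Rf_tw]
    rfl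

end Vale.Agent.P263.KJ.Sht
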