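import Vale.Agent.P263.KJ.SheetA
import Vale.Agent.P263.KJ.DPair

/-!
# P263, block KJ: the start of stage A is the sheet of `J`

`Dat.stA_zero_jT : D.stA 0 z = jT (dP D.f D.g) z`.
-/

open Filter Topology OnePoint
open Vale.Agent.P251.G Vale.Agent.P251.G.LC
open Vale.Agent.P263.G2 (join_of_mem join_of_forall join_image)

namespace Vale.Agent.P263.KJ

set_option linter.unusedSectionVars false

variable {V : Type} [NormedAddCommGroup V] [InnerProductSpace ℝ V] [FiniteDimensional ℝ V]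

theorem equiF_dP {f g : OnePoint V → OnePoint V} (h : ∀ z, f z = ∞ ∨ g z = ∞) :
    EquiF (Z := LC.of V) (dP f g) := by
  intro s r u
  have hu : ((-u : SV V) : V) = -(u : V) := coe_neg_sphere _
  unfold dP
  rw [hu, smul_neg, sub_neg_eq_add, ← sub_eq_add_neg]
  split_ifs with hr
  · have h1 := sub_dP h ((s - r • (u : V) : V) : OnePoint V) ((s + r • (u : V) : V) : OnePoint V)
    rw [← join_image h1 (OnePoint.map fun p : V × V => (p.1, -p.2)) rfl, Set.image_pair,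
      ← hs_swap, ← hs_swap, Set.pair_comm]
  · rfl

namespace Sht

theorem qc_eq_qV (e : XC V) : qc e = (e.1, qV e.2) := rfl

/-- the sheet of `J` on the chart -/
noncomputable def jch (D : Dat V) (e : XC V) : OnePoint (V × ((V →L[ℝ] V) × PV V)) :=
  finP (LC.of V) e.2.2 (dP D.f D.g e.1 e.2.1 e.2.2.1.1)

theorem jT_qc (D : Dat V) (e : XC V) :
    jT (Z := LC.of V) (dP D.f D.g) ((qc e : V × (V →L[ℝ] V)) : OnePoint (V × (V →L[ℝ] V))) =
      jch D e := jT_coe (Z := LC.of V) (equiF_dP D.disj) e.1 e.2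

theorem jch_io (D : Dat V) (e : XC V) : jch D (io e) = jch D e := by
  rw [← jT_qc, ← jT_qc, qc_io]

theorem jch_of_ne (D : Dat V) {e : XC V} (h : D.chA 0 e ≠ ∞) : jch D e = D.chA 0 e := by
  have hK : D.KK e ≠ 0 := D.chA_ne h
  obtain ⟨hr, hk⟩ := D.KK_ne hK
  have hk0 : D.kp e ≠ 0 := by rw [← hk]; exact hK
  obtain ⟨hf, hg⟩ := D.kp_ne.1 hk0
  have e1 : dP D.f D.g e.1 e.2.1 e.2.2.1.1 = hs (D.f ((xa e : V) : OnePoint V))
      (D.g ((xb e : V) : OnePoint V)) := dP_of_left D.disj e.1 hr e.2.2.1.1 hf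
  unfold jch
  rw [e1, ← coe_vf hf, ← coe_vf hg, hs_coe]
  have e2 : D.chA 0 e = fin3 (D.kp e) ((2 : ℝ)⁻¹ • (D.kp e • D.a e + D.kp e • D.b e))
      (ten ((2 : ℝ)⁻¹ • (D.kp e • D.a e - D.kp e • D.b e)) (e.2.2.1.1 : V) +
        D.kp e • e.2.2.1.2) (piP V e.2.2.1.1) := by
    unfold Dat.chA Dat.kA Dat.al Dat.be Dat.nn
    rw [hk]
    simp only [sub_zero, one_mul, zero_smul, add_zero, zero_mul, mul_one]
  rw [e2, fin3_of_ne hk0]
  have h1 : (D.kp e)⁻¹ • ((2 : ℝ)⁻¹ • (D.kp e • D.a e + D.kp e • D.b e)) =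
      (2 : ℝ)⁻¹ • (D.a e + D.b e) := by
    rw [← smul_add, smul_comm, inv_smul_smul₀ hk0]
  have h2 : (D.kp e)⁻¹ • (ten ((2 : ℝ)⁻¹ • (D.kp e • D.a e - D.kp e • D.b e)) (e.2.2.1.1 : V) +
        D.kp e • e.2.2.1.2) =
      ten ((2 : ℝ)⁻¹ • (D.a e - D.b e)) (e.2.2.1.1 : V) + e.2.2.1.2 := by
    have h3 : (2 : ℝ)⁻¹ • (D.kp e • D.a e - D.kp e • D.b e) =
        D.kp e • ((2 : ℝ)⁻¹ • (D.a e - D.b e)) := by
      rw [← smul_sub, smul_comm]
    rw [h3, ten_smul, ← smul_add, inv_smul_smul₀ hk0]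
  rw [h1, h2]
  rfl

theorem jch_of_eq (D : Dat V) {e : XC V} (h : D.chA 0 e = ∞) (h' : D.chA 0 (io e) = ∞) :
    jch D e = ∞ := by
  have key : ∀ e : XC V, D.chA 0 e = ∞ → e.2.1 ≤ 0 →
      D.f ((xa e : V) : OnePoint V) = ∞ ∨ D.g ((xb e : V) : OnePoint V) = ∞ := by
    intro e h hr
    by_contra hc
    push Not at hc
    have hk0 : D.kp e ≠ 0 := D.kp_ne.2 hc
    have hK : D.kA 0 e = D.kp e := by
      unfold Dat.kA Dat.KK
      rw [if_pos hr]
      ring
    unfold Dat.chA at h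
    rw [hK, fin3_of_ne hk0] at h
    exact OnePoint.coe_ne_infty _ h
  unfold jch
  rw [finP_eq_infty]
  by_cases hr : e.2.1 ≤ 0
  · unfold dP
    rw [if_pos hr]
    have h1 := key e h hr
    have h2 := key (io e) h' hr
    rw [xa_io, xb_io] at h2
    refine join_of_forall ?_
    rintro y (rfl | rfl)
    · rcases h1 with h1 | h1
      · exact (congrArg (fun x => hs x _) h1).trans (hs_infty_left _)
      · exact (congrArg (fun x => hs _ x) h1).trans (hs_infty_right _)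
    · rcases h2 with h2 | h2
      · exact (congrArg (fun x => hs _ x) h2).trans (hs_infty_right _)
      · exact (congrArg (fun x => hs x _) h2).trans (hs_infty_left _)
  · exact dP_of_pos _ _ _ (not_le.1 hr) _

/-- **The start of stage A is the sheet of `J`.** -/
theorem Dat.stA_zero_jT (D : Dat V) (z : OnePoint (V × (V →L[ℝ] V))) :
    D.stA 0 z = jT (Z := LC.of V) (dP D.f D.g) z := by
  by_cases hz : ∃ e : XC V, ((qc e : V × (V →L[ℝ] V)) : OnePoint (V × (V →L[ℝ] V))) = z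
  · obtain ⟨e, rfl⟩ := hz
    rw [Dat.stA, shD_qc (D.chA_disj 0), jT_qc]
    by_cases h1 : D.chA 0 e = ∞
    · rw [jc_of_eq h1]
      by_cases h2 : D.chA 0 (io e) = ∞
      · rw [h2, jch_of_eq D h1 h2]
      · rw [← jch_of_ne D h2, jch_io]
    · rw [jc_of_ne h1, jch_of_ne D h1]
  · push Not at hz
    rw [Dat.stA, shD_of_notMem _ hz]
    induction z using OnePoint.rec with
    | infty => rfl
    | coe z =>
      refine (jT_of_notMem (Z := LC.of V) _ z.1 fun p hp => hz (z.1, p) ?_).symm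
      rw [qc_eq_qV, hp]

end Sht

end Vale.Agent.P263.KJ
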