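import Vale.Agent.P263.KJ.J

/-!
# P263, block KJ: the rotating tube and the homotopy from `lam ∘ J` to the untwisted map

`Q2` is the family of open embeddings with coordinates `tA`, `tz`; `hR D` the family of maps on
the tubes; `turn` the first homotopy.
-/

open CategoryTheory MonoidalCategory Filter Topology OnePoint
open Vale.Agent.P251.G Vale.Agent.P251.G.LC

namespace Vale.Agent.P263.KJ

variable {V : Type} [NormedAddCommGroup V] [InnerProductSpace ℝ V] [FiniteDimensional ℝ V]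
variable {Y Z : LC}

section Q2

/-- the family of tubes -/
noncomputable def Q2 (Y : LC) (p : unitInterval × (Y × (ℝ × (EN V × V)))) :
    unitInterval × ((Y × (V →L[ℝ] V)) × V) :=
  (p.1, ((p.2.1, tA (p.1 : ℝ) (Kr p.2.2.1) (p.2.2.2.1.1.1 : V) ((1 / 4 : ℝ) • sq p.2.2.2.2)
    ((((1 - (p.1 : ℝ)) * Kr p.2.2.1 + p.1) / 4) • sq p.2.2.2.1.1.2)),
    tz (p.1 : ℝ) (Kr p.2.2.1) (p.2.2.2.1.1.1 : V) ((1 / 4 : ℝ) • sq p.2.2.2.2)))

omit [FiniteDimensional ℝ V] in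
theorem continuous_Q2 : Continuous (Q2 (V := V) Y) := by
  unfold Q2 tA tz
  have hk : Continuous fun p : unitInterval × (Y × (ℝ × (EN V × V))) => Kr p.2.2.1 :=
    continuous_Kr.comp (by fun_prop)
  have ht : Continuous fun p : unitInterval × (Y × (ℝ × (EN V × V))) => (p.1 : ℝ) := by fun_prop
  have hu : Continuous fun p : unitInterval × (Y × (ℝ × (EN V × V))) => (p.2.2.2.1.1.1 : V) := by
    fun_prop
  have hN : Continuous fun p : unitInterval × (Y × (ℝ × (EN V × V))) => sq p.2.2.2.1.1.2 :=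
    continuous_sq.comp (by fun_prop)
  have hx : Continuous fun p : unitInterval × (Y × (ℝ × (EN V × V))) =>
      (1 / 4 : ℝ) • sq p.2.2.2.2 :=
    (continuous_sq.comp (by fun_prop : Continuous fun p : unitInterval × (Y × (ℝ × (EN V × V))) =>
      p.2.2.2.2)).const_smul _
  have h1 : Continuous fun p : unitInterval × (Y × (ℝ × (EN V × V))) =>
      (1 - (p.1 : ℝ)) * Kr p.2.2.1 + p.1 := ((continuous_const.sub ht).mul hk).add ht
  have h2 : Continuous fun p : unitInterval × (Y × (ℝ × (EN V × V))) =>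
      ten (p.2.2.2.1.1.1 : V) (p.2.2.2.1.1.1 : V) := Continuous.ten hu hu
  have h3 : Continuous fun p : unitInterval × (Y × (ℝ × (EN V × V))) =>
      ten ((1 / 4 : ℝ) • sq p.2.2.2.2) (p.2.2.2.1.1.1 : V) := Continuous.ten hx hu
  refine Continuous.prodMk (by fun_prop) (Continuous.prodMk (Continuous.prodMk (by fun_prop) ?_) ?_)
  · exact ((h1.smul h2).add ((h1.div_const _).smul hN)).sub (ht.smul h3)
  · exact (((continuous_const.sub ht).add (ht.mul hk)).smul hu).add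
      ((continuous_const.sub ht).smul hx)

theorem isOpenMap_Q2 : IsOpenMap (Q2 (V := V) Y) := by
  refine IsOpenMap.of_nhds_le ?_
  rintro ⟨t₀, y₀, r₀, e₀, x₀⟩ U hU
  have hU' : Q2 Y ⁻¹' U ∈ 𝓝 (t₀, (y₀, (r₀, (e₀, x₀)))) := hU
  obtain ⟨⟨u₀, N₀⟩, hN₀⟩ := e₀
  change N₀ (u₀ : V) = 0 at hN₀
  set k₀ := Kr r₀ with hk₀
  have hk₀p : 0 < k₀ := Kr_pos r₀
  have ht0 : (0 : ℝ) ≤ t₀ := t₀.2.1
  have ht1 : (t₀ : ℝ) ≤ 1 := t₀.2.2
  set a₀ : ℝ := (1 - (t₀ : ℝ)) * k₀ + t₀ with ha₀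
  have ha₀p : 0 < a₀ := by
    rcases eq_or_lt_of_le ht0 with h | h
    · rw [ha₀, ← h]; simpa using hk₀p
    · have : 0 ≤ (1 - (t₀ : ℝ)) * k₀ := mul_nonneg (by linarith) hk₀p.le
      linarith
  set N₁ : V →L[ℝ] V := (a₀ / 4) • sq N₀ with hN₁
  set x₁ : V := (1 / 4 : ℝ) • sq x₀ with hx₁
  have hN₁u : N₁ (u₀ : V) = 0 := by
    rw [hN₁, sq, _root_.smul_apply, _root_.smul_apply, hN₀, smul_zero, smul_zero]
  have hu₀ : (u₀ : V) ≠ 0 := by
    rw [← norm_pos_iff, norm_SV]; exact one_pos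
  let G : unitInterval × (Y × (ℝ × V × (V →L[ℝ] V) × V)) →
      unitInterval × (Y × (ℝ × (EN V × V))) := fun a =>
    (a.1, (a.2.1, (Ki a.2.2.1, (mkEN u₀ a.2.2.2.1
      (usq ((4 / ((1 - (a.1 : ℝ)) * a.2.2.1 + a.1)) • a.2.2.2.2.1)), usq ((4 : ℝ) • a.2.2.2.2.2)))))
  have hval : (4 / a₀) • N₁ = sq N₀ := by
    rw [hN₁, smul_smul]
    have : 4 / a₀ * (a₀ / 4) = 1 := by field_simp
    rw [this, one_smul]
  have hvalx : (4 : ℝ) • x₁ = sq x₀ := by
    rw [hx₁, smul_smul]; norm_num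
  have hG0 : G (t₀, (y₀, (k₀, (u₀ : V), N₁, x₁))) = (t₀, (y₀, (r₀, (⟨(u₀, N₀), hN₀⟩, x₀)))) := by
    change (t₀, (y₀, (Ki k₀, (mkEN u₀ (u₀ : V) (usq ((4 / a₀) • N₁)), usq ((4 : ℝ) • x₁))))) = _
    rw [hval, hvalx, usq_sq, usq_sq, mkEN_of u₀ u₀ hN₀, hk₀, Ki_Kr]
  have hGc : ContinuousAt G (t₀, (y₀, (k₀, (u₀ : V), N₁, x₁))) := by
    have c1 : ContinuousAt (fun a : unitInterval × (Y × (ℝ × V × (V →L[ℝ] V) × V)) => Ki a.2.2.1)
        (t₀, (y₀, (k₀, (u₀ : V), N₁, x₁))) :=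
      ContinuousAt.comp (g := Ki) (continuousAt_Ki hk₀p.ne') (by fun_prop)
    have c2a : ContinuousAt (fun a : unitInterval × (Y × (ℝ × V × (V →L[ℝ] V) × V)) =>
        4 / ((1 - (a.1 : ℝ)) * a.2.2.1 + a.1)) (t₀, (y₀, (k₀, (u₀ : V), N₁, x₁))) := by
      refine ContinuousAt.div continuousAt_const (by fun_prop) ?_
      exact ha₀p.ne'
    have c2 : ContinuousAt (fun a : unitInterval × (Y × (ℝ × V × (V →L[ℝ] V) × V)) =>
        (4 / ((1 - (a.1 : ℝ)) * a.2.2.1 + a.1)) • a.2.2.2.2.1)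
        (t₀, (y₀, (k₀, (u₀ : V), N₁, x₁))) := c2a.smul (by fun_prop)
    have c3 : ContinuousAt (fun a : unitInterval × (Y × (ℝ × V × (V →L[ℝ] V) × V)) =>
        usq ((4 / ((1 - (a.1 : ℝ)) * a.2.2.1 + a.1)) • a.2.2.2.2.1))
        (t₀, (y₀, (k₀, (u₀ : V), N₁, x₁))) := by
      refine ContinuousAt.comp (g := usq) ?_ c2
      change ContinuousAt usq ((4 / a₀) • N₁)
      rw [hval]
      exact continuousAt_usq (norm_sq_lt N₀)
    have c4 : ContinuousAt (fun a : unitInterval × (Y × (ℝ × V × (V →L[ℝ] V) × V)) =>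
        usq ((4 : ℝ) • a.2.2.2.2.2)) (t₀, (y₀, (k₀, (u₀ : V), N₁, x₁))) := by
      refine ContinuousAt.comp (g := usq)
        (f := fun a : unitInterval × (Y × (ℝ × V × (V →L[ℝ] V) × V)) => (4 : ℝ) • a.2.2.2.2.2)
        ?_ (by fun_prop)
      change ContinuousAt usq ((4 : ℝ) • x₁)
      rw [hvalx]
      exact continuousAt_usq (norm_sq_lt x₀)
    exact ContinuousAt.prodMk (by fun_prop) (ContinuousAt.prodMk (by fun_prop) (c1.prodMk
      ((continuousAt_mkEN u₀ (by fun_prop) c3 hu₀).prodMk c4)))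
  let O : Set (unitInterval × (Y × (ℝ × V × (V →L[ℝ] V) × V))) :=
    {a | 0 < (1 - (a.1 : ℝ)) * a.2.2.1 + a.1 ∧
      ‖a.2.2.2.2.1‖ < ((1 - (a.1 : ℝ)) * a.2.2.1 + a.1) / 4 ∧ ‖a.2.2.2.2.2‖ < 1 / 4}
  have o1 : IsOpen {a : unitInterval × (Y × (ℝ × V × (V →L[ℝ] V) × V)) |
      0 < (1 - (a.1 : ℝ)) * a.2.2.1 + a.1} := isOpen_lt (by fun_prop) (by fun_prop)
  have o2 : IsOpen {a : unitInterval × (Y × (ℝ × V × (V →L[ℝ] V) × V)) |
      ‖a.2.2.2.2.1‖ < ((1 - (a.1 : ℝ)) * a.2.2.1 + a.1) / 4} :=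
    isOpen_lt (by fun_prop) (by fun_prop)
  have o3 : IsOpen {a : unitInterval × (Y × (ℝ × V × (V →L[ℝ] V) × V)) |
      ‖a.2.2.2.2.2‖ < 1 / 4} := isOpen_lt (by fun_prop) (by fun_prop)
  have hO : IsOpen O := o1.inter (o2.inter o3)
  have hO₀ : (t₀, (y₀, (k₀, (u₀ : V), N₁, x₁))) ∈ O :=
    ⟨ha₀p, norm_tube a₀ ha₀p N₀, norm_quarter_sq x₀⟩
  have h1 : G ⁻¹' (Q2 Y ⁻¹' U) ∩ O ∈ 𝓝 (t₀, (y₀, (k₀, (u₀ : V), N₁, x₁))) := by
    refine inter_mem ?_ (hO.mem_nhds hO₀)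
    apply hGc
    rw [hG0]
    exact hU'
  rw [nhds_prod_eq, mem_prod_iff] at h1
  obtain ⟨T, hT, S, hS, hTS⟩ := h1
  rw [nhds_prod_eq, mem_prod_iff] at hS
  obtain ⟨T', hT', S', hS', hTS'⟩ := hS
  have h2 := rot_surj (t₀ := (t₀ : ℝ)) ht0 ht1 hk₀p (norm_SV u₀) hN₁u
    (norm_tube a₀ ha₀p N₀) hS'
  have h3 : Continuous fun b : unitInterval × ((Y × (V →L[ℝ] V)) × V) =>
      ((b.1 : ℝ), b.2.1.2, b.2.2) := by fun_prop
  have h4 := h3.continuousAt (x := Q2 Y (t₀, (y₀, (r₀, (⟨(u₀, N₀), hN₀⟩, x₀))))) |>.eventually h2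
  have h5 : ∀ᶠ b : unitInterval × ((Y × (V →L[ℝ] V)) × V) in
      𝓝 (Q2 Y (t₀, (y₀, (r₀, (⟨(u₀, N₀), hN₀⟩, x₀))))), b.1 ∈ T :=
    continuous_fst.continuousAt.eventually hT
  have h6 : ∀ᶠ b : unitInterval × ((Y × (V →L[ℝ] V)) × V) in
      𝓝 (Q2 Y (t₀, (y₀, (r₀, (⟨(u₀, N₀), hN₀⟩, x₀))))), b.2.1.1 ∈ T' :=
    (by fun_prop : Continuous fun b : unitInterval × ((Y × (V →L[ℝ] V)) × V) =>
      b.2.1.1).continuousAt.eventually hT'
  filter_upwards [h4, h5, h6] with b hb hbT hbT'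
  obtain ⟨k, u, N, x, hmem, hk, hu, hNu, hA, hz⟩ := hb b.1.2.1 b.1.2.2
  have h7 : (b.1, (b.2.1.1, (k, u, N, x))) ∈ G ⁻¹' (Q2 Y ⁻¹' U) ∩ O :=
    hTS ⟨hbT, hTS' ⟨hbT', hmem⟩⟩
  obtain ⟨h8, h0, hlt, hxlt⟩ := h7
  change 0 < (1 - (b.1 : ℝ)) * k + b.1 at h0
  change ‖N‖ < ((1 - (b.1 : ℝ)) * k + b.1) / 4 at hlt
  change ‖x‖ < 1 / 4 at hxlt
  have h9 : Q2 Y (G (b.1, (b.2.1.1, (k, u, N, x)))) = b := by
    set a := (1 - (b.1 : ℝ)) * k + b.1 with ha
    have hM : ((usq ((4 / a) • N) : V →L[ℝ] V)) u = 0 := by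
      rw [usq, _root_.smul_apply, _root_.smul_apply, hNu, smul_zero, smul_zero]
    have e1 : mkEN u₀ u (usq ((4 / a) • N)) = ⟨(⟨u, by simpa using hu⟩, usq ((4 / a) • N)), hM⟩ :=
      mkEN_of u₀ ⟨u, by simpa using hu⟩ hM
    have hlt' : ‖(4 / a) • N‖ < 1 := by
      rw [norm_smul, Real.norm_of_nonneg (by positivity), div_mul_eq_mul_div, div_lt_one h0]
      linarith
    have hxlt' : ‖(4 : ℝ) • x‖ < 1 := by
      rw [norm_smul]; norm_num; linarith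
    have e2 : (a / 4) • sq (usq ((4 / a) • N)) = N := by
      rw [sq_usq hlt', smul_smul]
      have : a / 4 * (4 / a) = 1 := by field_simp
      rw [this, one_smul]
    have e3 : (1 / 4 : ℝ) • sq (usq ((4 : ℝ) • x)) = x := by
      rw [sq_usq hxlt', smul_smul]; norm_num
    change (b.1, ((b.2.1.1, tA (b.1 : ℝ) (Kr (Ki k)) ((mkEN u₀ u (usq ((4 / a) • N))).1.1 : V)
      ((1 / 4 : ℝ) • sq (usq ((4 : ℝ) • x)))
      ((((1 - (b.1 : ℝ)) * Kr (Ki k) + b.1) / 4) • sq (mkEN u₀ u (usq ((4 / a) • N))).1.2)),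
      tz (b.1 : ℝ) (Kr (Ki k)) ((mkEN u₀ u (usq ((4 / a) • N))).1.1 : V)
        ((1 / 4 : ℝ) • sq (usq ((4 : ℝ) • x))))) = b
    rw [Kr_Ki hk, e1, e3, ← ha]
    change (b.1, ((b.2.1.1, tA (b.1 : ℝ) k u x ((a / 4) • sq (usq ((4 / a) • N)))),
      tz (b.1 : ℝ) k u x)) = b
    rw [e2, ← hA, ← hz]
  have h10 : Q2 Y (G (b.1, (b.2.1.1, (k, u, N, x)))) ∈ U := h8
  rwa [h9] at h10

omit [FiniteDimensional ℝ V] in
theorem sq_injective {E : Type*} [NormedAddCommGroup E] [NormedSpace ℝ E] {c : ℝ} (hc : c ≠ 0)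
    {v v' : E} (h : c • sq v = c • sq v') : v = v' := by
  have := congrArg usq (smul_right_injective _ hc h)
  rwa [usq_sq, usq_sq] at this

omit [FiniteDimensional ℝ V] in
theorem Q2_injective : Function.Injective (Q2 (V := V) Y) := by
  rintro ⟨t, y, r, ⟨⟨u, N⟩, hN⟩, x⟩ ⟨t', y', r', ⟨⟨u', N'⟩, hN'⟩, x'⟩ h
  change N (u : V) = 0 at hN
  change N' (u' : V) = 0 at hN'
  have ht : t = t' := congrArg Prod.fst h
  subst ht
  have hy : y = y' := congrArg (fun q => q.2.1.1) h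
  subst hy
  have hA : tA (t : ℝ) (Kr r) (u : V) ((1 / 4 : ℝ) • sq x)
      ((((1 - (t : ℝ)) * Kr r + t) / 4) • sq N) =
    tA (t : ℝ) (Kr r') (u' : V) ((1 / 4 : ℝ) • sq x')
      ((((1 - (t : ℝ)) * Kr r' + t) / 4) • sq N') := congrArg (fun q => q.2.1.2) h
  have hz : tz (t : ℝ) (Kr r) (u : V) ((1 / 4 : ℝ) • sq x) =
    tz (t : ℝ) (Kr r') (u' : V) ((1 / 4 : ℝ) • sq x') := congrArg (fun q => q.2.2) h
  have hpos : ∀ r : ℝ, 0 < (1 - (t : ℝ)) * Kr r + t := by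
    intro r
    have hk := Kr_pos r
    rcases eq_or_lt_of_le t.2.1 with h | h
    · rw [← h]; simpa using hk
    · have : 0 ≤ (1 - (t : ℝ)) * Kr r := mul_nonneg (by linarith [t.2.2]) hk.le
      linarith
  have hzero : ∀ (c : ℝ) (u : SV V) (N : V →L[ℝ] V), N (u : V) = 0 → (c • sq N) (u : V) = 0 := by
    intro c u N hN
    rw [sq, _root_.smul_apply, _root_.smul_apply, hN, smul_zero, smul_zero]
  obtain ⟨h1, h2, h3, h4⟩ := rot_inj t.2.1 t.2.2 (Kr_pos r) (norm_SV u) (hzero _ u N hN)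
    (norm_tube _ (hpos r) N) (norm_quarter_sq x) (Kr_pos r') (norm_SV u') (hzero _ u' N' hN')
    (norm_quarter_sq x') hA hz
  have hr : r = r' := by
    have := congrArg Ki h1
    rwa [Ki_Kr, Ki_Kr] at this
  subst hr
  have hu : u = u' := Subtype.ext h2
  subst hu
  have hNN : N = N' := sq_injective (by have := hpos r; positivity) h3
  subst hNN
  have hxx : x = x' := sq_injective (by norm_num) h4
  subst hxx
  rfl

end Q2

section hR

/-- `(t, (y, (r, (e, x)))) ↦ ((y, (r, u)), (t, (e, x)))` -/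
noncomputable def b1 (Y : LC) (V : Type) [NormedAddCommGroup V] [InnerProductSpace ℝ V]
    [FiniteDimensional ℝ V] :
    LC.of (unitInterval × (Y × (ℝ × (EN V × V)))) ⟶
      LC.of ((Y × (ℝ × SV V)) × (unitInterval × (EN V × V))) :=
  ofClosed (X := LC.of (unitInterval × (Y × (ℝ × (EN V × V)))))
    (Y := LC.of ((Y × (ℝ × SV V)) × (unitInterval × (EN V × V))))
    (fun p : unitInterval × (Y × (ℝ × (EN V × V))) =>
      ((p.2.1, (p.2.2.1, p.2.2.2.1.1.1)), (p.1, p.2.2.2)))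
    (Function.LeftInverse.isClosedEmbedding
      (f := fun q : (Y × (ℝ × SV V)) × (unitInterval × (EN V × V)) =>
        (q.2.1, (q.1.1, (q.1.2.1, q.2.2))))
      (fun _ => rfl) (by fun_prop) (by fun_prop))

theorem den_pos (t : ℝ) : 0 < (1 - t) ^ 2 + t ^ 2 := by
  rcases eq_or_ne t 0 with h | h
  · rw [h]; norm_num
  · positivity

/-- `((m, w), (t, (e, x))) ↦ ((t, u), (m, (ten ((1-t) w - t x) u + N, t w + (1-t) x)))` -/
noncomputable def b3 (Z : LC) (V : Type) [NormedAddCommGroup V] [InnerProductSpace ℝ V]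
    [FiniteDimensional ℝ V] :
    LC.of ((Z × V) × (unitInterval × (EN V × V))) ⟶
      LC.of ((unitInterval × SV V) × (Z × ((V →L[ℝ] V) × V))) :=
  ofClosed (X := LC.of ((Z × V) × (unitInterval × (EN V × V))))
    (Y := LC.of ((unitInterval × SV V) × (Z × ((V →L[ℝ] V) × V))))
    (fun p : (Z × V) × (unitInterval × (EN V × V)) =>
      ((p.2.1, p.2.2.1.1.1), (p.1.1,
        (ten ((1 - (p.2.1 : ℝ)) • p.1.2 - (p.2.1 : ℝ) • p.2.2.2) (p.2.2.1.1.1 : V) + p.2.2.1.1.2,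
        (p.2.1 : ℝ) • p.1.2 + (1 - (p.2.1 : ℝ)) • p.2.2.2))))
    (Function.LeftInverse.isClosedEmbedding
      (f := fun q : (unitInterval × SV V) × (Z × ((V →L[ℝ] V) × V)) =>
        (((q.2.1, ((1 - (q.1.1 : ℝ)) ^ 2 + (q.1.1 : ℝ) ^ 2)⁻¹ •
            ((1 - (q.1.1 : ℝ)) • q.2.2.1 (q.1.2 : V) + (q.1.1 : ℝ) • q.2.2.2)),
          (q.1.1, (⟨(q.1.2, q.2.2.1 - ten (q.2.2.1 (q.1.2 : V)) (q.1.2 : V)), by
            change (q.2.2.1 - ten (q.2.2.1 (q.1.2 : V)) (q.1.2 : V)) (q.1.2 : V) = 0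
            rw [_root_.sub_apply, ten_self (norm_SV q.1.2), sub_self]⟩,
            ((1 - (q.1.1 : ℝ)) ^ 2 + (q.1.1 : ℝ) ^ 2)⁻¹ •
              ((1 - (q.1.1 : ℝ)) • q.2.2.2 - (q.1.1 : ℝ) • q.2.2.1 (q.1.2 : V))))) :
          (Z × V) × (unitInterval × (EN V × V))))
      (by
        rintro ⟨⟨m, w⟩, t, ⟨⟨u, N⟩, hN⟩, x⟩
        change N (u : V) = 0 at hN
        have hd := den_pos (t : ℝ)
        have h1 : (ten ((1 - (t : ℝ)) • w - (t : ℝ) • x) (u : V) + N) (u : V) =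
            (1 - (t : ℝ)) • w - (t : ℝ) • x := by
          rw [_root_.add_apply, ten_self (norm_SV u), hN, add_zero]
        have h2 : ((1 - (t : ℝ)) ^ 2 + (t : ℝ) ^ 2)⁻¹ • ((1 - (t : ℝ)) •
            ((1 - (t : ℝ)) • w - (t : ℝ) • x) + (t : ℝ) • ((t : ℝ) • w + (1 - (t : ℝ)) • x)) = w := by
          rw [inv_smul_eq_iff₀ hd.ne']
          module
        have h3 : ((1 - (t : ℝ)) ^ 2 + (t : ℝ) ^ 2)⁻¹ • ((1 - (t : ℝ)) •
            ((t : ℝ) • w + (1 - (t : ℝ)) • x) - (t : ℝ) • ((1 - (t : ℝ)) • w - (t : ℝ) • x)) = x := by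
          rw [inv_smul_eq_iff₀ hd.ne']
          module
        apply Prod.ext
        · refine Prod.ext rfl ?_
          change ((1 - (t : ℝ)) ^ 2 + (t : ℝ) ^ 2)⁻¹ • ((1 - (t : ℝ)) •
            (ten ((1 - (t : ℝ)) • w - (t : ℝ) • x) (u : V) + N) (u : V) +
            (t : ℝ) • ((t : ℝ) • w + (1 - (t : ℝ)) • x)) = w
          rw [h1, h2]
        · refine Prod.ext rfl (Prod.ext (Subtype.ext (Prod.ext rfl ?_)) ?_)
          · change (ten ((1 - (t : ℝ)) • w - (t : ℝ) • x) (u : V) + N) -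
              ten ((ten ((1 - (t : ℝ)) • w - (t : ℝ) • x) (u : V) + N) (u : V)) (u : V) = N
            rw [h1, add_sub_cancel_left]
          · change ((1 - (t : ℝ)) ^ 2 + (t : ℝ) ^ 2)⁻¹ • ((1 - (t : ℝ)) •
              ((t : ℝ) • w + (1 - (t : ℝ)) • x) - (t : ℝ) •
              (ten ((1 - (t : ℝ)) • w - (t : ℝ) • x) (u : V) + N) (u : V)) = x
            rw [h1, h3])
      (by
        have ht : Continuous fun q : (unitInterval × SV V) × (Z × ((V →L[ℝ] V) × V)) =>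
          (q.1.1 : ℝ) := by fun_prop
        have hB : Continuous fun q : (unitInterval × SV V) × (Z × ((V →L[ℝ] V) × V)) =>
          q.2.2.1 (q.1.2 : V) := by fun_prop
        have hd : Continuous fun q : (unitInterval × SV V) × (Z × ((V →L[ℝ] V) × V)) =>
            ((1 - (q.1.1 : ℝ)) ^ 2 + (q.1.1 : ℝ) ^ 2)⁻¹ :=
          Continuous.inv₀ (by fun_prop) fun q => (den_pos _).ne'
        have hten : Continuous fun q : (unitInterval × SV V) × (Z × ((V →L[ℝ] V) × V)) =>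
            ten (q.2.2.1 (q.1.2 : V)) (q.1.2 : V) := Continuous.ten hB (by fun_prop)
        refine Continuous.prodMk (Continuous.prodMk (by fun_prop) (hd.smul (by fun_prop)))
          (Continuous.prodMk (by fun_prop) (Continuous.prodMk (Continuous.subtype_mk ?_ _)
            (hd.smul (by fun_prop))))
        exact Continuous.prodMk (by fun_prop) (Continuous.sub (by fun_prop) hten))
      (by
        have hten : Continuous fun p : (Z × V) × (unitInterval × (EN V × V)) =>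
            ten ((1 - (p.2.1 : ℝ)) • p.1.2 - (p.2.1 : ℝ) • p.2.2.2) (p.2.2.1.1.1 : V) :=
          Continuous.ten (by fun_prop) (by fun_prop)
        exact Continuous.prodMk (by fun_prop) (Continuous.prodMk (by fun_prop)
          (Continuous.prodMk (hten.add (by fun_prop)) (by fun_prop)))))

/-- the maps on the tubes -/
noncomputable def hR (D : LC.of (Y × (ℝ × SV V)) ⟶ LC.of (Z × V)) :
    LC.of (unitInterval × (Y × (ℝ × (EN V × V)))) ⟶ LC.of (Z × ((V →L[ℝ] V) × V)) :=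
  b1 Y V ≫ tensorHom' D (𝟙 (LC.of (unitInterval × (EN V × V)))) ≫ b3 Z V ≫
    sndC (LC.of (unitInterval × SV V)) (LC.of (Z × ((V →L[ℝ] V) × V)))

/-- the last step of `hR` -/
noncomputable def finR (Z : LC) (t : ℝ) (e : EN V) (x : V) :
    OnePoint (Z × V) → OnePoint (Z × ((V →L[ℝ] V) × V)) :=
  OnePoint.map fun p => (p.1, (ten ((1 - t) • p.2 - t • x) (e.1.1 : V) + e.1.2,
    t • p.2 + (1 - t) • x))

theorem app_hR (D : LC.of (Y × (ℝ × SV V)) ⟶ LC.of (Z × V)) (t : unitInterval) (y : Y) (r : ℝ)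
    (e : EN V) (x : V) :
    app (hR D) (((t, (y, (r, (e, x)))) : unitInterval × (Y × (ℝ × (EN V × V)))) :
      OnePoint (unitInterval × (Y × (ℝ × (EN V × V))))) =
      finR Z (t : ℝ) e x
        (app D (((y, (r, e.1.1)) : Y × (ℝ × SV V)) : OnePoint (Y × (ℝ × SV V)))) := by
  change app (sndC (LC.of (unitInterval × SV V)) (LC.of (Z × ((V →L[ℝ] V) × V))))
    (app (b3 Z V) (smash (app D (((y, (r, e.1.1)) : Y × (ℝ × SV V)) :
      OnePoint (Y × (ℝ × SV V)))) (((t, (e, x)) : unitInterval × (EN V × V)) :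
        OnePoint (unitInterval × (EN V × V))))) = _
  generalize app D _ = d
  induction d using OnePoint.rec with
  | infty => rw [smash_infty_left, app_infty, app_infty]; rfl
  | coe d => rfl

/-- the first homotopy -/
noncomputable def turn1 (D : LC.of (Y × (ℝ × SV V)) ⟶ LC.of (Z × V)) :
    LC.of (unitInterval × ((Y × (V →L[ℝ] V)) × V)) ⟶ LC.of (Z × ((V →L[ℝ] V) × V)) :=
  desc (E := LC.of (unitInterval × (Y × (ℝ × (EN V × V)))))
    (B := LC.of (unitInterval × ((Y × (V →L[ℝ] V)) × V)))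
    (C := LC.of (Z × ((V →L[ℝ] V) × V))) (Q2 Y) continuous_Q2 isOpenMap_Q2 (hR D)
    (fun _ _ h => by rw [Q2_injective h])

theorem app_turn1 (D : LC.of (Y × (ℝ × SV V)) ⟶ LC.of (Z × V))
    (p : unitInterval × (Y × (ℝ × (EN V × V)))) :
    app (turn1 D) ((Q2 Y p : unitInterval × ((Y × (V →L[ℝ] V)) × V)) :
      OnePoint (unitInterval × ((Y × (V →L[ℝ] V)) × V))) =
      finR Z (p.1 : ℝ) p.2.2.2.1 p.2.2.2.2
        (app D (((p.2.1, (p.2.2.1, p.2.2.2.1.1.1)) : Y × (ℝ × SV V)) :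
          OnePoint (Y × (ℝ × SV V)))) := by
  rw [← app_hR]
  exact app_desc_coe (E := LC.of (unitInterval × (Y × (ℝ × (EN V × V)))))
    (B := LC.of (unitInterval × ((Y × (V →L[ℝ] V)) × V)))
    (C := LC.of (Z × ((V →L[ℝ] V) × V))) (Q2 Y) continuous_Q2 isOpenMap_Q2 (hR D)
    (fun _ _ h => by rw [Q2_injective h]) p

theorem app_turn1_of_notMem (D : LC.of (Y × (ℝ × SV V)) ⟶ LC.of (Z × V))
    {b : unitInterval × ((Y × (V →L[ℝ] V)) × V)} (h : b ∉ Set.range (Q2 (V := V) Y)) :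
    app (turn1 D) (b : OnePoint (unitInterval × ((Y × (V →L[ℝ] V)) × V))) = ∞ :=
  app_desc_of_notMem (E := LC.of (unitInterval × (Y × (ℝ × (EN V × V)))))
    (B := LC.of (unitInterval × ((Y × (V →L[ℝ] V)) × V)))
    (C := LC.of (Z × ((V →L[ℝ] V) × V))) (Q2 Y) continuous_Q2 isOpenMap_Q2 (hR D)
    (fun _ _ h => by rw [Q2_injective h]) h

end hR

end Vale.Agent.P263.KJ
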