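import Vale.Agent.P263.K.HSI
import Vale.Agent.P263.TJ.SqMu

/-!
# P263, block KJ: self maps of the target

`twist_z` : for a self-homeomorphism `τ` of `T = (ℝᴷ × P)⁺` and the cocycle `b` of `T` given by a
cocycle `x` of `sing P` of degree `q`: the integral over the cube of the restriction of `τ^* b` is
cohomologous to `x`, if `H^q(P)` has at most one nonzero class.
-/

open Finset OnePoint Topology

namespace Vale.Agent.P263.KJ

open Vale.Agent.P263.S Vale.Agent.P263.E Vale.Agent.P263.H83 Vale.Agent.P263.G2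
  Vale.Agent.P263.TJ

variable {K q : ℕ} {P : Type} [TopologicalSpace P] [CompactSpace P] [T2Space P]

omit [CompactSpace P] [T2Space P] in
theorem vn_bsT {b : Cc (sing (OnePoint ((Fin K → ℝ) × P)))} (hv : Vn (inU (misT K P)) b) :
    Vn (bsT K P) b := hv.mono fun σ hσ t => by
  rw [hσ t]
  exact fun p => OnePoint.infty_ne_coe _

theorem vn_muT {w : Cc (sing (OnePoint ((Fin K → ℝ) × P)))} (hv : Vn (bsT K P) w) :
    Vn (bdX (sing P) K) (Cc.pull (muT K P) w) := fun p _ h =>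
  hv p _ fun t => muT_infty K P h t

/-- **Self maps of the target.** -/
theorem twist_z (hK : 0 < K) {x : Cc (sing P)} (hq : Cc.IsDeg q x) (hx : Cc.d x = 0)
    (hP : ∀ y : Cc (sing P), Cc.IsDeg q y → Cc.d y = 0 →
      ∃ f : Cc (sing P), y = Cc.d f ∨ y = x + Cc.d f)
    {b : Cc (sing (OnePoint ((Fin K → ℝ) × P)))} (hb : Cc.IsDeg (q + K) b)
    (hd : Cc.d b = 0) (hv : Vn (inU (misT K P)) b)
    (hbU : Cc.pull (singMap (coeT K P)) b = bEP K x)
    {τ τ' : C(OnePoint ((Fin K → ℝ) × P), OnePoint ((Fin K → ℝ) × P))}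
    (h : ∀ z, τ (τ' z) = z) (hτ : τ ∞ = ∞) (hτ' : τ' ∞ = ∞) :
    (Cc.cupC (sing P)).Coh (DstN K (Cc.pull (muT K P) (Cc.pull (singMap τ) b))) x := by
  have hvb := vn_bsT hv
  have hvτ : Vn (bsT K P) (Cc.pull (singMap τ) b) := fun p σ hσ => hvb p _ fun t => by
    show τ (toC σ t) = ∞
    rw [hσ t, hτ]
  have hdτ : Cc.d (Cc.pull (singMap τ) b) = 0 := by rw [← pull_d, hd, pull_zero]
  have hv1 := vn_muT hvτ
  obtain ⟨y, hy⟩ : ∃ y, y = DstN K (Cc.pull (muT K P) (Cc.pull (singMap τ) b)) := ⟨_, rfl⟩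
  have hyq : Cc.IsDeg q y := by
    rw [hy]
    exact isDeg_DstN ((hb.pull _).pull _)
  have hyd : Cc.d y = 0 := by
    rw [hy, ← DstN_d hv1, ← pull_d, hdτ, pull_zero, DstN_zero]
  rw [← hy]
  obtain ⟨f, hf | hf⟩ := hP y hyq hyd
  · -- the class of `b` would be zero
    obtain ⟨e, he, he'⟩ := DstN_retract K hv1 (by rw [← pull_d, hdτ, pull_zero])
    rw [← hy, hf, ← d_sn, ← d_add] at he'
    obtain ⟨β, hβ, hβ'⟩ := (Vale.Agent.P263.K.relIso_muT K P).inj _ hvτ hdτ
      ⟨TJ.sn K f + e, (Vn_sn K f).add he, he'.symm⟩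
    have h1 : Cc.d (Cc.pull (singMap τ') β) = b := by
      rw [← pull_d, hβ']
      have e1 : (singMap τ).comp (singMap τ') = SS.Map.id _ := by
        apply SS.Map.ext
        intro p σ
        apply ContinuousMap.ext
        intro t
        exact h _
      have e2 : Cc.pull (singMap τ') (Cc.pull (singMap τ) b) =
        Cc.pull ((singMap τ).comp (singMap τ')) b := rfl
      rw [e2, e1]
      rfl
    have hvβ : Vn (bsT K P) (Cc.pull (singMap τ') β) := fun p σ hσ => hβ p _ fun t => by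
      show τ' (toC σ t) = ∞
      rw [hσ t, hτ']
    obtain ⟨a, ha, -, ha'⟩ := muT_b hK hq hx hb hd hv hbU
    have h2 : x = Cc.d (DstN K (Cc.pull (muT K P) (Cc.pull (singMap τ') β)) + DstN K a) := by
      have h3 := congrArg (DstN K) ha'
      rw [DstN_add, DstN_sn, DstN_d ha] at h3
      have h4 : DstN K (Cc.pull (muT K P) b) =
          Cc.d (DstN K (Cc.pull (muT K P) (Cc.pull (singMap τ') β))) := by
        rw [← DstN_d (vn_muT hvβ), ← pull_d, h1]
      rw [d_add, ← h4, h3, add_assoc, Vale.Agent.P263.K.cc_self, add_zero]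
    refine ⟨f + (DstN K (Cc.pull (muT K P) (Cc.pull (singMap τ') β)) + DstN K a), ?_⟩
    show y + x = Cc.d _
    rw [d_add, ← h2, hf]
  · refine ⟨f, ?_⟩
    show y + x = Cc.d f
    rw [hf, add_comm x, add_assoc, Vale.Agent.P263.K.cc_self, add_zero]

/-- the same, with a relative cochain on `sing P × cube` -/
theorem twist_class (hK : 0 < K) {x : Cc (sing P)} (hq : Cc.IsDeg q x) (hx : Cc.d x = 0)
    (hP : ∀ y : Cc (sing P), Cc.IsDeg q y → Cc.d y = 0 →
      ∃ f : Cc (sing P), y = Cc.d f ∨ y = x + Cc.d f)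
    {b : Cc (sing (OnePoint ((Fin K → ℝ) × P)))} (hb : Cc.IsDeg (q + K) b)
    (hd : Cc.d b = 0) (hv : Vn (inU (misT K P)) b)
    (hbU : Cc.pull (singMap (coeT K P)) b = bEP K x)
    {τ τ' : C(OnePoint ((Fin K → ℝ) × P), OnePoint ((Fin K → ℝ) × P))}
    (h : ∀ z, τ (τ' z) = z) (hτ : τ ∞ = ∞) (hτ' : τ' ∞ = ∞) :
    ∃ a, Vn (bdX (sing P) K) a ∧
      Cc.pull (muT K P) (Cc.pull (singMap τ) b) = TJ.sn K x + Cc.d a := by
  obtain ⟨f, hf⟩ : ∃ f : Cc (sing P),
      DstN K (Cc.pull (muT K P) (Cc.pull (singMap τ) b)) + x = Cc.d f :=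
    twist_z hK hq hx hP hb hd hv hbU h hτ hτ'
  have hvτ : Vn (bsT K P) (Cc.pull (singMap τ) b) := fun p σ hσ => vn_bsT hv p _ fun t => by
    show τ (toC σ t) = ∞
    rw [hσ t, hτ]
  obtain ⟨e, he, he'⟩ := DstN_retract K (vn_muT hvτ)
    (by rw [← pull_d, ← pull_d, hd, pull_zero, pull_zero])
  refine ⟨e + TJ.sn K f, he.add (Vn_sn K f), ?_⟩
  rw [he', d_add, d_sn, ← hf, sn_add]
  funext p z
  simp only [Pi.add_apply]
  have h1 := CharTwo.add_self_eq_zero
    (TJ.sn K (DstN K (Cc.pull (muT K P) (Cc.pull (singMap τ) b))) p z)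
  have h2 := CharTwo.add_self_eq_zero (TJ.sn K x p z)
  linear_combination (-1 : ZMod 2) * h2

end Vale.Agent.P263.KJ
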