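import Vale.Agent.P263.KJ.Ind
import Vale.Agent.P263.KJ.Twist

/-!
# P263, block KJ: the twisted literal data

The instances of `twist_z`, `twist_class` and `ind_null` for `τ^* b`, `b = (sqPV V i c).b`, and a
self-homeomorphism `τ` of the target fixing infinity.
-/

open Finset OnePoint Topology

namespace Vale.Agent.P263.KJ

open Vale.Agent.P263.S Vale.Agent.P263.E Vale.Agent.P263.H83 Vale.Agent.P263.TJ
open Vale.Agent.P263.G2 CupC

variable {V : Type} [NormedAddCommGroup V] [InnerProductSpace ℝ V] [FiniteDimensional ℝ V]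

/-- `H^c(PV V) = {0, w^c}` in the form used by `twist_z` -/
theorem hP_PV {d c : ℕ} (h : Module.finrank ℝ V = d + 1) (hc0 : 0 < c) (hc : c < d)
    (y : Cc (sing (PV V))) (hy : Cc.IsDeg c y) (dy : Cc.d y = 0) :
    ∃ f : Cc (sing (PV V)), y = Cc.d f ∨ y = Cc.pw (wP V) c + Cc.d f := by
  obtain ⟨n, rfl⟩ : ∃ n, c = n + 1 := ⟨c - 1, by omega⟩
  obtain ⟨f, -, hf⟩ := exists_pw_PV h hc hy dy
  exact ⟨f, hf⟩

section tw

variable {i d c : ℕ}
  {τ τ' : C(OnePoint ((Fin (i + 1) → ℝ) × PV V), OnePoint ((Fin (i + 1) → ℝ) × PV V))}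

omit [FiniteDimensional ℝ V] in
/-- a relative cocycle stays relative -/
theorem vn_pull_tau {b : Cc (sing (OnePoint ((Fin (i + 1) → ℝ) × PV V)))}
    (hb : Vn (bsT (i + 1) (PV V)) b) (hτ : τ ∞ = ∞) :
    Vn (bsT (i + 1) (PV V)) (Cc.pull (singMap τ) b) := fun p σ hσ => hb p _ fun t => by
  show τ (toC σ t) = ∞
  rw [hσ t, hτ]

/-- **the class of the twisted data** -/
theorem tw_muT (h : Module.finrank ℝ V = d + 1) (hc0 : 0 < c) (hc : c < d)
    (hh : ∀ z, τ (τ' z) = z) (hτ : τ ∞ = ∞) (hτ' : τ' ∞ = ∞) :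
    ∃ a, Vn (bdX (sing (PV V)) (i + 1)) a ∧
      Cc.pull (muT (i + 1) (PV V)) (Cc.pull (singMap τ) (sqPV V i c).b) =
        TJ.sn (i + 1) (Cc.pw (wP V) c) + Cc.d a := by
  refine twist_class (Nat.succ_pos i) (Cc.isDeg_pw_one (isDeg_wP V) c) (Cc.d_pw (d_wP V) c)
    (fun y hy dy => hP_PV h hc0 hc y hy dy) ?_ (sqPV V i c).d_b (sqPV_vnU_b V i c)
    (sqPV_coe V i c) hh hτ hτ'
  rw [add_comm c (i + 1)]
  exact sqPV_deg_b V i c

/-- the integral of the twisted data over the cube -/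
theorem tw_z (h : Module.finrank ℝ V = d + 1) (hc0 : 0 < c) (hc : c < d)
    (hh : ∀ z, τ (τ' z) = z) (hτ : τ ∞ = ∞) (hτ' : τ' ∞ = ∞) :
    (Cc.cupC (sing (PV V))).Coh (DstN (i + 1) (Cc.pull (muT (i + 1) (PV V))
      (Cc.pull (singMap τ) (sqPV V i c).b))) (Cc.pw (wP V) c) := by
  refine twist_z (Nat.succ_pos i) (Cc.isDeg_pw_one (isDeg_wP V) c) (Cc.d_pw (d_wP V) c)
    (fun y hy dy => hP_PV h hc0 hc y hy dy) ?_ (sqPV V i c).d_b (sqPV_vnU_b V i c)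
    (sqPV_coe V i c) hh hτ hτ'
  rw [add_comm c (i + 1)]
  exact sqPV_deg_b V i c

/-- **`ind_null` for the twisted data** -/
theorem ind_null_tw {U : SS} {U0 : Sb U} (h : Module.finrank ℝ V = d + 1) (hc0 : 0 < c)
    (hc : c + c < d) (hh : ∀ z, τ (τ' z) = z) (hτ : τ ∞ = ∞) (hτ' : τ' ∞ = ∞)
    (gam : SS.Map U (sing (OnePoint ((Fin (i + 1) → ℝ) × PV V))))
    (hgam : ∀ {p : ℕ} (x : U.obj p), U0.mem x → (bsT (i + 1) (PV V)).mem (gam.app x))
    {e : Cc U} (he : Vn U0 e)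
    (hde : Cc.d e = Cc.pull gam (Cc.pull (singMap τ) (sqPV V i c).b))
    {y : Cc (sing (OnePoint ((Fin (i + 1) → ℝ) × PV V)))} (hvy : Vn (bsT (i + 1) (PV V)) y)
    (hdy : Cc.d y = 0) (hy : Cc.IsDeg (i + 1 + (c + c)) y) :
    ∃ a, Vn U0 a ∧ Cc.d a = Cc.pull gam y :=
  ind_null h hc0 hc gam hgam (vn_pull_tau (sqPV_vnT_b V i c) hτ)
    (by rw [← pull_d, (sqPV V i c).d_b, pull_zero]) (tw_muT h hc0 (by omega) hh hτ hτ') he hde
    hvy hdy hy

end tw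

end Vale.Agent.P263.KJ
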