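import Vale.Agent.P263.KJ.JMX
import Vale.Agent.P263.KJ.FamVal
import Vale.Agent.P263.KJ.PairCov

/-!
# P263, block KJ: the sheets at time one over the pairs, and the value of `J` on boxes

`RP p B` : the reflection of the operators along the projection `p`; `tauHe e`, `tauS e` : the
fibrewise reflection of the target `T = (ℝᴷ × PV V)⁺` in the coordinates `e`;
`EndAt S C` : at time one the sheet of a pair of boxes is `(v, B) ↦ (v, R_p B, p)`, `p = ellM C` the
direction of the pair; `uP_eq` : then the universal sheet over the pairs is `τ ∘ muL (ellM C)`;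
`value_jz` : the generalised functional square of `J ∧ id_V` on configurations of boxes with a fixed
loop.
-/

open OnePoint hiding map_smul
open Finset Topology InnerProductSpace RealInnerProductSpace

namespace Vale.Agent.P263.KJ

open Vale.Agent.P263.S Vale.Agent.P263.E Vale.Agent.P263.H83 Vale.Agent.P263.G2
  Vale.Agent.P263.TJ

/-! ### the reflection -/

section refl

variable {V : Type} [NormedAddCommGroup V] [InnerProductSpace ℝ V]

/-- the reflection of the operators along `p` -/
noncomputable def RP (p : PV V) (B : V →L[ℝ] V) : V →L[ℝ] V :=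
  B - (2 : ℝ) • p.1.comp (B.comp p.1)

theorem PV_sq (p : PV V) (v : V) : p.1 (p.1 v) = p.1 v := by
  obtain ⟨p, u, hu, rfl⟩ := p
  show ten u u (ten u u v) = ten u u v
  rw [ten_apply u u v, map_smul, ten_self hu]

theorem RP_apply (p : PV V) (B : V →L[ℝ] V) (v : V) :
    RP p B v = B v - (2 : ℝ) • p.1 (B (p.1 v)) := rfl

theorem RP_RP (p : PV V) (B : V →L[ℝ] V) : RP p (RP p B) = B := by
  ext v
  rw [RP_apply, RP_apply, RP_apply, PV_sq, map_sub, map_smul, PV_sq, smul_sub, smul_smul]
  module

theorem RP_zero (p : PV V) : RP p 0 = 0 := by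
  ext v
  rw [RP_apply]
  simp

theorem RP_piP (u : SV V) (B : V →L[ℝ] V) :
    RP (piP V u) B = B - (2 * ⟪B u, (u : V)⟫_ℝ) • ten (u : V) (u : V) := by
  ext v
  show B v - (2 : ℝ) • ten (u : V) (u : V) (B (ten (u : V) (u : V) v)) =
    B v - (2 * ⟪B u, (u : V)⟫_ℝ) • ten (u : V) (u : V) v
  rw [ten_apply _ _ v, map_smul, map_smul, ten_apply, real_inner_comm (B u) (u : V)]
  module

theorem continuous_RP {α : Type*} [TopologicalSpace α] {p : α → PV V} {B : α → V →L[ℝ] V}
    (hp : Continuous p) (hB : Continuous B) : Continuous fun a => RP (p a) (B a) := by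
  unfold RP
  have h1 : Continuous fun a => (p a).1 := continuous_subtype_val.comp hp
  exact hB.sub ((h1.clm_comp (hB.clm_comp h1)).const_smul (2 : ℝ))

end refl

section tau

variable {r K : ℕ} (e : (Fin K → ℝ) ≃ₜ (VE r × WE r) × VE r)

/-- the fibrewise reflection -/
noncomputable def tauF (y : (Fin K → ℝ) × PV (VE r)) : (Fin K → ℝ) × PV (VE r) :=
  (e.symm (((e y.1).1.1, RP y.2 (e y.1).1.2), (e y.1).2), y.2)

theorem tauF_tauF (y : (Fin K → ℝ) × PV (VE r)) : tauF e (tauF e y) = y := by
  obtain ⟨x, p⟩ := y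
  unfold tauF
  simp only [Homeomorph.apply_symm_apply, RP_RP]
  exact Prod.ext (e.symm_apply_apply x) rfl

theorem continuous_tauF : Continuous (tauF e) := by
  have h1 : Continuous fun y : (Fin K → ℝ) × PV (VE r) => e y.1 := e.continuous.comp continuous_fst
  exact (e.symm.continuous.comp (((continuous_fst.comp (continuous_fst.comp h1)).prodMk
    (continuous_RP continuous_snd (continuous_snd.comp (continuous_fst.comp h1)))).prodMk
    (continuous_snd.comp h1))).prodMk continuous_snd

/-- the fibrewise reflection as a homeomorphism -/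
noncomputable def tauHe : (Fin K → ℝ) × PV (VE r) ≃ₜ (Fin K → ℝ) × PV (VE r) where
  toFun := tauF e
  invFun := tauF e
  left_inv := tauF_tauF e
  right_inv := tauF_tauF e
  continuous_toFun := continuous_tauF e
  continuous_invFun := continuous_tauF e

/-- the fibrewise reflection of the target -/
noncomputable def tauC : C(OnePoint ((Fin K → ℝ) × PV (VE r)), OnePoint ((Fin K → ℝ) × PV (VE r))) :=
  ⟨OnePoint.map (tauHe e), continuous_map_homeo _⟩

theorem tauC_infty : tauC e ∞ = ∞ := rfl

theorem tauC_coe (y : (Fin K → ℝ) × PV (VE r)) : tauC e y = ((tauF e y : _ × _) : OnePoint _) := rfl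

theorem tauC_tauC (z : OnePoint ((Fin K → ℝ) × PV (VE r))) : tauC e (tauC e z) = z := by
  induction z using OnePoint.rec with
  | infty => rfl
  | coe y => rw [tauC_coe, tauC_coe, tauF_tauF]

/-- the same on simplices -/
noncomputable def tauS : SS.Map (sing (OnePoint ((Fin K → ℝ) × PV (VE r))))
    (sing (OnePoint ((Fin K → ℝ) × PV (VE r)))) := singMap (tauC e)

theorem tauS_tauS : (tauS e).comp (tauS e) = SS.Map.id _ := by
  apply SS.Map.ext
  intro p σ
  apply ContinuousMap.ext
  intro t
  exact tauC_tauC e _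

theorem tauS_inf {p : ℕ} (σ : (sing (OnePoint ((Fin K → ℝ) × PV (VE r)))).obj p)
    (h : (ptS (∞ : OnePoint ((Fin K → ℝ) × PV (VE r)))).mem σ) :
    (ptS (∞ : OnePoint ((Fin K → ℝ) × PV (VE r)))).mem ((tauS e).app σ) := by
  intro t
  show tauC e (toC σ t) = ∞
  rw [h t]
  rfl

theorem tauS_mis (he : e 0 = 0) {p : ℕ} (σ : (sing (OnePoint ((Fin K → ℝ) × PV (VE r)))).obj p)
    (h : (inU (misT K (PV (VE r)))).mem σ) :
    (inU (misT K (PV (VE r)))).mem ((tauS e).app σ) := by
  intro t q hq
  have h1 : tauC e (toC σ t) = (((0 : Fin K → ℝ), q) : (Fin K → ℝ) × PV (VE r)) := hq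
  have h2 := congrArg (tauC e) h1
  rw [tauC_tauC, tauC_coe] at h2
  refine h t q (h2.trans ?_)
  have h3 : tauF e ((0 : Fin K → ℝ), q) = (0, q) := by
    unfold tauF
    have h4 : e.symm 0 = 0 := by rw [← he, Homeomorph.symm_apply_apply]
    simp only [he, Prod.fst_zero, Prod.snd_zero, RP_zero]
    exact Prod.ext h4 rfl
  rw [h3]

end tau

/-! ### the sheets at time one over the pairs -/

section up

variable {r : ℕ} (C : Ctr r (VE r))
  (S : Shts (lab2 r).L (VE r × WE r) (VE r × (WE r × PV (VE r))))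

/-- at time one the sheet of a pair of boxes is the reflection along the direction of the pair -/
def EndAt : Prop := ∀ {p : ℕ} (F : (FNr r 2 Unit).obj p) (t : Dl p) (v : VE r) (B : WE r),
  S.v (p := p) ((pairL r).app F) (t, (((v, B) : VE r × WE r), 1)) =
    (((v, (RP (toC (p := p) ((ellM C).app F) t) B, toC (p := p) ((ellM C).app F) t)) :
      VE r × (WE r × PV (VE r))) : OnePoint (VE r × (WE r × PV (VE r))))

variable {C S}

/-- in coordinates -/
theorem EndAt.SMap (h : EndAt C S) {K : ℕ} (e : (Fin K → ℝ) ≃ₜ (VE r × WE r) × VE r) {p : ℕ}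
    (F : (FNr r 2 Unit).obj p) (t : Dl p) (z : OnePoint (Fin K → ℝ)) :
    (KJ.SMap e S).v (p := p) ((pairL r).app F) (t, (z, 1)) =
      tauC e (smP K (PV (VE r)) (z, toC (p := p) ((ellM C).app F) t)) := by
  refine (SMap_v e S (p := p) ((pairL r).app F) t z 1).trans ?_
  induction z using OnePoint.rec with
  | infty => rfl
  | coe z =>
    refine (congrArg (OnePoint.map (eY e)) (?_ : _ = Vale.Agent.P251.G.LC.smash
      ((((e z).1.1, (RP (toC (p := p) ((ellM C).app F) t) (e z).1.2,
        toC (p := p) ((ellM C).app F) t)) : VE r × (WE r × PV (VE r))) :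
        OnePoint (VE r × (WE r × PV (VE r)))) ((e z).2 : OnePoint (VE r)))).trans ?_
    · exact congrArg (fun y => Vale.Agent.P251.G.LC.smash y ((e z).2 : OnePoint (VE r))) (h F t (e z).1.1 (e z).1.2)
    · rfl

end up

/-! ### the value -/

section value

variable {r n i : ℕ} {c : GB.Cut} {R : T0.Om (r + 1)} {C : Ctr (r + 1) (VE (r + 1))}
  {S : Shts (lab2 (r + 1)).L (VE (r + 1) × WE (r + 1))
    (VE (r + 1) × (WE (r + 1) × PV (VE (r + 1))))} (hS : (loopsR c R).Start S)
  (hE : EndAt C S)

include hE in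
/-- **The universal sheet at time one over the pairs.** -/
theorem uP_eq (e : (Fin (i + 1) → ℝ) ≃ₜ (VE (r + 1) × WE (r + 1)) × VE (r + 1)) :
    (jfamR (n := n) e hS).uP (cx (i + 1)) = (tauS e).comp (muL (ellM C) i) := by
  apply SS.Map.ext
  intro p z
  apply ContinuousMap.ext
  intro t
  have h1 : ((jfamR (n := n) e hS).uP (cx (i + 1))).app z =
      ofC ((jfamR (n := n) e hS).val (p := p) ((pairL (r + 1)).app (p1 z))
        (toC ((cx (i + 1)).app (p2 z))) (oI p)) :=
    (jfamR (n := n) e hS).uY1_app (cx (i + 1)) (p := p) ((pairL (r + 1)).app (p1 z)) (p2 z)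
  have h2 : (toC (p := p) (((jfamR (n := n) e hS).uP (cx (i + 1))).app z)) t =
      (SMap e S).v (p := p) ((pairL (r + 1)).app (p1 z)) (t, (cxC (p2 z) t, 1)) := by
    rw [h1]
    rfl
  exact h2.trans (hE.SMap e (p1 z) t (cxC (p2 z) t))

variable (e : (Fin (i + 1) → ℝ) ≃ₜ (VE (r + 1) × WE (r + 1)) × VE (r + 1)) (he : e 0 = 0)
  {k : ℕ} {x : Cc (sing (PV (VE (r + 1))))} (hq : Cc.IsDeg (k + 1) x) (hx : Cc.d x = 0)

include hS hE he in
/-- **The generalised functional square of `J ∧ id_V` on the boxes with a fixed loop.** -/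
theorem value_jz : (Cc.cupC (FNr (r + 1) n Unit)).Coh
    (Cc.pull (gBR r n c R) (theta (twD hq hx (tauS e) (tauS_inf e)) (jz e) (jz_base e)))
    (Cc.pull ((idxFR (r + 1) n).map (Sb.empty _))
      (KK (lab2 (r + 1)).lab (Sb.empty _) 0 0 (extP (r + 1) (Cc.pull (ellM C) x)))) :=
  (jfamR (n := n) e hS).box_value (fun x => jfamR_idx e hS x) (cx_ptS (i + 1))
    (jfamR_pointed e hS) hq hx (tauS e) (tauS_inf e) (tauS_mis e he) (tauS_tauS e) (ellM C)
    (uP_eq hS hE e) (gBR r n c R) (jfamR_jm e hS)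

end value

end Vale.Agent.P263.KJ
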